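import Crest.Agent.R326.Judg

/-!
# Basic rules for `R` and the streaming loop
-/

set_option linter.unusedVariables false

namespace Crest.Agent.R326

open Function
open Crest.Agent.Lib.PolyTime

/-- The list `[a 0, …, a (T - 1)]`. -/
def tab {α : Type} (T : ℕ) (a : ℕ → α) : List α := (List.range T).map a

section tab
variable {α β : Type}

@[simp] theorem length_tab (T : ℕ) (a : ℕ → α) : (tab T a).length = T := by simp [tab]

@[simp] theorem tab_zero (a : ℕ → α) : tab 0 a = [] := rfl

theorem tab_succ (T : ℕ) (a : ℕ → α) : tab (T + 1) a = tab T a ++ [a T] := by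
  simp [tab, List.range_succ]

theorem tab_succ' (T : ℕ) (a : ℕ → α) : tab (T + 1) a = a 0 :: tab T fun k => a (k + 1) := by
  simp [tab, List.range_succ_eq_map, Function.comp_def]

theorem tab_congr {T : ℕ} {a b : ℕ → α} (h : ∀ k, k < T → a k = b k) : tab T a = tab T b :=
  List.map_congr_left fun k hk => h k (List.mem_range.1 hk)

@[simp] theorem map_tab (f : α → β) (T : ℕ) (a : ℕ → α) :
    (tab T a).map f = tab T fun k => f (a k) := by simp [tab, Function.comp_def]

@[simp] theorem getElem_tab {T : ℕ} {a : ℕ → α} {k : ℕ} (h : k < (tab T a).length) :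
    (tab T a)[k] = a k := by simp [tab]

theorem getD_tab {T : ℕ} {a : ℕ → α} {k : ℕ} (h : k < T) (d : α) : (tab T a).getD k d = a k := by
  simp [tab, List.getD_eq_getElem?_getD, h]

theorem tab_getD (l : List α) (d : α) : tab l.length (fun k => l.getD k d) = l := by
  apply List.ext_getElem <;> simp +contextual

theorem mem_tab {T : ℕ} {a : ℕ → α} {x : α} : x ∈ tab T a ↔ ∃ k, k < T ∧ a k = x := by
  simp [tab]

theorem tab_add (S T : ℕ) (a : ℕ → α) :
    tab (S + T) a = tab S a ++ tab T fun k => a (S + k) := by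
  simp [tab, List.range_add, Function.comp_def]

theorem reverse_tab (T : ℕ) (a : ℕ → α) : (tab T a).reverse = tab T fun k => a (T - 1 - k) := by
  apply List.ext_getElem <;> simp

theorem exists_tab (l : List α) (d : α) : ∃ a, l = tab l.length a := ⟨_, (tab_getD l d).symm⟩

variable [PEnc α] [PEnc β]

theorem sz_tab (T : ℕ) (a : ℕ → α) :
    sz (tab T a) = ∑ k ∈ Finset.range T, (sz (a k) + 1) + 1 := by
  induction T with
  | zero => rfl
  | succ T ih =>
    have := sz_append (tab T a) [a T]
    rw [tab_succ, Finset.sum_range_succ]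
    simp only [sz_cons, sz_nil] at this; omega

theorem sz_tab_le {T : ℕ} {a : ℕ → α} {B : ℕ} (h : ∀ k, k < T → sz (a k) ≤ B) :
    sz (tab T a) ≤ T * (B + 1) + 1 := by
  have := sz_list_le (l := tab T a) (B := B) fun x hx => by
    obtain ⟨k, hk, rfl⟩ := mem_tab.1 hx
    exact h k hk
  simpa using this

theorem enc_map_enc (l : List α) : enc (l.map enc) = enc l := by
  induction l <;> simp_all

theorem enc_tab_congr {T : ℕ} {a : ℕ → α} {b : ℕ → β} (h : ∀ k, k < T → enc (a k) = enc (b k)) :
    enc (tab T a) = enc (tab T b) := by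
  rw [← enc_map_enc, ← enc_map_enc (tab T b), map_tab, map_tab, tab_congr h]

end tab

variable {ι κ : Type} {C : Ctx ι} {ok : ι → V → V → Prop} {cnt cnt' : ι → ℝ}
  {α β γ δ : Type} [PEnc α] [PEnc β] [PEnc γ] [PEnc δ]

/-- The size of the input is an admissible cost. -/
class Ctx.Ok (C : Ctx ι) : Prop where
  out : C.Dom fun i => (C.inp i).size

theorem Ctx.Ok.dom_one (h : C.Ok) : C.Dom fun _ => 1 :=
  h.out.mono fun i => by exact_mod_cast (C.inp i).one_le_size

theorem Ctx.Ok.dom_const (h : C.Ok) (K : ℝ) : C.Dom fun _ => K :=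
  h.dom_one.mono_mul |K| (abs_nonneg K) fun _ => by simpa using le_abs_self K

instance Ctx.Ok.comap [h : C.Ok] (φ : κ → ι) : (C.comap φ).Ok := ⟨h.out.comap φ⟩

namespace R

theorem of_js {y : ι → β} (h : JS C (fun _ _ _ => False) cnt (fun _ => []) (fun _ => []) y) :
    R C y := J.r h

theorem dom_sz {y : ι → β} (h : R C y) : C.Dom fun i => sz (y i) :=
  (h.j fun _ _ _ => False).dom_sz

theorem isOk {y : ι → β} (h : R C y) : C.Ok := ⟨(h.j fun _ _ _ => False).dom_inp⟩

theorem ok_re {y : ι → β} (h : R C y) : (C.re y).Ok := ⟨h.dom_sz⟩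

theorem of_enc {y : ι → β} {z : ι → γ} (h : R C y) (e : ∀ i, enc (z i) = enc (y i)) : R C z :=
  of_js ((h.j _).of_enc e)

theorem congr {y z : ι → β} (h : R C y) (e : ∀ i, z i = y i) : R C z := funext e ▸ h

theorem transfer {y : ι → β} (h : R C y) (C' : Ctx κ) (φ : κ → ι)
    (hi : ∀ k, C'.inp k = C.inp (φ k)) (hD : ∀ G, C.Dom G → C'.Dom fun k => G (φ k)) :
    R C' fun k => y (φ k) := of_js ((h.j fun _ _ _ => False).transfer C' φ hi hD)

theorem comap {y : ι → β} (h : R C y) (φ : κ → ι) : R (C.comap φ) fun k => y (φ k) :=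
  h.transfer _ φ (fun _ => rfl) fun _ hG => hG.comap φ

theorem comp {x : ι → α} {y : ι → β} (h₁ : R C x) (h₂ : R (C.re x) y) : R C y :=
  of_js ((h₁.j _).comp (h₂.j _))

theorem inp (h : C.Ok) : R C C.inp := ⟨.id, _, h.out, fun i E σ => EL.id.er le_rfl⟩

theorem self {x : ι → α} (h : C.Dom fun i => sz (x i)) : R (C.re x) x :=
  (inp (C := C.re x) ⟨h⟩).of_enc fun _ => rfl

/-- Use a routine stated for its own context. -/
theorem use {x : κ → α} {y : κ → β} {B : ℕ → κ → ℝ} (h : R (Ctx.of x B) y) (φ : ι → κ)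
    (hx : R C fun i => x (φ i)) (hB : ∀ c, C.Dom fun i => B c (φ i)) : R C fun i => y (φ i) :=
  hx.comp (h.transfer (C.re fun i => x (φ i)) φ (fun _ => rfl) fun _ hG => Ctx.dom_of_sub hB hG)

theorem of_self {x : ι → α} {B : ℕ → ι → ℝ} (c : ℕ) (K : ℝ) (hK : 0 ≤ K)
    (h : ∀ i, (sz (x i) : ℝ) ≤ K * B c i) : R (Ctx.of x B) x :=
  (inp (C := Ctx.of x B) ⟨(Ctx.dom_of B c).mono_mul K hK h⟩).of_enc fun _ => rfl

@[fun_prop] theorem pair {x : ι → α} {y : ι → β} (h₁ : R C x) (h₂ : R C y) :
    R C fun i => (x i, y i) := of_js ((h₁.j _).pair (h₂.j _))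

theorem left {x : ι → V} (h : R C x) : R C fun i => (x i).left :=
  h.comp ⟨.fst, _, h.dom_sz, fun i E σ => EL.left.er le_rfl⟩

theorem right {x : ι → V} (h : R C x) : R C fun i => (x i).right :=
  h.comp ⟨.snd, _, h.dom_sz, fun i E σ => EL.right.er le_rfl⟩

theorem enc' {x : ι → α} (h : R C x) : R C fun i => enc (x i) := h.of_enc fun _ => rfl

@[fun_prop] theorem fst {x : ι → α × β} (h : R C x) : R C fun i => (x i).1 :=
  h.enc'.left.of_enc fun _ => rfl

@[fun_prop] theorem snd {x : ι → α × β} (h : R C x) : R C fun i => (x i).2 :=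
  h.enc'.right.of_enc fun _ => rfl

@[fun_prop] theorem val {p : α → Prop} {x : ι → Subtype p} (h : R C x) : R C fun i => (x i).1 :=
  h.of_enc fun _ => rfl

theorem constV (h : C.Ok) (v : V) : R C fun _ => v := by
  induction v with
  | nil => exact ⟨.nil, _, h.out, fun i E σ => EL.nil.er le_rfl⟩
  | node l r ihl ihr => exact (ihl.pair ihr).of_enc fun _ => rfl

@[fun_prop] theorem const [h : C.Ok] (b : β) : R C fun _ => b :=
  (constV h (enc b)).of_enc fun _ => rfl

@[fun_prop] theorem cons {x : ι → α} {l : ι → List α} (h₁ : R C x) (h₂ : R C l) :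
    R C fun i => x i :: l i := (h₁.pair h₂).of_enc fun _ => rfl

@[fun_prop] theorem tail {l : ι → List α} (h : R C l) : R C fun i => (l i).tail :=
  h.enc'.right.of_enc fun i => by cases l i <;> rfl

@[fun_prop] theorem some {x : ι → α} (h : R C x) : R C fun i => some (x i) :=
  (h.pair (const (h := h.isOk) ())).of_enc fun _ => rfl

/-- Conditional; each branch is only needed on the indices that reach it. -/
theorem dcond {c : ι → Bool} {y : ι → β} (hc : R C c)
    (h₁ : R (C.comap (Subtype.val : {i // c i = true} → ι)) fun i => y i.1)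
    (h₀ : R (C.comap (Subtype.val : {i // c i = false} → ι)) fun i => y i.1) : R C y :=
  of_js (cnt := fun _ => 0) (JS.cond hc (h₁.j _) (h₀.j _))

@[fun_prop] theorem cond {c : ι → Bool} {y z : ι → β} (hc : R C c) (h₁ : R C y) (h₀ : R C z) :
    R C fun i => cond (c i) (y i) (z i) :=
  hc.dcond ((h₁.comap _).congr fun i => by simp [i.2]) ((h₀.comap _).congr fun i => by simp [i.2])

theorem ite {p : ι → Prop} [DecidablePred p] {y z : ι → β} (hc : R C fun i => decide (p i))
    (h₁ : R C y) (h₀ : R C z) : R C fun i => if p i then y i else z i :=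
  (hc.cond h₁ h₀).congr fun i => by by_cases h : p i <;> simp [h]

@[fun_prop] theorem isEmpty {l : ι → List α} (h : R C l) : R C fun i => (l i).isEmpty :=
  of_js (cnt := fun _ => 0) (JS.caseV h
    (((const (h := @Ctx.Ok.comap _ _ _ h.isOk _) true).congr fun i => by
      have := i.2; cases hl : l i.1 <;> simp_all).j _)
    (((const (h := @Ctx.Ok.comap _ _ _ h.isOk _) false).congr fun i => by
      have := i.2; cases hl : l i.1 <;> simp_all).j _))

@[fun_prop] theorem headD {l : ι → List α} {d : ι → α} (h : R C l) (hd : R C d) :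
    R C fun i => (l i).headD (d i) :=
  h.isEmpty.dcond ((hd.comap _).congr fun i => by have := i.2; cases hl : l i.1 <;> simp_all)
    ((h.comap _).enc'.left.of_enc fun i => by have := i.2; cases hl : l i.1 <;> simp_all)

/-- A program of the plain language. -/
theorem cmp {f : α → β} {T : α → ℕ} (hf : Cmp f T) {x : ι → α} (hx : R C x)
    (hT : C.Dom fun i => T (x i)) : R C fun i => f (x i) := by
  obtain ⟨c, hc⟩ := hf
  refine hx.comp ⟨ofCode c, _, hT.smul (K := embK c) (by positivity), fun i E σ => ?_⟩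
  obtain ⟨n, hn, he⟩ := hc (x i)
  exact (el_ofCode he E σ).er (by push_cast; gcongr)

theorem eval_le_pow (p : Polynomial ℕ) : ∃ c K : ℕ, ∀ n, 1 ≤ n → p.eval n ≤ K * n ^ c := by
  induction p using Polynomial.induction_on' with
  | add p q hp hq =>
    obtain ⟨c, K, h⟩ := hp
    obtain ⟨c', K', h'⟩ := hq
    refine ⟨c + c', K + K', fun n hn => ?_⟩
    have h1 := Nat.mul_le_mul_left K (Nat.pow_le_pow_right hn (Nat.le_add_right c c'))
    have h2 := Nat.mul_le_mul_left K' (Nat.pow_le_pow_right hn (Nat.le_add_left c' c))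
    have := h n hn
    have := h' n hn
    rw [Polynomial.eval_add, Nat.add_mul]; omega
  | monomial k a => exact ⟨k, a, fun n _ => by simp⟩

/-- A polynomial-time black box. -/
theorem poly {f : α → β} (hf : Poly f) {x : ι → α} (hx : R C x)
    (hD : ∀ c : ℕ, C.Dom fun i => (sz (x i) : ℝ) ^ c) : R C fun i => f (x i) := by
  obtain ⟨p, hp⟩ := hf.exists_poly
  obtain ⟨c, K, h⟩ := eval_le_pow p
  exact cmp hp hx ((hD c).mono_mul K (by positivity) fun i => by
    exact_mod_cast h _ (one_le_sz (x i)))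

/-- A black box on inputs of bounded size. -/
theorem poly_bdd {f : α → β} (hf : Poly f) {x : ι → α} (hx : R C x) (B : ℕ)
    (hB : ∀ i, sz (x i) ≤ B) : R C fun i => f (x i) :=
  poly hf hx fun c => (hx.isOk.dom_const (B ^ c)).mono fun i => by
    gcongr; exact hB i

@[fun_prop] theorem not {c : ι → Bool} (hc : R C c) : R C fun i => !c i :=
  (hc.cond (const (h := hc.isOk) false) (const (h := hc.isOk) true)).congr fun i => by cases c i <;> rfl

@[fun_prop] theorem and {c d : ι → Bool} (hc : R C c) (hd : R C d) : R C fun i => c i && d i :=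
  (hc.cond hd (const (h := hc.isOk) false)).congr fun i => by cases c i <;> rfl

@[fun_prop] theorem or {c d : ι → Bool} (hc : R C c) (hd : R C d) : R C fun i => c i || d i :=
  (hc.cond (const (h := hc.isOk) true) hd).congr fun i => by cases c i <;> rfl

@[fun_prop] theorem xor {c d : ι → Bool} (hc : R C c) (hd : R C d) :
    R C fun i => xor (c i) (d i) :=
  (hc.cond hd.not hd).congr fun i => by cases c i <;> simp

end R

/-! ### The streaming loop -/

/-- Stream stacks written out. -/
def mk4 (a b c d : List V) : Str := ![a, b, c, d]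

theorem mk4_eta (σ : Str) : mk4 (σ 0) (σ 1) (σ 2) (σ 3) = σ := by
  funext j; fin_cases j <;> rfl
theorem upd0 (a b c d x : List V) : update (mk4 a b c d) 0 x = mk4 x b c d := by
  funext j; fin_cases j <;> rfl
theorem upd1 (a b c d x : List V) : update (mk4 a b c d) 1 x = mk4 a x c d := by
  funext j; fin_cases j <;> rfl
theorem upd3 (a b c d x : List V) : update (mk4 a b c d) 3 x = mk4 a b c x := by
  funext j; fin_cases j <;> rfl

/-- One round of the streaming loop. -/
def accStep (b : Cd) : Cd :=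
  .comp (.ite .snd
    (.comp (.pair (.pair .nil .nil) (.comp .snd (.pair (.comp (.cons 1) .snd) .fst)))
      (.comp b (.pair .fst (.comp .fst .snd))))
    (.pair .nil .fst)) (.pair .id (.uncons 0))

/-- The streaming loop. -/
def accCode (b : Cd) : Cd :=
  .comp (.pair .id (.comp .snd (.pair (.pop 0) (.pop 1))))
    (.comp (.loop (accStep b))
      (.comp .snd (.pair (.comp (.push 0) .snd) (.comp .snd (.pair (.comp (.push 1) .nil) .fst)))))

theorem acc_loop {E b : Cd} {s a o : ℕ → V} {t : ℕ → List V} {c g : ℕ → ℝ} {T : ℕ}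
    (r0 r1 r2 r : List V)
    (hb : ∀ k, k < T → ∀ σ : Str, σ 3 = t k ++ r → ER E b (.node (s k) (a k)) σ
      (.node (s (k + 1)) (o k)) (update σ 3 (t (k + 1) ++ r)) (c k))
    (h1 : ∀ k, k < T → (((s k).size + (a k).size + 1 : ℕ) : ℝ) ≤ g k)
    (h2 : ∀ k, k < T → (((s (k + 1)).size + (o k).size + 1 : ℕ) : ℝ) ≤ g k) :
    ∀ (n k : ℕ) (acc : List V), k + n = T →
      ER E (.loop (accStep b)) (s k)
        (mk4 (enc ((List.range' k n).map a) :: r0) (enc acc :: r1) r2 (t k ++ r)) (s T)
        (mk4 (.nil :: r0) (enc (((List.range' k n).map o).reverse ++ acc) :: r1) r2 (t T ++ r))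
        (∑ j ∈ Finset.Ico k T, (c j + 40 * g j) + 30 * (s T).size) := by
  intro n
  induction n with
  | zero =>
    intro k acc hk
    obtain rfl : k = T := by omega
    have := (s k).one_le_size
    refine (EL.loop_stop ((EL.id.pair (EL.uncons_nil rfl)).comp
      (EL.ite_nil EL.snd (EL.nil.pair EL.fst)))).er ?_
    have : (1 : ℝ) ≤ (s k).size := by exact_mod_cast this
    simp; linarith
  | succ n ih =>
    intro k acc hk
    have hkT : k < T := by omega
    obtain ⟨m, hm, he⟩ := hb k hkT (mk4 (enc ((List.range' (k + 1) n).map a) :: r0)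
      (enc acc :: r1) r2 (t k ++ r)) rfl
    rw [upd3] at he
    obtain ⟨m', hm', he'⟩ := ih (k + 1) (o k :: acc) (by omega)
    have e1 := EL.uncons_node (E := E) (v := s k) (j := 0)
      (σ := mk4 (enc ((List.range' k (n + 1)).map a) :: r0) (enc acc :: r1) r2 (t k ++ r))
      (x := a k) (t := enc ((List.range' (k + 1) n).map a)) (r := r0) rfl
    rw [upd0] at e1
    have e2 := EL.cons (E := E) (v := o k) (j := 1)
      (σ := mk4 (enc ((List.range' (k + 1) n).map a) :: r0) (enc acc :: r1) r2 (t (k + 1) ++ r))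
      (t := enc acc) (r := r1) rfl
    rw [upd1] at e2
    have e3 := EL.loop_next ((EL.id.pair e1).comp (EL.ite_node (e := .pair .nil .fst) EL.snd
      (((EL.fst.pair (EL.snd.comp EL.fst)).comp he).comp
        ((EL.nil.pair EL.nil).pair (((EL.snd.comp e2).pair EL.fst).comp EL.snd))))) he'
    have e4 : ((List.range' k (n + 1)).map o).reverse ++ acc =
        ((List.range' (k + 1) n).map o).reverse ++ (o k :: acc) := by
      simp [List.range'_succ]
    rw [e4, Finset.sum_eq_sum_Ico_succ_bot hkT]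
    refine e3.er ?_
    have := h1 k hkT
    have := h2 k hkT
    have p1 : (1 : ℝ) ≤ (s k).size := by exact_mod_cast (s k).one_le_size
    have p2 : (1 : ℝ) ≤ (a k).size := by exact_mod_cast (a k).one_le_size
    have p3 : (1 : ℝ) ≤ (s (k + 1)).size := by exact_mod_cast (s (k + 1)).one_le_size
    have p4 : (1 : ℝ) ≤ (o k).size := by exact_mod_cast (o k).one_le_size
    simp only [V.size_node, V.size_nil] at *
    push_cast at *
    linarith

/-- The streaming loop: thread a state `s` through the list `tab T a`, producing `b` in reverse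
order; the body may act on the top of stream `3` and call the environment. -/
theorem JS.accumRev {T : ι → ℕ} {s : ι → ℕ → γ} {a : ι → ℕ → α} {b : ι → ℕ → β}
    {t : ι → ℕ → List V} {cn : (Σ i, Fin (T i)) → ℝ} (hs : R C fun i => s i 0)
    (hl : R C fun i => tab (T i) (a i))
    (hb : JS (C.pos T fun i k => (s i k, a i k)) (fun p => ok p.1) cn (fun p => t p.1 p.2)
      (fun p => t p.1 (p.2 + 1)) fun p => (s p.1 (p.2 + 1), b p.1 p.2)) :
    JS C ok (fun i => ∑ k : Fin (T i), cn ⟨i, k⟩) (fun i => t i 0) (fun i => t i (T i))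
      fun i => (s i (T i), (tab (T i) (b i)).reverse) := by
  have hx := hs.pair hl
  suffices h : JS (C.re fun i => (s i 0, tab (T i) (a i))) ok (fun i => ∑ k : Fin (T i), cn ⟨i, k⟩)
      (fun i => t i 0) (fun i => t i (T i)) fun i => (s i (T i), (tab (T i) (b i)).reverse) by
    simpa using (hx.js ok _).comp h
  obtain ⟨code, G, hG, hb⟩ := hb
  have hG' : C.Dom fun i => ∑ k : Fin (T i), max (G ⟨i, k⟩) 0 := hG
  refine ⟨accCode code, _, (hG'.smul (K := 100) (by norm_num)).add
    (hx.dom_sz.smul (K := 100) (by norm_num)), fun i => ?_⟩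
  set g : ℕ → ℝ := fun k => if h : k < T i then G ⟨i, ⟨k, h⟩⟩ else 0 with hg
  have hG0 : ∀ k : Fin (T i), 0 ≤ G ⟨i, k⟩ := fun k => le_trans (by positivity) (hb ⟨i, k⟩).1
  have hsum : ∑ k : Fin (T i), max (G ⟨i, k⟩) 0 = ∑ k ∈ Finset.range (T i), g k := by
    rw [Finset.sum_range]
    exact Finset.sum_congr rfl fun k _ => by simp [hg, hG0 k]
  have g0 : ∀ k, 0 ≤ g k := fun k => by
    simp only [hg]; split_ifs with h; exacts [hG0 _, le_rfl]
  have h1 : ∀ k, k < T i → (((enc (s i k)).size + (enc (a i k)).size + 1 : ℕ) : ℝ) ≤ g k :=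
    fun k hk => by simp only [hg, dif_pos hk]; exact (hb ⟨i, ⟨k, hk⟩⟩).1
  have h2 : ∀ k, k < T i → (((enc (s i (k + 1))).size + (enc (b i k)).size + 1 : ℕ) : ℝ) ≤ g k :=
    fun k hk => by simp only [hg, dif_pos hk]; exact (hb ⟨i, ⟨k, hk⟩⟩).2.1
  have gs : 0 ≤ ∑ k ∈ Finset.range (T i), g k := Finset.sum_nonneg fun k _ => g0 k
  have sT : (sz (s i (T i)) : ℝ) ≤ sz (s i 0) + ∑ k ∈ Finset.range (T i), g k := by
    rcases Nat.eq_zero_or_pos (T i) with h0 | h0
    · rw [h0]; simp
    · obtain ⟨n, hn⟩ : ∃ n, T i = n + 1 := ⟨T i - 1, by omega⟩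
      have := h2 n (by omega)
      have h3 := Finset.single_le_sum (f := g) (fun k _ => g0 k)
        (show n ∈ Finset.range (T i) by simp; omega)
      rw [← hn] at this
      simp only [size_enc] at this
      push_cast at this
      have : (0 : ℝ) ≤ sz (b i n) := by positivity
      have : (0 : ℝ) ≤ sz (s i 0) := by positivity
      linarith
  have sb : (sz (tab (T i) (b i)) : ℝ) ≤ ∑ k ∈ Finset.range (T i), g k + 1 := by
    rw [sz_tab]
    push_cast
    gcongr with k hk
    have := h2 k (Finset.mem_range.1 hk)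
    simp only [size_enc] at this
    push_cast at this
    have : (0 : ℝ) ≤ sz (s i (k + 1)) := by positivity
    linarith
  have p0 : (1 : ℝ) ≤ sz (s i 0) := by exact_mod_cast one_le_sz _
  have p1 : (1 : ℝ) ≤ sz (tab (T i) (a i)) := by exact_mod_cast one_le_sz _
  have p2 : (1 : ℝ) ≤ sz (s i (T i)) := by exact_mod_cast one_le_sz _
  simp only [hsum, Ctx.re_inp, size_enc, sz_pair, sz_reverse]
  push_cast
  refine ⟨by linarith, by linarith, fun E φ hφ hO σ r hσ => ?_⟩
  set c : ℕ → ℝ := fun k => if h : k < T i then G ⟨i, ⟨k, h⟩⟩ + cn ⟨i, ⟨k, h⟩⟩ * φ else 0 with hc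
  obtain ⟨m, hm, he⟩ := acc_loop (E := E) (b := code) (s := fun k => enc (s i k))
    (a := fun k => enc (a i k)) (o := fun k => enc (b i k)) (t := t i) (c := c) (g := g)
    (T := T i) (σ 0) (σ 1) (σ 2) r (fun k hk σ' hσ' => by
      simp only [hc, dif_pos hk]
      exact (hb ⟨i, ⟨k, hk⟩⟩).2.2 E φ hφ hO σ' r hσ') h1 h2 (T i) 0 [] (by simp)
  have hcs : ∑ j ∈ Finset.Ico 0 (T i), (c j + 40 * g j) =
      41 * ∑ k ∈ Finset.range (T i), g k + (∑ k : Fin (T i), cn ⟨i, k⟩) * φ := by
    rw [← Finset.range_eq_Ico, Finset.sum_range, Finset.sum_range, Finset.mul_sum, Finset.sum_mul,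
      ← Finset.sum_add_distrib]
    exact Finset.sum_congr rfl fun k _ => by simp [hc, hg]; ring
  rw [hcs] at hm
  have ea : enc ((List.range' 0 (T i)).map fun k => enc (a i k)) = enc (tab (T i) (a i)) := by
    rw [← enc_map_enc (tab _ _), map_tab, tab, List.range_eq_range']
  have eb : enc (((List.range' 0 (T i)).map fun k => enc (b i k)).reverse ++ []) =
      enc (tab (T i) (b i)).reverse := by
    rw [← enc_map_enc (tab _ _).reverse, List.map_reverse, map_tab, tab, List.range_eq_range',
      List.append_nil]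
  rw [ea, eb] at he
  have hσ' : σ = mk4 (σ 0) (σ 1) (σ 2) (t i 0 ++ r) := by rw [← hσ, mk4_eta]
  have e1 := EL.push (E := E) (v := enc (tab (T i) (a i))) (j := 0)
    (σ := mk4 (σ 0) (σ 1) (σ 2) (t i 0 ++ r))
  rw [upd0] at e1
  have e2 := EL.push (E := E) (v := enc ([] : List V)) (j := 1)
    (σ := mk4 (enc (tab (T i) (a i)) :: σ 0) (σ 1) (σ 2) (t i 0 ++ r))
  rw [upd1] at e2
  have e3 := EL.pop (E := E) (v := enc (s i (T i))) (j := 0)
    (σ := mk4 (.nil :: σ 0) (enc (tab (T i) (b i)).reverse :: σ 1) (σ 2) (t i (T i) ++ r)) rfl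
  rw [upd0] at e3
  have e4 := EL.pop (E := E) (v := enc (s i (T i))) (j := 1)
    (σ := mk4 (σ 0) (enc (tab (T i) (b i)).reverse :: σ 1) (σ 2) (t i (T i) ++ r)) rfl
  rw [upd1] at e4
  have e5 := ((((EL.snd.comp e1).pair (((EL.nil.comp e2).pair EL.fst).comp EL.snd)).comp
    EL.snd).comp he).comp (EL.id.pair ((e3.pair e4).comp EL.snd))
  rw [hσ', upd3]
  refine e5.er ?_
  simp only [V.size_node, V.size_nil, size_enc, sz_reverse, sz_nil] at *
  push_cast at *
  linarith

end Crest.Agent.R326
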