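import Crest.Agent.R326.Spec

/-!
# Closure properties of `Apx` (polynomial-time approximable complex numbers)
-/

set_option autoImplicit false

namespace Crest.Agent.R326

open Crest.Agent.Lib.PolyTime Complex

attribute [fun_prop] Apx

namespace ApxAux

instance : PEnc GaussianInt :=
  PEnc.ofInj (fun z : GaussianInt => (z.re, z.im)) (by
    intro a b h
    simp only [Prod.mk.injEq] at h
    exact Zsqrtd.ext h.1 h.2)

variable {α : Type} [PEnc α]

theorem poly_re {z : α → GaussianInt} (hz : Poly z) : Poly fun a => (z a).re :=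
  (hz.of_enc (f := fun a => ((z a).re, (z a).im)) fun _ => rfl).fst

theorem poly_im {z : α → GaussianInt} (hz : Poly z) : Poly fun a => (z a).im :=
  (hz.of_enc (f := fun a => ((z a).re, (z a).im)) fun _ => rfl).snd

theorem poly_mk {x y : α → ℤ} (hx : Poly x) (hy : Poly y) :
    Poly fun a => (⟨x a, y a⟩ : GaussianInt) := (hx.pair hy).of_enc fun _ => rfl

instance : PArith GaussianInt where
  ht z := z.re.natAbs + z.im.natAbs + 2
  ht_add a b := by
    have h1 := Int.natAbs_add_le a.re b.re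
    have h2 := Int.natAbs_add_le a.im b.im
    simp only [Zsqrtd.re_add, Zsqrtd.im_add]
    generalize (a.re + b.re).natAbs = x at *
    generalize (a.im + b.im).natAbs = y at *
    generalize a.re.natAbs = p at *
    generalize a.im.natAbs = q at *
    generalize b.re.natAbs = r at *
    generalize b.im.natAbs = t at *
    have : (p + q + 2) * (r + t + 2) = (p + q) * (r + t) + 2 * (p + q + r + t) + 4 := by ring
    omega
  ht_mul a b := by
    have h1 := Int.natAbs_add_le (a.re * b.re) (-1 * a.im * b.im)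
    have h2 := Int.natAbs_add_le (a.re * b.im) (a.im * b.re)
    simp only [Int.natAbs_mul, Int.reduceNeg, Int.natAbs_neg, Int.natAbs_one, one_mul] at h1 h2
    simp only [Zsqrtd.re_mul, Zsqrtd.im_mul]
    nlinarith [Nat.zero_le a.re.natAbs, Nat.zero_le a.im.natAbs, Nat.zero_le b.re.natAbs,
      Nat.zero_le b.im.natAbs]
  ht_le a := by
    have h1 := lt_two_pow_sz a.re.natAbs
    have h2 := lt_two_pow_sz a.im.natAbs
    have h3 := sz_natAbs_le a.re
    have h4 := sz_natAbs_le a.im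
    have h5 : sz a = sz a.re + sz a.im + 1 := rfl
    have h6 : 2 ^ sz a.re.natAbs ≤ 2 ^ sz a := Nat.pow_le_pow_right (by norm_num) (by omega)
    have h7 : 2 ^ sz a.im.natAbs ≤ 2 ^ sz a := Nat.pow_le_pow_right (by norm_num) (by omega)
    have h8 : 2 ^ 1 ≤ 2 ^ sz a := Nat.pow_le_pow_right (by norm_num) (one_le_sz a)
    rw [two_mul, pow_add]
    nlinarith
  sz_le a k h := by
    have h1 := sz_int_le_of_lt (z := a.re) (k := k) (by omega)
    have h2 := sz_int_le_of_lt (z := a.im) (k := k) (by omega)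
    have h5 : sz a = sz a.re + sz a.im + 1 := rfl
    omega
  poly_add :=
    (poly_mk ((poly_re (Poly.fst Poly.id')).intAdd (poly_re (Poly.snd Poly.id')))
      ((poly_im (Poly.fst Poly.id')).intAdd (poly_im (Poly.snd Poly.id')))).congr fun _ => rfl
  poly_mul := by
    have h1 := poly_re (Poly.fst (Poly.id' (α := GaussianInt × GaussianInt)))
    have h2 := poly_re (Poly.snd (Poly.id' (α := GaussianInt × GaussianInt)))
    have h3 := poly_im (Poly.fst (Poly.id' (α := GaussianInt × GaussianInt)))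
    have h4 := poly_im (Poly.snd (Poly.id' (α := GaussianInt × GaussianInt)))
    refine (poly_mk (x := fun p : GaussianInt × GaussianInt =>
      p.1.re * p.2.re + -1 * p.1.im * p.2.im) (y := fun p => p.1.re * p.2.im + p.1.im * p.2.re)
      (by fun_prop) (by fun_prop)).congr fun _ => rfl

theorem norm_prod_sub_prod_le {n : ℕ} {u v : ℕ → ℂ} {M δ : ℝ} (hM : 1 ≤ M) (hδ : 0 ≤ δ)
    (hu : ∀ i < n, ‖u i‖ ≤ M) (hv : ∀ i < n, ‖v i‖ ≤ M) (h : ∀ i < n, ‖u i - v i‖ ≤ δ) :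
    ‖∏ i ∈ Finset.range n, u i - ∏ i ∈ Finset.range n, v i‖ ≤ n * δ * M ^ n := by
  induction n with
  | zero => simp
  | succ n ih =>
    have h1 := ih (fun i hi => hu i (by omega)) (fun i hi => hv i (by omega))
      (fun i hi => h i (by omega))
    have h2 : ‖∏ i ∈ Finset.range n, v i‖ ≤ M ^ n := by
      rw [norm_prod]
      refine (Finset.prod_le_prod (fun _ _ => norm_nonneg _)
        (fun i hi => hv i (by have := Finset.mem_range.1 hi; omega))).trans_eq (by simp)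
    rw [Finset.prod_range_succ, Finset.prod_range_succ,
      show (∏ i ∈ Finset.range n, u i) * u n - (∏ i ∈ Finset.range n, v i) * v n =
        (∏ i ∈ Finset.range n, u i - ∏ i ∈ Finset.range n, v i) * u n +
          (∏ i ∈ Finset.range n, v i) * (u n - v n) by ring]
    refine (norm_add_le _ _).trans ?_
    rw [norm_mul, norm_mul]
    have h3 : 0 ≤ M ^ n := by positivity
    have h4 := mul_le_mul h1 (hu n (by omega)) (norm_nonneg _) (by positivity)
    have h5 := mul_le_mul h2 (h n (by omega)) (norm_nonneg _) h3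
    have h6 : M ^ n * δ ≤ M ^ n * δ * M := le_mul_of_one_le_right (by positivity) hM
    push_cast
    rw [pow_succ]
    nlinarith

theorem half_pow_le {p q : ℕ} (h : p ≤ q) : (1 : ℝ) / 2 ^ q ≤ 1 / 2 ^ p :=
  one_div_le_one_div_of_le (by positivity) (pow_le_pow_right₀ one_le_two h)

theorem norm_rat_le (q : ℚ) : ‖(q : ℂ)‖ ≤ 2 ^ sz q := by
  have h1 := lt_two_pow_sz q.num.natAbs
  have h2 := sz_natAbs_le q.num
  have h3 : sz q = sz q.num + sz q.den + 1 := rfl
  have h4 : q.num.natAbs ≤ 2 ^ sz q :=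
    h1.le.trans (Nat.pow_le_pow_right (by norm_num) (by omega))
  have h5 : ‖(q : ℂ)‖ ≤ (q.num.natAbs : ℝ) := by
    conv_lhs => rw [← Rat.num_div_den q]
    push_cast
    rw [norm_div, Complex.norm_intCast, Complex.norm_natCast, Nat.cast_natAbs, Int.cast_abs]
    exact div_le_self (abs_nonneg _) (by exact_mod_cast q.pos)
  exact h5.trans (by exact_mod_cast h4)

end ApxAux

open ApxAux

namespace Apx

variable {α β : Type} [PEnc α] [PEnc β]

theorem congr {f g : α → ℂ} (hf : Apx f) (h : ∀ a, f a = g a) : Apx g := funext h ▸ hf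

@[fun_prop] theorem comp' {f : β → ℂ} {g : α → β} (hf : Apx f) (hg : Poly g) :
    Apx fun a => f (g a) := by
  obtain ⟨G, hG, h⟩ := hf
  exact ⟨fun x => G (g x.1, x.2), by fun_prop, fun a p => h (g a) p⟩

theorem comp {f : β → ℂ} {g : α → β} (hf : Apx f) (hg : Poly g) : Apx (f ∘ g) := hf.comp' hg

theorem restrict {f : α → ℂ} (hf : Apx f) (p : α → Prop) : Apx fun a : Subtype p => f a.1 :=
  hf.comp' (Poly.val Poly.id')

/-- Uniform limits with an explicit rate. -/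
theorem of_approx {f : α → ℂ} {F : α × Un → ℂ} (hF : Apx F)
    (h : ∀ a p, ‖F (a, p) - f a‖ ≤ 1 / 2 ^ p.n) : Apx f := by
  obtain ⟨G, hG, hG'⟩ := hF
  refine ⟨fun x => G ((x.1, ⟨x.2.n + 1⟩), ⟨x.2.n + 1⟩), by fun_prop, fun a p => ?_⟩
  refine (norm_sub_le_norm_sub_add_norm_sub _ (F (a, ⟨p.n + 1⟩)) _).trans ?_
  refine (add_le_add (hG' _ _) (h _ _)).trans_eq ?_
  simp only [pow_succ]
  field_simp
  norm_num

theorem ofRatPair {x y : α → ℚ} (hx : Poly x) (hy : Poly y) :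
    Apx fun a => (x a : ℂ) + (y a : ℂ) * I :=
  ⟨fun p => (x p.1, y p.1), by fun_prop, fun a p => by simp⟩

@[fun_prop] theorem ofRat {q : α → ℚ} (hq : Poly q) : Apx fun a => (q a : ℂ) :=
  (ofRatPair hq (Lib.PolyTime.Poly.const 0)).congr fun _ => by simp

@[fun_prop] theorem ofInt {q : α → ℤ} (hq : Poly q) : Apx fun a => (q a : ℂ) :=
  (ofRat hq.intCastRat).congr fun _ => by simp

@[fun_prop] theorem ofNat {q : α → ℕ} (hq : Poly q) : Apx fun a => (q a : ℂ) :=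
  (ofRat hq.natCastRat).congr fun _ => by simp

theorem constRat (q : ℚ) : Apx fun _ : α => (q : ℂ) := ofRat (Lib.PolyTime.Poly.const q)

theorem constNat (q : ℕ) : Apx fun _ : α => (q : ℂ) := ofNat (Lib.PolyTime.Poly.const q)

theorem constInt (q : ℤ) : Apx fun _ : α => (q : ℂ) := ofInt (Lib.PolyTime.Poly.const q)

@[fun_prop] theorem zero : Apx fun _ : α => (0 : ℂ) := (constNat 0).congr fun _ => by simp

@[fun_prop] theorem one : Apx fun _ : α => (1 : ℂ) := (constNat 1).congr fun _ => by simp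

@[fun_prop] theorem ofNatLit (n : ℕ) [n.AtLeastTwo] : Apx fun _ : α => (OfNat.ofNat n : ℂ) :=
  constNat n

@[fun_prop] theorem I : Apx fun _ : α => Complex.I :=
  (ofRatPair (Lib.PolyTime.Poly.const 0) (Lib.PolyTime.Poly.const 1)).congr fun _ => by simp

@[fun_prop] theorem neg {f : α → ℂ} (hf : Apx f) : Apx fun a => -f a := by
  obtain ⟨G, hG, h⟩ := hf
  refine ⟨fun x => (-(G x).1, -(G x).2), by fun_prop, fun a p => ?_⟩
  refine le_of_eq_of_le ?_ (h a p)
  rw [← norm_neg]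
  congr 1
  push_cast
  ring

@[fun_prop] theorem conj {f : α → ℂ} (hf : Apx f) : Apx fun a => (starRingEnd ℂ) (f a) := by
  obtain ⟨G, hG, h⟩ := hf
  refine ⟨fun x => ((G x).1, -(G x).2), by fun_prop, fun a p => ?_⟩
  refine le_of_eq_of_le ?_ (h a p)
  rw [← Complex.norm_conj]
  congr 1
  simp

@[fun_prop] theorem add {f g : α → ℂ} (hf : Apx f) (hg : Apx g) : Apx fun a => f a + g a := by
  obtain ⟨F, hF, h⟩ := hf
  obtain ⟨G, hG, h'⟩ := hg
  refine ⟨fun x => ((F (x.1, ⟨x.2.n + 1⟩)).1 + (G (x.1, ⟨x.2.n + 1⟩)).1,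
    (F (x.1, ⟨x.2.n + 1⟩)).2 + (G (x.1, ⟨x.2.n + 1⟩)).2), by fun_prop, fun a p => ?_⟩
  have := (norm_add_le _ _).trans (add_le_add (h a ⟨p.n + 1⟩) (h' a ⟨p.n + 1⟩))
  refine (le_of_eq ?_).trans (this.trans_eq ?_)
  · congr 1; push_cast; ring
  · simp only [pow_succ]; field_simp; norm_num

@[fun_prop] theorem sub {f g : α → ℂ} (hf : Apx f) (hg : Apx g) : Apx fun a => f a - g a :=
  (hf.add hg.neg).congr fun _ => (sub_eq_add_neg _ _).symm

theorem bound {f : α → ℂ} (hf : Apx f) : ∃ B : α → ℕ, PB B ∧ ∀ a, ‖f a‖ ≤ 2 ^ B a := by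
  obtain ⟨G, hG, h⟩ := hf
  refine ⟨fun a => sz (G (a, ⟨0⟩)) + 2, by fun_prop, fun a => ?_⟩
  have h1 := h a ⟨0⟩
  have h2 := (norm_rat_le (G (a, ⟨0⟩)).1).trans (pow_le_pow_right₀ one_le_two (sz_fst_le _))
  have h3 := (norm_rat_le (G (a, ⟨0⟩)).2).trans (pow_le_pow_right₀ one_le_two (sz_snd_le _))
  have h4 := norm_add_le ((G (a, ⟨0⟩)).1 : ℂ) ((G (a, ⟨0⟩)).2 * Complex.I)
  rw [norm_mul, Complex.norm_I, mul_one] at h4
  have h5 := norm_le_norm_add_norm_sub' (f a) (((G (a, ⟨0⟩)).1 : ℂ) + (G (a, ⟨0⟩)).2 * Complex.I)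
  rw [norm_sub_rev] at h5
  have h6 : (1 : ℝ) ≤ 2 ^ sz (G (a, ⟨0⟩)) := one_le_pow₀ one_le_two
  simp only [pow_zero, div_one] at h1
  rw [pow_add]
  linarith

/-- A bound that is also computable. -/
theorem bound' {f : α → ℂ} (hf : Apx f) :
    ∃ B : α → ℕ, Poly B ∧ PB B ∧ ∀ a, ‖f a‖ ≤ 2 ^ B a := by
  obtain ⟨B, hB, h⟩ := hf.bound
  obtain ⟨K, hK, hK', h'⟩ := hB.exists_clock
  exact ⟨K, hK, hK', fun a => (h a).trans (pow_le_pow_right₀ one_le_two (h' a))⟩

@[fun_prop] theorem mul {f g : α → ℂ} (hf : Apx f) (hg : Apx g) : Apx fun a => f a * g a := by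
  obtain ⟨A, hA, hA', hA''⟩ := hf.bound'
  obtain ⟨B, hB, hB', hB''⟩ := hg.bound'
  obtain ⟨F, hF, h⟩ := hf
  obtain ⟨G, hG, h'⟩ := hg
  refine ⟨fun x => ((F (x.1, ⟨x.2.n + (A x.1 + B x.1) + 2⟩)).1 *
      (G (x.1, ⟨x.2.n + (A x.1 + B x.1) + 2⟩)).1 -
      (F (x.1, ⟨x.2.n + (A x.1 + B x.1) + 2⟩)).2 * (G (x.1, ⟨x.2.n + (A x.1 + B x.1) + 2⟩)).2,
    (F (x.1, ⟨x.2.n + (A x.1 + B x.1) + 2⟩)).1 * (G (x.1, ⟨x.2.n + (A x.1 + B x.1) + 2⟩)).2 +
      (F (x.1, ⟨x.2.n + (A x.1 + B x.1) + 2⟩)).2 * (G (x.1, ⟨x.2.n + (A x.1 + B x.1) + 2⟩)).1),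
    by fun_prop, fun a p => ?_⟩
  have h1 := h a ⟨p.n + (A a + B a) + 2⟩
  have h2 := h' a ⟨p.n + (A a + B a) + 2⟩
  dsimp only at h1 h2 ⊢
  generalize F (a, ⟨p.n + (A a + B a) + 2⟩) = u at *
  generalize G (a, ⟨p.n + (A a + B a) + 2⟩) = v at *
  set U : ℂ := u.1 + u.2 * Complex.I with hU
  set V : ℂ := v.1 + v.2 * Complex.I with hV
  have e : ((u.1 * v.1 - u.2 * v.2 : ℚ) : ℂ) + ((u.1 * v.2 + u.2 * v.1 : ℚ) : ℂ) * Complex.I -
      f a * g a = (U - f a) * (V - g a) + (U - f a) * g a + f a * (V - g a) := by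
    rw [hU, hV]
    push_cast
    linear_combination (-(u.2 : ℂ) * v.2) * Complex.I_mul_I
  rw [e]
  have hK : (1 : ℝ) ≤ 2 ^ (A a + B a) := one_le_pow₀ one_le_two
  have h3 : ‖f a‖ ≤ 2 ^ (A a + B a) := (hA'' a).trans (pow_le_pow_right₀ one_le_two (by omega))
  have h4 : ‖g a‖ ≤ 2 ^ (A a + B a) := (hB'' a).trans (pow_le_pow_right₀ one_le_two (by omega))
  have h5 : ‖V - g a‖ ≤ 2 ^ (A a + B a) :=
    h2.trans ((half_pow_le (Nat.zero_le _)).trans (by simpa using hK))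
  set δ : ℝ := 1 / 2 ^ (p.n + (A a + B a) + 2) with hδ
  have hδ0 : 0 ≤ δ := by positivity
  have h6 : δ * 2 ^ (A a + B a) * 4 = 1 / 2 ^ p.n := by
    rw [hδ, pow_add, pow_add]; field_simp; norm_num
  refine (norm_add₃_le).trans ?_
  simp only [norm_mul]
  have k1 := mul_le_mul h1 h5 (norm_nonneg _) hδ0
  have k2 := mul_le_mul h1 h4 (norm_nonneg _) hδ0
  have k3 := mul_le_mul h3 h2 (norm_nonneg _) (by positivity)
  nlinarith [mul_nonneg hδ0 (zero_le_one.trans hK)]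

theorem inv' {f : α → ℂ} (hf : Apx f) {B : α → ℕ} (hB : PB B)
    (h : ∀ a, 1 / 2 ^ B a ≤ ‖f a‖) : Apx fun a => (f a)⁻¹ := by
  obtain ⟨K, hK, hK', hBK⟩ := hB.exists_clock
  have h0 : ∀ a, 1 / 2 ^ K a ≤ ‖f a‖ := fun a => (half_pow_le (hBK a)).trans (h a)
  obtain ⟨F, hF, h'⟩ := hf
  refine ⟨fun x => ((F (x.1, ⟨x.2.n + 2 * K x.1 + 1⟩)).1 /
      ((F (x.1, ⟨x.2.n + 2 * K x.1 + 1⟩)).1 ^ 2 + (F (x.1, ⟨x.2.n + 2 * K x.1 + 1⟩)).2 ^ 2),
    -(F (x.1, ⟨x.2.n + 2 * K x.1 + 1⟩)).2 /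
      ((F (x.1, ⟨x.2.n + 2 * K x.1 + 1⟩)).1 ^ 2 + (F (x.1, ⟨x.2.n + 2 * K x.1 + 1⟩)).2 ^ 2)),
    by fun_prop, fun a p => ?_⟩
  have h1 := h' a ⟨p.n + 2 * K a + 1⟩
  dsimp only at h1 ⊢
  generalize F (a, ⟨p.n + 2 * K a + 1⟩) = u at *
  set U : ℂ := u.1 + u.2 * Complex.I with hU
  have e : ((u.1 / (u.1 ^ 2 + u.2 ^ 2) : ℚ) : ℂ) + ((-u.2 / (u.1 ^ 2 + u.2 ^ 2) : ℚ) : ℂ) *
      Complex.I = U⁻¹ := by
    rw [Complex.inv_def, hU, Complex.normSq_apply]
    simp only [map_add, map_mul, Complex.conj_I, map_ratCast, add_re, ratCast_re, mul_re, I_re,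
      mul_zero, ratCast_im, I_im, mul_one, sub_self, add_zero, add_im, mul_im, zero_add]
    push_cast
    ring
  rw [e]
  have hf0 : 0 < ‖f a‖ := lt_of_lt_of_le (by positivity) (h0 a)
  have h2 : 1 / 2 ^ (K a + 1) ≤ ‖U‖ := by
    have h3 := norm_le_norm_add_norm_sub' (f a) U
    rw [norm_sub_rev] at h3
    have h4 := h1.trans (half_pow_le (show K a + 1 ≤ p.n + 2 * K a + 1 by omega))
    have h5 : (1 : ℝ) / 2 ^ K a = 1 / 2 ^ (K a + 1) + 1 / 2 ^ (K a + 1) := by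
      rw [pow_succ]; field_simp; norm_num
    linarith [h0 a]
  have hU0 : 0 < ‖U‖ := lt_of_lt_of_le (by positivity) h2
  rw [inv_sub_inv (norm_pos_iff.1 hU0) (norm_pos_iff.1 hf0), norm_div, norm_mul, norm_sub_rev]
  refine (div_le_div₀ (by positivity) h1 (by positivity)
    (mul_le_mul h2 (h0 a) (by positivity) hU0.le)).trans_eq ?_
  simp only [two_mul, pow_add]
  field_simp

theorem inv {f : α → ℂ} (hf : Apx f) {B : α → ℕ} (hB : PB B) (_hB' : Poly B)
    (h : ∀ a, 1 / 2 ^ B a ≤ ‖f a‖) : Apx fun a => (f a)⁻¹ := hf.inv' hB h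

theorem div' {f g : α → ℂ} (hf : Apx f) (hg : Apx g) {B : α → ℕ} (hB : PB B)
    (h : ∀ a, 1 / 2 ^ B a ≤ ‖g a‖) : Apx fun a => f a / g a :=
  (hf.mul (hg.inv' hB h)).congr fun _ => (div_eq_mul_inv _ _).symm

/-- Division by a computable rational number (division by zero gives zero on both sides). -/
theorem divRat {f : α → ℂ} {q : α → ℚ} (hf : Apx f) (hq : Poly q) :
    Apx fun a => f a / (q a : ℂ) :=
  (hf.mul (ofRat hq.ratInv)).congr fun _ => by simp [div_eq_mul_inv]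

theorem divNat {f : α → ℂ} {q : α → ℕ} (hf : Apx f) (hq : Poly q) :
    Apx fun a => f a / (q a : ℂ) := (hf.divRat hq.natCastRat).congr fun _ => by simp

theorem invNat {q : α → ℕ} (hq : Poly q) : Apx fun a => (q a : ℂ)⁻¹ :=
  (one.divNat hq).congr fun _ => by simp

theorem dite {p : α → Prop} [DecidablePred p] {f : ∀ a, p a → ℂ} {g : ∀ a, ¬ p a → ℂ}
    (hp : Poly fun a => decide (p a)) (hf : Apx fun a : {a // p a} => f a.1 a.2)
    (hg : Apx fun a : {a // ¬ p a} => g a.1 a.2) :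
    Apx fun a => if h : p a then f a h else g a h := by
  obtain ⟨F, hF, h⟩ := hf
  obtain ⟨G, hG, h'⟩ := hg
  refine ⟨fun x => if hx : p x.1 then F (⟨x.1, hx⟩, x.2) else G (⟨x.1, hx⟩, x.2), ?_,
    fun a q => ?_⟩
  · refine Poly.dite (p := fun x : α × Un => p x.1) (hp.comp (Poly.fst Poly.id')) ?_ ?_
    · exact hF.comp (g := fun x : {x : α × Un // p x.1} => (⟨x.1.1, x.2⟩, x.1.2))
        (Poly.cast fun _ => rfl)
    · exact hG.comp (g := fun x : {x : α × Un // ¬ p x.1} => (⟨x.1.1, x.2⟩, x.1.2))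
        (Poly.cast fun _ => rfl)
  · by_cases hx : p a
    · simp only [dif_pos hx]; exact h ⟨a, hx⟩ q
    · simp only [dif_neg hx]; exact h' ⟨a, hx⟩ q

/-- Each branch only needs to be approximable on the inputs that reach it. -/
theorem ite' {p : α → Prop} [DecidablePred p] {f g : α → ℂ}
    (hp : Poly fun a => decide (p a)) (hf : Apx fun a : {a // p a} => f a.1)
    (hg : Apx fun a : {a // ¬ p a} => g a.1) : Apx fun a => if p a then f a else g a :=
  (dite (f := fun a _ => f a) (g := fun a _ => g a) hp hf hg).congr fun _ => rfl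

/-- Case distinction without changing the function. -/
theorem of_cases {p : α → Prop} [DecidablePred p] {f : α → ℂ}
    (hp : Poly fun a => decide (p a)) (hf : Apx fun a : {a // p a} => f a.1)
    (hg : Apx fun a : {a // ¬ p a} => f a.1) : Apx f :=
  (ite' hp hf hg).congr fun _ => ite_self _

@[fun_prop] theorem ite {p : α → Prop} [DecidablePred p] {f g : α → ℂ}
    (hp : Poly fun a => decide (p a)) (hf : Apx f) (hg : Apx g) :
    Apx fun a => if p a then f a else g a := ite' hp (hf.restrict _) (hg.restrict _)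

@[fun_prop] theorem cond {c : α → Bool} {f g : α → ℂ} (hc : Poly c) (hf : Apx f) (hg : Apx g) :
    Apx fun a => bif c a then f a else g a :=
  (ite (p := fun a => c a = true) (hc.congr fun _ => by simp) hf hg).congr fun a => by
    cases c a <;> simp

theorem round {f : α → ℂ} (hf : Apx f) : ∃ g : α × Un → ℤ × ℤ, Poly g ∧
    ∀ a p, ‖((g (a, p)).1 : ℂ) + (g (a, p)).2 * Complex.I - 2 ^ p.n * f a‖ ≤ 2 := by
  obtain ⟨F, hF, h⟩ := hf
  refine ⟨fun x => (_root_.round (2 ^ x.2.n * (F x).1), _root_.round (2 ^ x.2.n * (F x).2)),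
    by fun_prop, fun a p => ?_⟩
  have h1 := h a p
  dsimp only at h1 ⊢
  generalize F (a, p) = u at *
  have key : ∀ q : ℚ, ‖((_root_.round q : ℤ) : ℂ) - (q : ℂ)‖ ≤ 1 / 2 := by
    intro q
    have h2 := abs_sub_round q
    rw [abs_sub_comm] at h2
    have h3 : ((_root_.round q : ℤ) : ℂ) - (q : ℂ) = (((_root_.round q : ℤ) - q : ℚ) : ℂ) := by
      push_cast; ring
    rw [h3, Complex.norm_ratCast]
    have h4 := (Rat.cast_le (K := ℝ)).2 h2
    push_cast at h4 ⊢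
    exact h4
  have e : ((_root_.round (2 ^ p.n * u.1 : ℚ) : ℤ) : ℂ) +
      ((_root_.round (2 ^ p.n * u.2 : ℚ) : ℤ) : ℂ) * Complex.I - 2 ^ p.n * f a =
      (((_root_.round (2 ^ p.n * u.1 : ℚ) : ℤ) : ℂ) - ((2 ^ p.n * u.1 : ℚ) : ℂ)) +
      (((_root_.round (2 ^ p.n * u.2 : ℚ) : ℤ) : ℂ) - ((2 ^ p.n * u.2 : ℚ) : ℂ)) * Complex.I +
      2 ^ p.n * ((u.1 : ℂ) + u.2 * Complex.I - f a) := by
    push_cast; ring
  rw [e]
  refine norm_add₃_le.trans ?_
  rw [norm_mul, norm_mul, Complex.norm_I, mul_one, norm_pow, Complex.norm_two]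
  have h4 : (2 : ℝ) ^ p.n * ‖(u.1 : ℂ) + u.2 * Complex.I - f a‖ ≤ 1 := by
    rwa [le_div_iff₀' (by positivity)] at h1
  linarith [key (2 ^ p.n * u.1), key (2 ^ p.n * u.2)]

theorem sum {n : α → ℕ} {f : α → ℕ → ℂ} (hn : Poly n) (hb : PB n)
    (hf : Apx fun x : {x : α × ℕ // x.2 < n x.1} => f x.1.1 x.1.2) :
    Apx fun a => ∑ i ∈ Finset.range (n a), f a i := by
  obtain ⟨F, hF, h⟩ := hf
  have hG : Poly fun y : Σ x : α × Un, Fin (n x.1) =>
      F (⟨(y.1.1, y.2), y.2.2⟩, ⟨y.1.2.n + n y.1.1⟩) := by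
    refine hF.comp (Poly.pair (Poly.subtype_mk (by fun_prop) _) (by fun_prop))
  refine ⟨fun x => (∑ i : Fin (n x.1), (F (⟨(x.1, i), i.2⟩, ⟨x.2.n + n x.1⟩)).1,
    ∑ i : Fin (n x.1), (F (⟨(x.1, i), i.2⟩, ⟨x.2.n + n x.1⟩)).2), ?_, fun a p => ?_⟩
  · exact (Poly.sum_fin (by fun_prop) (by fun_prop) hG.fst).pair
      (Poly.sum_fin (by fun_prop) (by fun_prop) hG.snd)
  · simp only
    push_cast
    rw [Finset.sum_mul, ← Finset.sum_add_distrib, Finset.sum_range, ← Finset.sum_sub_distrib]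
    refine (norm_sum_le _ _).trans ((Finset.sum_le_sum fun (i : Fin (n a)) _ =>
      h ⟨(a, i), i.2⟩ ⟨p.n + n a⟩).trans ?_)
    have h1 : (n a : ℝ) ≤ 2 ^ n a := by exact_mod_cast Nat.lt_two_pow_self.le
    simp only [Finset.sum_const, Finset.card_univ, Fintype.card_fin, nsmul_eq_mul, pow_add]
    rw [mul_one_div, div_le_div_iff₀ (by positivity) (by positivity)]
    nlinarith [(by positivity : (0 : ℝ) < 2 ^ p.n)]

theorem prod {n : α → ℕ} {f : α → ℕ → ℂ} (hn : Poly n) (hb : PB n)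
    (hf : Apx fun x : {x : α × ℕ // x.2 < n x.1} => f x.1.1 x.1.2) :
    Apx fun a => ∏ i ∈ Finset.range (n a), f a i := by
  obtain ⟨B, ⟨q, hq⟩, hB⟩ := hf.bound
  obtain ⟨K, hK, hK', hBK⟩ := PB.exists_clock
    (g := fun a => q.eval (sz a + 4 * n a + 2)) (PB.eval (by fun_prop) q)
  have hbd : ∀ a i, i < n a → ‖f a i‖ ≤ 2 ^ K a := fun a i hi => by
    refine (hB ⟨(a, i), hi⟩).trans (pow_le_pow_right₀ one_le_two ((hq _).trans
      (le_trans (eval_mono q ?_) (hBK a))))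
    have := sz_le_self i
    simp only [sz_subtype, sz_pair]
    omega
  obtain ⟨F, hF, h⟩ := hf.round
  set Q : α × Un → ℕ := fun x => x.2.n + 1 + n x.1 + (K x.1 + 1) * n x.1 with hQ
  have hQ1 : Poly Q := by rw [hQ]; fun_prop
  have hQ2 : PB Q := by rw [hQ]; fun_prop
  have hG : Poly fun y : Σ x : α × Un, Fin (n x.1) => F (⟨(y.1.1, y.2), y.2.2⟩, ⟨Q y.1⟩) := by
    refine hF.comp (Poly.pair (Poly.subtype_mk (by fun_prop) _) (by fun_prop))
  set Z : α × Un → GaussianInt := fun x => ∏ i : Fin (n x.1),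
    (⟨(F (⟨(x.1, i), i.2⟩, ⟨Q x⟩)).1, (F (⟨(x.1, i), i.2⟩, ⟨Q x⟩)).2⟩ : GaussianInt) with hZ
  have hZ1 : Poly Z := Poly.prod_fin (by fun_prop) (by fun_prop) (poly_mk hG.fst hG.snd)
  have hre := poly_re hZ1
  have him := poly_im hZ1
  refine ⟨fun x => (((Z x).re : ℚ) / 2 ^ (Q x * n x.1), ((Z x).im : ℚ) / 2 ^ (Q x * n x.1)),
    by fun_prop, fun a p => ?_⟩
  set w : ℕ → ℂ := fun i => if hi : i < n a then
    (((F (⟨(a, i), hi⟩, ⟨Q (a, p)⟩)).1 : ℂ) + (F (⟨(a, i), hi⟩, ⟨Q (a, p)⟩)).2 * Complex.I) /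
      2 ^ Q (a, p) else 0 with hw
  have e : (((((Z (a, p)).re : ℚ) / 2 ^ (Q (a, p) * n a) : ℚ)) : ℂ) +
      ((((Z (a, p)).im : ℚ) / 2 ^ (Q (a, p) * n a) : ℚ) : ℂ) * Complex.I =
      ∏ i ∈ Finset.range (n a), w i := by
    push_cast
    rw [div_mul_eq_mul_div, ← add_div, ← GaussianInt.toComplex_def, hZ, map_prod,
      Finset.prod_range]
    simp only [hw, Fin.is_lt, dif_pos, GaussianInt.toComplex_def', Finset.prod_div_distrib,
      Finset.prod_const, Finset.card_univ, Fintype.card_fin, pow_mul]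
  simp only
  rw [e]
  have hd : ∀ i < n a, ‖w i - f a i‖ ≤ 2 / 2 ^ Q (a, p) := by
    intro i hi
    simp only [hw, dif_pos hi]
    rw [div_sub' (pow_ne_zero _ two_ne_zero), norm_div, norm_pow, Complex.norm_two]
    exact div_le_div_of_nonneg_right (h ⟨(a, i), hi⟩ ⟨Q (a, p)⟩) (by positivity)
  have hδ : (2 : ℝ) / 2 ^ Q (a, p) ≤ 1 := by
    rw [div_le_one (by positivity)]
    calc (2 : ℝ) = 2 ^ 1 := by norm_num
      _ ≤ _ := pow_le_pow_right₀ one_le_two (by simp only [hQ]; omega)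
  have hK1 : (1 : ℝ) ≤ 2 ^ K a := one_le_pow₀ one_le_two
  refine (norm_prod_sub_prod_le (M := 2 ^ (K a + 1)) (one_le_pow₀ one_le_two) (by positivity)
    (fun i hi => ?_) (fun i hi => (hbd a i hi).trans (pow_le_pow_right₀ one_le_two (by omega)))
    hd).trans ?_
  · have := norm_le_norm_add_norm_sub' (w i) (f a i)
    rw [pow_succ]
    linarith [hbd a i hi, hd i hi]
  · have h1 : (n a : ℝ) ≤ 2 ^ n a := by exact_mod_cast Nat.lt_two_pow_self.le
    rw [← pow_mul]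
    simp only [hQ, pow_add]
    calc _ = (n a : ℝ) / 2 ^ n a * (1 / 2 ^ p.n) := by field_simp
      _ ≤ 1 * (1 / 2 ^ p.n) := by
        gcongr
        rwa [div_le_one (by positivity)]
      _ = _ := one_mul _

theorem sum_un {n : α → ℕ} {f : α → ℕ → ℂ} (hn : Poly n) (hb : PB n)
    (hf : Apx fun x : α × Un => f x.1 x.2.n) : Apx fun a => ∑ i ∈ Finset.range (n a), f a i :=
  sum hn hb (hf.comp' (g := fun x : {x : α × ℕ // x.2 < n x.1} => (x.1.1, Un.mk x.1.2))
    (Poly.pair (by fun_prop) (Poly.unMk (by fun_prop)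
      ((hb.comp (f := fun x : {x : α × ℕ // x.2 < n x.1} => x.1.1) (by fun_prop)).mono
        fun x => x.2.le))))

theorem prod_un {n : α → ℕ} {f : α → ℕ → ℂ} (hn : Poly n) (hb : PB n)
    (hf : Apx fun x : α × Un => f x.1 x.2.n) : Apx fun a => ∏ i ∈ Finset.range (n a), f a i :=
  prod hn hb (hf.comp' (g := fun x : {x : α × ℕ // x.2 < n x.1} => (x.1.1, Un.mk x.1.2))
    (Poly.pair (by fun_prop) (Poly.unMk (by fun_prop)
      ((hb.comp (f := fun x : {x : α × ℕ // x.2 < n x.1} => x.1.1) (by fun_prop)).mono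
        fun x => x.2.le))))

@[fun_prop] theorem pow {f : α → ℂ} {n : α → ℕ} (hf : Apx f) (hn : Poly n) (hb : PB n) :
    Apx fun a => f a ^ n a :=
  (prod_un (f := fun a _ => f a) hn hb (hf.comp' (Poly.fst Poly.id'))).congr fun _ => by simp

/-- Series whose terms are bounded by `2 ^ (-j)`. -/
theorem of_hasSum {f : α → ℂ} {t : α → ℕ → ℂ} (ht : Apx fun x : α × Un => t x.1 x.2.n)
    (hs : ∀ a, HasSum (t a) (f a)) (hb : ∀ a j, ‖t a j‖ ≤ (1 / 2) ^ j) : Apx f := by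
  refine of_approx (F := fun x : α × Un => ∑ j ∈ Finset.range (x.2.n + 1), t x.1 j)
    (sum_un (by fun_prop) (by fun_prop)
      (ht.comp' (g := fun y : (α × Un) × Un => (y.1.1, y.2)) (by fun_prop))) fun a p => ?_
  refine (norm_sub_le_of_geometric_bound_of_hasSum (C := 1) (r := 1 / 2) (by norm_num)
    (fun j => by simpa using hb a j) (hs a) _).trans_eq ?_
  rw [pow_succ, one_div_pow]
  ring

theorem exp_small {f : α → ℂ} (hf : Apx f) (h : ∀ a, ‖f a‖ ≤ 1 / 2) :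
    Apx fun a => Complex.exp (f a) := by
  refine of_hasSum (t := fun a j => f a ^ j / (j.factorial : ℂ))
    (divNat (pow (hf.comp' (by fun_prop)) (by fun_prop) (by fun_prop)) (by fun_prop))
    (fun a => ?_) (fun a j => ?_)
  · rw [Complex.exp_eq_exp_ℂ]; exact NormedSpace.expSeries_div_hasSum_exp (f a)
  · rw [norm_div, norm_pow, Complex.norm_natCast]
    refine (div_le_self (by positivity) (by exact_mod_cast j.factorial_pos)).trans ?_
    exact pow_le_pow_left₀ (norm_nonneg _) (h a) j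

/-- The exponential of a polynomially bounded approximable number. -/
theorem exp {f : α → ℂ} (hf : Apx f) {B : α → ℕ} (hB : PB B) (h : ∀ a, ‖f a‖ ≤ B a) :
    Apx fun a => Complex.exp (f a) := by
  obtain ⟨K, hK, hK', hBK⟩ := hB.exists_clock
  have h1 := (exp_small (hf.divNat (q := fun a => 2 * K a + 2) (by fun_prop)) fun a => by
    have h2 : (B a : ℝ) ≤ K a := by exact_mod_cast hBK a
    rw [norm_div, Complex.norm_natCast, div_le_iff₀ (by positivity)]
    push_cast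
    linarith [h a]).pow (n := fun a => 2 * K a + 2) (by fun_prop) (by fun_prop)
  refine h1.congr fun a => ?_
  rw [← Complex.exp_nat_mul, mul_div_cancel₀]
  exact_mod_cast (by omega : 2 * K a + 2 ≠ 0)

theorem arctan_inv (m : ℕ) (hm : 2 ≤ m) :
    Apx fun _ : α => ((Real.arctan ((m : ℝ)⁻¹) : ℝ) : ℂ) := by
  have hm' : (2 : ℝ) ≤ m := by exact_mod_cast hm
  have h1 : (m : ℝ)⁻¹ ≤ 1 / 2 := by rw [one_div]; exact inv_anti₀ (by norm_num) hm'
  have h0 : (0 : ℝ) ≤ (m : ℝ)⁻¹ := by positivity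
  refine of_hasSum (t := fun _ j => (((-1) ^ j * ((m : ℚ)⁻¹) ^ (2 * j + 1) / ((2 * j + 1 : ℕ) : ℚ) :
    ℚ) : ℂ)) (ofRat (by fun_prop)) (fun _ => ?_) (fun _ j => ?_)
  · have := Complex.hasSum_ofReal.2 (Real.hasSum_arctan (x := (m : ℝ)⁻¹)
      (by rw [Real.norm_of_nonneg h0]; linarith))
    convert this using 2
    push_cast
    ring
  · rw [Complex.norm_ratCast]
    push_cast
    rw [abs_div, abs_mul, abs_pow, abs_neg, abs_one, one_pow, one_mul, abs_pow, abs_of_nonneg h0,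
      abs_of_nonneg (by positivity)]
    refine (div_le_self (by positivity) (by linarith [(Nat.cast_nonneg j : (0 : ℝ) ≤ j)])).trans ?_
    exact (pow_le_pow_left₀ h0 h1 _).trans
      (pow_le_pow_of_le_one (by norm_num) (by norm_num) (by omega))

@[fun_prop] theorem pi : Apx fun _ : α => ((Real.pi : ℝ) : ℂ) := by
  refine ((constNat 4).mul ((arctan_inv 2 le_rfl).add (arctan_inv 3 (by norm_num)))).congr
    fun _ => ?_
  have := Real.arctan_inv_2_add_arctan_inv_3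
  rw [← Complex.ofReal_add, Nat.cast_ofNat (R := ℝ), Nat.cast_ofNat (R := ℝ), this]
  push_cast
  ring

theorem expI {a : α → ℤ} {M : α → ℕ} (ha : Poly a) (hM : Poly M) (h0 : ∀ x, 0 < M x) :
    Apx fun x => Complex.exp (2 * Real.pi * Complex.I * (a x : ℤ) / (M x : ℕ)) := by
  have h1 : Apx fun x => 2 * Real.pi * Complex.I * ((a x % M x : ℤ) : ℂ) / (M x : ℕ) :=
    divNat (by fun_prop) hM
  refine (h1.exp (PB.const 8) fun x => ?_).congr fun x => ?_
  · have h2 : (0 : ℝ) < M x := by exact_mod_cast h0 x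
    have h3 : (0 : ℤ) ≤ a x % M x := Int.emod_nonneg _ (by exact_mod_cast (h0 x).ne')
    have h4 : a x % M x < M x := Int.emod_lt_of_pos _ (by exact_mod_cast h0 x)
    have h5 : ((a x % M x : ℤ) : ℝ) ≤ M x := by exact_mod_cast h4.le
    have h6 : (0 : ℝ) ≤ ((a x % M x : ℤ) : ℝ) := by exact_mod_cast h3
    simp only [norm_div, norm_mul, Complex.norm_I, Complex.norm_natCast, Complex.norm_intCast,
      Complex.norm_real, Complex.norm_two, Real.norm_of_nonneg Real.pi_pos.le, abs_of_nonneg h6]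
    rw [div_le_iff₀ h2]
    push_cast at h5 h6 ⊢
    nlinarith [Real.pi_le_four, Real.pi_pos]
  · have h2 : (M x : ℂ) ≠ 0 := by exact_mod_cast (h0 x).ne'
    have h3 : (a x : ℂ) = ((a x % M x : ℤ) : ℂ) + (M x : ℂ) * ((a x / M x : ℤ) : ℂ) := by
      exact_mod_cast (Int.emod_add_mul_ediv (a x) (M x)).symm
    have h4 : 2 * Real.pi * Complex.I * (a x : ℂ) / (M x : ℂ) =
        2 * Real.pi * Complex.I * ((a x % M x : ℤ) : ℂ) / (M x : ℂ) +
          ((a x / M x : ℤ) : ℂ) * (2 * Real.pi * Complex.I) := by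
      conv_lhs => rw [h3]
      field_simp
    rw [h4, Complex.exp_add, Complex.exp_int_mul_two_pi_mul_I, mul_one]

end Apx

end Crest.Agent.R326
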