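import Crest.Agent.R326.Bits

/-!
# Small parameters, black boxes on indices, unary/binary conversions, index fields
-/

set_option linter.unusedVariables false

namespace Crest.Agent.R326

open Function
open Crest.Agent.Lib.PolyTime

variable {ι κ : Type} {C : Ctx ι} {α β γ : Type} [PEnc α] [PEnc β] [PEnc γ] {L T g h : ι → ℕ}

/-- `g` is polynomially bounded in `L`. -/
def Sm (L g : ι → ℕ) : Prop := ∃ K k : ℕ, ∀ i, g i ≤ K * (L i + 2) ^ k

namespace Sm

theorem mono (hh : Sm L h) (le : ∀ i, g i ≤ h i) : Sm L g := by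
  obtain ⟨K, k, hK⟩ := hh
  exact ⟨K, k, fun i => (le i).trans (hK i)⟩

theorem const (c : ℕ) : Sm L fun _ => c := ⟨c, 0, by simp⟩

theorem self : Sm L L := ⟨1, 1, by simp⟩

theorem add (hg : Sm L g) (hh : Sm L h) : Sm L fun i => g i + h i := by
  obtain ⟨K, k, hK⟩ := hg
  obtain ⟨K', k', hK'⟩ := hh
  refine ⟨K + K', k + k', fun i => ?_⟩
  have h1 := Nat.mul_le_mul_left K (Nat.pow_le_pow_right (show 0 < L i + 2 by omega)
    (Nat.le_add_right k k'))
  have h2 := Nat.mul_le_mul_left K' (Nat.pow_le_pow_right (show 0 < L i + 2 by omega)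
    (Nat.le_add_left k' k))
  have := hK i
  have := hK' i
  simp only [Nat.add_mul]; omega

theorem mul (hg : Sm L g) (hh : Sm L h) : Sm L fun i => g i * h i := by
  obtain ⟨K, k, hK⟩ := hg
  obtain ⟨K', k', hK'⟩ := hh
  exact ⟨K * K', k + k', fun i => (Nat.mul_le_mul (hK i) (hK' i)).trans (by rw [pow_add]; ring_nf; rfl)⟩

theorem pow (hg : Sm L g) (c : ℕ) : Sm L fun i => g i ^ c := by
  induction c with
  | zero => simpa using const 1
  | succ c ih => simpa [pow_succ] using ih.mul hg

theorem comap (hg : Sm L g) (φ : κ → ι) : Sm (fun k => L (φ k)) fun k => g (φ k) := by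
  obtain ⟨K, k, hK⟩ := hg
  exact ⟨K, k, fun i => hK _⟩

theorem trans {L' : ι → ℕ} (hg : Sm L g) (hL : Sm L' L) : Sm L' g := by
  obtain ⟨K, k, hK⟩ := hg
  exact ((const K).mul ((hL.add (const 2)).pow k)).mono hK

theorem pb {x : ι → α} {f : α → ℕ} (hf : PB f) (hx : Sm L fun i => sz (x i)) :
    Sm L fun i => f (x i) := by
  obtain ⟨p, hp⟩ := hf
  obtain ⟨c, K, h⟩ := R.eval_le_pow p
  exact ((const K).mul (hx.pow c)).mono fun i => (hp _).trans (h _ (one_le_sz _))

theorem poly {x : ι → α} {f : α → β} (hf : Poly f) (hx : Sm L fun i => sz (x i)) :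
    Sm L fun i => sz (f (x i)) := pb (f := fun a => sz (f a)) hf.pb_sz hx

theorem pair {x : ι → α} {y : ι → β} (hx : Sm L fun i => sz (x i)) (hy : Sm L fun i => sz (y i)) :
    Sm L fun i => sz (x i, y i) := ((hx.add hy).add (const 1)).mono fun i => by simp

theorem sz_of_le (hh : Sm L fun i => sz (h i)) (le : ∀ i, g i ≤ h i) : Sm L fun i => sz (g i) :=
  ((const 4).mul hh).mono fun i => sz_le_of_le (le i)

theorem sz_of_lt_two_pow (hh : Sm L h) (le : ∀ i, g i < 2 ^ h i) : Sm L fun i => sz (g i) :=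
  (((const 4).mul hh).add (const 1)).mono fun i => sz_le_of_lt_two_pow (le i)

theorem sz_of_sm (hg : Sm L g) : Sm L fun i => sz (g i) :=
  hg.sz_of_lt_two_pow fun i => Nat.lt_two_pow_self

theorem sz_un (hg : Sm L g) : Sm L fun i => sz (Un.mk (g i)) :=
  (((const 2).mul hg).add (const 1)).mono fun i => by rw [Lib.PolyTime.sz_un]

theorem of_un (hg : Sm L fun i => sz (Un.mk (g i))) : Sm L g :=
  hg.mono fun i => by rw [Lib.PolyTime.sz_un]; simp only; omega

end Sm

/-- `T` black-box evaluations on data of size polynomial in `L` are admissible. -/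
def Ctx.PD (C : Ctx ι) (T L : ι → ℕ) : Prop :=
  ∀ c : ℕ, C.Dom fun i => (((T i + 1) * (L i + 2) ^ c : ℕ) : ℝ)

namespace Ctx.PD

theorem dom (hP : C.PD T L) (hg : Sm L g) : C.Dom fun i => (((T i + 1) * g i : ℕ) : ℝ) := by
  obtain ⟨K, k, hK⟩ := hg
  refine (hP k).mono_mul K (by positivity) fun i => ?_
  have := Nat.mul_le_mul_left (T i + 1) (hK i)
  rw [Nat.mul_left_comm] at this
  exact_mod_cast this

theorem dom' (hP : C.PD T L) (hg : Sm L g) : C.Dom fun i => (T i : ℝ) * g i :=
  (hP.dom hg).mono fun i => by push_cast; nlinarith [(by positivity : (0 : ℝ) ≤ g i)]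

theorem dom₁ (hP : C.PD T L) (hg : Sm L g) : C.Dom fun i => g i :=
  (hP.dom hg).mono fun i => by
    push_cast; nlinarith [(by positivity : (0 : ℝ) ≤ g i), (by positivity : (0 : ℝ) ≤ T i)]

theorem dom_T (hP : C.PD T L) : C.Dom fun i => T i := by simpa using hP.dom' (Sm.const 1)

/-- Change of the number of evaluations and of the size parameter. -/
theorem mono {T' L' : ι → ℕ} (hP : C.PD T L) (hg : Sm L g) (hT : ∀ i, T' i ≤ (T i + 1) * g i)
    (hL : Sm L L') : C.PD T' L' := fun c =>
  (hP.dom ((hg.add (Sm.const 1)).mul ((hL.add (Sm.const 2)).pow c))).mono fun i => by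
    have := hT i
    norm_cast
    rw [← Nat.mul_assoc]
    exact Nat.mul_le_mul_right _ (by nlinarith)

theorem of_le {T' : ι → ℕ} (hP : C.PD T L) (hT : ∀ i, T' i ≤ T i) : C.PD T' L :=
  hP.mono (Sm.const 1) (fun i => by have := hT i; omega) Sm.self

theorem comap (hP : C.PD T L) (φ : κ → ι) :
    (C.comap φ).PD (fun k => T (φ k)) fun k => L (φ k) := fun c => (hP c).comap φ

theorem re (hP : C.PD T L) (x : ι → α) : (C.re x).PD T L := hP

/-- Inside a loop over `n` positions each handling `T'` items, with `n * (T' + 1) = O(T + 1)`. -/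
theorem pos {n T' : ι → ℕ} (hP : C.PD T L) (hg : Sm L g)
    (hn : ∀ i, n i * (T' i + 1) ≤ (T i + 1) * g i) (x : ι → ℕ → α) :
    (C.pos n x).PD (fun p => T' p.1) fun p => L p.1 := fun c =>
  Ctx.dom_pos_unif (β := fun i => (((T' i + 1) * (L i + 2) ^ c : ℕ) : ℝ))
    ((hP.dom (hg.mul ((Sm.self.add (Sm.const 2)).pow c))).mono fun i => by
      norm_cast
      rw [← Nat.mul_assoc, ← Nat.mul_assoc]
      exact Nat.mul_le_mul_right _ (hn i)) (fun _ => by positivity) fun _ => le_rfl

theorem pos₀ (hP : C.PD T L) (x : ι → ℕ → α) : (C.pos T x).PD (fun _ => 0) fun p => L p.1 :=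
  hP.pos (T' := fun _ => 0) (Sm.const 1) (fun i => by omega) x

end Ctx.PD

/-- Small computable data. -/
structure SC (C : Ctx ι) (L : ι → ℕ) (x : ι → α) : Prop where
  r : R C x
  sm : Sm L fun i => sz (x i)

namespace SC
variable {x : ι → α} {y : ι → β}

theorem pair (hx : SC C L x) (hy : SC C L y) : SC C L fun i => (x i, y i) :=
  ⟨hx.r.pair hy.r, hx.sm.pair hy.sm⟩

theorem fst {x : ι → α × β} (hx : SC C L x) : SC C L fun i => (x i).1 :=
  ⟨hx.r.fst, hx.sm.mono fun i => sz_fst_le _⟩

theorem snd {x : ι → α × β} (hx : SC C L x) : SC C L fun i => (x i).2 :=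
  ⟨hx.r.snd, hx.sm.mono fun i => sz_snd_le _⟩

theorem const [C.Ok] (b : β) : SC C L fun _ => b := ⟨R.const b, Sm.const _⟩

theorem congr {z : ι → α} (hx : SC C L x) (e : ∀ i, z i = x i) : SC C L z := funext e ▸ hx

theorem of_enc (hx : SC C L x) (e : ∀ i, enc (y i) = enc (x i)) : SC C L y :=
  ⟨hx.r.of_enc e, hx.sm.mono fun i => by unfold sz; rw [e i]⟩

theorem comap (hx : SC C L x) (φ : κ → ι) :
    SC (C.comap φ) (fun k => L (φ k)) fun k => x (φ k) := ⟨hx.r.comap φ, hx.sm.comap φ⟩

/-- A polynomial-time black box on small data. -/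
theorem poly (hP : C.PD T L) {f : α → β} (hf : Poly f) (hx : SC C L x) :
    SC C L fun i => f (x i) :=
  ⟨R.poly hf hx.r fun c => by simpa using hP.dom₁ (hx.sm.pow c), hx.sm.poly hf⟩

end SC

/-- The table of a polynomial-time function of the index. -/
theorem R.tabPoly (hP : C.PD T L) (hT : R C fun i => Un.mk (T i)) (hsT : Sm L fun i => sz (T i))
    {par : ι → γ} (hp : SC C L par) {f : γ × ℕ → β} (hf : Poly f) :
    R C fun i => tab (T i) fun k => f (par i, k) := by
  have := hT.isOk
  have hs : Sm (fun p : Σ i, Fin (T i) => L p.1) fun p => sz (par p.1, (p.2 : ℕ)) :=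
    (hp.sm.comap _).pair ((hsT.comap _).sz_of_le fun p => p.2.2.le)
  refine (R.accum (s := fun i k => (par i, k)) (hp.r.pair (R.const 0)) hT.unTab
    (Ctx.dom_sum_unif (hP.dom' ((hp.sm.add ((Sm.const 4).mul hsT)).add (Sm.const 1)))
      fun i k hk => ?_) fun h₁ _ => ?_).snd
  · have := sz_le_of_le hk.le
    simp only [sz_pair]; norm_cast; omega
  · have h := SC.mk h₁ hs
    exact ((h.poly (hP.pos₀ _) (f := fun q => (q.1, q.2 + 1)) (by fun_prop)).pair
      (h.poly (hP.pos₀ _) hf)).r

theorem sum_div_two_pow_le (n m : ℕ) : ∑ k ∈ Finset.range m, n / 2 ^ (m - k) ≤ n := by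
  induction m generalizing n with
  | zero => simp
  | succ m ih =>
    rw [Finset.sum_range_succ]
    have h : ∀ k ∈ Finset.range m, n / 2 ^ (m + 1 - k) = n / 2 / 2 ^ (m - k) := fun k hk => by
      have := Finset.mem_range.1 hk
      rw [Nat.div_div_eq_div_mul, ← pow_succ', show m + 1 - k = m - k + 1 by omega]
    rw [Finset.sum_congr rfl h]
    have := ih (n / 2)
    simp; omega

theorem bits_eq_tab (n : ℕ) : n.bits = tab n.size n.testBit := by
  apply List.ext_getElem
  · simp [Nat.size_eq_bits_len]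
  · intro k h1 h2
    simp [Nat.testBit_eq_inth, List.getI_eq_getElem _ h1]

/-- Binary to unary in linear time. -/
theorem R.toUn {n : ι → ℕ} (hn : R C n) (hD : C.Dom fun i => n i) : R C fun i => Un.mk (n i) := by
  have := hn.isOk
  have h1 : R C fun i => (n i).bits := hn.of_enc fun _ => rfl
  have h2 : R C fun i => tab (n i).size fun k => (n i).testBit ((n i).size - 1 - k) :=
    h1.reverse.congr fun i => by rw [bits_eq_tab, reverse_tab]
  have h3 := R.iter (s := fun i k => Un.mk (n i / 2 ^ ((n i).size - k)))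
    ((R.const (Un.mk 0)).congr fun i => by simp [Nat.lt_size_self]) h2
    (((hD.smul (K := 2) (by norm_num)).add h2.dom_length).mono fun i => by
      have := sum_div_two_pow_le (n i) (n i).size
      simp only [sz_un, length_tab]
      norm_cast
      rw [Finset.sum_add_distrib, ← Finset.mul_sum]
      simp; omega) fun h₁ h₂ => by
    have := h₁.isOk
    refine ((h₁.unAdd h₁).unAdd (n := fun p => bif (n p.1).testBit ((n p.1).size - 1 - p.2) then 1 else 0)
      ((h₂.cond (R.const (Un.mk 1)) (R.const (Un.mk 0))).congr fun p => by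
        cases (n p.1).testBit _ <;> rfl)).congr fun p => ?_
    have hk := p.2.2
    obtain ⟨e, he⟩ : ∃ e, (n p.1).size - p.2 = e + 1 := ⟨(n p.1).size - p.2 - 1, by omega⟩
    rw [he, show (n p.1).size - (p.2 + 1) = e by omega, show (n p.1).size - 1 - p.2 = e by omega,
      Nat.testBit_eq_decide_div_mod_eq, pow_succ, ← Nat.div_div_eq_div_mul]
    congr 1
    rcases Nat.mod_two_eq_zero_or_one (n p.1 / 2 ^ e) with h | h <;> simp [h] <;> omega
  simpa using h3

theorem SC.un (hP : C.PD T L) {n : ι → ℕ} (hn : R C n) (hs : Sm L n) :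
    SC C L fun i => Un.mk (n i) := ⟨hn.toUn (hP.dom₁ hs), hs.sz_un⟩

theorem R.halve {n : ι → ℕ} (hn : R C fun i => Un.mk (n i)) :
    R C fun i => ((n i).bodd, Un.mk (n i / 2)) := by
  have := hn.isOk
  have h := R.accum (s := fun i k => k.bodd) (b := fun i k => bif k.bodd then [()] else [])
    (R.const false) hn.unTab (hn.unTab.dom_states 3 fun _ _ => sz_bool_le _) fun h₁ _ => by
      have := h₁.isOk
      simp only [Nat.bodd_succ]
      rp
  refine (h.fst.pair h.snd.flatten.lenUn).congr fun i => ?_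
  congr 2
  generalize n i = m
  induction m with
  | zero => rfl
  | succ m ih =>
    rw [tab_succ, List.flatten_append, List.length_append, ← ih]
    have := Nat.bodd_add_div2 m
    rw [Nat.div2_val] at this
    cases h : m.bodd <;> simp [h] at this ⊢ <;> omega

/-- Unary to binary in linear time. -/
theorem R.lenBin {n : ι → ℕ} (hn : R C fun i => Un.mk (n i)) : R C n := by
  have key : R (Ctx.of (fun m : ℕ => Un.mk m) fun _ m => m + 1) fun m => m := by
    set D := Ctx.of (fun m : ℕ => Un.mk m) fun _ m => (m : ℝ) + 1 with hD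
    have h0 : R D fun m => Un.mk m := R.of_self 0 2 (by norm_num) fun m => by simp [sz_un]; linarith
    have := h0.isOk
    refine J.knot (C := D) (cnt := fun m => if m = 0 then 0 else 1)
      (sub := fun m k => m ≠ 0 ∧ k = m / 2) (fun m => m) (fun m k h => by omega) ?_ D
      (fun _ => rfl) fun G hG => ?_
    · refine JS.cond (c := fun m => (tab m fun _ => ()).isEmpty) h0.unTab.isEmpty ?_ ?_
      · refine (((R.const (0 : ℕ)).congr fun m => ?_).js _ _).mono (fun _ _ _ h => h)
          fun _ => by positivity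
        have := m.2
        cases h : m.1 <;> simp_all [tab_succ']
      · have hne : ∀ m : {m : ℕ // (tab m fun _ => ()).isEmpty = false}, m.1 ≠ 0 := fun m h => by
          have := m.2; simp [h] at this
        have h1 := (h0.comap (Subtype.val : {m : ℕ // (tab m fun _ => ()).isEmpty = false} → ℕ)).halve
        refine ((JS.pair_l h1.fst (JS.call (y := fun m => m.1 / 2) h1.snd
          (h1.snd.dom_un.mono_mul 4 (by norm_num) fun m => ?_)
          fun m => ⟨m.1 / 2, ⟨hne m, rfl⟩, rfl, rfl⟩)).of_enc fun m => ?_).mono (fun _ _ _ h => h)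
          fun m => by simp [hne m]
        · have : (sz (m.1 / 2) : ℝ) ≤ 4 * (m.1 / 2 : ℕ) + 1 := by exact_mod_cast sz_le_self _
          linarith
        · have e := Nat.bit_bodd_div2 m.1
          conv_lhs => rw [← e, enc_nat, Nat.bits_append_bit _ _ (by
            intro h; have := hne m; by_contra hb; rw [h] at e; simp at hb; simp [hb] at e; omega)]
          rw [Nat.div2_val]; rfl
    · obtain ⟨c, K, hK, hG⟩ := Ctx.dom_of_elim (fun _ _ => by positivity) (fun _ _ => le_rfl) hG
      refine ⟨fun m => K * (4 * m + 1), fun m => K * (2 * m + 1), (Ctx.dom_of _ 0).mono_mul (4 * K)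
        (by positivity) fun m => by nlinarith, fun _ => by positivity, ?_, fun m => ?_⟩
      · rintro m _ ⟨_, rfl⟩
        have : ((m / 2 : ℕ) : ℝ) ≤ m / 2 := Nat.cast_div_le
        exact mul_le_mul_of_nonneg_left (by linarith) hK
      · have := hG m
        split_ifs with h
        · subst h; simpa using this
        · have : (1 : ℝ) ≤ m := by exact_mod_cast Nat.pos_of_ne_zero h
          nlinarith
  exact key.use n hn fun _ => hn.dom_un

/-! ### Fields of an index -/

/-- The digit of `j` of weight `S` and radix `Q`. -/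
def fld (S Q j : ℕ) : ℕ := j / S % Q

/-- Replace that digit by `y`. -/
def setF (S Q j y : ℕ) : ℕ := (j / (S * Q) * Q + y) * S + j % S

theorem poly_fld : Poly fun p : ℕ × ℕ × ℕ => fld p.1 p.2.1 p.2.2 := by unfold fld; fun_prop

@[fun_prop] theorem Poly.fld {S Q j : α → ℕ} (hS : Poly S) (hQ : Poly Q) (hj : Poly j) :
    Poly fun a => fld (S a) (Q a) (j a) := by unfold R326.fld; fun_prop

@[fun_prop] theorem Poly.setF {S Q j y : α → ℕ} (hS : Poly S) (hQ : Poly Q) (hj : Poly j)
    (hy : Poly y) : Poly fun a => setF (S a) (Q a) (j a) (y a) := by unfold R326.setF; fun_prop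

section fields
variable {S Q j y : ℕ}

theorem fld_lt (hQ : 0 < Q) : fld S Q j < Q := Nat.mod_lt _ hQ

theorem setF_mod (hS : 0 < S) : setF S Q j y % S = j % S := by
  simp [setF, Nat.add_mod]

theorem setF_div (hS : 0 < S) : setF S Q j y / S = j / (S * Q) * Q + y := by
  rw [setF, Nat.add_comm, Nat.add_mul_div_right _ _ hS, Nat.div_eq_of_lt (Nat.mod_lt _ hS),
    Nat.zero_add]

theorem fld_setF (hS : 0 < S) (hy : y < Q) : fld S Q (setF S Q j y) = y := by
  rw [fld, setF_div hS, Nat.add_comm, Nat.add_mul_mod_self_right, Nat.mod_eq_of_lt hy]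

theorem setF_div_mul (hS : 0 < S) (hy : y < Q) : setF S Q j y / (S * Q) = j / (S * Q) := by
  rw [← Nat.div_div_eq_div_mul, setF_div hS, Nat.add_comm,
    Nat.add_mul_div_right _ _ (by omega), Nat.div_eq_of_lt hy, Nat.zero_add]

theorem setF_fld : setF S Q j (fld S Q j) = j := by
  rw [setF, fld, ← Nat.div_div_eq_div_mul, Nat.mul_comm (j / S / Q), Nat.div_add_mod,
    Nat.mul_comm, Nat.div_add_mod]

theorem setF_setF {y' : ℕ} (hS : 0 < S) (hy : y < Q) :
    setF S Q (setF S Q j y) y' = setF S Q j y' := by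
  rw [setF, setF_div_mul hS hy, setF_mod hS]; rfl

theorem setF_lt {H : ℕ} (hS : 0 < S) (hy : y < Q) (hj : j < H * Q * S) :
    setF S Q j y < H * Q * S := by
  have h1 : j / (S * Q) < H := Nat.div_lt_of_lt_mul (by nlinarith)
  have h2 := Nat.mod_lt j hS
  have h3 : j / (S * Q) * Q + y + 1 ≤ H * Q := by nlinarith
  unfold setF
  nlinarith

/-- An index is determined by its three parts. -/
theorem idx_ext {j' : ℕ} (h₁ : j % S = j' % S) (h₂ : fld S Q j = fld S Q j')
    (h₃ : j / (S * Q) = j' / (S * Q)) : j = j' := by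
  rw [← setF_fld (S := S) (Q := Q) (j := j), ← setF_fld (S := S) (Q := Q) (j := j'), h₂, setF, setF,
    h₁, h₃]

/-- A lower field is not changed. -/
theorem fld_setF_low {S₀ Q₀ : ℕ} (hS : 0 < S) (h : S₀ * Q₀ ∣ S) :
    fld S₀ Q₀ (setF S Q j y) = fld S₀ Q₀ j := by
  unfold fld
  rw [← Nat.mod_mul_right_div_self, ← Nat.mod_mul_right_div_self, ← Nat.mod_mod_of_dvd _ h,
    setF_mod hS, Nat.mod_mod_of_dvd _ h]

/-- A higher field is not changed. -/
theorem fld_setF_high {S₀ Q₀ : ℕ} (hS : 0 < S) (hy : y < Q) (h : S * Q ∣ S₀) :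
    fld S₀ Q₀ (setF S Q j y) = fld S₀ Q₀ j := by
  obtain ⟨t, rfl⟩ := h
  unfold fld
  rw [← Nat.div_div_eq_div_mul, setF_div_mul hS hy, Nat.div_div_eq_div_mul]

/-- A subfield is a field of the field. -/
theorem fld_fld {A B : ℕ} (h : A * B ∣ Q) : fld A B (fld S Q j) = fld (S * A) B j := by
  unfold fld
  rw [← Nat.mod_mul_right_div_self, Nat.mod_mod_of_dvd _ h, Nat.mod_mul_right_div_self,
    Nat.div_div_eq_div_mul]

end fields

end Crest.Agent.R326
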