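import Crest.Agent.R326.Lists

/-!
# Fixed-width binary numbers (least significant bit first) and linear-time arithmetic
-/

set_option linter.unusedVariables false

namespace Crest.Agent.R326

open Function
open Crest.Agent.Lib.PolyTime

/-- The `w` low bits of `n`. -/
def bits (w n : ℕ) : List Bool := tab w n.testBit

/-- The `w` low bits of an integer in two's complement. -/
def ibits (w : ℕ) (z : ℤ) : List Bool := bits w (z % 2 ^ w).toNat

/-- The value of a bit list. -/
def bval : List Bool → ℕ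
  | [] => 0
  | b :: l => b.toNat + 2 * bval l

@[simp] theorem length_bits (w n : ℕ) : (bits w n).length = w := length_tab _ _
@[simp] theorem length_ibits (w : ℕ) (z : ℤ) : (ibits w z).length = w := length_tab _ _

theorem bits_congr {w m n : ℕ} (h : m % 2 ^ w = n % 2 ^ w) : bits w m = bits w n :=
  tab_congr fun k hk => by
    have := congrArg (fun x => x.testBit k) h
    simpa [Nat.testBit_mod_two_pow, hk] using this

theorem bits_mod (w n : ℕ) : bits w (n % 2 ^ w) = bits w n := bits_congr (Nat.mod_mod _ _)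

theorem bits_succ (w n : ℕ) : bits (w + 1) n = n.testBit 0 :: bits w (n / 2) := by
  rw [bits, tab_succ']; simp [bits, Nat.testBit_succ]

theorem bval_bits (w n : ℕ) : bval (bits w n) = n % 2 ^ w := by
  induction w generalizing n with
  | zero => simp [bits, bval, Nat.mod_one]
  | succ w ih =>
    rw [bits_succ, bval, ih, pow_succ', Nat.mod_mul]
    rcases Nat.mod_two_eq_zero_or_one n with h | h <;> simp [h]

theorem bval_lt (l : List Bool) : bval l < 2 ^ l.length := by
  induction l with
  | nil => simp [bval]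
  | cons b l ih => cases b <;> simp [bval, pow_succ] <;> omega

theorem bits_bval (l : List Bool) : bits l.length (bval l) = l := by
  induction l with
  | nil => rfl
  | cons b l ih =>
    rw [List.length_cons, bits_succ, bval]
    have : (b.toNat + 2 * bval l) / 2 = bval l := by cases b <;> simp <;> omega
    rw [this, ih]
    cases b <;> simp [Nat.add_mod]

theorem bits_add (a b n : ℕ) : bits (a + b) n = bits a n ++ bits b (n / 2 ^ a) := by
  rw [bits, tab_add]
  congr 1
  exact tab_congr fun k _ => by rw [Nat.testBit_div_two_pow, Nat.add_comm]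

theorem take_bits {a w : ℕ} (n : ℕ) (h : a ≤ w) : (bits w n).take a = bits a n := by
  obtain ⟨b, rfl⟩ := Nat.exists_eq_add_of_le h
  rw [bits_add, List.take_left' (by simp)]

theorem drop_bits (a w n : ℕ) : (bits w n).drop a = bits (w - a) (n / 2 ^ a) := by
  rcases le_total a w with h | h
  · obtain ⟨b, rfl⟩ := Nat.exists_eq_add_of_le h
    rw [bits_add, List.drop_left' (by simp), Nat.add_sub_cancel_left]
  · rw [List.drop_eq_nil_of_le (by simpa), Nat.sub_eq_zero_of_le h]; rfl

theorem bits_append {a b m n : ℕ} (h : m < 2 ^ a) :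
    bits a m ++ bits b n = bits (a + b) (m + 2 ^ a * n) := by
  rw [bits_add, Nat.add_mul_div_left _ _ (by positivity), Nat.div_eq_of_lt h, Nat.zero_add]
  congr 1
  exact bits_congr (by simp)

theorem bits_zero (w : ℕ) : bits w 0 = List.replicate w false := by
  apply List.ext_getElem <;> simp [bits]

theorem bits_ones (w : ℕ) : bits w (2 ^ w - 1) = List.replicate w true := by
  apply List.ext_getElem <;> simp +contextual [bits, Nat.testBit_two_pow_sub_one]

theorem bits_inj {w m n : ℕ} (h : bits w m = bits w n) : m % 2 ^ w = n % 2 ^ w := by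
  rw [← bval_bits, h, bval_bits]

theorem map_not_bits {w n : ℕ} (h : n < 2 ^ w) : (bits w n).map not = bits w (2 ^ w - 1 - n) := by
  rw [bits, map_tab]
  refine tab_congr fun k hk => ?_
  rw [Nat.sub_sub, Nat.add_comm, Nat.testBit_two_pow_sub_succ h]
  simp [hk]

theorem ibits_eq {w n : ℕ} {z : ℤ} (h : (n : ℤ) ≡ z [ZMOD 2 ^ w]) : ibits w z = bits w n := by
  refine bits_congr ?_
  have h0 : (0 : ℤ) ≤ z % 2 ^ w := Int.emod_nonneg _ (by positivity)
  zify
  rw [Int.toNat_of_nonneg h0, Int.emod_emod_of_dvd _ dvd_rfl]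
  exact h.symm

theorem ibits_nat (w n : ℕ) : ibits w n = bits w n := ibits_eq rfl

theorem ibits_congr {w : ℕ} {y z : ℤ} (h : y ≡ z [ZMOD 2 ^ w]) : ibits w y = ibits w z := by
  unfold ibits; rw [h]

theorem toNat_emod_modEq (w : ℕ) (z : ℤ) : (((z % 2 ^ w).toNat : ℕ) : ℤ) ≡ z [ZMOD 2 ^ w] := by
  rw [Int.toNat_of_nonneg (Int.emod_nonneg _ (by positivity))]
  exact Int.mod_modEq _ _

theorem toNat_emod_lt (w : ℕ) (z : ℤ) : (z % 2 ^ w).toNat < 2 ^ w := by
  have := Int.emod_lt_of_pos z (show (0 : ℤ) < 2 ^ w by positivity)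
  have h0 : (0 : ℤ) ≤ z % 2 ^ w := Int.emod_nonneg _ (by positivity)
  zify
  rwa [Int.toNat_of_nonneg h0]

theorem map_not_ibits (w : ℕ) (z : ℤ) : (ibits w z).map not = ibits w (-z - 1) := by
  have h := toNat_emod_lt w z
  rw [ibits, map_not_bits h]
  refine (ibits_eq ?_).symm
  rw [Nat.sub_sub, Nat.cast_sub (by omega)]
  push_cast
  have := ((Int.modEq_zero_iff_dvd.2 (dvd_refl ((2 : ℤ) ^ w))).sub
    ((Int.ModEq.refl 1).add (toNat_emod_modEq w z)))
  convert this using 1
  ring

theorem take_ibits {a w : ℕ} (z : ℤ) (h : a ≤ w) : (ibits w z).take a = ibits a z := by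
  rw [ibits, take_bits _ h]
  exact (ibits_eq ((toNat_emod_modEq w z).of_dvd (pow_dvd_pow 2 h))).symm

theorem drop_ibits (a b : ℕ) (z : ℤ) : (ibits (a + b) z).drop a = ibits b (z / 2 ^ a) := by
  rw [ibits, drop_bits, Nat.add_sub_cancel_left]
  refine (ibits_eq ?_).symm
  obtain ⟨k, hk⟩ := (toNat_emod_modEq (a + b) z).dvd
  push_cast
  generalize (((z % 2 ^ (a + b)).toNat : ℕ) : ℤ) = y at hk
  have : z = y + 2 ^ a * (2 ^ b * k) := by rw [pow_add] at hk; linarith
  rw [this, Int.add_mul_ediv_left _ _ (by positivity)]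
  exact (Int.modEq_iff_dvd.2 ⟨k, by ring⟩)

theorem ibits_add (a b : ℕ) (z : ℤ) : ibits (a + b) z = ibits a z ++ ibits b (z / 2 ^ a) := by
  rw [← drop_ibits, ← take_ibits z (Nat.le_add_right a b), List.take_append_drop]

theorem ibits_zero (w : ℕ) : ibits w 0 = List.replicate w false := by
  rw [← bits_zero, ← ibits_nat]; rfl

theorem ibits_neg_one (w : ℕ) : ibits w (-1) = List.replicate w true := by
  have := map_not_ibits w 0
  rw [ibits_zero] at this
  simpa using this.symm

/-- Sign extension. -/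
theorem ibits_extend {w : ℕ} (s : ℕ) {z : ℤ} (h₁ : -2 ^ w ≤ z) (h₂ : z < 2 ^ w) :
    ibits (w + s) z = ibits w z ++ List.replicate s (decide (z < 0)) := by
  rw [ibits_add]
  congr 1
  by_cases hz : z < 0
  · have : z / 2 ^ w = -1 := by
      rw [Int.ediv_eq_iff_of_pos (by positivity)]; constructor <;> linarith
    rw [this, ibits_neg_one]; simp [hz]
  · rw [Int.ediv_eq_zero_of_lt (by linarith) h₂, ibits_zero]; simp [hz]

theorem ibits_shift (a b : ℕ) (z : ℤ) :
    ibits (a + b) (2 ^ a * z) = List.replicate a false ++ ibits b z := by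
  rw [ibits_add, Int.mul_ediv_cancel_left _ (by positivity), ← ibits_zero]
  congr 1
  exact ibits_congr (Int.modEq_zero_iff_dvd.2 (dvd_mul_right _ _))

theorem sz_bits_le (w n : ℕ) : sz (bits w n) ≤ 4 * w + 1 := by
  simpa using sz_listBool_le (bits w n)

theorem sz_ibits_le (w : ℕ) (z : ℤ) : sz (ibits w z) ≤ 4 * w + 1 := sz_bits_le _ _

/-- The carry into position `k`. -/
def carry (m n : ℕ) (c : Bool) (k : ℕ) : Bool := decide (2 ^ k ≤ m % 2 ^ k + n % 2 ^ k + c.toNat)

theorem carry_step (m n : ℕ) (c : Bool) (k : ℕ) :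
    carry m n c (k + 1) = (cond (carry m n c k) (m.testBit k || n.testBit k)
      (m.testBit k && n.testBit k)) ∧
    (m + n + c.toNat).testBit k = xor (carry m n c k) (xor (m.testBit k) (n.testBit k)) := by
  have hP : 0 < 2 ^ k := by positivity
  have h1 := Nat.mod_lt m hP
  have h2 := Nat.mod_lt n hP
  have h3 : c.toNat ≤ 1 := Bool.toNat_le c
  have e : (m + n + c.toNat) / 2 ^ k = m / 2 ^ k + n / 2 ^ k +
      (m % 2 ^ k + n % 2 ^ k + c.toNat) / 2 ^ k := by
    conv_lhs => rw [← Nat.div_add_mod m (2 ^ k), ← Nat.div_add_mod n (2 ^ k)]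
    rw [show 2 ^ k * (m / 2 ^ k) + m % 2 ^ k + (2 ^ k * (n / 2 ^ k) + n % 2 ^ k) + c.toNat =
      (m % 2 ^ k + n % 2 ^ k + c.toNat) + 2 ^ k * (m / 2 ^ k + n / 2 ^ k) by ring,
      Nat.add_mul_div_left _ _ hP]
    ring
  simp only [carry, Nat.testBit_eq_decide_div_mod_eq, e, Nat.mod_pow_succ]
  rw [pow_succ]
  generalize m / 2 ^ k = a, n / 2 ^ k = b, m % 2 ^ k = x, n % 2 ^ k = y, c.toNat = z at *
  by_cases hc : 2 ^ k ≤ x + y + z
  · have : (x + y + z) / 2 ^ k = 1 := by
      rw [Nat.div_eq_iff hP]; omega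
    rw [this]
    generalize 2 ^ k = P at *
    rcases Nat.mod_two_eq_zero_or_one a with ha | ha <;>
      rcases Nat.mod_two_eq_zero_or_one b with hb | hb <;> simp [ha, hb, hc] <;> omega
  · rw [Nat.div_eq_of_lt (not_le.1 hc)]
    generalize 2 ^ k = P at *
    rcases Nat.mod_two_eq_zero_or_one a with ha | ha <;>
      rcases Nat.mod_two_eq_zero_or_one b with hb | hb <;> simp [ha, hb, hc] <;> omega

variable {ι : Type} {C : Ctx ι} {α β γ : Type} [PEnc α] [PEnc β] [PEnc γ]

theorem R.dom_states {T : ι → ℕ} {a : ι → ℕ → α} {s : ι → ℕ → γ} (B : ℕ)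
    (hl : R C fun i => tab (T i) (a i)) (hs : ∀ i k, sz (s i k) ≤ B) :
    C.Dom fun i => ∑ k ∈ Finset.range (T i), (sz (s i k) : ℝ) :=
  Ctx.dom_sum_unif (β := fun _ => B) (hl.dom_length.mono_mul B (by positivity) fun i => by
    simp; nlinarith [(by positivity : (0 : ℝ) ≤ B)]) fun i k _ => by exact_mod_cast hs i k

/-- Addition with carry in and carry out. -/
theorem R.addc {w m n : ι → ℕ} {c : ι → Bool} (hc : R C c) (hm : R C fun i => bits (w i) (m i))
    (hn : R C fun i => bits (w i) (n i)) :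
    R C fun i => (carry (m i) (n i) (c i) (w i), bits (w i) (m i + n i + (c i).toNat)) := by
  have hz := R.zipTab hm hn
  refine R.accum (s := fun i k => carry (m i) (n i) (c i) k)
    (hc.congr fun i => by cases c i <;> simp [carry, Nat.mod_one]) hz
    (hz.dom_states 3 fun _ _ => sz_bool_le _) fun h₁ h₂ => ?_
  have h3 := h₂.fst
  have h4 := h₂.snd
  simp only [(carry_step _ _ _ _).1, (carry_step _ _ _ _).2] at h3 h4 ⊢
  rp

theorem R.addBits {w m n : ι → ℕ} (hm : R C fun i => bits (w i) (m i))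
    (hn : R C fun i => bits (w i) (n i)) : R C fun i => bits (w i) (m i + n i) :=
  (R.addc (c := fun _ => false) (R.const (h := hm.isOk) _) hm hn).snd

theorem R.addI {w : ι → ℕ} {x y : ι → ℤ} (hx : R C fun i => ibits (w i) (x i))
    (hy : R C fun i => ibits (w i) (y i)) : R C fun i => ibits (w i) (x i + y i) :=
  (R.addBits hx hy).congr fun i => ibits_eq (by
    push_cast; exact (toNat_emod_modEq _ _).add (toNat_emod_modEq _ _))

theorem R.notI {w : ι → ℕ} {x : ι → ℤ} (hx : R C fun i => ibits (w i) (x i)) :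
    R C fun i => ibits (w i) (-x i - 1) :=
  (R.map (f := fun b => !b) (by rp) hx).congr fun i => (map_not_ibits _ _).symm

theorem R.subI {w : ι → ℕ} {x y : ι → ℤ} (hx : R C fun i => ibits (w i) (x i))
    (hy : R C fun i => ibits (w i) (y i)) : R C fun i => ibits (w i) (x i - y i) :=
  (R.addc (c := fun _ => true) (R.const (h := hx.isOk) _) hx hy.notI).snd.congr fun i =>
    ibits_eq (by
      push_cast
      have := ((toNat_emod_modEq (w i) (x i)).add (toNat_emod_modEq (w i) (-y i - 1))).add
        (Int.ModEq.refl 1)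
      rwa [show x i + (-y i - 1) + 1 = x i - y i by ring] at this)

theorem R.zeroI {w : ι → ℕ} (hw : R C fun i => Un.mk (w i)) : R C fun i => ibits (w i) 0 :=
  (R.replicate hw (R.const (h := hw.isOk) false) (hw.dom_un.mono fun i => by simp)).congr
    fun i => ibits_zero _

theorem R.widthI {w : ι → ℕ} {x : ι → ℤ} (hx : R C fun i => ibits (w i) (x i)) :
    R C fun i => Un.mk (w i) := by simpa using hx.lenUn

theorem R.widthB {w x : ι → ℕ} (hx : R C fun i => bits (w i) (x i)) :
    R C fun i => Un.mk (w i) := by simpa using hx.lenUn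

theorem R.negI {w : ι → ℕ} {x : ι → ℤ} (hx : R C fun i => ibits (w i) (x i)) :
    R C fun i => ibits (w i) (-x i) := by simpa using hx.widthI.zeroI.subI hx

theorem R.getLastD {l : ι → List α} {d : ι → α} (hl : R C l) (hd : R C d) :
    R C fun i => (l i).getLastD (d i) :=
  (hl.reverse.headD hd).congr fun i => by simp [List.headD_eq_head?_getD, List.getLastD_eq_getLast?]

/-- The sign of a number that fits in `w + 1` bits. -/
theorem R.signI {w : ι → ℕ} {x : ι → ℤ} (hx : R C fun i => ibits (w i + 1) (x i))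
    (h : ∀ i, -2 ^ w i ≤ x i ∧ x i < 2 ^ w i) : R C fun i => decide (x i < 0) :=
  (hx.getLastD (R.const (h := hx.isOk) false)).congr fun i => by
    rw [ibits_extend 1 (h i).1 (h i).2]; simp

/-- Sign extension. -/
theorem R.extendI {w s : ι → ℕ} {x : ι → ℤ} (hx : R C fun i => ibits (w i + 1) (x i))
    (hs : R C fun i => Un.mk (s i)) (h : ∀ i, -2 ^ w i ≤ x i ∧ x i < 2 ^ w i) :
    R C fun i => ibits (w i + 1 + s i) (x i) :=
  (hx.hAppend (R.replicate hs (hx.signI h) (hs.dom_un.mono_mul 3 (by norm_num) fun i => by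
    have : (sz (decide (x i < 0)) : ℝ) ≤ 3 := by exact_mod_cast sz_bool_le _
    nlinarith [(by positivity : (0 : ℝ) ≤ s i)]))).congr fun i => by
      have : (0 : ℤ) < 2 ^ w i := by positivity
      exact ibits_extend _ (by rw [pow_succ]; linarith [(h i).1]) (by rw [pow_succ]; linarith [(h i).2])

theorem R.all {l : ι → List Bool} (hl : R C l) : R C fun i => (l i).all id := by
  have h1 : R C fun i => tab (l i).length fun k => (l i).getD k true :=
    hl.congr fun i => tab_getD _ _
  have := R.iter (s := fun i k => ((l i).take k).all id) (R.const (h := hl.isOk) true) h1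
    (h1.dom_states 3 fun _ _ => sz_bool_le _) fun h₁ h₂ => (h₁.and h₂).congr fun p => by
      rw [List.take_add_one, List.getD_eq_getElem?_getD, List.getElem?_eq_getElem p.2.2,
        List.all_append]
      simp
  simpa using this

/-- Interface of the quasi-linear multiplier. -/
def MulSpec : Prop :=
  R (Ctx.of (fun p : ℕ × ℕ × ℕ => (bits p.1 p.2.1, bits p.1 p.2.2))
      fun _ p => ((p.1 + 1) * (Nat.log 2 p.1 + 1) ^ 10 : ℕ))
    fun p => bits (2 * p.1) (p.2.1 % 2 ^ p.1 * (p.2.2 % 2 ^ p.1))

end Crest.Agent.R326
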