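import Crest.Agent.R326.Compile
import Crest.Agent.Lib.PolyTime.Bridge

/-!
# From `EV` to `Turing.FinTM2` (adapted from `Lib/PolyTime/Bridge.lean`)
-/

namespace Crest.Agent.R326

open Turing Function
open Crest.Agent.Lib.PolyTime (V Reg rd bit1 bit2 PEnc enc sz sumCode Steps Steps.one
  length_lt_sz size_enc one_le_sz enc_prod)

variable {I : Type} {E : SP I}

/-- No stream content. -/
abbrev s0 : Fin 4 → List Bool := fun _ => []

/-- Push the reversed serialisation of the code of the bit `f v` on the transfer stack. -/
def emitBit (f : Reg → Bool) : SP I :=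
  .ite f (.seq (pushT fun _ => true) (.seq (pushT fun _ => false) (pushT fun _ => false)))
    (pushT fun _ => false)

theorem ex_emitBit {f : Reg → Bool} {v : Reg} {i : List I} {o a b t c : List Bool}
    {s : Fin 4 → List Bool} : RunL E (emitBit f) v (mkS i o a b t c s) v
      (mkS i o a b ((enc (f v)).ser.reverse ++ t) c s) 4 := by
  cases h : f v
  · exact (RunL.ite_false h ex_pushT).mono (by omega)
  · exact RunL.ite_true h (ex_pushT.seq (ex_pushT.seq ex_pushT))

/-- Read the input stack and write the serialised list on the main stack. -/
def readIn (code : I → Bool × Bool) (P : SP I) : SP I :=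
  .seq (.loop (.seq (.pop .inp fun _ x => Option.map code x)
    (.ite Option.isSome (.seq (pushT fun _ => true) P) skip)) Option.isSome)
    (.seq (pushT fun _ => false) flushA)

theorem ex_readIn {J : Type} [PEnc J] {code : I → Bool × Bool} {P : SP I} {φ : I → J}
    (hE : ∀ x i t, RunL E P (some (code x)) (mkS i [] [] [] t [] s0) (some (code x))
      (mkS i [] [] [] ((enc (φ x)).ser.reverse ++ t) [] s0) 10) (s : List I) (v : Reg) :
    RunL E (readIn code P) v (mkS s [] [] [] [] [] s0) none (W (enc (s.map φ)).ser [] s0)
      (30 * sz (s.map φ)) := by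
  have key : ∀ (s : List I) (v : Reg) (t : List Bool),
      RunL E (.loop (.seq (.pop .inp fun _ x => Option.map code x)
        (.ite Option.isSome (.seq (pushT fun _ => true) P) skip)) Option.isSome) v
        (mkS s [] [] [] t [] s0) none
        (mkS [] [] [] [] ((s.flatMap fun x => true :: (enc (φ x)).ser).reverse ++ t) [] s0)
        (14 * (s.length + 1)) := by
    intro s
    induction s with
    | nil =>
      intro v t
      exact (RunL.loop_stop ((RunL.pop rfl (upd_inp ..)).seq (RunL.ite_false rfl ex_skip))
        rfl).mono (by simp)
    | cons x s ih =>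
      intro v t
      have h := RunL.loop_next (b := Option.isSome)
        ((RunL.pop (E := E) (k := SK.inp) (f := fun _ x => Option.map code x) (v := v)
          (S := mkS (x :: s) [] [] [] t [] s0) rfl (upd_inp ..)).seq
        (RunL.ite_true (b := Option.isSome) (q := skip) rfl
          ((ex_pushT (f := fun _ => true)).seq (hE x s _)))) rfl (ih _ _)
      refine RunL.mono ?_ (show 1 + (1 + (1 + 10)) + 1 + 14 * (s.length + 1) ≤ _ by simp; omega)
      simpa using h
  have e : ∀ s : List I, (s.flatMap fun x => true :: (enc (φ x)).ser) ++ [false] =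
      (enc (s.map φ)).ser := by
    intro s
    induction s with
    | nil => rfl
    | cons x s ih => simp [← ih]
  have h := (key s v []).seq ((ex_pushT (f := fun _ => false)).seq ex_flushA)
  have hl := congrArg List.length (e s)
  have hlen := length_lt_sz (s.map φ)
  simp only [List.length_append, List.length_cons, List.length_nil, V.length_ser, size_enc,
    List.length_map] at hl hlen
  simp only [List.append_nil, List.reverse_cons, List.reverse_reverse, e, List.length_cons,
    List.length_reverse] at h
  exact h.mono (by omega)

/-- Write the list of bits coded on the main stack to the output stack. -/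
def writeOut : SP I :=
  .seq (.loop (.seq popA (.ite bit1 (.seq popA (.seq (pushT bit1)
    (.ite bit1 (.seq popA popA) skip))) (.load fun _ => none))) Option.isSome) flushO

theorem ex_writeOut (l : List Bool) (v : Reg) :
    RunL E (writeOut (I := I)) v (W (enc l).ser [] s0) none (mkS [] l [] [] [] [] s0)
      (13 * sz l) := by
  have key : ∀ (l : List Bool) (v : Reg) (t : List Bool),
      RunL E (.loop (.seq popA (.ite bit1 (.seq popA (.seq (pushT bit1)
        (.ite bit1 (.seq popA popA) skip))) (.load fun _ => none))) Option.isSome : SP I) v
        (mkS [] [] (enc l).ser [] t [] s0) none (mkS [] [] [] [] (l.reverse ++ t) [] s0)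
        (8 * (l.length + 1)) := by
    intro l
    induction l with
    | nil =>
      intro v t
      exact (RunL.loop_stop (ex_popA.seq (RunL.ite_false rfl (RunL.load _))) rfl).mono (by simp)
    | cons x l ih =>
      intro v t
      cases x with
      | false =>
        have h := RunL.loop_next (b := Option.isSome)
          ((ex_popA (I := I) (E := E) (v := v) (i := []) (o := []) (a := (enc (false :: l)).ser)
            (b := []) (t := t) (c := []) (s := s0)).seq
            (RunL.ite_true (b := bit1) (q := .load fun _ => none) rfl
            (ex_popA.seq ((ex_pushT (f := bit1)).seq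
              (RunL.ite_false (b := bit1) (p := .seq popA popA) rfl ex_skip))))) rfl (ih _ _)
        refine RunL.mono ?_ (show 1 + (1 + (1 + (1 + (1 + 1)))) + 1 + 8 * (l.length + 1) ≤ _ by
          simp; omega)
        simp only [List.reverse_cons, List.append_assoc]
        exact h
      | true =>
        have h := RunL.loop_next (b := Option.isSome)
          ((ex_popA (I := I) (E := E) (v := v) (i := []) (o := []) (a := (enc (true :: l)).ser)
            (b := []) (t := t) (c := []) (s := s0)).seq
            (RunL.ite_true (b := bit1) (q := .load fun _ => none) rfl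
            (ex_popA.seq ((ex_pushT (f := bit1)).seq
              (RunL.ite_true (b := bit1) (q := skip) rfl (ex_popA.seq ex_popA)))))) rfl (ih _ _)
        refine RunL.mono ?_ (show 1 + (1 + (1 + (1 + (1 + (1 + 1))))) + 1 + 8 * (l.length + 1) ≤ _
          by simp; omega)
        simp only [List.reverse_cons, List.append_assoc]
        exact h
  have h := (key l v []).seq ex_flushO
  have hlen := length_lt_sz l
  simp only [List.append_nil, List.reverse_reverse, List.length_reverse] at h
  exact h.mono (by omega)

/-- The machine running `fix p` and then halting in the starting register state. -/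
def machine (I : Type) [Fintype I] (p : SP I) : FinTM2 where
  K := Option SK
  k₀ := some .inp
  k₁ := some .out
  Γ := XΓ (SΓ I) (Option (Pr.fix p).L)
  Λ := Option (Pr.fix p).L
  main := some (Pr.fix p).entry
  ΛFin := @instFintypeOption _ (Pr.fix p).fintypeL
  σ := Reg × Option (Option (Pr.fix p).L)
  initialState := (none, none)
  σFin := @instFintypeProd _ _ _ (@instFintypeOption _ (@instFintypeOption _ (Pr.fix p).fintypeL))
  Γk₀Fin := inferInstanceAs (Fintype I)
  m := fun l => match l with
    | none => .load (fun _ => (none, none)) .halt
    | some l => (Pr.fix p).tr some none (some (Sum.inr p.entry)) l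

theorem machine_outputs [Fintype I] {p : SP I} {s : List I} {out : List Bool} {v : Reg}
    {n : ℕ} (h : RunL p p none (mkS s [] [] [] [] [] s0) v (mkS [] out [] [] [] [] s0) n) :
    Nonempty (TM2OutputsInTime (machine I p) s (some out) (n + 3)) := by
  obtain ⟨m, hm, he⟩ := h.fix (E := p)
  obtain ⟨r, h1⟩ := he.steps (machine I p).m (fun l => some (Sum.inr l)) (some (Sum.inl false))
    (fun _ => rfl) rfl some none (fun _ => rfl) [] none
  have h2 : Steps (machine I p).m 1 ⟨some none, (v, r), xS (mkS [] out [] [] [] [] s0) []⟩
      ⟨none, (none, none), xS (mkS [] out [] [] [] [] s0) []⟩ := Steps.one rfl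
  have e1 : initList (machine I p) s =
      ⟨some (some (Pr.fix p).entry), (none, none), xS (mkS s [] [] [] [] [] s0) []⟩ := by
    unfold initList
    congr 1
    funext k
    rcases k with _ | k
    · rfl
    · cases k <;> rfl
  have e2 : haltList (machine I p) out =
      ⟨none, (none, none), xS (mkS [] out [] [] [] [] s0) []⟩ := by
    unfold haltList
    congr 1
    funext k
    rcases k with _ | k
    · rfl
    · cases k <;> rfl
  refine ⟨⟨⟨m + 1, ?_⟩, Nat.succ_le_succ hm⟩⟩
  rw [e1, Option.map_some, e2]
  exact h1.trans h2

/-- A `Cd` becomes a machine on the pair alphabet whose time is linear in the cost. -/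
theorem exists_machine_pairs (c : Cd) :
    ∃ (M : TM2ComputableAux (Bool ⊕ Bool) Bool),
      ∀ (s : List (Bool ⊕ Bool)) (out : List Bool) (n : ℕ),
      EL c c (enc (s.map sumCode)) (fun _ => []) (enc out) (fun _ => []) n →
        Nonempty (TM2OutputsInTime M.tm (s.map M.inputAlphabet.invFun)
          (some (out.map M.outputAlphabet.invFun)) (300 * n)) := by
  set P : SP (Bool ⊕ Bool) := .seq (pushT fun _ => true) (.seq (emitBit bit1) (emitBit bit2))
  set Q : SP (Bool ⊕ Bool) := .seq (readIn sumCode P) (.seq (compile (.fix c)) writeOut)
  have hE : ∀ x i t, RunL Q P (some (sumCode x)) (mkS i [] [] [] t [] s0) (some (sumCode x))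
      (mkS i [] [] [] ((enc (sumCode x)).ser.reverse ++ t) [] s0) 10 := fun x i t => by
    have := (ex_pushT (I := Bool ⊕ Bool) (E := Q) (f := fun _ => true) (v := some (sumCode x))
      (i := i) (o := []) (a := []) (b := []) (t := t) (c := []) (s := s0)).seq
        ((ex_emitBit (f := bit1)).seq (ex_emitBit (f := bit2)))
    refine RunL.mono ?_ (show 1 + (4 + 4) ≤ 10 by omega)
    rw [enc_prod]
    simp only [V.ser_node, List.reverse_cons, List.reverse_append, List.append_assoc]
    exact this
  refine ⟨⟨machine _ Q, Equiv.refl _, Equiv.refl _⟩, fun s out n h => ?_⟩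
  have s1 : sz (s.map sumCode) ≤ n := h.size_in
  have s2 : sz out ≤ n := h.size_out
  obtain ⟨m, hm, h⟩ := h
  obtain ⟨v, h1⟩ := h.ex (I := Bool ⊕ Bool) [] [] none
  simp only [List.append_nil] at h1
  have h2 := (ex_readIn hE s none).seq ((h1.fix (E := Q)).seq (ex_writeOut out v))
  have s3 := one_le_sz out
  obtain ⟨⟨r, hr⟩⟩ := machine_outputs h2
  have key : ∀ (s' : List (Bool ⊕ Bool)) (out' : List Bool), s' = s → out' = out →
      Nonempty (TM2OutputsInTime (machine _ Q) s' (some out') (300 * n)) := by
    rintro _ _ rfl rfl
    exact ⟨⟨r, hr.trans (by omega)⟩⟩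
  exact key _ _ (List.map_id s) (List.map_id out)

end Crest.Agent.R326
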