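import Crest.Agent.R326.Arr

/-!
# Cutting numbers into chunks and carrying
-/

set_option linter.unusedVariables false

namespace Crest.Agent.R326

open Crest.Agent.Lib.PolyTime

/-- The number with (possibly large) digits `z k` in base `2 ^ b`. -/
def hsum (b N : ℕ) (z : ℕ → ℕ) : ℕ := ∑ k ∈ Finset.range N, z k * 2 ^ (k * b)

theorem hsum_succ (b N : ℕ) (z : ℕ → ℕ) : hsum b (N + 1) z = hsum b N z + 2 ^ (N * b) * z N := by
  rw [hsum, Finset.sum_range_succ, Nat.mul_comm (z N)]; rfl

theorem hsum_congr {b N : ℕ} {y z : ℕ → ℕ} (h : ∀ k, k < N → y k = z k) :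
    hsum b N y = hsum b N z :=
  Finset.sum_congr rfl fun k hk => by rw [h k (Finset.mem_range.1 hk)]

theorem hsum_lt {b N : ℕ} {z : ℕ → ℕ} (h : ∀ k, z k < 2 ^ b) : hsum b N z < 2 ^ (N * b) := by
  induction N with
  | zero => simp [hsum]
  | succ N ih =>
    rw [hsum_succ, Nat.succ_mul, pow_add]
    have := Nat.mul_le_mul_left (2 ^ (N * b)) (h N)
    rw [Nat.mul_succ] at this
    omega

theorem flatten_bits (b N : ℕ) (z : ℕ → ℕ) :
    (tab N fun k => bits b (z k)).flatten = bits (N * b) (hsum b N fun k => z k % 2 ^ b) := by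
  induction N with
  | zero => simp [bits]
  | succ N ih =>
    rw [tab_succ, List.flatten_append, ih, hsum_succ, Nat.succ_mul,
      ← bits_append (hsum_lt fun k => Nat.mod_lt _ (by positivity)), bits_mod]
    simp

theorem hsum_digits (b N X : ℕ) :
    (hsum b N fun k => X / 2 ^ (k * b) % 2 ^ b) = X % 2 ^ (N * b) := by
  induction N with
  | zero => simp [hsum, Nat.mod_one]
  | succ N ih => rw [hsum_succ, ih, Nat.succ_mul, pow_add, Nat.mod_mul]

/-- The cyclic convolution of length `N`. -/
def conv (N : ℕ) (x y : ℕ → ℕ) (k : ℕ) : ℕ :=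
  ∑ k₁ ∈ Finset.range N, ∑ k₂ ∈ Finset.range N, if (k₁ + k₂) % N = k then x k₁ * y k₂ else 0

theorem hsum_conv {b N m : ℕ} {x y : ℕ → ℕ} (hm : 2 * m ≤ N) (hx : ∀ k, m ≤ k → x k = 0)
    (hy : ∀ k, m ≤ k → y k = 0) : hsum b N (conv N x y) = hsum b N x * hsum b N y := by
  unfold hsum conv
  rw [Finset.sum_mul_sum]
  simp only [Finset.sum_mul]
  rw [Finset.sum_comm]
  refine Finset.sum_congr rfl fun k₁ h₁ => ?_
  rw [Finset.sum_comm]
  refine Finset.sum_congr rfl fun k₂ h₂ => ?_
  have hN : 0 < N := by have := Finset.mem_range.1 h₁; omega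
  simp only [ite_mul, zero_mul]
  rw [Finset.sum_ite_eq, if_pos (Finset.mem_range.2 (Nat.mod_lt _ hN))]
  rcases le_or_gt m k₁ with h | h
  · simp [hx k₁ h]
  rcases le_or_gt m k₂ with h' | h'
  · simp [hy k₂ h']
  rw [Nat.mod_eq_of_lt (by omega), Nat.add_mul, pow_add]
  ring

variable {ι : Type} {C : Ctx ι}

/-- Cut a number into `N` chunks of `b` bits. -/
theorem R.cut {N b X : ι → ℕ} (hN : R C fun i => Un.mk (N i)) (hb : R C fun i => Un.mk (b i))
    (hX : R C fun i => bits (N i * b i) (X i)) :
    R C fun i => tab (N i) fun k => bits (b i) (X i / 2 ^ (k * b i) % 2 ^ b i) :=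
  (R.chunks hN hb hX).congr fun i => tab_congr fun k _ => by
    rw [bits_mod]
    exact tab_congr fun t _ => by rw [Nat.testBit_div_two_pow, Nat.add_comm]

/-- Zero extension. -/
theorem R.padBits {w s X : ι → ℕ} (hX : R C fun i => bits (w i) (X i))
    (hs : R C fun i => Un.mk (s i)) (h : ∀ i, X i < 2 ^ w i) :
    R C fun i => bits (w i + s i) (X i) :=
  (hX.hAppend (R.replicate hs (R.const (h := hs.isOk) false)
    (hs.dom_un.mono fun i => by simp))).congr fun i => by
      rw [← bits_zero, bits_append (h i)]; simp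

theorem length_le_sz_tab {α : Type} [PEnc α] {T w : ℕ} {a : ℕ → List α}
    (h : ∀ k, k < T → w ≤ (a k).length) : T * (w + 1) ≤ sz (tab T a) := by
  rw [sz_tab]
  have : ∑ _k ∈ Finset.range T, (w + 1) ≤ ∑ k ∈ Finset.range T, (sz (a k) + 1) :=
    Finset.sum_le_sum fun k hk => by
      have := h k (Finset.mem_range.1 hk)
      have := length_lt_sz (a k)
      omega
  simp only [Finset.sum_const, Finset.card_range, smul_eq_mul] at this
  omega

/-- A unary parameter not longer than the records may be handed to every position. -/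
theorem R.dom_par {α : Type} [PEnc α] {T s : ι → ℕ} {a : ι → ℕ → List α}
    (ha : R C fun i => tab (T i) (a i)) (h : ∀ i k, k < T i → s i ≤ (a i k).length) :
    C.Dom fun i => T i * sz (Un.mk (s i)) :=
  ha.dom_sz.mono_mul 2 (by norm_num) fun i => by
    have := length_le_sz_tab (h i)
    rw [sz_un]
    norm_cast
    nlinarith

/-- Carrying: digits of `(t + 1) * b` bits in base `2 ^ b`. -/
theorem R.carryUp (t : ℕ) {N b : ι → ℕ} {z : ι → ℕ → ℕ} (hb : R C fun i => Un.mk (b i))
    (hz : R C fun i => tab (N i) fun k => bits ((t + 1) * b i) (z i k)) :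
    R C fun i => bits (N i * b i) (hsum (b i) (N i) fun k => z i k % 2 ^ ((t + 1) * b i)) := by
  induction t generalizing z with
  | zero => exact hz.flatten.congr fun i => by simp only [zero_add, one_mul, flatten_bits]
  | succ t ih =>
    have hD := hz.dom_par (s := b) fun i k _ => by simp; nlinarith
    have lo : R C fun i => tab (N i) fun k => bits (b i) (z i k) :=
      R.tabMap hb hz hD fun h₁ h₂ => (R.take h₁ h₂).congr fun p =>
        (take_bits _ (by nlinarith)).symm
    have hi : R C fun i => tab (N i) fun k => bits ((t + 1) * b i) (z i k / 2 ^ b i) :=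
      R.tabMap hb hz hD fun h₁ h₂ => (R.drop h₁ h₂).congr fun p => by
        rw [drop_bits]; congr 1; rw [Nat.succ_mul (t + 1)]; omega
    have lo' := lo.flatten.congr fun i => (flatten_bits _ _ _).symm
    have hi' : R C fun i => bits (N i * b i) (2 ^ b i *
        hsum (b i) (N i) fun k => z i k / 2 ^ b i % 2 ^ ((t + 1) * b i)) :=
      (R.take lo'.widthB ((R.replicate hb (R.const (h := hb.isOk) false)
        (hb.dom_un.mono fun i => by simp)).hAppend (ih hi))).congr fun i => by
          rw [← bits_zero, bits_append (by positivity), take_bits _ (by omega), Nat.zero_add]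
    refine (lo'.addBits hi').congr fun i => ?_
    congr 1
    unfold hsum
    rw [Finset.mul_sum, ← Finset.sum_add_distrib]
    refine Finset.sum_congr rfl fun k _ => ?_
    simp only
    rw [Nat.succ_mul (t + 1), Nat.add_comm _ (b i), pow_add, Nat.mod_mul]
    ring

end Crest.Agent.R326
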