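import Crest.Agent.Lib.PolyTime.Code

/-!
# A functional language on binary trees with recursion and four stream stacks

All overheads are charged explicitly in the cost, so that the compiled machine takes at most
`100 * n` steps for an evaluation of cost `n`, uniformly in the program.
-/

namespace Crest.Agent.R326

open Function
open Crest.Agent.Lib.PolyTime (V Code Ev)

/-- The stream stacks. -/
abbrev Str : Type := Fin 4 → List V

/-- Programs. -/
inductive Cd : Type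
  | nil : Cd
  | id : Cd
  | fst : Cd
  | snd : Cd
  | pair : Cd → Cd → Cd
  | comp : Cd → Cd → Cd
  | ite : Cd → Cd → Cd → Cd
  | loop : Cd → Cd
  | self : Cd
  | fix : Cd → Cd
  | push : Fin 4 → Cd
  | pop : Fin 4 → Cd
  | cons : Fin 4 → Cd
  | uncons : Fin 4 → Cd

/-- Big-step semantics with cost; the first argument is the environment called by `self`. -/
inductive EV : Cd → Cd → V → Str → V → Str → ℕ → Prop
  | nil (E v σ) : EV E .nil v σ .nil σ v.size
  | id (E v σ) : EV E .id v σ v σ v.size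
  | fst (E v σ) : EV E .fst v σ v.left σ v.size
  | snd (E v σ) : EV E .snd v σ v.right σ v.size
  | pair {E c d v w₁ w₂ σ σ₁ σ₂ n₁ n₂} : EV E c v σ w₁ σ₁ n₁ → EV E d v σ₁ w₂ σ₂ n₂ →
      EV E (.pair c d) v σ (.node w₁ w₂) σ₂ (n₁ + n₂ + v.size + w₁.size)
  | comp {E c d v u w σ σ₁ σ₂ n₁ n₂} : EV E d v σ u σ₁ n₁ → EV E c u σ₁ w σ₂ n₂ →
      EV E (.comp c d) v σ w σ₂ (n₁ + n₂)
  | ite_nil {E c d e v w σ σ₁ σ₂ n₁ n₂} : EV E c v σ .nil σ₁ n₁ → EV E e v σ₁ w σ₂ n₂ →
      EV E (.ite c d e) v σ w σ₂ (n₁ + n₂ + v.size)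
  | ite_node {E c d e v x y w σ σ₁ σ₂ n₁ n₂} : EV E c v σ (.node x y) σ₁ n₁ →
      EV E d v σ₁ w σ₂ n₂ → EV E (.ite c d e) v σ w σ₂ (n₁ + n₂ + v.size + x.size + y.size)
  | loop_stop {E c v w σ σ₁ n} : EV E c v σ (.node .nil w) σ₁ n →
      EV E (.loop c) v σ w σ₁ (n + 1)
  | loop_next {E c v x y v' w σ σ₁ σ₂ n₁ n₂} : EV E c v σ (.node (.node x y) v') σ₁ n₁ →
      EV E (.loop c) v' σ₁ w σ₂ n₂ → EV E (.loop c) v σ w σ₂ (n₁ + n₂ + x.size + y.size)
  | self {E v w σ σ₁ n} : EV E E v σ w σ₁ n → EV E .self v σ w σ₁ (n + 1)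
  | fix {E c v w σ σ₁ n} : EV c c v σ w σ₁ n → EV E (.fix c) v σ w σ₁ (n + 1)
  | push (E j v σ) : EV E (.push j) v σ .nil (update σ j (v :: σ j)) v.size
  | pop {E j v σ t r} : σ j = t :: r → EV E (.pop j) v σ t (update σ j r) (v.size + t.size)
  | cons {E j v σ t r} : σ j = t :: r →
      EV E (.cons j) v σ .nil (update σ j (.node v t :: r)) v.size
  | uncons_nil {E j v σ r} : σ j = .nil :: r → EV E (.uncons j) v σ .nil σ v.size
  | uncons_node {E j v σ x t r} : σ j = .node x t :: r →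
      EV E (.uncons j) v σ (.node x .nil) (update σ j (t :: r)) (v.size + x.size + 1)

theorem EV.size_out {E c : Cd} {v w : V} {σ σ' : Str} {n : ℕ} (h : EV E c v σ w σ' n) :
    w.size ≤ n := by
  induction h with
  | nil E v σ => exact v.one_le_size
  | id E v σ => exact le_rfl
  | fst E v σ => exact v.size_left_le
  | snd E v σ => exact v.size_right_le
  | @pair _ _ _ v w₁ _ _ _ _ _ _ _ _ ih₁ ih₂ => have := v.size_pos; simp; omega
  | comp _ _ _ ih₂ => omega
  | ite_nil _ _ _ ih₂ => omega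
  | ite_node _ _ _ ih₂ => omega
  | loop_stop _ ih => simp at ih; omega
  | loop_next _ _ _ ih₂ => omega
  | self _ ih => omega
  | fix _ ih => omega
  | push E j v σ => exact v.one_le_size
  | pop _ => omega
  | @cons _ _ v _ _ _ _ => exact v.one_le_size
  | @uncons_nil _ _ v _ _ _ => exact v.one_le_size
  | @uncons_node _ _ v _ _ _ _ _ => have := v.size_pos; simp; omega

theorem EV.size_in {E c : Cd} {v w : V} {σ σ' : Str} {n : ℕ} (h : EV E c v σ w σ' n) :
    v.size ≤ n := by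
  induction h <;> omega

/-- Evaluation at cost at most `n`. -/
def EL (E c : Cd) (v : V) (σ : Str) (w : V) (σ' : Str) (n : ℕ) : Prop :=
  ∃ m, m ≤ n ∧ EV E c v σ w σ' m

namespace EL
variable {E c d e : Cd} {v u w w₁ w₂ x y t : V} {σ σ₁ σ₂ : Str} {n n₁ n₂ m : ℕ} {j : Fin 4}
  {r : List V}

theorem mono (h : EL E c v σ w σ₁ n) (le : n ≤ m) : EL E c v σ w σ₁ m := by
  obtain ⟨k, hk, he⟩ := h
  exact ⟨k, hk.trans le, he⟩

theorem size_out (h : EL E c v σ w σ₁ n) : w.size ≤ n := by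
  obtain ⟨k, hk, he⟩ := h
  exact he.size_out.trans hk

theorem size_in (h : EL E c v σ w σ₁ n) : v.size ≤ n := by
  obtain ⟨k, hk, he⟩ := h
  exact he.size_in.trans hk

theorem nil : EL E .nil v σ .nil σ v.size := ⟨_, le_rfl, .nil ..⟩
theorem id : EL E .id v σ v σ v.size := ⟨_, le_rfl, .id ..⟩
theorem left : EL E .fst v σ v.left σ v.size := ⟨_, le_rfl, .fst ..⟩
theorem right : EL E .snd v σ v.right σ v.size := ⟨_, le_rfl, .snd ..⟩
theorem fst : EL E .fst (.node x y) σ x σ (x.size + y.size + 1) := ⟨_, le_rfl, .fst ..⟩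
theorem snd : EL E .snd (.node x y) σ y σ (x.size + y.size + 1) := ⟨_, le_rfl, .snd ..⟩

theorem pair (h₁ : EL E c v σ w₁ σ₁ n₁) (h₂ : EL E d v σ₁ w₂ σ₂ n₂) :
    EL E (.pair c d) v σ (.node w₁ w₂) σ₂ (n₁ + n₂ + v.size + w₁.size) := by
  obtain ⟨k, hk, he⟩ := h₁
  obtain ⟨k', hk', he'⟩ := h₂
  exact ⟨_, by omega, .pair he he'⟩

theorem comp (h₁ : EL E d v σ u σ₁ n₁) (h₂ : EL E c u σ₁ w σ₂ n₂) :
    EL E (.comp c d) v σ w σ₂ (n₁ + n₂) := by
  obtain ⟨k, hk, he⟩ := h₁
  obtain ⟨k', hk', he'⟩ := h₂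
  exact ⟨_, by omega, .comp he he'⟩

theorem ite_nil (h₁ : EL E c v σ .nil σ₁ n₁) (h₂ : EL E e v σ₁ w σ₂ n₂) :
    EL E (.ite c d e) v σ w σ₂ (n₁ + n₂ + v.size) := by
  obtain ⟨k, hk, he⟩ := h₁
  obtain ⟨k', hk', he'⟩ := h₂
  exact ⟨_, by omega, .ite_nil he he'⟩

theorem ite_node (h₁ : EL E c v σ (.node x y) σ₁ n₁) (h₂ : EL E d v σ₁ w σ₂ n₂) :
    EL E (.ite c d e) v σ w σ₂ (n₁ + n₂ + v.size + x.size + y.size) := by
  obtain ⟨k, hk, he⟩ := h₁
  obtain ⟨k', hk', he'⟩ := h₂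
  exact ⟨_, by omega, .ite_node he he'⟩

theorem loop_stop (h : EL E c v σ (.node .nil w) σ₁ n) : EL E (.loop c) v σ w σ₁ (n + 1) := by
  obtain ⟨k, hk, he⟩ := h
  exact ⟨_, by omega, .loop_stop he⟩

theorem loop_next (h₁ : EL E c v σ (.node (.node x y) u) σ₁ n₁)
    (h₂ : EL E (.loop c) u σ₁ w σ₂ n₂) :
    EL E (.loop c) v σ w σ₂ (n₁ + n₂ + x.size + y.size) := by
  obtain ⟨k, hk, he⟩ := h₁
  obtain ⟨k', hk', he'⟩ := h₂
  exact ⟨_, by omega, .loop_next he he'⟩

theorem self (h : EL E E v σ w σ₁ n) : EL E .self v σ w σ₁ (n + 1) := by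
  obtain ⟨k, hk, he⟩ := h
  exact ⟨_, by omega, .self he⟩

theorem fix (h : EL c c v σ w σ₁ n) : EL E (.fix c) v σ w σ₁ (n + 1) := by
  obtain ⟨k, hk, he⟩ := h
  exact ⟨_, by omega, .fix he⟩

theorem push : EL E (.push j) v σ .nil (update σ j (v :: σ j)) v.size := ⟨_, le_rfl, .push ..⟩

theorem pop (h : σ j = t :: r) : EL E (.pop j) v σ t (update σ j r) (v.size + t.size) :=
  ⟨_, le_rfl, .pop h⟩

theorem cons (h : σ j = t :: r) : EL E (.cons j) v σ .nil (update σ j (.node v t :: r)) v.size :=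
  ⟨_, le_rfl, .cons h⟩

theorem uncons_nil (h : σ j = .nil :: r) : EL E (.uncons j) v σ .nil σ v.size :=
  ⟨_, le_rfl, .uncons_nil h⟩

theorem uncons_node (h : σ j = .node x t :: r) :
    EL E (.uncons j) v σ (.node x .nil) (update σ j (t :: r)) (v.size + x.size + 1) :=
  ⟨_, le_rfl, .uncons_node h⟩

end EL

/-- Embedding of the plain language. -/
def ofCode : Code → Cd
  | .nil => .nil
  | .id => .id
  | .fst => .fst
  | .snd => .snd
  | .pair c d => .pair (ofCode c) (ofCode d)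
  | .comp c d => .comp (ofCode c) (ofCode d)
  | .ite c d e => .ite (ofCode c) (ofCode d) (ofCode e)
  | .loop c => .loop (ofCode c)

/-- The constant lost in the embedding. -/
def embK : Code → ℕ
  | .pair c d => embK c + embK d + 2
  | .comp c d => embK c + embK d
  | .ite c d e => embK c + embK d + embK e + 2
  | .loop c => embK c + 1
  | _ => 1

theorem el_ofCode {c : Code} {v w : V} {n : ℕ} (h : Ev c v w n) (E : Cd) (σ : Str) :
    EL E (ofCode c) v σ w σ (embK c * n) := by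
  induction h with
  | nil v => simpa [embK, ofCode] using EL.nil
  | id v => simpa [embK, ofCode] using EL.id
  | fst v => simpa [embK, ofCode] using EL.left
  | snd v => simpa [embK, ofCode] using EL.right
  | pair h₁ h₂ ih₁ ih₂ =>
    have := h₁.size_in
    have := h₁.size_out
    exact (ih₁.pair ih₂).mono (by simp only [embK]; nlinarith)
  | comp h₁ h₂ ih₁ ih₂ => exact (ih₁.comp ih₂).mono (by simp only [embK]; nlinarith)
  | ite_nil h₁ h₂ ih₁ ih₂ =>
    have := h₁.size_in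
    exact (ih₁.ite_nil ih₂).mono (by simp only [embK]; nlinarith)
  | ite_node h₁ h₂ ih₁ ih₂ =>
    have := h₁.size_in
    have := h₁.size_out
    simp only [V.size_node] at this
    exact (ih₁.ite_node ih₂).mono (by simp only [embK]; nlinarith)
  | @loop_stop c v w n h ih =>
    have := h.size_in
    have := v.size_pos
    exact ih.loop_stop.mono (by simp only [embK]; nlinarith)
  | loop_next h₁ h₂ ih₁ ih₂ =>
    have := h₁.size_out
    simp only [V.size_node] at this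
    exact (ih₁.loop_next ih₂).mono (by simp only [embK]; nlinarith)

end Crest.Agent.R326
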