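import Crest.Agent.Lib.PolyTime.Prog

/-!
# Structured stack programs with recursion, and their translation to `Turing.TM2`
-/

namespace Crest.Agent.R326

open Turing Function
open Crest.Agent.Lib.PolyTime (Steps Steps.one)

/-- Structured programs; `loop p b` is `do p while b`, `call` runs the current environment and
`fix p` runs `p` with `p` as environment. -/
inductive Pr {K : Type} (Γ : K → Type) (σ : Type) : Type
  | push (k : K) (f : σ → Γ k) : Pr Γ σ
  | pop (k : K) (f : σ → Option (Γ k) → σ) : Pr Γ σ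
  | load (f : σ → σ) : Pr Γ σ
  | seq (p q : Pr Γ σ) : Pr Γ σ
  | ite (b : σ → Bool) (p q : Pr Γ σ) : Pr Γ σ
  | loop (p : Pr Γ σ) (b : σ → Bool) : Pr Γ σ
  | call : Pr Γ σ
  | fix (p : Pr Γ σ) : Pr Γ σ

variable {K : Type} {Γ : K → Type} {σ : Type}

/-- Big-step semantics counting machine steps. -/
inductive Run [DecidableEq K] :
    Pr Γ σ → Pr Γ σ → σ → (∀ k, List (Γ k)) → σ → (∀ k, List (Γ k)) → ℕ → Prop
  | push (E) (k : K) (f : σ → Γ k) (v : σ) (S : ∀ k, List (Γ k)) :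
      Run E (.push k f) v S v (update S k (f v :: S k)) 1
  | pop (E) (k : K) (f : σ → Option (Γ k) → σ) (v : σ) (S : ∀ k, List (Γ k)) :
      Run E (.pop k f) v S (f v (S k).head?) (update S k (S k).tail) 1
  | load (E) (f : σ → σ) (v : σ) (S : ∀ k, List (Γ k)) : Run E (.load f) v S (f v) S 1
  | seq {E p q v S v' S' v'' S'' n m} : Run E p v S v' S' n → Run E q v' S' v'' S'' m →
      Run E (.seq p q) v S v'' S'' (n + m)
  | ite_true {E b p q v S v' S' n} : b v = true → Run E p v S v' S' n →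
      Run E (.ite b p q) v S v' S' (1 + n)
  | ite_false {E b p q v S v' S' n} : b v = false → Run E q v S v' S' n →
      Run E (.ite b p q) v S v' S' (1 + n)
  | loop_stop {E p b v S v' S' n} : Run E p v S v' S' n → b v' = false →
      Run E (.loop p b) v S v' S' (n + 1)
  | loop_next {E p b v S v' S' v'' S'' n m} : Run E p v S v' S' n → b v' = true →
      Run E (.loop p b) v' S' v'' S'' m → Run E (.loop p b) v S v'' S'' (n + 1 + m)
  | call {E v S v' S' n} : Run E E v S v' S' n → Run E .call v S v' S' (1 + n + 1)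
  | fix {E p v S v' S' n} : Run p p v S v' S' n → Run E (.fix p) v S v' S' (1 + n + 1)

/-- Stack alphabets of the machine: one more stack, for return labels. -/
abbrev XΓ (Γ : K → Type) (Λ : Type) : Option K → Type
  | none => Λ
  | some k => Γ k

/-- Stack contents of the machine. -/
def xS {Λ : Type} (S : ∀ k, List (Γ k)) (R : List Λ) : ∀ k, List (XΓ Γ Λ k)
  | none => R
  | some k => S k

namespace Pr

/-- Program points. -/
def L : Pr Γ σ → Type
  | push _ _ => Unit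
  | pop _ _ => Unit
  | load _ => Unit
  | seq p q => p.L ⊕ q.L
  | ite _ p q => Unit ⊕ (p.L ⊕ q.L)
  | loop p _ => Unit ⊕ p.L
  | call => Unit
  | fix p => Bool ⊕ p.L

/-- There are finitely many program points. -/
@[reducible] def fintypeL : (p : Pr Γ σ) → Fintype p.L
  | push _ _ => inferInstanceAs (Fintype Unit)
  | pop _ _ => inferInstanceAs (Fintype Unit)
  | load _ => inferInstanceAs (Fintype Unit)
  | seq p q => @instFintypeSum _ _ p.fintypeL q.fintypeL
  | ite _ p q => @instFintypeSum _ _ _ (@instFintypeSum _ _ p.fintypeL q.fintypeL)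
  | loop p _ => @instFintypeSum _ _ _ p.fintypeL
  | call => inferInstanceAs (Fintype Unit)
  | fix p => @instFintypeSum _ _ _ p.fintypeL

/-- The entry point. -/
def entry : (p : Pr Γ σ) → p.L
  | push _ _ => ()
  | pop _ _ => ()
  | load _ => ()
  | seq p _ => Sum.inl p.entry
  | ite _ _ _ => Sum.inl ()
  | loop p _ => Sum.inr p.entry
  | call => ()
  | fix _ => Sum.inl true

/-- The return statement. -/
def ret {Λ : Type} (d : Λ) : TM2.Stmt (XΓ Γ Λ) Λ (σ × Option Λ) :=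
  .pop none (fun v x => (v.1, x)) (.goto fun v => v.2.getD d)

/-- The statement at each program point. -/
def tr {Λ : Type} : (p : Pr Γ σ) → (p.L → Λ) → Λ → Λ → p.L →
    TM2.Stmt (XΓ Γ Λ) Λ (σ × Option Λ)
  | push j f, _, k, _, _ => .push (some j) (fun v => f v.1) (.goto fun _ => k)
  | pop j f, _, k, _, _ => .pop (some j) (fun v x => (f v.1 x, v.2)) (.goto fun _ => k)
  | load f, _, k, _, _ => .load (fun v => (f v.1, v.2)) (.goto fun _ => k)
  | seq p q, e, k, en, l =>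
    match l with
    | Sum.inl l => p.tr (fun x => e (Sum.inl x)) (e (Sum.inr q.entry)) en l
    | Sum.inr l => q.tr (fun x => e (Sum.inr x)) k en l
  | ite b p q, e, k, en, l =>
    match l with
    | Sum.inl _ => .branch (fun v => b v.1) (.goto fun _ => e (Sum.inr (Sum.inl p.entry)))
        (.goto fun _ => e (Sum.inr (Sum.inr q.entry)))
    | Sum.inr (Sum.inl l) => p.tr (fun x => e (Sum.inr (Sum.inl x))) k en l
    | Sum.inr (Sum.inr l) => q.tr (fun x => e (Sum.inr (Sum.inr x))) k en l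
  | loop p b, e, k, en, l =>
    match l with
    | Sum.inl _ => .branch (fun v => b v.1) (.goto fun _ => e (Sum.inr p.entry))
        (.goto fun _ => k)
    | Sum.inr l => p.tr (fun x => e (Sum.inr x)) (e (Sum.inl ())) en l
  | call, _, k, en, _ => .push none (fun _ => k) (.goto fun _ => en)
  | fix p, e, k, _, l =>
    match l with
    | Sum.inl true => .push none (fun _ => k) (.goto fun _ => e (Sum.inr p.entry))
    | Sum.inl false => ret (e (Sum.inl false))
    | Sum.inr l => p.tr (fun x => e (Sum.inr x)) (e (Sum.inl false)) (e (Sum.inr p.entry)) l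

end Pr

variable [DecidableEq K]

theorem upd_some {Λ : Type} (S : ∀ k, List (Γ k)) (R : List Λ) (j : K) (x : List (Γ j)) :
    update (xS S R) (some j) x = xS (update S j x) R := by
  funext k
  cases k with
  | none => rfl
  | some k =>
    by_cases h : k = j
    · subst h; simp [xS]
    · rw [update_of_ne (by simpa using h)]; simp [xS, update_of_ne h]

theorem upd_none {Λ : Type} (S : ∀ k, List (Γ k)) (R R' : List Λ) :
    update (xS S R) none R' = xS S R' := by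
  funext k
  cases k <;> rfl

theorem Run.steps {E p : Pr Γ σ} {v v' : σ} {S S' : ∀ k, List (Γ k)} {n : ℕ}
    (h : Run E p v S v' S' n) {Λ : Type} (M : Λ → TM2.Stmt (XΓ Γ Λ) Λ (σ × Option Λ)) :
    ∀ (e₀ : E.L → Λ) (k₀ : Λ), (∀ l, M (e₀ l) = E.tr e₀ k₀ (e₀ E.entry) l) →
      M k₀ = Pr.ret k₀ → ∀ (e : p.L → Λ) (k : Λ), (∀ l, M (e l) = p.tr e k (e₀ E.entry) l) →
      ∀ (R : List Λ) (r : Option Λ), ∃ r',
        Steps M n ⟨some (e p.entry), (v, r), xS S R⟩ ⟨some k, (v', r'), xS S' R⟩ := by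
  induction h with
  | push E j f v S =>
    intro e₀ k₀ h₀ hk₀ e k hM R r
    exact ⟨r, Steps.one (by rw [hM]; simp only [Pr.tr, TM2.stepAux]; rw [upd_some]; rfl)⟩
  | pop E j f v S =>
    intro e₀ k₀ h₀ hk₀ e k hM R r
    exact ⟨r, Steps.one (by rw [hM]; simp only [Pr.tr, TM2.stepAux]; rw [upd_some]; rfl)⟩
  | load E f v S =>
    intro e₀ k₀ h₀ hk₀ e k hM R r
    exact ⟨r, Steps.one (by rw [hM]; rfl)⟩
  | seq _ _ ih₁ ih₂ =>
    intro e₀ k₀ h₀ hk₀ e k hM R r
    obtain ⟨r₁, h₁⟩ := ih₁ e₀ k₀ h₀ hk₀ _ _ (fun l => hM (Sum.inl l)) R r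
    obtain ⟨r₂, h₂⟩ := ih₂ e₀ k₀ h₀ hk₀ _ _ (fun l => hM (Sum.inr l)) R r₁
    exact ⟨r₂, h₁.trans h₂⟩
  | ite_true hb _ ih =>
    intro e₀ k₀ h₀ hk₀ e k hM R r
    obtain ⟨r₁, h₁⟩ := ih e₀ k₀ h₀ hk₀ _ _ (fun l => hM (Sum.inr (Sum.inl l))) R r
    refine ⟨r₁, Lib.PolyTime.Steps.trans (Steps.one ?_) h₁⟩
    rw [hM]; simp [Pr.tr, Pr.entry, hb]
  | ite_false hb _ ih =>
    intro e₀ k₀ h₀ hk₀ e k hM R r
    obtain ⟨r₁, h₁⟩ := ih e₀ k₀ h₀ hk₀ _ _ (fun l => hM (Sum.inr (Sum.inr l))) R r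
    refine ⟨r₁, Lib.PolyTime.Steps.trans (Steps.one ?_) h₁⟩
    rw [hM]; simp [Pr.tr, Pr.entry, hb]
  | loop_stop _ hb ih =>
    intro e₀ k₀ h₀ hk₀ e k hM R r
    obtain ⟨r₁, h₁⟩ := ih e₀ k₀ h₀ hk₀ _ _ (fun l => hM (Sum.inr l)) R r
    refine ⟨r₁, Lib.PolyTime.Steps.trans h₁ (Steps.one ?_)⟩
    rw [hM]; simp [Pr.tr, hb]
  | loop_next _ hb _ ih₁ ih₂ =>
    intro e₀ k₀ h₀ hk₀ e k hM R r
    obtain ⟨r₁, h₁⟩ := ih₁ e₀ k₀ h₀ hk₀ _ _ (fun l => hM (Sum.inr l)) R r
    obtain ⟨r₂, h₂⟩ := ih₂ e₀ k₀ h₀ hk₀ e k hM R r₁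
    refine ⟨r₂, Lib.PolyTime.Steps.trans (Lib.PolyTime.Steps.trans h₁ (Steps.one ?_)) h₂⟩
    rw [hM]; simp [Pr.tr, Pr.entry, hb]
  | call _ ih =>
    intro e₀ k₀ h₀ hk₀ e k hM R r
    obtain ⟨r₁, h₁⟩ := ih e₀ k₀ h₀ hk₀ e₀ k₀ h₀ (k :: R) r
    refine ⟨some k, Lib.PolyTime.Steps.trans (Lib.PolyTime.Steps.trans (Steps.one ?_) h₁)
      (Steps.one ?_)⟩
    · rw [hM]; simp only [Pr.tr, TM2.stepAux]; rw [upd_none]; rfl
    · rw [hk₀]; simp only [Pr.ret, TM2.stepAux]; rw [upd_none]; rfl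
  | @fix E p v S v' S' n _ ih =>
    intro e₀ k₀ h₀ hk₀ e k hM R r
    obtain ⟨r₁, h₁⟩ := ih (fun x => e (Sum.inr x)) (e (Sum.inl false)) (fun l => hM (Sum.inr l))
      (hM (Sum.inl false)) (fun x => e (Sum.inr x)) (e (Sum.inl false))
      (fun l => hM (Sum.inr l)) (k :: R) r
    refine ⟨some k, Lib.PolyTime.Steps.trans (Lib.PolyTime.Steps.trans (Steps.one ?_) h₁)
      (Steps.one ?_)⟩
    · rw [hM]; simp only [Pr.tr, Pr.entry, TM2.stepAux]; rw [upd_none]; rfl
    · rw [hM]; simp only [Pr.tr, Pr.ret, TM2.stepAux]; rw [upd_none]; rfl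

/-- Execution in at most `n` steps. -/
def RunL (E p : Pr Γ σ) (v : σ) (S : ∀ k, List (Γ k)) (v' : σ) (S' : ∀ k, List (Γ k))
    (n : ℕ) : Prop := ∃ m, m ≤ n ∧ Run E p v S v' S' m

namespace RunL
variable {E p q : Pr Γ σ} {b : σ → Bool} {v v' v'' : σ} {S S' S'' : ∀ k, List (Γ k)} {n m : ℕ}

theorem mono (h : RunL E p v S v' S' n) (le : n ≤ m) : RunL E p v S v' S' m := by
  obtain ⟨j, hj, he⟩ := h
  exact ⟨j, hj.trans le, he⟩

theorem push {k : K} {f : σ → Γ k} (h : update S k (f v :: S k) = S') :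
    RunL E (.push k f) v S v S' 1 := ⟨1, le_rfl, h ▸ Run.push E k f v S⟩

theorem pop {k : K} {f : σ → Option (Γ k) → σ} (h₁ : f v (S k).head? = v')
    (h₂ : update S k (S k).tail = S') : RunL E (.pop k f) v S v' S' 1 :=
  ⟨1, le_rfl, h₁ ▸ h₂ ▸ Run.pop E k f v S⟩

theorem load (f : σ → σ) : RunL E (.load f) v S (f v) S 1 := ⟨1, le_rfl, Run.load E f v S⟩

theorem seq (h : RunL E p v S v' S' n) (h' : RunL E q v' S' v'' S'' m) :
    RunL E (.seq p q) v S v'' S'' (n + m) := by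
  obtain ⟨i, hi, he⟩ := h
  obtain ⟨j, hj, he'⟩ := h'
  exact ⟨i + j, by omega, he.seq he'⟩

theorem ite_true (hb : b v = true) (h : RunL E p v S v' S' n) :
    RunL E (.ite b p q) v S v' S' (1 + n) := by
  obtain ⟨i, hi, he⟩ := h
  exact ⟨1 + i, by omega, .ite_true hb he⟩

theorem ite_false (hb : b v = false) (h : RunL E q v S v' S' n) :
    RunL E (.ite b p q) v S v' S' (1 + n) := by
  obtain ⟨i, hi, he⟩ := h
  exact ⟨1 + i, by omega, .ite_false hb he⟩

theorem loop_stop (h : RunL E p v S v' S' n) (hb : b v' = false) :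
    RunL E (.loop p b) v S v' S' (n + 1) := by
  obtain ⟨i, hi, he⟩ := h
  exact ⟨i + 1, by omega, .loop_stop he hb⟩

theorem loop_next (h : RunL E p v S v' S' n) (hb : b v' = true)
    (h' : RunL E (.loop p b) v' S' v'' S'' m) : RunL E (.loop p b) v S v'' S'' (n + 1 + m) := by
  obtain ⟨i, hi, he⟩ := h
  obtain ⟨j, hj, he'⟩ := h'
  exact ⟨i + 1 + j, by omega, .loop_next he hb he'⟩

theorem call (h : RunL E E v S v' S' n) : RunL E .call v S v' S' (n + 2) := by
  obtain ⟨i, hi, he⟩ := h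
  exact ⟨1 + i + 1, by omega, .call he⟩

theorem fix (h : RunL p p v S v' S' n) : RunL E (.fix p) v S v' S' (n + 2) := by
  obtain ⟨i, hi, he⟩ := h
  exact ⟨1 + i + 1, by omega, .fix he⟩

end RunL

end Crest.Agent.R326
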