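import Crest.Agent.R326.Code
import Crest.Agent.R326.Prog
import Crest.Agent.Lib.PolyTime.Compile

/-!
# Compiling `Cd` to stack programs (adapted from `Lib/PolyTime/Compile.lean`)
-/

namespace Crest.Agent.R326

open Turing Function
open Crest.Agent.Lib.PolyTime (V Reg rd bit1 bit2 foldl_keep foldl_cons')

/-- The stacks: input, output, main, auxiliary, transfer, counter, streams. -/
inductive SK : Type
  | inp | out | A | B | T | C | S (j : Fin 4)
  deriving DecidableEq, Fintype

/-- Stack alphabets. -/
abbrev SΓ (I : Type) : SK → Type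
  | .inp => I
  | _ => Bool

/-- Programs over the stacks. -/
abbrev SP (I : Type) : Type := Pr (SΓ I) Reg

variable {I : Type}

/-- The stack contents as a family. -/
def mkS (i : List I) (o a b t c : List Bool) (s : Fin 4 → List Bool) : ∀ k, List (SΓ I k)
  | .inp => i
  | .out => o
  | .A => a
  | .B => b
  | .T => t
  | .C => c
  | .S j => s j

section mk
variable (i i' : List I) (o a b t c x : List Bool) (s : Fin 4 → List Bool)
theorem upd_inp : update (mkS i o a b t c s) .inp i' = mkS i' o a b t c s := by
  funext k; cases k <;> rfl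
theorem upd_out : update (mkS i o a b t c s) .out x = mkS i x a b t c s := by
  funext k; cases k <;> rfl
theorem upd_A : update (mkS i o a b t c s) .A x = mkS i o x b t c s := by
  funext k; cases k <;> rfl
theorem upd_B : update (mkS i o a b t c s) .B x = mkS i o a x t c s := by
  funext k; cases k <;> rfl
theorem upd_T : update (mkS i o a b t c s) .T x = mkS i o a b x c s := by
  funext k; cases k <;> rfl
theorem upd_C : update (mkS i o a b t c s) .C x = mkS i o a b t x s := by
  funext k; cases k <;> rfl
theorem upd_S (j : Fin 4) : update (mkS i o a b t c s) (.S j) x = mkS i o a b t c (update s j x) := by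
  funext k
  cases k with
  | S j' =>
    by_cases h : j' = j
    · subst h; simp [mkS]
    · rw [update_of_ne (by simpa using h)]; simp [mkS, update_of_ne h]
  | _ => rfl
end mk

def popA : SP I := .pop .A fun _ x => rd x
def popB : SP I := .pop .B fun _ x => rd x
def popT : SP I := .pop .T fun _ x => rd x
def popC : SP I := .pop .C fun _ x => rd x
def popS (j : Fin 4) : SP I := .pop (.S j) fun _ x => rd x
def pushA (f : Reg → Bool) : SP I := .push .A f
def pushB (f : Reg → Bool) : SP I := .push .B f
def pushT (f : Reg → Bool) : SP I := .push .T f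
def pushC (f : Reg → Bool) : SP I := .push .C f
def pushO (f : Reg → Bool) : SP I := .push .out f
def pushS (j : Fin 4) (f : Reg → Bool) : SP I := .push (.S j) f
def skip : SP I := .load id

variable {E : SP I}

section prim
variable {i : List I} {o a b t c : List Bool} {s : Fin 4 → List Bool} {v : Reg} {f : Reg → Bool}
  {j : Fin 4}
theorem ex_popA : RunL E popA v (mkS i o a b t c s) (rd a.head?) (mkS i o a.tail b t c s) 1 :=
  RunL.pop rfl (upd_A ..)
theorem ex_popB : RunL E popB v (mkS i o a b t c s) (rd b.head?) (mkS i o a b.tail t c s) 1 :=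
  RunL.pop rfl (upd_B ..)
theorem ex_popT : RunL E popT v (mkS i o a b t c s) (rd t.head?) (mkS i o a b t.tail c s) 1 :=
  RunL.pop rfl (upd_T ..)
theorem ex_popC : RunL E popC v (mkS i o a b t c s) (rd c.head?) (mkS i o a b t c.tail s) 1 :=
  RunL.pop rfl (upd_C ..)
theorem ex_popS : RunL E (popS j) v (mkS i o a b t c s) (rd (s j).head?)
    (mkS i o a b t c (update s j (s j).tail)) 1 :=
  RunL.pop rfl (upd_S ..)
theorem ex_pushA : RunL E (pushA f) v (mkS i o a b t c s) v (mkS i o (f v :: a) b t c s) 1 :=
  RunL.push (upd_A ..)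
theorem ex_pushB : RunL E (pushB f) v (mkS i o a b t c s) v (mkS i o a (f v :: b) t c s) 1 :=
  RunL.push (upd_B ..)
theorem ex_pushT : RunL E (pushT f) v (mkS i o a b t c s) v (mkS i o a b (f v :: t) c s) 1 :=
  RunL.push (upd_T ..)
theorem ex_pushC : RunL E (pushC f) v (mkS i o a b t c s) v (mkS i o a b t (f v :: c) s) 1 :=
  RunL.push (upd_C ..)
theorem ex_pushO : RunL E (pushO f) v (mkS i o a b t c s) v (mkS i (f v :: o) a b t c s) 1 :=
  RunL.push (upd_out ..)
theorem ex_pushS : RunL E (pushS j f) v (mkS i o a b t c s) v
    (mkS i o a b t c (update s j (f v :: s j))) 1 :=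
  RunL.push (upd_S ..)
theorem ex_skip {S : ∀ k, List (SΓ I k)} : RunL E skip v S v S 1 := RunL.load id
end prim

/-- Empty the transfer stack, applying `act` to every bit. -/
def flush (act : SP I) : SP I :=
  .loop (.seq popT (.ite Option.isSome act skip)) Option.isSome

theorem ex_flush {act : SP I} {go ga gb : Bool → List Bool → List Bool}
    {gs : Bool → (Fin 4 → List Bool) → Fin 4 → List Bool} {i : List I} {c : List Bool}
    (hact : ∀ x o a b t s, RunL E act (rd (some x)) (mkS i o a b t c s) (rd (some x))
      (mkS i (go x o) (ga x a) (gb x b) t c (gs x s)) 2) (t : List Bool) :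
    ∀ (o a b : List Bool) (s : Fin 4 → List Bool) (v : Reg),
      RunL E (flush act) v (mkS i o a b t c s) none
      (mkS i (t.foldl (fun s x => go x s) o) (t.foldl (fun s x => ga x s) a)
        (t.foldl (fun s x => gb x s) b) [] c (t.foldl (fun s x => gs x s) s))
        (5 * (t.length + 1)) := by
  induction t with
  | nil =>
    intro o a b s v
    exact (RunL.loop_stop (ex_popT.seq (RunL.ite_false rfl ex_skip)) rfl).mono (by simp)
  | cons x t ih =>
    intro o a b s v
    exact (RunL.loop_next (ex_popT.seq (RunL.ite_true rfl (hact x o a b t s))) rfl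
      (ih _ _ _ _ _)).mono (by simp; omega)

theorem foldl_keepS (t : List Bool) (s : Fin 4 → List Bool) : t.foldl (fun s _ => s) s = s := by
  induction t <;> simp_all

theorem foldl_consS (j : Fin 4) (t : List Bool) (s : Fin 4 → List Bool) :
    t.foldl (fun s x => update s j (x :: s j)) s = update s j (t.reverse ++ s j) := by
  induction t generalizing s <;> simp_all

def flushA : SP I := flush (pushA bit1)
def flushB : SP I := flush (pushB bit1)
def flushO : SP I := flush (pushO bit1)
def flushS (j : Fin 4) : SP I := flush (pushS j bit1)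
def flushAB : SP I := flush (.seq (pushA bit1) (pushB bit1))
def clearT : SP I := flush skip

section flushes
variable {i : List I} {o a b t c : List Bool} {s : Fin 4 → List Bool} {v : Reg} {j : Fin 4}

theorem ex_flushA : RunL E flushA v (mkS i o a b t c s) none (mkS i o (t.reverse ++ a) b [] c s)
    (5 * (t.length + 1)) := by
  have := ex_flush (I := I) (E := E) (i := i) (c := c) (act := pushA bit1) (go := fun _ s => s)
    (ga := fun x s => x :: s) (gb := fun _ s => s) (gs := fun _ s => s)
    (fun x o a b t s => ex_pushA.mono (by omega)) t o a b s v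
  rwa [foldl_keep, foldl_keep, foldl_cons', foldl_keepS] at this

theorem ex_flushB : RunL E flushB v (mkS i o a b t c s) none (mkS i o a (t.reverse ++ b) [] c s)
    (5 * (t.length + 1)) := by
  have := ex_flush (I := I) (E := E) (i := i) (c := c) (act := pushB bit1) (go := fun _ s => s)
    (ga := fun _ s => s) (gb := fun x s => x :: s) (gs := fun _ s => s)
    (fun x o a b t s => ex_pushB.mono (by omega)) t o a b s v
  rwa [foldl_keep, foldl_keep, foldl_cons', foldl_keepS] at this

theorem ex_flushO : RunL E flushO v (mkS i o a b t c s) none (mkS i (t.reverse ++ o) a b [] c s)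
    (5 * (t.length + 1)) := by
  have := ex_flush (I := I) (E := E) (i := i) (c := c) (act := pushO bit1)
    (go := fun x s => x :: s) (ga := fun _ s => s) (gb := fun _ s => s) (gs := fun _ s => s)
    (fun x o a b t s => ex_pushO.mono (by omega)) t o a b s v
  rwa [foldl_keep, foldl_keep, foldl_cons', foldl_keepS] at this

theorem ex_flushS : RunL E (flushS j) v (mkS i o a b t c s) none
    (mkS i o a b [] c (update s j (t.reverse ++ s j))) (5 * (t.length + 1)) := by
  have := ex_flush (I := I) (E := E) (i := i) (c := c) (act := pushS j bit1)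
    (go := fun _ s => s) (ga := fun _ s => s) (gb := fun _ s => s)
    (gs := fun x s => update s j (x :: s j))
    (fun x o a b t s => ex_pushS.mono (by omega)) t o a b s v
  rwa [foldl_keep, foldl_keep, foldl_keep, foldl_consS] at this

theorem ex_flushAB : RunL E flushAB v (mkS i o a b t c s) none
    (mkS i o (t.reverse ++ a) (t.reverse ++ b) [] c s) (5 * (t.length + 1)) := by
  have := ex_flush (I := I) (E := E) (i := i) (c := c) (act := .seq (pushA bit1) (pushB bit1))
    (go := fun _ s => s) (ga := fun x s => x :: s) (gb := fun x s => x :: s) (gs := fun _ s => s)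
    (fun x o a b t s => ex_pushA.seq ex_pushB) t o a b s v
  rwa [foldl_keep, foldl_cons', foldl_cons', foldl_keepS] at this

theorem ex_clearT : RunL E clearT v (mkS i o a b t c s) none (mkS i o a b [] c s)
    (5 * (t.length + 1)) := by
  have := ex_flush (I := I) (E := E) (i := i) (c := c) (act := skip)
    (go := fun _ s => s) (ga := fun _ s => s) (gb := fun _ s => s) (gs := fun _ s => s)
    (fun x o a b t s => ex_skip.mono (by omega)) t o a b s v
  rwa [foldl_keep, foldl_keep, foldl_keep, foldl_keepS] at this

end flushes

/-- Move one serialised tree from the stack popped by `pp` to the transfer stack (reversed). -/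
def scan (pp : SP I) : SP I :=
  .loop (.seq pp (.seq (pushT bit1) (.ite bit1 (pushC fun _ => true) popC))) Option.isSome

theorem ex_scan {pp : SP I} {i : List I} {o : List Bool} {fa fb : List Bool → List Bool}
    {fs : List Bool → Fin 4 → List Bool}
    (hpp : ∀ v x t c, RunL E pp v (mkS i o (fa x) (fb x) t c (fs x)) (rd x.head?)
      (mkS i o (fa x.tail) (fb x.tail) t c (fs x.tail)) 1) (rest : List Bool) :
    ∀ (n : ℕ) (w : V) (ws : List V), w.size + (ws.map V.size).sum ≤ n →
      ∀ (v : Reg) (t : List Bool), RunL E (scan pp) v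
        (mkS i o (fa (w.ser ++ (ws.flatMap V.ser ++ rest))) (fb (w.ser ++ (ws.flatMap V.ser ++ rest)))
          t (List.replicate ws.length true) (fs (w.ser ++ (ws.flatMap V.ser ++ rest)))) none
        (mkS i o (fa rest) (fb rest) ((w.ser ++ ws.flatMap V.ser).reverse ++ t) [] (fs rest))
        (5 * n) := by
  intro n
  induction n with
  | zero => intro w ws h; have := w.size_pos; omega
  | succ n ih =>
    intro w ws h v t
    cases w with
    | nil =>
      cases ws with
      | nil =>
        exact (RunL.loop_stop ((hpp _ _ _ _).seq (ex_pushT.seq (RunL.ite_false rfl ex_popC)))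
          rfl).mono (by omega)
      | cons w ws =>
        have h1 := ih w ws (by simp at h; omega) (rd (some true)) (false :: t)
        have h2 := RunL.loop_next ((hpp v (V.nil.ser ++ ((w :: ws).flatMap V.ser ++ rest)) t
          (List.replicate (w :: ws).length true)).seq
          (ex_pushT.seq (RunL.ite_false (p := pushC fun _ => true) rfl ex_popC)))
          (b := Option.isSome)
          rfl (by simp [rd, List.replicate_succ] at h1 ⊢; exact h1)
        refine RunL.mono ?_ (show 1 + (1 + (1 + 1)) + 1 + 5 * n ≤ 5 * (n + 1) by omega)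
        simpa [scan] using h2
    | node l r =>
      have h1 := ih l (r :: ws) (by simp at h ⊢; omega) (rd (some true)) (true :: t)
      have h2 := RunL.loop_next ((hpp v ((V.node l r).ser ++ (ws.flatMap V.ser ++ rest)) t
        (List.replicate ws.length true)).seq
        (ex_pushT.seq (RunL.ite_true (q := popC) rfl (ex_pushC (f := fun _ => true)))))
        (b := Option.isSome) rfl (by simp [rd, List.replicate_succ] at h1 ⊢; exact h1)
      refine RunL.mono ?_ (show 1 + (1 + (1 + 1)) + 1 + 5 * n ≤ 5 * (n + 1) by omega)
      simpa [scan] using h2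

section scans
variable {i : List I} {o a b t : List Bool} {s : Fin 4 → List Bool} {v : Reg} {w : V} {j : Fin 4}

theorem ex_scanA : RunL E (scan popA) v (mkS i o (w.ser ++ a) b t [] s) none
    (mkS i o a b (w.ser.reverse ++ t) [] s) (5 * w.size) := by
  simpa using ex_scan (I := I) (E := E) (i := i) (o := o) (pp := popA) (fa := id)
    (fb := fun _ => b) (fs := fun _ => s) (fun _ _ _ _ => ex_popA) a w.size w [] (by simp) v t

theorem ex_scanB : RunL E (scan popB) v (mkS i o a (w.ser ++ b) t [] s) none
    (mkS i o a b (w.ser.reverse ++ t) [] s) (5 * w.size) := by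
  simpa using ex_scan (I := I) (E := E) (i := i) (o := o) (pp := popB) (fa := fun _ => a)
    (fb := id) (fs := fun _ => s) (fun _ _ _ _ => ex_popB) b w.size w [] (by simp) v t

theorem ex_scanS {r : List Bool} : RunL E (scan (popS j)) v
    (mkS i o a b t [] (update s j (w.ser ++ r))) none
    (mkS i o a b (w.ser.reverse ++ t) [] (update s j r)) (5 * w.size) := by
  simpa using ex_scan (I := I) (E := E) (i := i) (o := o) (pp := popS j) (fa := fun _ => a)
    (fb := fun _ => b) (fs := fun x => update s j x)
    (fun v x t c => by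
      simpa using ex_popS (I := I) (E := E) (i := i) (o := o) (a := a) (b := b) (t := t) (c := c)
        (s := update s j x) (j := j) (v := v)) r w.size w [] (by simp) v t

end scans

def dropA : SP I := .seq (scan popA) clearT
def toB : SP I := .seq (scan popA) flushB
def fromB : SP I := .seq (scan popB) flushA
def toS (j : Fin 4) : SP I := .seq (scan popA) (flushS j)
def fromS (j : Fin 4) : SP I := .seq (scan (popS j)) flushA
def dup : SP I := .seq (.seq (scan popA) flushAB) fromB

/-- Working configurations. -/
abbrev W (a b : List Bool) (s : Fin 4 → List Bool) : ∀ k, List (SΓ I k) := mkS [] [] a b [] [] s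

section values
variable {a b : List Bool} {s : Fin 4 → List Bool} {v : Reg} {w : V} {j : Fin 4}

theorem ex_dropA : RunL E (dropA (I := I)) v (W (w.ser ++ a) b s) none (W a b s)
    (15 * w.size) := by
  have := w.size_pos
  exact (ex_scanA.seq ex_clearT).mono (by simp; omega)

theorem ex_toB : RunL E (toB (I := I)) v (W (w.ser ++ a) b s) none (W a (w.ser ++ b) s)
    (15 * w.size) := by
  have := w.size_pos
  have h := (ex_scanA (I := I) (E := E) (i := []) (o := []) (a := a) (b := b) (t := []) (v := v)
    (s := s) (w := w)).seq ex_flushB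
  simp only [List.append_nil, List.reverse_reverse, List.length_reverse, V.length_ser] at h
  exact h.mono (by omega)

theorem ex_fromB : RunL E (fromB (I := I)) v (W a (w.ser ++ b) s) none (W (w.ser ++ a) b s)
    (15 * w.size) := by
  have := w.size_pos
  have h := (ex_scanB (I := I) (E := E) (i := []) (o := []) (a := a) (b := b) (t := []) (v := v)
    (s := s) (w := w)).seq ex_flushA
  simp only [List.append_nil, List.reverse_reverse, List.length_reverse, V.length_ser] at h
  exact h.mono (by omega)

theorem ex_toS : RunL E (toS (I := I) j) v (W (w.ser ++ a) b s) none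
    (W a b (update s j (w.ser ++ s j))) (15 * w.size) := by
  have := w.size_pos
  have h := (ex_scanA (I := I) (E := E) (i := []) (o := []) (a := a) (b := b) (t := []) (v := v)
    (s := s) (w := w)).seq (ex_flushS (j := j))
  simp only [List.append_nil, List.reverse_reverse, List.length_reverse, V.length_ser] at h
  exact h.mono (by omega)

theorem ex_fromS {r : List Bool} : RunL E (fromS (I := I) j) v (W a b (update s j (w.ser ++ r)))
    none (W (w.ser ++ a) b (update s j r)) (15 * w.size) := by
  have := w.size_pos
  have h := (ex_scanS (I := I) (E := E) (i := []) (o := []) (a := a) (b := b) (t := []) (v := v)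
    (s := s) (w := w) (j := j) (r := r)).seq ex_flushA
  simp only [List.append_nil, List.reverse_reverse, List.length_reverse, V.length_ser] at h
  exact h.mono (by omega)

theorem ex_dup : RunL E (dup (I := I)) v (W (w.ser ++ a) b s) none (W (w.ser ++ (w.ser ++ a)) b s)
    (30 * w.size) := by
  have := w.size_pos
  have h := (ex_scanA (I := I) (E := E) (i := []) (o := []) (a := a) (b := b) (t := []) (v := v)
    (s := s) (w := w)).seq ex_flushAB
  simp only [List.append_nil, List.reverse_reverse, List.length_reverse, V.length_ser] at h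
  exact (h.seq ex_fromB).mono (by omega)

end values

/-- The compiler. -/
def compile : Cd → SP I
  | .nil => .seq dropA (pushA fun _ => false)
  | .id => skip
  | .fst => .seq popA (.ite bit1 (.seq toB (.seq dropA fromB)) (pushA fun _ => false))
  | .snd => .seq popA (.ite bit1 dropA (pushA fun _ => false))
  | .pair c d => .seq dup (.seq (compile c) (.seq toB (.seq (compile d)
      (.seq fromB (pushA fun _ => true)))))
  | .comp c d => .seq (compile d) (compile c)
  | .ite c d e => .seq dup (.seq (compile c) (.seq popA
      (.ite bit1 (.seq dropA (.seq dropA (compile d))) (compile e))))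
  | .loop c => .loop (.seq (compile c) (.seq popA (.seq popA
      (.ite bit1 (.seq dropA (.seq dropA (.load fun _ => some (true, true))))
        (.load fun _ => none))))) Option.isSome
  | .self => .call
  | .fix c => .fix (compile c)
  | .push j => .seq (toS j) (pushA fun _ => false)
  | .pop j => .seq dropA (fromS j)
  | .cons j => .seq (toS j) (.seq (pushS j fun _ => true) (pushA fun _ => false))
  | .uncons j => .seq dropA (.seq (popS j) (.ite bit1
      (.seq (pushA fun _ => false) (.seq (fromS j) (pushA fun _ => true)))
      (.seq (pushS j fun _ => false) (pushA fun _ => false))))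

/-- Serialised stream stacks. -/
def serS (σ : Str) : Fin 4 → List Bool := fun j => (σ j).flatMap V.ser

theorem serS_update (σ : Str) (j : Fin 4) (l : List V) :
    serS (update σ j l) = update (serS σ) j (l.flatMap V.ser) := by
  funext k
  by_cases h : k = j
  · subst h; simp [serS]
  · simp [serS, update_of_ne h]

theorem serS_eq {σ : Str} {j : Fin 4} {l : List V} (h : σ j = l) :
    serS σ = update (serS σ) j (l.flatMap V.ser) := by
  rw [← serS_update, ← h, update_eq_self]

theorem EV.ex {E c : Cd} {w w' : V} {σ σ' : Str} {n : ℕ} (h : EV E c w σ w' σ' n) :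
    ∀ (a b : List Bool) (v : Reg), ∃ v', RunL (compile (I := I) E) (compile c) v
      (W (w.ser ++ a) b (serS σ)) v' (W (w'.ser ++ a) b (serS σ')) (100 * n) := by
  induction h with
  | nil E w σ =>
    intro a b v
    have := w.size_pos
    exact ⟨_, (ex_dropA.seq ex_pushA).mono (by omega)⟩
  | id E w σ =>
    intro a b v
    have := w.size_pos
    exact ⟨_, ex_skip.mono (by omega)⟩
  | fst E w σ =>
    intro a b v
    cases w with
    | nil => exact ⟨_, (ex_popA.seq (RunL.ite_false rfl ex_pushA)).mono (by simp)⟩
    | node l r =>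
      refine ⟨none, RunL.mono (ex_popA.seq (RunL.ite_true rfl ?_)) (show 1 + (1 + (15 * l.size +
        (15 * r.size + 15 * l.size))) ≤ _ by simp; omega)⟩
      simpa using ex_toB.seq (ex_dropA.seq ex_fromB)
  | snd E w σ =>
    intro a b v
    cases w with
    | nil => exact ⟨_, (ex_popA.seq (RunL.ite_false rfl ex_pushA)).mono (by simp)⟩
    | node l r =>
      refine ⟨none, RunL.mono (ex_popA.seq (RunL.ite_true rfl ?_))
        (show 1 + (1 + (15 * l.size)) ≤ _ by simp; omega)⟩
      simpa using ex_dropA
  | @pair E c d w w₁ w₂ σ σ₁ σ₂ n₁ n₂ h₁ h₂ ih₁ ih₂ =>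
    intro a b v
    obtain ⟨v₁, e₁⟩ := ih₁ (w.ser ++ a) b none
    obtain ⟨v₂, e₂⟩ := ih₂ a (w₁.ser ++ b) none
    have s₃ := w.size_pos
    refine ⟨none, RunL.mono ?_ (show 30 * w.size + (100 * n₁ + (15 * w₁.size + (100 * n₂ +
      (15 * w₁.size + 1)))) ≤ _ by omega)⟩
    simpa [compile] using ex_dup.seq (e₁.seq (ex_toB.seq (e₂.seq (ex_fromB.seq
      (ex_pushA (f := fun _ => true))))))
  | @comp E c d w u w' σ σ₁ σ₂ n₁ n₂ h₁ h₂ ih₁ ih₂ =>
    intro a b v
    obtain ⟨v₁, e₁⟩ := ih₁ a b v
    obtain ⟨v₂, e₂⟩ := ih₂ a b v₁
    exact ⟨v₂, (e₁.seq e₂).mono (by omega)⟩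
  | @ite_nil E c d e w w' σ σ₁ σ₂ n₁ n₂ h₁ h₂ ih₁ ih₂ =>
    intro a b v
    obtain ⟨v₁, e₁⟩ := ih₁ (w.ser ++ a) b none
    obtain ⟨v₂, e₂⟩ := ih₂ a b (rd (some false))
    have s₂ := w.size_pos
    exact ⟨v₂, (ex_dup.seq (e₁.seq (ex_popA.seq (RunL.ite_false rfl e₂)))).mono (by omega)⟩
  | @ite_node E c d e w x y w' σ σ₁ σ₂ n₁ n₂ h₁ h₂ ih₁ ih₂ =>
    intro a b v
    obtain ⟨v₁, e₁⟩ := ih₁ (w.ser ++ a) b none
    obtain ⟨v₂, e₂⟩ := ih₂ a b none
    have s₃ := w.size_pos
    refine ⟨v₂, RunL.mono (ex_dup.seq (e₁.seq (ex_popA.seq (RunL.ite_true rfl ?_))))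
      (show 30 * w.size + (100 * n₁ + (1 + (1 + (15 * x.size + (15 * y.size + 100 * n₂))))) ≤ _ by
        omega)⟩
    simpa using ex_dropA.seq (ex_dropA.seq e₂)
  | @loop_stop E c w w' σ σ₁ n h ih =>
    intro a b v
    obtain ⟨v₁, e₁⟩ := ih a b v
    exact ⟨none, (RunL.loop_stop (e₁.seq (ex_popA.seq (ex_popA.seq (RunL.ite_false rfl
      (RunL.load _))))) rfl).mono (by omega)⟩
  | @loop_next E c w x y w₁ w' σ σ₁ σ₂ n₁ n₂ h₁ h₂ ih₁ ih₂ =>
    intro a b v
    obtain ⟨v₁, e₁⟩ := ih₁ a b v
    obtain ⟨v₂, e₂⟩ := ih₂ a b (some (true, true))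
    have s₃ := x.size_pos
    refine ⟨v₂, RunL.mono (RunL.loop_next (e₁.seq (ex_popA.seq (ex_popA.seq
      (RunL.ite_true rfl ?_)))) rfl e₂) (show 100 * n₁ + (1 + (1 + (1 + (15 * x.size +
        (15 * y.size + 1))))) + 1 + 100 * n₂ ≤ _ by omega)⟩
    simpa using ex_dropA.seq (ex_dropA.seq (RunL.load fun _ => some (true, true)))
  | self h ih =>
    intro a b v
    obtain ⟨v₁, e₁⟩ := ih a b v
    exact ⟨v₁, e₁.call.mono (by omega)⟩
  | fix h ih =>
    intro a b v
    obtain ⟨v₁, e₁⟩ := ih a b v
    exact ⟨v₁, e₁.fix.mono (by omega)⟩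
  | push E j w σ =>
    intro a b v
    have := w.size_pos
    rw [serS_update]
    exact ⟨_, (ex_toS.seq ex_pushA).mono (by omega)⟩
  | @pop E j w σ t r h =>
    intro a b v
    have := w.size_pos
    rw [serS_update, serS_eq h, update_idem]
    exact ⟨_, (ex_dropA.seq ex_fromS).mono (by omega)⟩
  | @cons E j w σ t r h =>
    intro a b v
    have := w.size_pos
    refine ⟨none, RunL.mono ?_ (show 15 * w.size + (1 + 1) ≤ _ by omega)⟩
    have h1 := (ex_toS (I := I) (E := compile E) (a := a) (b := b) (s := serS σ) (v := v)
      (w := w) (j := j)).seq ((ex_pushS (j := j) (f := fun _ => true)).seq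
        (ex_pushA (f := fun _ => false)))
    rw [serS_update]
    simpa [compile, serS, h] using h1
  | @uncons_nil E j w σ r h =>
    intro a b v
    have := w.size_pos
    refine ⟨rd (some false), RunL.mono ?_ (show 15 * w.size + (1 + (1 + (1 + 1))) ≤ _ by omega)⟩
    have e : serS σ j = false :: r.flatMap V.ser := by simp [serS, h]
    refine ex_dropA.seq (RunL.seq (v' := rd (some false)) (S' := W a b
      (update (serS σ) j (r.flatMap V.ser))) ?_ (RunL.ite_false rfl ?_))
    · simpa [e] using ex_popS (I := I) (E := compile E) (i := []) (o := []) (a := a) (b := b)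
        (t := []) (c := []) (s := serS σ) (j := j) (v := none)
    · have h1 := (ex_pushS (I := I) (E := compile E) (i := []) (o := []) (a := a) (b := b)
        (t := []) (c := []) (s := update (serS σ) j (r.flatMap V.ser)) (j := j)
        (v := rd (some false)) (f := fun _ => false)).seq (ex_pushA (f := fun _ => false))
      simpa [← e] using h1
  | @uncons_node E j w σ x t r h =>
    intro a b v
    have := w.size_pos
    refine ⟨none, RunL.mono ?_ (show 15 * w.size + (1 + (1 + (1 + (15 * x.size + 1)))) ≤ _ by
      omega)⟩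
    have e : serS σ j = true :: (x.ser ++ (t :: r).flatMap V.ser) := by simp [serS, h]
    refine ex_dropA.seq (RunL.seq (v' := rd (some true)) (S' := W a b
      (update (serS σ) j (x.ser ++ (t :: r).flatMap V.ser))) ?_ (RunL.ite_true rfl ?_))
    · simpa [e] using ex_popS (I := I) (E := compile E) (i := []) (o := []) (a := a) (b := b)
        (t := []) (c := []) (s := serS σ) (j := j) (v := none)
    · rw [serS_update]
      simpa using (ex_pushA (I := I) (E := compile E) (f := fun _ => false)
        (v := rd (some true))).seq (ex_fromS.seq (ex_pushA (f := fun _ => true)))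

end Crest.Agent.R326
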