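import Crest.Agent.R326.Tables
import Crest.Agent.R326.Carry

/-!
# Cyclic convolution through the multidimensional transform
-/

set_option linter.unusedVariables false
set_option maxHeartbeats 400000

namespace Crest.Agent.R326

open Crest.Agent.Lib.PolyTime

theorem dg_ext {ℓ d j j' : ℕ} (hj : j < 2 ^ (d * ℓ)) (hj' : j' < 2 ^ (d * ℓ))
    (h : ∀ i, i < d → dg ℓ j i = dg ℓ j' i) : j = j' := by
  rw [← Nat.mod_eq_of_lt hj, ← Nat.mod_eq_of_lt hj', ← hsum_digits, ← hsum_digits]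
  exact hsum_congr h

open Classical in
/-- Transport of a sequence along the injection `ix`. -/
noncomputable def spread (ix : ℕ → ℕ) (N : ℕ) (x : ℕ → ℕ) (j : ℕ) : ℕ :=
  if h : ∃ k, k < N ∧ ix k = j then x h.choose else 0

section
open Classical
variable {ix : ℕ → ℕ} {N ℓ d : ℕ} {q : ℕ → ℕ}

theorem spread_ix (hinj : ∀ k k', k < N → k' < N → ix k = ix k' → k = k') (x : ℕ → ℕ) {k : ℕ}
    (hk : k < N) : spread ix N x (ix k) = x k := by
  have h : ∃ k', k' < N ∧ ix k' = ix k := ⟨k, hk, rfl⟩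
  rw [spread, dif_pos h, hinj _ _ h.choose_spec.1 hk h.choose_spec.2]

theorem spread_lt {x : ℕ → ℕ} {B : ℕ} (hB : 0 < B) (hx : ∀ k, x k < B) (j : ℕ) :
    spread ix N x j < B := by
  unfold spread; split_ifs; exacts [hx _, hB]

theorem cconv_spread (h1 : ∀ k, k < N → ix k < 2 ^ (d * ℓ) ∧ Valid ℓ d q (ix k))
    (hinj : ∀ k k', k < N → k' < N → ix k = ix k' → k = k')
    (hsurj : ∀ j, j < 2 ^ (d * ℓ) → Valid ℓ d q j → ∃ k, k < N ∧ ix k = j)
    (hadd : ∀ k k' i, k < N → k' < N → i < d →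
      dg ℓ (ix ((k + k') % N)) i = (dg ℓ (ix k) i + dg ℓ (ix k') i) % q i)
    (x y : ℕ → ℕ) {k : ℕ} (hk : k < N) :
    cconv ℓ d q (spread ix N x) (spread ix N y) (ix k) = conv N x y k := by
  have key : ∀ F : ℕ → ℕ, (∀ j, ¬ Valid ℓ d q j → F j = 0) →
      ∑ j ∈ Finset.range (2 ^ (d * ℓ)), F j = ∑ k ∈ Finset.range N, F (ix k) := fun F hF =>
    (Finset.sum_of_injOn ix (fun a ha b hb => hinj a b (by simpa using ha) (by simpa using hb))
      (fun a ha => by simpa using (h1 a (by simpa using ha)).1) (fun j hj hj' => hF j fun hv => by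
        obtain ⟨k, hk, e⟩ := hsurj j (by simpa using hj) hv
        exact hj' ⟨k, by simpa using hk, e⟩) fun _ _ => rfl).symm
  rw [cconv, if_pos (h1 k hk).2, key _ fun j hj => by simp [hj], conv]
  refine Finset.sum_congr rfl fun k₁ hk₁ => ?_
  rw [key _ fun j hj => by simp [hj]]
  refine Finset.sum_congr rfl fun k₂ hk₂ => ?_
  have hk₁ := Finset.mem_range.1 hk₁
  have hk₂ := Finset.mem_range.1 hk₂
  have hm : (k₁ + k₂) % N < N := Nat.mod_lt _ (by omega)
  rw [spread_ix hinj x hk₁, spread_ix hinj y hk₂]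
  refine if_congr ⟨fun h => hinj _ _ hm hk (dg_ext (h1 _ hm).1 (h1 _ hk).1 fun i hi => ?_),
    fun h => ⟨(h1 _ hk₁).2, (h1 _ hk₂).2, fun i hi => ?_⟩⟩ rfl rfl
  · rw [hadd _ _ _ hk₁ hk₂ hi, h.2.2 i hi]
  · rw [← hadd _ _ _ hk₁ hk₂ hi, h]

end

variable {ι : Type} {C : Ctx ι}

theorem R.zeros {n : ι → ℕ} (hn : R C fun i => Un.mk (n i)) :
    R C fun i => List.replicate (n i) false :=
  R.replicate hn (R.const (h := hn.isOk) false) (hn.dom_un.mono fun i => by simp)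

theorem R.toFix {b X : ι → ℕ} (hX : R C fun i => bits (b i) (X i)) (h : ∀ i, X i < 2 ^ b i) :
    R C fun i => crec (17 * b i) (2 ^ (10 * b i) * (X i : ℤ), 0) := by
  have hb := hX.widthB
  refine (((hb.unConstMul 10).zeros.hAppend (hX.padBits (hb.unConstMul 6) h)).pair
    (hb.unConstMul 17).zeroI).congr fun i => ?_
  rw [crec, show 17 * b i = 10 * b i + (b i + 6 * b i) by ring, ibits_shift, ibits_nat]

theorem R.fromFix {b : ι → ℕ} {z : ι → ℤ × ℤ} (hb : R C fun i => Un.mk (b i))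
    (h : ∀ i, 1 ≤ b i) (hz : R C fun i => crec (17 * b i) (z i)) :
    R C fun i => ibits (7 * b i) (((z i).1 + 2 ^ (10 * b i - 1)) / 2 ^ (10 * b i)) := by
  have := hb.isOk
  have h1 : R C fun i => ibits (17 * b i) (2 ^ (10 * b i - 1)) := by
    refine (((hb.unConstMul 10).unSub (R.const (Un.mk 1))).zeros.hAppend
      ((R.const true).cons (hb.unConstMul 7).zeros)).congr fun i => ?_
    have := h i
    have e := ibits_shift (10 * b i - 1) (7 * b i + 1) (1 : ℕ)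
    rw [show 10 * b i - 1 + (7 * b i + 1) = 17 * b i by omega, ibits_nat, bits_succ] at e
    simpa [bits_zero] using e
  refine (R.drop (hb.unConstMul 10) (R.addI hz.fst h1)).congr fun i => ?_
  rw [show 17 * b i = 10 * b i + 7 * b i by ring, drop_ibits]

/-- The convolution routine. -/
def ConvSpec : Prop :=
  ∃ c : ℕ, ∀ {ι : Type} {C : Ctx ι} {ℓ b L : ι → ℕ} {qs : ι → List ℕ} {x y : ι → ℕ → ℕ},
    C.PD (fun i => 2 ^ ((qs i).length * ℓ i)) L → C.PD (fun _ => 0) (fun i => 2 ^ ℓ i + b i) →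
    SC C L (fun i => (Un.mk (ℓ i), qs i, b i)) →
    (∀ i, c ≤ ℓ i ∧ 1 ≤ (qs i).length ∧ ((qs i).length * ℓ i + 2) ^ 4 ≤ 2 ^ (ℓ i / 4) ∧
      4 * (c * (ℓ i + 1) ^ 4 + 1) * (c * 4 ^ ℓ i + 2) * ((qs i).length + 1) ≤ b i) →
    (∀ i, (qs i).Pairwise Nat.Coprime) → (∀ i, ∀ q ∈ qs i, 2 ^ ℓ i < 2 * q ∧ q ≤ 2 ^ ℓ i) →
    (∀ i k, x i k < 2 ^ b i ∧ y i k < 2 ^ b i) →
    C.Dom (fun i => (2 : ℝ) ^ ((qs i).length * ℓ i) * (c * ((ℓ i : ℝ) + 1) ^ 4 + 1) * (17 * b i) *
      ((((qs i).length : ℝ) * ℓ i + 1) ^ tau + ((Nat.log 2 (17 * b i) : ℝ) + 2) ^ 10)) →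
    C.Dom (fun i => (2 : ℝ) ^ ((qs i).length * ℓ i) * (7 * b i + 1) * (((qs i).length : ℝ) + 1) *
      ((ℓ i : ℝ) + 1) ^ tau) →
    R C (fun i => tab (qs i).prod fun k => bits (b i) (x i k)) →
    R C (fun i => tab (qs i).prod fun k => bits (b i) (y i k)) →
      R C (fun i => tab (qs i).prod fun k => bits (7 * b i) (conv (qs i).prod (x i) (y i) k)) ∧
      ∀ i k, k < (qs i).prod → conv (qs i).prod (x i) (y i) k < 2 ^ (7 * b i)

theorem convSpec_of (hT : FxTapeSpec) (hM : FxMathSpec) (hC : CrtSpec) (hD : TabSpec) :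
    ConvSpec := by
  obtain ⟨c, len, sc, tb, G, hlen, hsc, plen, ptab, hG⟩ := hD
  obtain ⟨ix, hix, hcrt⟩ := hC
  refine ⟨c, fun {ι C ℓ b L qs x y} hP hP' hS hpar hcop hq hxy hD1 hD2 hx hy => ?_⟩
  have := hx.isOk
  set d : ι → ℕ := fun i => (qs i).length with hd
  have hq' : ∀ i, ∀ q ∈ qs i, 0 < q ∧ q ≤ 2 ^ ℓ i := fun i q h =>
    ⟨by have := (hq i q h).1; have : 0 < 2 ^ ℓ i := by positivity
        omega, (hq i q h).2⟩
  have hmem : ∀ i a, a < d i → (qs i).getD a 1 ∈ qs i := fun i a ha => by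
    rw [List.getD_eq_getElem _ _ ha]; exact List.getElem_mem _
  have hdb : ∀ i, d i + 1 ≤ b i := fun i => le_trans (Nat.le_mul_of_pos_left _ (by positivity))
    (hpar i).2.2.2
  have hb1 : ∀ i, 1 ≤ b i := fun i => by have := hdb i; omega
  have hw : ∀ i, 17 * b i - 1 + 1 = 17 * b i := fun i => by have := hb1 i; omega
  have hw' : ∀ i, ((17 * b i - 1 : ℕ) : ℝ) + 1 = 17 * b i := fun i => by exact_mod_cast hw i
  set Tb : ι → Bool → ℕ → ℕ → ℕ → ℤ × ℤ := fun i inv l ax p =>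
    G (2 ^ ℓ i) (10 * b i) (ℓ i) ((qs i).getD ax 1) inv l p with hTb
  set xa : ι → ℕ → ℕ := fun i => spread (ix (ℓ i) (qs i)) (qs i).prod (x i) with hxa
  set ya : ι → ℕ → ℕ := fun i => spread (ix (ℓ i) (qs i)) (qs i).prod (y i) with hya
  have hxa' : ∀ i j, xa i j < 2 ^ b i := fun i =>
    spread_lt (by positivity) fun k => (hxy i k).1
  have hya' : ∀ i j, ya i j < 2 ^ b i := fun i =>
    spread_lt (by positivity) fun k => (hxy i k).2
  have hmath := fun i => hM (ℓ i) (d i) (b i) (c * 4 ^ ℓ i) (len (ℓ i)) (b i) (10 * b i)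
    (17 * b i - 1) ((qs i).getD · 1) (sc (ℓ i))
    (fun inv l ax p => tb (ℓ i) ((qs i).getD ax 1) inv l p) (Tb i) (xa i) (ya i)
    (fun a ha => hq' i _ (hmem i a ha)) (fun l jb => hsc _ l jb (hpar i).1)
    (fun inv a ha => (hG _ _ inv (hpar i).1 (hq i _ (hmem i a ha)).1 (hq i _ (hmem i a ha)).2).2)
    (fun inv l a p _ ha hp => (hG _ _ inv (hpar i).1 (hq i _ (hmem i a ha)).1
      (hq i _ (hmem i a ha)).2).1 _ l p hp) (fun j => ⟨hxa' i j, hya' i j⟩)
    (le_trans (by have := hlen (ℓ i); gcongr) (hpar i).2.2.2) (by omega)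
    (by have := hb1 i; omega)
  -- parameters
  have hbR : R C b := hS.r.snd.snd
  have hsb : Sm (fun i => 2 ^ ℓ i + b i) b := Sm.self.mono fun i => Nat.le_add_left _ _
  have hsU : Sm (fun i => 2 ^ ℓ i + b i) fun i => 2 ^ ℓ i :=
    Sm.self.mono fun i => Nat.le_add_right _ _
  have hub := SC.un hP' hbR hsb
  have hU := SC.un hP' (hS.fst.poly hP (f := fun u => 2 ^ u.n) (by fun_prop)).r hsU
  have hℓ : SC C (fun i => 2 ^ ℓ i + b i) fun i => Un.mk (ℓ i) :=
    ⟨hS.r.fst, (hsU.mono fun i => Nat.lt_two_pow_self.le).sz_un⟩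
  have hqs : SC C (fun i => 2 ^ ℓ i + b i) qs := ⟨hS.r.snd.fst,
    ((hsb.mul (((Sm.const 4).mul hsU).add (Sm.const 2))).add (Sm.const 1)).mono fun i => by
      have h1 := sz_list_le (l := qs i) (B := 4 * 2 ^ ℓ i + 1) fun q h =>
        (sz_le_self q).trans (by have := (hq i q h).2; omega)
      have h2 := Nat.mul_le_mul_right (4 * 2 ^ ℓ i + 2) (show d i ≤ b i by have := hdb i; omega)
      exact h1.trans (Nat.succ_le_succ h2)⟩
  have htab : ∀ inv, R C fun i => tab (len (ℓ i)) fun l => (sc (ℓ i) l, tab (d i) fun ax =>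
      tab (2 ^ ℓ i) fun p => crec (17 * b i - 1 + 1) (Tb i inv l ax p)) := fun inv => by
    simp only [hw]
    have h10 : SC C (fun i => 2 ^ ℓ i + b i) fun i => Un.mk (10 * b i) :=
      hub.poly hP' (f := fun u => Un.mk (10 * u.n)) (by fun_prop)
    have h17 : SC C (fun i => 2 ^ ℓ i + b i) fun i => Un.mk (17 * b i) :=
      hub.poly hP' (f := fun u => Un.mk (17 * u.n)) (by fun_prop)
    have h := (((hU.pair (hℓ.pair (h10.pair h17))).pair (hqs.pair (SC.const inv))).poly hP' ptab).r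
    dsimp only [sched] at h
    exact h
  have hS' : SC C L fun i => (Un.mk (d i * ℓ i), ℓ i, d i, 10 * b i, 17 * b i - 1,
      Un.mk (len (ℓ i))) :=
    ((hS.pair (hS.fst.poly hP plen)).poly hP (f := fun a => (Un.mk (a.1.2.1.length * a.1.1.n),
      a.1.1.n, a.1.2.1.length, 10 * a.1.2.2, 17 * a.1.2.2 - 1, a.2)) (by fun_prop) :)
  have hlog : ∀ i, ((Nat.log 2 (17 * b i - 1) : ℝ) + 2) ^ 10 ≤
      ((Nat.log 2 (17 * b i) : ℝ) + 2) ^ 10 := fun i => by
    gcongr; exact Nat.sub_le _ _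
  have hD1' : C.Dom fun i => (2 : ℝ) ^ (d i * ℓ i) * (len (ℓ i) + 1) *
      ((17 * b i - 1 : ℕ) + 1) * (((d i : ℝ) * ℓ i + 1) ^ tau +
        (Nat.log 2 (17 * b i - 1) + 2) ^ 10) := hD1.mono fun i => by
    have h1 : (len (ℓ i) : ℝ) ≤ c * ((ℓ i : ℝ) + 1) ^ 4 := by exact_mod_cast hlen (ℓ i)
    have := hlog i
    rw [hw']
    gcongr
  have hrun := fun (inv : Bool) (a : ι → ℕ → ℤ × ℤ) hfit ha => hT.run (a := a)
    (tb := fun i => Tb i inv) (sc := fun i => sc (ℓ i)) hP hS' (fun i => (hpar i).2.1)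
    (fun i => (hpar i).2.2.1) (fun i => by have := hb1 i; omega)
    (fun i l jb => hsc _ l jb (hpar i).1) hfit hD1' (htab inv) ha
  -- forward
  have fwd : ∀ z : ι → ℕ → ℕ, (∀ i k, z i k < 2 ^ b i) →
      R C (fun i => tab (qs i).prod fun k => bits (b i) (z i k)) →
      R C fun i => tab (2 ^ (d i * ℓ i)) fun j => crec (17 * b i - 1 + 1)
        (2 ^ (10 * b i) * (spread (ix (ℓ i) (qs i)) (qs i).prod (z i) j : ℤ), 0) := by
    intro z hz h
    simp only [hw]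
    have h1 := (hcrt (a := fun i j => bits (b i) (spread (ix (ℓ i) (qs i)) (qs i).prod (z i) j))
      hP hS hcop hq' (by simp) (hD2.mono fun i => by
        have : (0 : ℝ) ≤ b i := by positivity
        gcongr; linarith)).2 (fun i j hj hv => by
          rw [spread, dif_neg, bits_zero]
          rintro ⟨k, hk, rfl⟩
          exact hv ((hix _ _ (hcop i) (hq' i)).1 k hk).2)
      (h.congr fun i => tab_congr fun k hk => by
        rw [spread_ix (hix _ _ (hcop i) (hq' i)).2.1 _ hk])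
    exact h1.tabMap₀ fun h₂ => h₂.toFix fun p => spread_lt (by positivity) (hz _) _
  have hX := hrun false _ (fun i => (hmath i).1) (fwd x (fun i k => (hxy i k).1) hx)
  have hY := hrun false _ (fun i => (hmath i).2.1) (fwd y (fun i k => (hxy i k).2) hy)
  have hZ := hT.mul (hub.r.unConstMul 10) (fun i => by have := hb1 i; omega)
    (fun i j hj => ⟨(hmath i).1.2.2 _ j le_rfl hj, (hmath i).2.1.2.2 _ j le_rfl hj⟩)
    (hD1'.mono_mul 2 (by norm_num) fun i => by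
      have h1 : (1 : ℝ) ≤ 2 ^ (d i * ℓ i) := one_le_pow₀ (by norm_num)
      have h2 : (0 : ℝ) ≤ ((d i : ℝ) * ℓ i + 1) ^ tau := by positivity
      push_cast
      calc _ ≤ (2 * 2 ^ (d i * ℓ i) * (len (ℓ i) + 1)) * (((17 * b i - 1 : ℕ) : ℝ) + 1) *
            (((d i : ℝ) * ℓ i + 1) ^ tau + (Nat.log 2 (17 * b i - 1) + 2) ^ 10) := by
            gcongr
            · nlinarith [(by positivity : (0 : ℝ) ≤ len (ℓ i))]
            · linarith
        _ = _ := by ring) hX hY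
  have hW := hrun true _ (fun i => (hmath i).2.2.1) hZ
  simp only [hw] at hW
  have hV : R C fun i => tab (2 ^ (d i * ℓ i)) fun j =>
      bits (7 * b i) (cconv (ℓ i) (d i) ((qs i).getD · 1) (xa i) (ya i) j) :=
    R.tabMap hub.r hW ((hD2.mono_mul 2 (by norm_num) fun i => by
      have h1 : (1 : ℝ) ≤ ((ℓ i : ℝ) + 1) ^ tau :=
        Real.one_le_rpow (by simp) (by unfold tau; norm_num)
      have h2 : (0 : ℝ) ≤ b i := by positivity
      rw [sz_un]
      push_cast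
      calc _ ≤ 2 * (2 ^ (d i * ℓ i) * (7 * b i + 1) * 1 * 1 : ℝ) := by
            nlinarith [(by positivity : (0 : ℝ) ≤ 2 ^ (d i * ℓ i))]
        _ ≤ _ := by gcongr; simp))
      fun h₁ h₂ => (h₁.fromFix (fun p => hb1 p.1) h₂).congr fun p => by
        rw [(hmath p.1).2.2.2 _ p.2.2, ibits_nat]
  have hcc : ∀ i k, k < (qs i).prod → cconv (ℓ i) (d i) ((qs i).getD · 1) (xa i) (ya i)
      (ix (ℓ i) (qs i) k) = conv (qs i).prod (x i) (y i) k := fun i k hk => by
    obtain ⟨h1, h2, h3, h4⟩ := hix _ _ (hcop i) (hq' i)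
    exact cconv_spread h1 h2 h3 h4 _ _ hk
  refine ⟨((hcrt (ρ := fun i => 7 * b i) hP (hS.poly hP (f := fun a => (a.1, a.2.1, 7 * a.2.2))
    (by fun_prop)) hcop hq' (by simp) (hD2.congr fun i => by push_cast; rfl)).1 hV).congr
      fun i => tab_congr fun k hk => by rw [hcc i k hk], fun i k hk => ?_⟩
  have hj := ((hix _ _ (hcop i) (hq' i)).1 k hk).1
  have h1 := ((hmath i).2.2.1.2.2 _ _ le_rfl hj).1
  have h2 := (hmath i).2.2.2 _ hj
  rw [hcc i k hk] at h2
  zify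
  rw [← h2, Int.ediv_lt_iff_lt_mul (by positivity), ← pow_add,
    show 7 * b i + 10 * b i = 17 * b i - 1 + 1 by have := hb1 i; omega, pow_succ]
  have h3 : (2 : ℤ) ^ (10 * b i - 1) ≤ 2 ^ (17 * b i - 1) :=
    pow_le_pow_right₀ (by norm_num) (by omega)
  linarith [(abs_lt.1 h1).2]

end Crest.Agent.R326
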