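import Crest.Agent.R326.CrtMath

/-!
# The Chinese-remainder re-indexing on the machine (row 326)
-/

namespace Crest.Agent.R326

open Crest.Agent.Lib.PolyTime

namespace Crt

variable {ι : Type} {C : Ctx ι}

/-- A loop of `n` passes over an array. -/
theorem loop {γ : Type} [PEnc γ] {n T ρ L : ι → ℕ} {par : ι → γ} {b : ι → ℕ → ℕ → List Bool}
    (hP : C.PD T L) (hn : SC C L fun i => Un.mk (n i)) (hpar : SC C L par)
    (hlen : ∀ i k j, k < n i → j < T i → (b i k j).length = ρ i)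
    (hD : C.Dom fun i => (n i : ℝ) * (T i * (ρ i + 1)))
    (h0 : R C fun i => tab (T i) (b i 0))
    (hs : ∀ {δ : Type} [PEnc δ] (x : ι → ℕ → δ),
      SC (C.pos n x) (fun p => L p.1) (fun p => (par p.1, Un.mk p.2)) →
      R (C.pos n x) (fun p => tab (T p.1) (b p.1 p.2)) →
      R (C.pos n x) fun p => tab (T p.1) (b p.1 (p.2 + 1))) :
    R C fun i => tab (T i) (b i (n i)) := by
  have hl : R C fun i => tab (n i) Un.mk :=
    (hn.poly hP (f := fun u : Un => (List.range u.n).map Un.mk)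
      (Poly.urange (by fun_prop) (by fun_prop))).r
  refine (R.iter (s := fun i k => (par i, tab (T i) (b i k))) (hpar.r.pair h0) hl ?_
    fun h₁ h₂ => h₁.fst.pair (hs _ ⟨h₁.fst.pair h₂, ?_⟩ h₁.snd)).snd
  · refine Ctx.dom_sum_unif (β := fun i => sz (par i) + 2 + 4 * (T i * (ρ i + 1)))
      (((hP.dom₁ (hn.sm.of_un.mul (hpar.sm.add (Sm.const 2)))).add
        (hD.smul (K := 4) (by norm_num))).congr fun i => by push_cast; ring) fun i k hk => ?_
    have h1 := sz_tab_le (T := T i) (a := b i k) (B := 4 * ρ i + 1) fun j hj => by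
      have := sz_listBool_le (b i k j)
      rwa [hlen i k j hk hj] at this
    rw [sz_pair]
    norm_cast
    nlinarith
  · exact (hpar.sm.comap _).pair (((hn.sm.of_un.comap _).mono fun p => p.2.2.le).sz_un)

theorem poly_amt (inv : Bool) :
    Poly fun p : ((Un × List ℕ) × Un) × ℕ => amt inv p.1.1.1.n p.1.1.2 p.1.2.n p.2 := by
  unfold amt val mu W dg
  fun_prop

theorem poly_validB : Poly fun p : (Un × List ℕ) × ℕ => validB p.1.1.n p.1.2.reverse p.2 := by
  have h : Poly fun p : (Un × List ℕ) × ℕ => ((List.range p.1.2.reverse.length).map fun s =>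
      decide (dg p.1.1.n p.2 s < p.1.2.reverse.getD s 1)).all id := by
    unfold dg
    fun_prop
  exact h.congr fun p => by simp [validB]

variable {ℓ t ρ L : ι → ℕ} {qs : ι → List ℕ} {a : ι → ℕ → List Bool}

theorem rot_step (hp : PermSpec) (inv : Bool) (hP : C.PD (fun i => 2 ^ ((qs i).length * ℓ i)) L)
    (hpar : SC C L fun i => ((Un.mk (ℓ i), qs i), Un.mk (t i))) (ht : ∀ i, t i < (qs i).length)
    (hq : ∀ i, ∀ q ∈ qs i, 0 < q ∧ q ≤ 2 ^ ℓ i)
    (ha : R C fun i => tab (2 ^ ((qs i).length * ℓ i)) (a i)) :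
    R C fun i => tab (2 ^ ((qs i).length * ℓ i)) fun j => a i (rot inv (ℓ i) (qs i) (t i) j) := by
  have e := fun i => pow_split (ℓ i) (ht i)
  have := hp.rot (H := fun i => 2 ^ (((qs i).length - 1 - t i) * ℓ i)) (Q := fun i => 2 ^ ℓ i)
    (S := fun i => 2 ^ (t i * ℓ i)) (q := fun i => (qs i).getD (t i) 1) (a := a) (poly_amt inv)
    (by simpa only [e] using hP) (hpar.poly hP (f := fun p : (Un × List ℕ) × Un =>
      (2 ^ ((p.1.2.length - 1 - p.2.n) * p.1.1.n), 2 ^ p.1.1.n, 2 ^ (p.2.n * p.1.1.n),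
        p.1.2.getD p.2.n 1)) (by fun_prop)) hpar (fun i => (hq i _ (getD_mem (ht i))).2)
    (by simpa only [e] using ha)
  simpa only [e, rot] using this

theorem sw_step (hs : SwapSpec) (hP : C.PD (fun i => 2 ^ ((qs i).length * ℓ i)) L)
    (hpar : SC C L fun i => ((Un.mk (ℓ i), qs i, ρ i), Un.mk (t i)))
    (ht : ∀ i, t i < (qs i).length / 2)
    (hlen : ∀ i j, j < 2 ^ ((qs i).length * ℓ i) → (a i j).length = ρ i)
    (hD : C.Dom fun i => (2 : ℝ) ^ ((qs i).length * ℓ i) * ρ i * ((ℓ i : ℝ) + 1) ^ tau)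
    (ha : R C fun i => tab (2 ^ ((qs i).length * ℓ i)) (a i)) :
    R C fun i => tab (2 ^ ((qs i).length * ℓ i)) fun j =>
      a i (sw (ℓ i) (qs i).length (t i) j) := by
  have e : ∀ i, 2 ^ (t i * ℓ i) * 2 ^ ℓ i * 2 ^ (((qs i).length - 2 * t i - 2) * ℓ i) * 2 ^ ℓ i *
      2 ^ (t i * ℓ i) = 2 ^ ((qs i).length * ℓ i) := fun i => by
    obtain ⟨m, hm⟩ : ∃ m, (qs i).length = 2 * t i + 2 + m :=
      ⟨(qs i).length - 2 * t i - 2, by have := ht i; omega⟩
    rw [hm, show 2 * t i + 2 + m - 2 * t i - 2 = m by omega]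
    ring
  have := hs (S₁ := fun i => 2 ^ (t i * ℓ i))
    (S₂ := fun i => 2 ^ (((qs i).length - 2 * t i - 2) * ℓ i)) (S₃ := fun i => 2 ^ (t i * ℓ i))
    (u := ℓ) (ρ := ρ) (a := a) (by simpa only [e] using hP)
    (hpar.poly hP (f := fun p : (Un × List ℕ × ℕ) × Un =>
      (2 ^ (p.2.n * p.1.1.n), 2 ^ ((p.1.2.1.length - 2 * p.2.n - 2) * p.1.1.n),
        2 ^ (p.2.n * p.1.1.n), p.1.2.2, p.1.1)) (by fun_prop))
    (by simpa only [e] using hlen) (by simpa only [e, Nat.cast_pow, Nat.cast_ofNat] using hD)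
    (by simpa only [e] using ha)
  simpa only [e, sw] using this

theorem one_le_rpow_tau (x : ℕ) : (1 : ℝ) ≤ ((x : ℝ) + 1) ^ tau :=
  Real.one_le_rpow (by simp) (by unfold tau; norm_num)

section main
variable (hP : C.PD (fun i => 2 ^ ((qs i).length * ℓ i)) L)
  (hpar : SC C L fun i => (Un.mk (ℓ i), qs i, ρ i))
  (hlen : ∀ i j, j < 2 ^ ((qs i).length * ℓ i) → (a i j).length = ρ i)
  (hD : C.Dom fun i => (2 : ℝ) ^ ((qs i).length * ℓ i) * (ρ i + 1) * ((qs i).length + 1) *
    ((ℓ i : ℝ) + 1) ^ tau)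

include hD in
theorem dom_loop {n : ι → ℕ} (hn : ∀ i, n i ≤ (qs i).length + 1) :
    C.Dom fun i => (n i : ℝ) * ((2 ^ ((qs i).length * ℓ i) : ℕ) * (ρ i + 1)) :=
  hD.mono fun i => by
    have h1 := one_le_rpow_tau (ℓ i)
    have h2 : (n i : ℝ) ≤ (qs i).length + 1 := by exact_mod_cast hn i
    push_cast
    calc _ ≤ ((qs i).length + 1) * ((2 : ℝ) ^ ((qs i).length * ℓ i) * (ρ i + 1)) * 1 := by
          rw [mul_one]; gcongr
      _ ≤ ((qs i).length + 1) * ((2 : ℝ) ^ ((qs i).length * ℓ i) * (ρ i + 1)) *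
          ((ℓ i : ℝ) + 1) ^ tau := by gcongr
      _ = _ := by ring

include hP hpar in
theorem pd_pos {n : ι → ℕ} (hn : ∀ i, n i ≤ (qs i).length) {δ : Type} [PEnc δ] (x : ι → ℕ → δ) :
    (C.pos n x).PD (fun p => 2 ^ ((qs p.1).length * ℓ p.1)) fun p => L p.1 :=
  hP.pos (g := fun i => sz (qs i)) (T' := fun i => 2 ^ ((qs i).length * ℓ i)) hpar.snd.fst.sm
    (fun i => (Nat.mul_comm _ _).trans_le
      (Nat.mul_le_mul_left _ ((hn i).trans (length_le_sz _)))) x

include hP hpar hlen hD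

theorem rev_r (hs : SwapSpec) (ha : R C fun i => tab (2 ^ ((qs i).length * ℓ i)) (a i)) :
    R C fun i => tab (2 ^ ((qs i).length * ℓ i)) fun j =>
      a i (revs (ℓ i) (qs i).length ((qs i).length / 2) j) := by
  refine loop (n := fun i => (qs i).length / 2) (ρ := ρ)
    (b := fun i k j => a i (revs (ℓ i) (qs i).length k j)) hP
    (hpar.poly hP (f := fun p : Un × List ℕ × ℕ => Un.mk (p.2.1.length / 2)) (by fun_prop)) hpar
    (fun i k j hk hj => hlen i _ (revs_lt hk.le hj)) (dom_loop hD fun i => by omega) ha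
    fun x h₁ h₂ => ?_
  refine sw_step hs (pd_pos hP hpar (fun i => Nat.div_le_self _ _) x) h₁ (fun p => p.2.2)
    (fun p j hj => hlen _ _ (revs_lt p.2.2.le hj)) (Ctx.dom_pos_unif
      (β := fun i => (2 : ℝ) ^ ((qs i).length * ℓ i) * ρ i * ((ℓ i : ℝ) + 1) ^ tau)
      (hD.mono fun i => ?_) (fun i => by positivity) fun _ => le_rfl) h₂
  have h2 : (((qs i).length / 2 : ℕ) : ℝ) ≤ (qs i).length + 1 := by
    exact_mod_cast (by omega : (qs i).length / 2 ≤ (qs i).length + 1)
  calc _ ≤ ((qs i).length + 1) * ((2 : ℝ) ^ ((qs i).length * ℓ i) * (ρ i + 1) *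
        ((ℓ i : ℝ) + 1) ^ tau) := by gcongr; linarith
    _ = _ := by ring

variable (hq : ∀ i, ∀ q ∈ qs i, 0 < q ∧ q ≤ 2 ^ ℓ i)
include hq

theorem rots_r (hp : PermSpec) (ha : R C fun i => tab (2 ^ ((qs i).length * ℓ i)) (a i)) :
    R C fun i => tab (2 ^ ((qs i).length * ℓ i)) fun j =>
      a i (rots (ℓ i) (qs i) (qs i).length j) := by
  refine loop (n := fun i => (qs i).length) (ρ := ρ)
    (b := fun i k j => a i (rots (ℓ i) (qs i) k j)) hP
    (hpar.poly hP (f := fun p : Un × List ℕ × ℕ => Un.mk p.2.1.length) (by fun_prop)) hpar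
    (fun i k j hk hj => hlen i _ (rots_lt (hq i) hk.le hj)) (dom_loop hD fun i => by omega) ha
    fun x h₁ h₂ => ?_
  have hP' := pd_pos hP hpar (fun i => le_rfl) x
  exact rot_step hp false (t := fun p => (qs p.1).length - 1 - p.2) hP'
    (h₁.poly hP' (f := fun p : (Un × List ℕ × ℕ) × Un =>
      ((p.1.1, p.1.2.1), Un.mk (p.1.2.1.length - 1 - p.2.n))) (by fun_prop))
    (fun p => by have := p.2.2; omega) (fun p => hq p.1) h₂

theorem rots_inv_r (hp : PermSpec) (ha : R C fun i => tab (2 ^ ((qs i).length * ℓ i)) fun j =>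
    a i (rots (ℓ i) (qs i) (qs i).length j)) :
    R C fun i => tab (2 ^ ((qs i).length * ℓ i)) (a i) := by
  have := loop (n := fun i => (qs i).length) (ρ := ρ)
    (b := fun i k j => a i (rots (ℓ i) (qs i) ((qs i).length - k) j)) hP
    (hpar.poly hP (f := fun p : Un × List ℕ × ℕ => Un.mk p.2.1.length) (by fun_prop)) hpar
    (fun i k j hk hj => hlen i _ (rots_lt (hq i) (Nat.sub_le _ _) hj))
    (dom_loop hD fun i => by omega) ha fun x h₁ h₂ => by
      have hP' := pd_pos hP hpar (fun i => le_rfl) x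
      refine (rot_step hp true (t := fun p => p.2) hP'
        (h₁.poly hP' (f := fun p : (Un × List ℕ × ℕ) × Un => ((p.1.1, p.1.2.1), p.2))
          (by fun_prop)) (fun p => p.2.2) (fun p => hq p.1) h₂).congr fun p => ?_
      refine tab_congr fun j _ => ?_
      have := p.2.2
      rw [show (qs p.1).length - p.2 = (qs p.1).length - (p.2 + 1) + 1 by omega, rots,
        show (qs p.1).length - 1 - ((qs p.1).length - (p.2 + 1)) = p.2 by omega,
        rot_rot (hq _) this]
  simpa only [Nat.sub_self, rots] using this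

end main

end Crt

open Crt in
theorem crtSpec_of (hp : PermSpec) (hs : SwapSpec) : CrtSpec := by
  refine ⟨ix, fun ℓ qs hc hq => ⟨fun k _ => ⟨ix_lt hq k, ix_valid hq k⟩,
    fun k k' => ix_inj hc hq, fun j => ix_surj hc hq, fun k k' i _ _ => ix_add hq k k'⟩, ?_⟩
  intro ι C ℓ ρ L qs a hP hpar hc hq hlen hD
  have := hpar.r.isOk
  have hT : SC C L fun i => 2 ^ ((qs i).length * ℓ i) :=
    hpar.poly hP (f := fun p : Un × List ℕ × ℕ => 2 ^ (p.2.1.length * p.1.n)) (by fun_prop)
  have hU := hT.r.toUn hP.dom_T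
  have hm : R C fun i => tab (2 ^ ((qs i).length * ℓ i)) (validB (ℓ i) (qs i).reverse) :=
    R.tabPoly hP hU hT.sm (hpar.fst.pair hpar.snd.fst) poly_validB
  have e : ∀ i, tab (qs i).prod (fun k => a i (ix (ℓ i) (qs i) k)) =
      ((List.range (2 ^ ((qs i).length * ℓ i))).filter (validB (ℓ i) (qs i).reverse)).map
        fun j => a i (rots (ℓ i) (qs i) (qs i).length
          (revs (ℓ i) (qs i).length ((qs i).length / 2) j)) := fun i => by
    have := filter_valid (ps := (qs i).reverse) fun q h => hq i q (List.mem_reverse.1 h)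
    rw [List.length_reverse, List.prod_reverse] at this
    rw [this, List.map_map]
    exact tab_congr fun k _ => by simp only [Function.comp, factor (hq i) (hc i)]
  have hlen' : ∀ i j, j < 2 ^ ((qs i).length * ℓ i) →
      (a i (rots (ℓ i) (qs i) (qs i).length j)).length = ρ i :=
    fun i j hj => hlen i _ (rots_lt (hq i) le_rfl hj)
  refine ⟨fun ha => (hp.select hm (rev_r hP hpar hlen' hD hs
    (rots_r hP hpar hlen hD hq hp ha))).congr e, fun h0 ha => ?_⟩
  have hD' : C.Dom fun i => ((2 ^ ((qs i).length * ℓ i) : ℕ) : ℝ) * (ρ i + 1) := by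
    simpa only [Nat.cast_one, one_mul] using dom_loop hD (n := fun _ => 1) fun i => by omega
  have hρ : R C fun i => Un.mk (ρ i) := R.toUn (n := ρ) hpar.r.snd.snd (hD'.mono fun i => by
    have : (1 : ℝ) ≤ (2 ^ ((qs i).length * ℓ i) : ℕ) := by exact_mod_cast Nat.one_le_two_pow
    nlinarith [(by positivity : (0 : ℝ) ≤ ρ i)])
  have hz : R C fun i => List.replicate (ρ i) false :=
    R.replicate hρ (R.const false) (hρ.dom_un.mono fun i => by simp)
  have hb : R C fun i => tab (2 ^ ((qs i).length * ℓ i)) fun _ => List.replicate (ρ i) false :=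
    (R.replicate hU hz (hD'.mono_mul 4 (by norm_num) fun i => by
      have : (sz (List.replicate (ρ i) false) : ℝ) ≤ 4 * ρ i + 1 := by
        exact_mod_cast (by simpa using sz_listBool_le (List.replicate (ρ i) false))
      nlinarith [(by positivity : (0 : ℝ) ≤ (2 ^ ((qs i).length * ℓ i) : ℕ))])).congr
      fun i => by simp [tab]
  have h1 : R C fun i => tab (2 ^ ((qs i).length * ℓ i)) fun j => a i (rots (ℓ i) (qs i)
      (qs i).length (revs (ℓ i) (qs i).length ((qs i).length / 2) j)) :=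
    (hp.overlay hm (ha.congr fun i => (e i).symm) hb).congr fun i => tab_congr fun j hj => by
      cases h : validB (ℓ i) (qs i).reverse j
      · exact h0 i _ (rots_lt (hq i) le_rfl (revs_lt le_rfl hj)) (invalid (hq i) h)
      · rfl
  refine rots_inv_r hP hpar hlen hD hq hp ((rev_r hP hpar
    (fun i j hj => hlen' i _ (revs_lt le_rfl hj)) hD hs h1).congr fun i => ?_)
  exact tab_congr fun j hj => by rw [rev_rev hj]

end Crest.Agent.R326
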