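import Crest.Agent.R326.Spec2

/-!
# Index arithmetic for the Chinese-remainder re-indexing (row 326)
-/

namespace Crest.Agent.R326.Crt

open Crest.Agent.Lib.PolyTime

/-! ### A polynomial-time modular inverse -/

/-- One step of the extended Euclidean algorithm, coefficients modulo `m`. -/
def eStep (m : ℕ) (s : ℕ × ℕ × ℕ × ℕ) : ℕ × ℕ × ℕ × ℕ :=
  if s.1 = 0 then s else
    (s.2.1 % s.1, s.1, (s.2.2.2 + (m - 1) * (s.2.1 / s.1) * s.2.2.1) % m, s.2.2.1)

/-- The inverse of `a` modulo `m`. -/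
def minv (a m : ℕ) : ℕ := ((eStep m)^[2 * a.size] (a, m, 1, 0)).2.2.2

@[fun_prop] theorem poly_minv {α : Type} [PEnc α] {a m : α → ℕ} (ha : Poly a) (hm : Poly m) :
    Poly fun x => minv (a x) (m x) := by
  refine (Poly.iterate_inv (n := fun x => 2 * (a x).size)
    (g := fun x => ((a x, m x, 1, 0) : ℕ × ℕ × ℕ × ℕ)) (h := fun x => eStep (m x))
    (by fun_prop) (by fun_prop) (by fun_prop) (by unfold eStep; fun_prop)
    (fun x s => s.1 ≤ a x + m x + 1 ∧ s.2.1 ≤ a x + m x + 1 ∧ s.2.2.1 ≤ a x + m x + 1 ∧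
      s.2.2.2 ≤ a x + m x + 1 ∧ (m x = 0 → s.2.2.1 ≤ 1 ∧ s.2.2.2 ≤ 1))
    (fun x => by simp only; omega) ?_
    (B := fun x => 16 * sz (a x + m x + 1) + 3) (by fun_prop) ?_).snd.snd.snd
  · rintro x ⟨u, v, s, t⟩ ⟨h1, h2, h3, h4, h5⟩
    unfold eStep
    split_ifs with h
    · exact ⟨h1, h2, h3, h4, h5⟩
    · have := Nat.mod_le v u
      rcases Nat.eq_zero_or_pos (m x) with h0 | h0
      · have := h5 h0
        simp only [h0] at *
        simp; omega
      · have := Nat.mod_lt (t + (m x - 1) * (v / u) * s) h0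
        simp only at *
        omega
  · rintro x ⟨u, v, s, t⟩ ⟨h1, h2, h3, h4, -⟩
    have := sz_le_of_le h1
    have := sz_le_of_le h2
    have := sz_le_of_le h3
    have := sz_le_of_le h4
    simp only [sz_pair] at *
    omega

theorem eStep_inv {a m : ℕ} (hm : 0 < m) (s : ℕ × ℕ × ℕ × ℕ)
    (h : Nat.gcd s.1 s.2.1 = 1 ∧ s.1 ≡ s.2.2.1 * a [MOD m] ∧ s.2.1 ≡ s.2.2.2 * a [MOD m]) :
    Nat.gcd (eStep m s).1 (eStep m s).2.1 = 1 ∧ (eStep m s).1 ≡ (eStep m s).2.2.1 * a [MOD m] ∧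
      (eStep m s).2.1 ≡ (eStep m s).2.2.2 * a [MOD m] := by
  obtain ⟨u, v, s, t⟩ := s
  obtain ⟨h1, h2, h3⟩ := h
  unfold eStep
  split_ifs with h
  · exact ⟨h1, h2, h3⟩
  · refine ⟨by rw [← Nat.gcd_rec]; exact h1, ?_, h2⟩
    simp only at *
    obtain ⟨n, rfl⟩ : ∃ n, m = n + 1 := ⟨m - 1, by omega⟩
    have e1 : (t + (n + 1 - 1) * (v / u) * s) % (n + 1) * a ≡ t * a + n * (v / u) * (s * a)
        [MOD n + 1] := by
      have := (Nat.mod_modEq (t + (n + 1 - 1) * (v / u) * s) (n + 1)).mul_right a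
      refine this.trans ?_
      rw [Nat.add_sub_cancel, Nat.add_mul, Nat.mul_assoc _ s a]
    have e2 : v + n * (v / u) * u ≡ t * a + n * (v / u) * (s * a) [MOD n + 1] :=
      h3.add (h2.mul_left _)
    refine Nat.ModEq.trans ?_ (e2.trans e1.symm)
    have e3 : v + n * (v / u) * u = v % u + (n + 1) * (v / u * u) := by
      have := Nat.mod_add_div v u
      nlinarith
    rw [e3]
    exact (Nat.modEq_iff_dvd' (Nat.le_add_right _ _)).2 (by simp)

theorem eStep_half (m : ℕ) (s : ℕ × ℕ × ℕ × ℕ) : 2 * (eStep m (eStep m s)).1 ≤ s.1 := by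
  obtain ⟨u, v, s, t⟩ := s
  by_cases h : u = 0
  · simp [eStep, h]
  · by_cases h' : v % u = 0
    · simp [eStep, h, h']
    · have h1 := Nat.mod_lt v (Nat.pos_of_ne_zero h)
      have h2 := Nat.mod_lt u (Nat.pos_of_ne_zero h')
      have h4 := Nat.mod_add_div u (v % u)
      have h5 : 1 ≤ u / (v % u) := (Nat.one_le_div_iff (Nat.pos_of_ne_zero h')).2 h1.le
      have h6 : v % u * 1 ≤ v % u * (u / (v % u)) := Nat.mul_le_mul_left _ h5
      simp only [eStep, h, h', if_false]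
      omega

theorem minv_spec {a m : ℕ} (h : a.Coprime m) (hm : 0 < m) : minv a m * a ≡ 1 [MOD m] := by
  have h1 : ∀ k, 2 ^ k * ((eStep m)^[2 * k] (a, m, 1, 0)).1 ≤ a := by
    intro k
    induction k with
    | zero => simp
    | succ k ih =>
      rw [Nat.mul_succ, Function.iterate_succ_apply', Function.iterate_succ_apply', pow_succ,
        Nat.mul_assoc]
      exact (Nat.mul_le_mul_left _ (eStep_half m _)).trans ih
  have h2 : ((eStep m)^[2 * a.size] (a, m, 1, 0)).1 = 0 := by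
    by_contra h0
    have := Nat.mul_le_mul_left (2 ^ a.size) (Nat.pos_of_ne_zero h0)
    have := h1 a.size
    have := Nat.lt_size_self a
    omega
  have h3 := Function.Iterate.rec (f := eStep m) (fun s : ℕ × ℕ × ℕ × ℕ =>
    Nat.gcd s.1 s.2.1 = 1 ∧ s.1 ≡ s.2.2.1 * a [MOD m] ∧ s.2.1 ≡ s.2.2.2 * a [MOD m])
    (a := (a, m, 1, 0)) ⟨h, by simp [Nat.ModEq], by simp [Nat.ModEq]⟩ (eStep_inv hm) (2 * a.size)
  obtain ⟨h4, -, h5⟩ := h3
  rw [h2, Nat.gcd_zero_left] at h4
  rw [h4] at h5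
  exact h5.symm

/-! ### Digits -/

section digits
variable {ℓ d j j' s t y : ℕ}

theorem dg_eq_fld (ℓ j s : ℕ) : dg ℓ j s = fld (2 ^ (s * ℓ)) (2 ^ ℓ) j := rfl

theorem dg_lt (ℓ j s : ℕ) : dg ℓ j s < 2 ^ ℓ := Nat.mod_lt _ (by positivity)

theorem dg_zero (ℓ j : ℕ) : dg ℓ j 0 = j % 2 ^ ℓ := by simp [dg]

theorem dg_div (ℓ j t s : ℕ) : dg ℓ (j / 2 ^ (t * ℓ)) s = dg ℓ j (t + s) := by
  simp [dg, Nat.div_div_eq_div_mul, Nat.add_mul, pow_add]

theorem dg_succ (ℓ j s : ℕ) : dg ℓ j (s + 1) = dg ℓ (j / 2 ^ ℓ) s := by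
  have := dg_div ℓ j 1 s
  rw [Nat.one_mul, Nat.add_comm] at this
  exact this.symm

theorem dg_ext (hj : j < 2 ^ (d * ℓ)) (hj' : j' < 2 ^ (d * ℓ))
    (h : ∀ s, s < d → dg ℓ j s = dg ℓ j' s) : j = j' := by
  induction d generalizing j j' with
  | zero => simp at hj hj'; omega
  | succ d ih =>
    rw [Nat.succ_mul, pow_add, Nat.mul_comm] at hj hj'
    have h1 := ih (Nat.div_lt_of_lt_mul hj) (Nat.div_lt_of_lt_mul hj') fun s hs => by
      rw [← dg_succ, ← dg_succ, h _ (by omega)]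
    have h2 := h 0 (by omega)
    rw [dg_zero, dg_zero] at h2
    rw [← Nat.div_add_mod j (2 ^ ℓ), h1, h2, Nat.div_add_mod]

/-- Replace the coordinate on axis `t`. -/
def setD (ℓ j t y : ℕ) : ℕ := setF (2 ^ (t * ℓ)) (2 ^ ℓ) j y

theorem dg_setD (hy : y < 2 ^ ℓ) : dg ℓ (setD ℓ j t y) s = if s = t then y else dg ℓ j s := by
  rw [dg_eq_fld, dg_eq_fld, setD]
  split_ifs with h
  · subst h; exact fld_setF (by positivity) hy
  · rcases Nat.lt_or_gt_of_ne h with h | h
    · refine fld_setF_low (by positivity) ?_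
      rw [← pow_add, ← Nat.succ_mul]
      exact pow_dvd_pow 2 (Nat.mul_le_mul_right _ h)
    · refine fld_setF_high (by positivity) hy ?_
      rw [← pow_add, ← Nat.succ_mul]
      exact pow_dvd_pow 2 (Nat.mul_le_mul_right _ h)

theorem pow_split (ℓ : ℕ) (ht : t < d) :
    2 ^ ((d - 1 - t) * ℓ) * 2 ^ ℓ * 2 ^ (t * ℓ) = 2 ^ (d * ℓ) := by
  rw [← pow_add, ← pow_add, ← Nat.succ_mul, ← Nat.add_mul]
  congr 2
  omega

theorem setD_lt (ht : t < d) (hy : y < 2 ^ ℓ) (hj : j < 2 ^ (d * ℓ)) :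
    setD ℓ j t y < 2 ^ (d * ℓ) := by
  rw [← pow_split ℓ ht] at hj ⊢
  exact setF_lt (by positivity) hy hj

/-- The index with coordinates `c`. -/
def mk (ℓ : ℕ) (c : ℕ → ℕ) : ℕ → ℕ
  | 0 => 0
  | d + 1 => setD ℓ (mk ℓ c d) d (c d)

theorem mk_lt {c : ℕ → ℕ} (hc : ∀ s, s < d → c s < 2 ^ ℓ) : mk ℓ c d < 2 ^ (d * ℓ) := by
  induction d with
  | zero => simp [mk]
  | succ d ih =>
    exact setD_lt (by omega) (hc d (by omega)) ((ih fun s hs => hc s (by omega)).trans_le
      (Nat.pow_le_pow_right (by norm_num) (Nat.mul_le_mul_right _ (by omega))))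

theorem dg_mk {c : ℕ → ℕ} (hc : ∀ s, s < d → c s < 2 ^ ℓ) (hs : s < d) :
    dg ℓ (mk ℓ c d) s = c s := by
  induction d with
  | zero => omega
  | succ d ih =>
    rw [mk, dg_setD (hc d (by omega))]
    split_ifs with h
    · rw [h]
    · exact ih (fun s hs => hc s (by omega)) (by omega)

end digits

/-! ### The Chinese remainder theorem for lists -/

theorem getD_mem {qs : List ℕ} {t : ℕ} (ht : t < qs.length) : qs.getD t 1 ∈ qs := by
  rw [List.getD_eq_getElem _ _ ht]; exact List.getElem_mem ht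

theorem crt_inj {qs : List ℕ} (hc : qs.Pairwise Nat.Coprime) {k k' : ℕ}
    (h : ∀ t, t < qs.length → k ≡ k' [MOD qs.getD t 1]) : k ≡ k' [MOD qs.prod] := by
  induction qs with
  | nil => simp [Nat.modEq_one]
  | cons q r ih =>
    rw [List.pairwise_cons] at hc
    rw [List.prod_cons]
    exact (Nat.modEq_and_modEq_iff_modEq_mul (Nat.coprime_list_prod_right_iff.2 hc.1)).1
      ⟨h 0 (by simp), ih hc.2 fun t ht => h (t + 1) (by simpa using ht)⟩

theorem crt_surj {qs : List ℕ} (hc : qs.Pairwise Nat.Coprime) (c : ℕ → ℕ) :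
    ∃ k, ∀ t, t < qs.length → k ≡ c t [MOD qs.getD t 1] := by
  induction qs generalizing c with
  | nil => exact ⟨0, by simp⟩
  | cons q r ih =>
    rw [List.pairwise_cons] at hc
    obtain ⟨k', hk'⟩ := ih hc.2 fun t => c (t + 1)
    obtain ⟨k, h1, h2⟩ := Nat.chineseRemainder (Nat.coprime_list_prod_right_iff.2 hc.1) (c 0) k'
    refine ⟨k, fun t ht => ?_⟩
    cases t with
    | zero => exact h1
    | succ t =>
      have ht' : t < r.length := by simpa using ht
      exact (h2.of_dvd (List.dvd_prod (getD_mem ht'))).trans (hk' t ht')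

/-- The product of the lengths of the axes above `t`. -/
def W (qs : List ℕ) (t : ℕ) : ℕ := (qs.drop (t + 1)).prod

theorem W_coprime {qs : List ℕ} (hc : qs.Pairwise Nat.Coprime) {t : ℕ} (ht : t < qs.length) :
    (W qs t).Coprime (qs.getD t 1) := by
  induction qs generalizing t with
  | nil => simp at ht
  | cons q r ih =>
    rw [List.pairwise_cons] at hc
    cases t with
    | zero => exact (Nat.coprime_list_prod_right_iff.2 hc.1).symm
    | succ t => exact ih hc.2 (by simpa using ht)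

/-- The multiplier of axis `t`. -/
def mu (qs : List ℕ) (t : ℕ) : ℕ := minv (W qs t) (qs.getD t 1)

/-- The Chinese remainder coordinates. -/
def ix (ℓ : ℕ) (qs : List ℕ) (k : ℕ) : ℕ :=
  mk ℓ (fun t => mu qs t * k % qs.getD t 1) qs.length

section ix
variable {ℓ : ℕ} {qs : List ℕ} (hc : qs.Pairwise Nat.Coprime) (hq : ∀ q ∈ qs, 0 < q ∧ q ≤ 2 ^ ℓ)
include hq

theorem mod_lt_pow {t : ℕ} (ht : t < qs.length) (x : ℕ) : x % qs.getD t 1 < 2 ^ ℓ :=
  (Nat.mod_lt _ (hq _ (getD_mem ht)).1).trans_le (hq _ (getD_mem ht)).2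

theorem ix_lt (k : ℕ) : ix ℓ qs k < 2 ^ (qs.length * ℓ) := mk_lt fun _ hs => mod_lt_pow hq hs _

theorem dg_ix (k : ℕ) {t : ℕ} (ht : t < qs.length) :
    dg ℓ (ix ℓ qs k) t = mu qs t * k % qs.getD t 1 := dg_mk (fun _ hs => mod_lt_pow hq hs _) ht

theorem ix_valid (k : ℕ) : Valid ℓ qs.length (qs.getD · 1) (ix ℓ qs k) := fun t ht => by
  rw [dg_ix hq k ht]
  exact Nat.mod_lt _ (hq _ (getD_mem ht)).1

theorem ix_add (k k' : ℕ) {t : ℕ} (ht : t < qs.length) :
    dg ℓ (ix ℓ qs ((k + k') % qs.prod)) t =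
      (dg ℓ (ix ℓ qs k) t + dg ℓ (ix ℓ qs k') t) % qs.getD t 1 := by
  rw [dg_ix hq _ ht, dg_ix hq _ ht, dg_ix hq _ ht, ← Nat.add_mod, ← Nat.mul_add]
  exact ((Nat.mod_modEq _ _).of_dvd (List.dvd_prod (getD_mem ht))).mul_left _

include hc

theorem mu_spec {t : ℕ} (ht : t < qs.length) : mu qs t * W qs t ≡ 1 [MOD qs.getD t 1] :=
  minv_spec (W_coprime hc ht) (hq _ (getD_mem ht)).1

theorem mu_cancel {t : ℕ} (ht : t < qs.length) (x : ℕ) :
    mu qs t * (W qs t * x) ≡ x [MOD qs.getD t 1] := by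
  simpa [Nat.mul_assoc] using (mu_spec hc hq ht).mul_right x

theorem ix_inj {k k' : ℕ} (hk : k < qs.prod) (hk' : k' < qs.prod) (h : ix ℓ qs k = ix ℓ qs k') :
    k = k' := by
  refine Nat.ModEq.eq_of_lt_of_lt (crt_inj hc fun t ht => ?_) hk hk'
  have h1 : mu qs t * k ≡ mu qs t * k' [MOD qs.getD t 1] := by
    unfold Nat.ModEq
    rw [← dg_ix hq k ht, h, dg_ix hq k' ht]
  have h2 := h1.mul_left (W qs t)
  rw [Nat.mul_left_comm, Nat.mul_left_comm (W qs t)] at h2
  exact ((mu_cancel hc hq ht k).symm.trans h2).trans (mu_cancel hc hq ht k')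

theorem ix_surj {j : ℕ} (hj : j < 2 ^ (qs.length * ℓ)) (hv : Valid ℓ qs.length (qs.getD · 1) j) :
    ∃ k, k < qs.prod ∧ ix ℓ qs k = j := by
  obtain ⟨k, hk⟩ := crt_surj hc fun t => W qs t * dg ℓ j t
  refine ⟨k % qs.prod, Nat.mod_lt _ (List.prod_pos fun q h => (hq q h).1),
    dg_ext (ix_lt hq _) hj fun t ht => ?_⟩
  rw [dg_ix hq _ ht, ← Nat.mod_eq_of_lt (hv t ht)]
  exact ((((Nat.mod_modEq _ _).of_dvd (List.dvd_prod (getD_mem ht))).trans (hk t ht)).mul_left
    _).trans (mu_cancel hc hq ht _)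

end ix

/-! ### The increasing enumeration of the valid positions -/

/-- Mixed-radix digits of `k`, placed on the axes. -/
def emb (ℓ : ℕ) : List ℕ → ℕ → ℕ
  | [], _ => 0
  | p :: ps, k => k % p + 2 ^ ℓ * emb ℓ ps (k / p)

/-- The test for validity. -/
def validB (ℓ : ℕ) (ps : List ℕ) (j : ℕ) : Bool :=
  (List.range ps.length).all fun s => decide (dg ℓ j s < ps.getD s 1)

theorem validB_iff {ℓ : ℕ} {ps : List ℕ} {j : ℕ} :
    validB ℓ ps j = true ↔ Valid ℓ ps.length (ps.getD · 1) j := by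
  simp [validB, Valid]

section emb
variable {ℓ : ℕ} {ps : List ℕ} (hq : ∀ q ∈ ps, 0 < q ∧ q ≤ 2 ^ ℓ)
include hq

theorem emb_lt (k : ℕ) : emb ℓ ps k < 2 ^ (ps.length * ℓ) := by
  induction ps generalizing k with
  | nil => simp [emb]
  | cons p ps ih =>
    have h1 := ih (fun q h => hq q (by simp [h])) (k / p)
    have h2 := hq p (by simp)
    have h3 := Nat.mod_lt k h2.1
    rw [emb, List.length_cons, Nat.succ_mul, pow_add]
    nlinarith

theorem dg_emb (k : ℕ) {s : ℕ} (hs : s < ps.length) :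
    dg ℓ (emb ℓ ps k) s = k / (ps.take s).prod % ps.getD s 1 := by
  induction ps generalizing k s with
  | nil => simp at hs
  | cons p ps ih =>
    have h2 := hq p (by simp)
    have h3 : k % p < 2 ^ ℓ := (Nat.mod_lt k h2.1).trans_le h2.2
    cases s with
    | zero => simp [dg_zero, emb, Nat.mod_eq_of_lt h3]
    | succ s =>
      rw [dg_succ, emb, Nat.add_mul_div_left _ _ (by positivity), Nat.div_eq_of_lt h3,
        Nat.zero_add, ih (fun q h => hq q (by simp [h])) _ (by simpa using hs),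
        Nat.div_div_eq_div_mul]
      simp

theorem emb_mono {k k' : ℕ} (h : k < k') (hk' : k' < ps.prod) : emb ℓ ps k < emb ℓ ps k' := by
  induction ps generalizing k k' with
  | nil => simp at hk'; omega
  | cons p ps ih =>
    have h2 := hq p (by simp)
    have h3 : k % p < 2 ^ ℓ := (Nat.mod_lt k h2.1).trans_le h2.2
    rw [emb, emb]
    rcases (Nat.div_le_div_right (c := p) h.le).eq_or_lt with e | e
    · have := Nat.div_add_mod k p
      have := Nat.div_add_mod k' p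
      rw [e] at *
      omega
    · have := ih (fun q h => hq q (by simp [h])) e (Nat.div_lt_of_lt_mul (by simpa using hk'))
      nlinarith [Nat.zero_le (k' % p)]

theorem emb_surj {j : ℕ} (hj : j < 2 ^ (ps.length * ℓ)) (hv : Valid ℓ ps.length (ps.getD · 1) j) :
    ∃ k, k < ps.prod ∧ emb ℓ ps k = j := by
  induction ps generalizing j with
  | nil => exact ⟨0, by simp, by simp at hj; simp [emb, hj]⟩
  | cons p ps ih =>
    rw [List.length_cons, Nat.succ_mul, pow_add, Nat.mul_comm] at hj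
    obtain ⟨k, hk, e⟩ := ih (fun q h => hq q (by simp [h])) (Nat.div_lt_of_lt_mul hj)
      fun s hs => by rw [← dg_succ]; exact hv (s + 1) (by simpa using hs)
    have h0 : j % 2 ^ ℓ < p := by simpa [dg_zero] using hv 0 (by simp)
    refine ⟨j % 2 ^ ℓ + p * k, by rw [List.prod_cons]; nlinarith, ?_⟩
    rw [emb, Nat.add_mul_mod_self_left, Nat.mod_eq_of_lt h0, Nat.add_mul_div_left _ _ (by omega),
      Nat.div_eq_of_lt h0, Nat.zero_add, e, Nat.mod_add_div]

theorem filter_valid : (List.range (2 ^ (ps.length * ℓ))).filter (validB ℓ ps) =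
    (List.range ps.prod).map (emb ℓ ps) := by
  refine List.Pairwise.eq_of_mem_iff (r := (· < ·)) (List.pairwise_lt_range.filter _) ?_ fun j => ?_
  · rw [List.pairwise_map]
    exact List.pairwise_lt_range.imp_of_mem fun _ h h' => emb_mono hq h' (List.mem_range.1 h)
  · simp only [List.mem_filter, List.mem_range, List.mem_map, validB_iff]
    constructor
    · exact fun h => emb_surj hq h.1 h.2
    · rintro ⟨k, -, rfl⟩
      refine ⟨emb_lt hq k, fun s hs => ?_⟩
      rw [dg_emb hq k hs]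
      exact Nat.mod_lt _ (hq _ (getD_mem hs)).1

end emb

/-! ### Reversal of the axes -/

/-- Exchange the axes `i` and `d - 1 - i`. -/
def sw (ℓ d i j : ℕ) : ℕ := swI (2 ^ (i * ℓ)) (2 ^ ((d - 2 * i - 2) * ℓ)) (2 ^ ℓ) j

/-- The first `n` exchanges. -/
def revs (ℓ d : ℕ) : ℕ → ℕ → ℕ
  | 0, j => j
  | n + 1, j => revs ℓ d n (sw ℓ d n j)

section revs
variable {ℓ d i j n s : ℕ}

theorem sw_eq (hi : i < d / 2) :
    sw ℓ d i j = setD ℓ (setD ℓ j i (dg ℓ j (d - 1 - i))) (d - 1 - i) (dg ℓ j i) := by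
  have e : 2 ^ (i * ℓ) * 2 ^ ℓ * 2 ^ ((d - 2 * i - 2) * ℓ) = 2 ^ ((d - 1 - i) * ℓ) := by
    rw [← pow_add, ← pow_add, ← Nat.succ_mul, ← Nat.add_mul]
    congr 2
    omega
  rw [sw, swI, e]; rfl

theorem sw_lt (hi : i < d / 2) (hj : j < 2 ^ (d * ℓ)) : sw ℓ d i j < 2 ^ (d * ℓ) := by
  rw [sw_eq hi]
  exact setD_lt (by omega) (dg_lt _ _ _) (setD_lt (by omega) (dg_lt _ _ _) hj)

theorem revs_lt (hn : n ≤ d / 2) (hj : j < 2 ^ (d * ℓ)) : revs ℓ d n j < 2 ^ (d * ℓ) := by
  induction n generalizing j with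
  | zero => exact hj
  | succ n ih => exact ih (by omega) (sw_lt (by omega) hj)

theorem dg_revs (hn : n ≤ d / 2) (hs : s < d) :
    dg ℓ (revs ℓ d n j) s = dg ℓ j (if s < n ∨ d - 1 - s < n then d - 1 - s else s) := by
  induction n generalizing j with
  | zero => simp [revs]
  | succ n ih =>
    rw [revs, ih (by omega), sw_eq (by omega), dg_setD (dg_lt _ _ _), dg_setD (dg_lt _ _ _)]
    split_ifs <;> first | rfl | (congr 1; omega)

theorem dg_rev (hs : s < d) : dg ℓ (revs ℓ d (d / 2) j) s = dg ℓ j (d - 1 - s) := by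
  rw [dg_revs le_rfl hs]
  split_ifs
  · rfl
  · congr 1; omega

theorem rev_rev (hj : j < 2 ^ (d * ℓ)) : revs ℓ d (d / 2) (revs ℓ d (d / 2) j) = j :=
  dg_ext (revs_lt le_rfl (revs_lt le_rfl hj)) hj fun s hs => by
    rw [dg_rev hs, dg_rev (by omega)]
    congr 1; omega

end revs

/-! ### The rotations -/

/-- The number with the mixed-radix digits on the axes of `h`, most significant first. -/
def val (ℓ : ℕ) (r : List ℕ) (h : ℕ) : ℕ := ∑ s ∈ Finset.range r.length, dg ℓ h s * W r s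

theorem sum_digits (r : List ℕ) (k : ℕ) :
    ∑ s ∈ Finset.range r.length, k / W r s % r.getD s 1 * W r s = k % r.prod := by
  induction r with
  | nil => simp [Nat.mod_one]
  | cons q r ih =>
    rw [List.length_cons, Finset.sum_range_succ', List.prod_cons, Nat.mul_comm q, Nat.mod_mul,
      ← ih, Nat.mul_comm r.prod]
    rfl

/-- The amount of the rotation of axis `t`, or of its inverse. -/
def amt (inv : Bool) (ℓ : ℕ) (qs : List ℕ) (t h : ℕ) : ℕ :=
  bif inv then qs.getD t 1 - mu qs t * val ℓ (qs.drop (t + 1)) h % qs.getD t 1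
  else mu qs t * val ℓ (qs.drop (t + 1)) h

/-- The rotation of axis `t`, or its inverse. -/
def rot (inv : Bool) (ℓ : ℕ) (qs : List ℕ) (t j : ℕ) : ℕ :=
  rotI (2 ^ (t * ℓ)) (2 ^ ℓ) (qs.getD t 1) (amt inv ℓ qs t (j / (2 ^ (t * ℓ) * 2 ^ ℓ))) j

/-- The rotations of the top `n` axes, lowest first. -/
def rots (ℓ : ℕ) (qs : List ℕ) : ℕ → ℕ → ℕ
  | 0, j => j
  | n + 1, j => rots ℓ qs n (rot false ℓ qs (qs.length - 1 - n) j)

theorem rotI_inv {S Q q f j : ℕ} (hS : 0 < S) (hq : q ≤ Q) :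
    rotI S Q q (q - f % q) j / (S * Q) = j / (S * Q) ∧
      rotI S Q q f (rotI S Q q (q - f % q) j) = j := by
  by_cases h : fld S Q j < q
  · have h1 : (fld S Q j + (q - f % q)) % q < q := Nat.mod_lt _ (by omega)
    have h2 := Nat.mod_lt f (show 0 < q by omega)
    have e : rotI S Q q (q - f % q) j = setF S Q j ((fld S Q j + (q - f % q)) % q) := if_pos h
    rw [e]
    refine ⟨setF_div_mul hS (h1.trans_le hq), ?_⟩
    rw [rotI, fld_setF hS (h1.trans_le hq), if_pos h1, setF_setF hS (h1.trans_le hq),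
      Nat.mod_add_mod, Nat.add_mod _ f, Nat.mod_add_mod, Nat.add_assoc,
      Nat.sub_add_cancel h2.le, Nat.add_mod_right, Nat.mod_eq_of_lt h, setF_fld]
  · have e : ∀ g, rotI S Q q g j = j := fun g => if_neg h
    simp [e]

section rots
variable {ℓ : ℕ} {qs : List ℕ} (hq : ∀ q ∈ qs, 0 < q ∧ q ≤ 2 ^ ℓ) {inv : Bool} {j n s t : ℕ}
include hq

theorem rot_rot (ht : t < qs.length) : rot false ℓ qs t (rot true ℓ qs t j) = j := by
  have h := rotI_inv (S := 2 ^ (t * ℓ)) (Q := 2 ^ ℓ) (q := qs.getD t 1) (j := j)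
    (f := amt false ℓ qs t (j / (2 ^ (t * ℓ) * 2 ^ ℓ))) (by positivity) (hq _ (getD_mem ht)).2
  have e : rot true ℓ qs t j = rotI (2 ^ (t * ℓ)) (2 ^ ℓ) (qs.getD t 1) (qs.getD t 1 -
    amt false ℓ qs t (j / (2 ^ (t * ℓ) * 2 ^ ℓ)) % qs.getD t 1) j := rfl
  rw [rot, e, h.1, h.2]

theorem dg_rot (ht : t < qs.length) : dg ℓ (rot inv ℓ qs t j) s =
    if s = t ∧ dg ℓ j t < qs.getD t 1 then
      (dg ℓ j t + amt inv ℓ qs t (j / (2 ^ (t * ℓ) * 2 ^ ℓ))) % qs.getD t 1 else dg ℓ j s := by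
  rw [rot, rotI, ← dg_eq_fld]
  by_cases h : dg ℓ j t < qs.getD t 1
  · rw [if_pos h]
    refine (dg_setD (mod_lt_pow hq ht _)).trans ?_
    simp only [h, and_true]
  · simp only [h, if_false, and_false]

theorem rot_lt (ht : t < qs.length) (hj : j < 2 ^ (qs.length * ℓ)) :
    rot inv ℓ qs t j < 2 ^ (qs.length * ℓ) := by
  rw [rot, rotI]
  split_ifs
  · exact setD_lt ht (mod_lt_pow hq ht _) hj
  · exact hj

theorem rots_lt (hn : n ≤ qs.length) (hj : j < 2 ^ (qs.length * ℓ)) :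
    rots ℓ qs n j < 2 ^ (qs.length * ℓ) := by
  induction n generalizing j with
  | zero => exact hj
  | succ n ih => exact ih (by omega) (rot_lt hq (by omega) hj)

theorem rots_invalid (hn : n ≤ qs.length) (h : ¬ dg ℓ j s < qs.getD s 1) :
    ¬ dg ℓ (rots ℓ qs n j) s < qs.getD s 1 := by
  induction n generalizing j with
  | zero => exact h
  | succ n ih =>
    refine ih (by omega) ?_
    rw [dg_rot hq (by omega), if_neg]
    · exact h
    · rintro ⟨rfl, h'⟩; exact h h'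

theorem dg_rots (hc : qs.Pairwise Nat.Coprime) (hn : n ≤ qs.length) (k : ℕ)
    (h : ∀ s, qs.length - n ≤ s → s < qs.length → dg ℓ j s = k / W qs s % qs.getD s 1)
    (hs : s < qs.length) : dg ℓ (rots ℓ qs n j) s =
      if qs.length - n ≤ s then mu qs s * k % qs.getD s 1 else dg ℓ j s := by
  induction n generalizing j with
  | zero => rw [if_neg (by omega)]; rfl
  | succ n ih =>
    obtain ⟨t, ht⟩ : ∃ t, t = qs.length - 1 - n := ⟨_, rfl⟩
    have ht' : t < qs.length := by omega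
    rw [rots, ← ht, ih (by omega) fun s h1 h2 => by
      rw [dg_rot hq ht', if_neg (by omega), h s (by omega) h2], dg_rot hq ht']
    by_cases h1 : qs.length - n ≤ s
    · rw [if_pos h1, if_pos (by omega)]
    rw [if_neg h1]
    by_cases h2 : s = t
    swap
    · rw [if_neg (by omega), if_neg (by omega)]
    subst h2
    have h3 := h s (by omega) hs
    have h4 : val ℓ (qs.drop (s + 1)) (j / (2 ^ (s * ℓ) * 2 ^ ℓ)) = k % W qs s := by
      rw [W, ← sum_digits, val]
      refine Finset.sum_congr rfl fun u hu => ?_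
      have hu' : u < qs.length - (s + 1) := by simpa using hu
      rw [← pow_add, ← Nat.succ_mul, dg_div, h _ (by omega) (by omega)]
      simp [W, Nat.add_assoc]
    rw [if_pos ⟨rfl, h3 ▸ Nat.mod_lt _ (hq _ (getD_mem hs)).1⟩, if_pos (by omega), h3,
      Nat.mod_add_mod]
    simp only [amt, cond_false, h4]
    conv_rhs => rw [← Nat.div_add_mod k (W qs s), Nat.mul_add]
    exact ((mu_cancel hc hq hs _).symm.add_right _)

omit hq in
theorem reverse_getD (hs : s < qs.length) :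
    qs.reverse.getD (qs.length - 1 - s) 1 = qs.getD s 1 := by
  rw [List.getD_eq_getElem _ _ (by simp; omega), List.getD_eq_getElem _ _ hs, List.getElem_reverse]
  congr 1; omega

/-- The factorisation of the index map. -/
theorem factor (hc : qs.Pairwise Nat.Coprime) (k : ℕ) :
    rots ℓ qs qs.length (revs ℓ qs.length (qs.length / 2) (emb ℓ qs.reverse k)) = ix ℓ qs k := by
  have hq' : ∀ q ∈ qs.reverse, 0 < q ∧ q ≤ 2 ^ ℓ := fun q h => hq q (List.mem_reverse.1 h)
  refine dg_ext (rots_lt hq le_rfl (revs_lt le_rfl (by simpa using emb_lt hq' k))) (ix_lt hq k)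
    fun s hs => ?_
  rw [dg_rots hq hc le_rfl k (fun s _ hs => ?_) hs, if_pos (by omega), dg_ix hq k hs]
  rw [dg_rev hs, dg_emb hq' k (by simp; omega), reverse_getD hs, List.take_reverse,
    List.prod_reverse, W]
  congr 4; omega

theorem invalid (h : validB ℓ qs.reverse j = false) :
    ¬ Valid ℓ qs.length (qs.getD · 1) (rots ℓ qs qs.length (revs ℓ qs.length (qs.length / 2) j)) := by
  intro hv
  rw [← Bool.not_eq_true, validB_iff] at h
  refine h fun s hs => ?_
  have hs' : s < qs.length := by simpa using hs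
  by_contra hn
  refine rots_invalid hq le_rfl ?_ (hv (qs.length - 1 - s) (by omega))
  rw [dg_rev (by omega), ← reverse_getD (by omega),
    show qs.length - 1 - (qs.length - 1 - s) = s by omega]
  exact hn

end rots

end Crest.Agent.R326.Crt
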