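import Crest.Agent.R326.DftFam

/-!
# The discrete Fourier transform of length `q` in place on `2 ^ ℓ` positions (row 326)
-/

namespace Crest.Agent.R326.Dft

open Finset Matrix
open Crest.Agent.Lib.PolyTime Crest.Agent.R324

/-! ### Families: the transform of length `2 ^ m` and the shear -/

lemma apx_zt : Apx fun u : Un => zt u.n :=
  Apx.expI (a := fun _ => 1) (M := fun u : Un => 2 ^ u.n) (by fun_prop) (by fun_prop)
    fun _ => by positivity

lemma apx_V (tw s : ℕ) : Apx fun p : Un × ℕ => V tw s p.1.n p.2 := by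
  refine Apx.mul (Apx.pow (apx_zt.comp' (g := fun p : Un × ℕ => (⟨p.1.n + s⟩ : Un)) (by fun_prop))
    (by fun_prop) (by fun_prop)) (Apx.prod_un (by fun_prop) (by fun_prop) ?_)
  exact Apx.ite (by fun_prop)
    (apx_zt.comp' (g := fun p : (Un × ℕ) × Un => (⟨p.2.n + s⟩ : Un)) (by fun_prop)) Apx.one

lemma apx_twd (tw : ℕ) {f : Par → ℕ} (hf : Poly f) (hb : PB f) :
    Apx fun p : Par × ℕ => twd tw p.1.m (f p.1) p.2 :=
  Apx.ite (by fun_prop) ((apx_V tw 2).comp'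
    (g := fun p : Par × ℕ => ((⟨p.1.m - 1 - f p.1⟩ : Un), p.2 / 2 ^ (f p.1 + 1))) (by fun_prop))
    Apx.one

lemma fam_fft (tw : ℕ) : Fam 1 fun b => fft tw b.m := by
  have h1 : Fam 0 fun b : Par => hadI b.l (b.m - 1 - b.j) * dg (twd tw b.m (b.m - 1 - b.j)) :=
    (Fam.had (f := fun a => a.2.1 - 1 - a.2.2) (by fun_prop)).mul
      (Fam.dg (apx_twd tw (f := fun b => b.m - 1 - b.j) (by fun_prop) (by fun_prop)) 0
        fun b x => by simp [norm_twd])
  refine h1.prodJ.congr fun b => gen_congr fun k hk => ?_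
  have := b.m_le
  change hadI b.l (b.m - 1 - min k b.l) * dg (twd tw b.m (b.m - 1 - min k b.l)) = _
  rw [min_eq_left (by omega), hadI, if_pos (by omega), lev]

lemma fam_fftI (tw : ℕ) : Fam 1 fun b => fftI tw b.m := by
  have h1 : Fam 0 fun b : Par =>
      dg (fun x => (twd tw b.m b.j x)⁻¹ * (1 / 2 : ℚ)) * hadI b.l b.j := by
    refine (Fam.dg (t := fun b x => (twd tw b.m b.j x)⁻¹ * (1 / 2 : ℚ)) ?_ 0 fun b x => ?_).mul
      (Fam.had (f := fun a => a.2.2) (by fun_prop))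
    · exact ((apx_twd tw (f := fun b => b.j) (by fun_prop) (by fun_prop)).inv' (PB.const 0)
        fun p => by simp [norm_twd]).mul (Apx.constRat _)
    · simp [norm_twd]; norm_num
  refine h1.prodJ.congr fun b => gen_congr fun k hk => ?_
  have := b.m_le
  change dg (fun x => (twd tw b.m (min k b.l) x)⁻¹ * (1 / 2 : ℚ)) * hadI b.l (min k b.l) = _
  rw [min_eq_left (by omega), hadI, if_pos (by omega), levI]

lemma fam_cj (tw : ℕ) {t : Par → ℕ → ℂ} (ht : Apx fun p : Par × ℕ => t p.1 p.2) (c : ℕ)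
    (hb : ∀ b x, ‖t b x‖ ≤ 2 ^ (c * 4 ^ b.l)) : Fam 1 fun b => cj tw b.m (t b) :=
  ((fam_fftI tw).mul (Fam.dg ht c hb)).mul (fam_fft tw)

lemma fam_bd {d : ℕ} (r s : ℚ) (hr : |r| ≤ 2) (hs : |s| ≤ 2) : Fam d fun b => bd b.m r s := by
  refine Fam.dg (t := fun b x => if x.testBit b.m then (s : ℂ) else r)
    (Apx.ite (by fun_prop) (Apx.constRat _) (Apx.constRat _)) 1 fun b x => ?_
  have h2 : (2 : ℝ) ≤ 2 ^ (1 * 4 ^ b.l) := le_self_pow₀ one_le_two (by positivity)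
  refine le_trans ?_ h2
  split_ifs
  · rw [Complex.norm_ratCast]; exact_mod_cast hs
  · rw [Complex.norm_ratCast]; exact_mod_cast hr

/-- The shear on bit `m` if this bit exists. -/
noncomputable def shI (ℓ m : ℕ) : Op :=
  bd m 1 (3 / 5) * hadI ℓ m * bd m 1 (-1 / 2) * hadI ℓ m * bd m (3 / 2) (1 / 2) * hadI ℓ m *
    bd m (2 / 3) (5 / 6)

lemma shI_eq {ℓ m : ℕ} (h : m < ℓ) : shI ℓ m = 1 + Q m := by
  rw [shI, hadI, if_pos h, shear_eq]

lemma fam_shI : Fam 1 fun b => shI b.l b.m := by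
  have h : Fam 1 fun b => hadI b.l b.m := Fam.had (f := fun a => a.2.1) (by fun_prop)
  exact ((((((fam_bd _ _ (by norm_num) (by norm_num [abs_le])).mul h).mul
    (fam_bd _ _ (by norm_num) (by norm_num [abs_le]))).mul h).mul
    (fam_bd _ _ (by norm_num [abs_le]) (by norm_num [abs_le]))).mul h).mul
    (fam_bd _ _ (by norm_num [abs_le]) (by norm_num [abs_le]))

/-! ### Eigenvalues -/

/-- The shift making the circulants invertible. -/
def tau (b : Par) : ℕ := 2 ^ (2 * (b.N * b.N) + 1)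

lemma tau_eq (b : Par) : (tau b : ℝ) = 2 * (2 ^ 4 ^ b.l * 2 ^ 4 ^ b.l) := by
  rw [tau, b.N_eq, ← mul_pow]
  push_cast
  ring

lemma pow_le_big (ℓ : ℕ) : (2 : ℝ) ^ ℓ ≤ 2 ^ 4 ^ ℓ :=
  pow_le_pow_right₀ one_le_two (Nat.lt_pow_self (by norm_num)).le

lemma eig_cf (tw m : ℕ) (τ : ℂ) (f f' : ℕ → ℂ) (r : ℂ) :
    ∑ i ∈ range (2 ^ m), cf tw τ f f' i * r ^ i =
      ∑ i ∈ range (2 ^ m), (f i + (-1) ^ tw * f' i) * (1 / 2 : ℚ) * r ^ i + (-1) ^ tw * τ := by
  simp only [cf, add_mul (_ * ((1 / 2 : ℚ) : ℂ)), sum_add_distrib]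
  congr 1
  rw [sum_eq_single 0 (fun i _ hi => by simp [hi]) (by simp)]
  simp

lemma norm_eig (tw : ℕ) (b : Par) {f f' : ℕ → ℂ} (hf : ∀ i, ‖f i‖ ≤ 2 ^ 4 ^ b.l)
    (hf' : ∀ i, ‖f' i‖ ≤ 2 ^ 4 ^ b.l) (x : ℕ) :
    1 ≤ ‖eig tw b.m (cf tw (tau b) f f') x‖ ∧
      ‖eig tw b.m (cf tw (tau b) f f') x‖ ≤ 2 ^ (4 * 4 ^ b.l) := by
  rw [eig]
  split_ifs
  · exact ⟨by simp, by rw [norm_one]; exact one_le_pow₀ one_le_two⟩
  rw [eig_cf]
  have h1 : ‖∑ i ∈ range (2 ^ b.m), (f i + (-1) ^ tw * f' i) * (1 / 2 : ℚ) * V tw 1 b.m x ^ i‖ ≤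
      2 ^ 4 ^ b.l * 2 ^ 4 ^ b.l := by
    refine (norm_sum_le _ _).trans ((sum_le_card_nsmul _ _ (2 ^ 4 ^ b.l) fun i _ => ?_).trans ?_)
    · have h2 := norm_add_le (f i) ((-1) ^ tw * f' i)
      have h3 := hf i
      have h4 := hf' i
      rw [norm_mul, norm_pow, norm_neg, norm_one, one_pow, one_mul] at h2
      rw [norm_mul, norm_mul, norm_pow, norm_V, one_pow, mul_one, Complex.norm_ratCast]
      norm_num
      linarith
    · rw [card_range, nsmul_eq_mul]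
      push_cast
      exact mul_le_mul_of_nonneg_right
        ((pow_le_pow_right₀ one_le_two b.m_le).trans (pow_le_big _)) (by positivity)
  have h2 : ‖(-1 : ℂ) ^ tw * (tau b : ℂ)‖ = 2 * (2 ^ 4 ^ b.l * 2 ^ 4 ^ b.l) := by
    rw [norm_mul, norm_pow, norm_neg, norm_one, one_pow, one_mul, Complex.norm_natCast, tau_eq]
  generalize ∑ i ∈ range (2 ^ b.m),
    (f i + (-1) ^ tw * f' i) * (1 / 2 : ℚ) * V tw 1 b.m x ^ i = S at h1 ⊢
  generalize (-1 : ℂ) ^ tw * (tau b : ℂ) = T at h2 ⊢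
  have h3 := norm_add_le S T
  have h4 := norm_sub_le (S + T) S
  rw [add_sub_cancel_left] at h4
  have h5 : (2 : ℝ) ≤ 2 ^ 4 ^ b.l := le_self_pow₀ one_le_two (by positivity)
  rw [mul_comm 4, pow_mul]
  generalize (2 : ℝ) ^ 4 ^ b.l = B at *
  have h6 : 4 ≤ B * B := by nlinarith
  constructor
  · linarith
  · nlinarith

lemma apx_eig (tw : ℕ) {f f' : Par → ℕ → ℂ} (hf : Apx fun p : Par × ℕ => f p.1 p.2)
    (hf' : Apx fun p : Par × ℕ => f' p.1 p.2) :
    Apx fun p : Par × ℕ => eig tw p.1.m (cf tw (tau p.1) (f p.1) (f' p.1)) p.2 := by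
  have hs : ∀ {α : Type} [PEnc α], Apx fun _ : α => (-1 : ℂ) ^ tw :=
    (Apx.constInt ((-1) ^ tw)).congr fun _ => by simp
  refine Apx.ite (by fun_prop) Apx.one ?_
  refine (Apx.add (Apx.sum_un (n := fun p : Par × ℕ => 2 ^ p.1.m) (by fun_prop)
    (Par.pb_pow_m (by fun_prop)) (f := fun p i =>
      (f p.1 i + (-1) ^ tw * f' p.1 i) * (1 / 2 : ℚ) * V tw 1 p.1.m p.2 ^ i) ?_)
    (hs.mul (Apx.ofNat (q := fun p : Par × ℕ => tau p.1) (by unfold tau; fun_prop)))).congr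
    fun p => (eig_cf ..).symm
  refine Apx.mul (Apx.mul (Apx.add ?_ (hs.mul ?_)) (Apx.constRat _))
    (Apx.pow ?_ (by fun_prop) (by fun_prop))
  · exact hf.comp' (g := fun p : (Par × ℕ) × Un => (p.1.1, p.2.n)) (by fun_prop)
  · exact hf'.comp' (g := fun p : (Par × ℕ) × Un => (p.1.1, p.2.n)) (by fun_prop)
  · exact (apx_V tw 1).comp' (g := fun p : (Par × ℕ) × Un => ((⟨p.1.1.m⟩ : Un), p.1.2))
      (by fun_prop)

/-- Approximable and bounded coefficient sequences. -/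
def Cf (f : Par → ℕ → ℂ) : Prop :=
  (Apx fun p : Par × ℕ => f p.1 p.2) ∧ ∀ b i, ‖f b i‖ ≤ 2 ^ 4 ^ b.l

lemma fam_eig (tw : ℕ) {f f' : Par → ℕ → ℂ} (hf : Cf f) (hf' : Cf f') :
    Fam 1 fun b => cj tw b.m (eig tw b.m (cf tw (tau b) (f b) (f' b))) :=
  fam_cj tw (apx_eig tw hf.1 hf'.1) 4 fun b x => (norm_eig tw b (hf.2 b) (hf'.2 b) x).2

lemma fam_eig_inv (tw : ℕ) {f f' : Par → ℕ → ℂ} (hf : Cf f) (hf' : Cf f') :
    Fam 1 fun b => cj tw b.m fun x => (eig tw b.m (cf tw (tau b) (f b) (f' b)) x)⁻¹ := by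
  refine fam_cj tw (t := fun b x => (eig tw b.m (cf tw (tau b) (f b) (f' b)) x)⁻¹)
    ((apx_eig tw hf.1 hf'.1).inv' (PB.const 0) fun p => ?_) 0 fun b x => ?_
  · simpa using (norm_eig tw p.1 (hf.2 p.1) (hf'.2 p.1) p.2).1
  · rw [norm_inv, zero_mul, pow_zero]
    exact inv_le_one_of_one_le₀ (norm_eig tw b (hf.2 b) (hf'.2 b) x).1

lemma fam_shr (tw tw' : ℕ) {f f' h h' : Par → ℕ → ℂ} (hf : Cf f) (hf' : Cf f') (hh : Cf h)
    (hh' : Cf h') : Fam 1 fun b => shr (shI b.l b.m) b.m tw tw' (cf tw (tau b) (f b) (f' b))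
      (cf tw' (tau b) (h b) (h' b)) :=
  ((((fam_eig_inv tw' hh hh').mul (fam_eig_inv tw hf hf')).mul fam_shI).mul
    (fam_eig tw hf hf')).mul (fam_eig tw' hh hh')

lemma Cf.zero : Cf fun _ => 0 := ⟨Apx.zero, fun b i => by simp⟩

lemma Cf.shift {g : Par → ℕ → ℂ} (hg : Cf g) : Cf fun b i => g b (2 ^ b.m + i) :=
  ⟨hg.1.comp' (g := fun p : Par × ℕ => (p.1, 2 ^ p.1.m + p.2)) (by fun_prop), fun b _ => hg.2 b _⟩

lemma fam_step {g h : Par → ℕ → ℂ} (hg : Cf g) (hh : Cf h) :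
    Fam 1 fun b => stepOp (shI b.l b.m) b.m (tau b) (g b) (h b) :=
  (((fam_shr 0 0 hg.shift hg hh Cf.zero).mul (fam_shr 0 1 hg.shift hg hh Cf.zero)).mul
    (fam_shr 1 0 hg.shift hg hh Cf.zero)).mul (fam_shr 1 1 hg.shift hg hh Cf.zero)

lemma fam_tri {g h : Par → ℕ → ℂ} (hg : Cf g) (hh : Cf h)
    (eg : ∀ b k, g (Par.setM (b, k)) = g b) (eh : ∀ b k, h (Par.setM (b, k)) = h b)
    (h0 : ∀ b, g b 0 = 1)
    (hc : ∀ b, ∀ n < b.q, ∑ i ∈ range (n + 1), h b (n - i) * g b i = if n = 0 then 1 else 0) :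
    Fam 2 fun b => tri b.l (g b) := by
  refine (fam_step hg hh).prodM.congr fun b => ?_
  have key : ∀ m ≤ b.l, gen (fun k => stepOp (shI (Par.setM (b, k)).l (Par.setM (b, k)).m)
      (Par.setM (b, k)).m (tau (Par.setM (b, k))) (g (Par.setM (b, k))) (h (Par.setM (b, k)))) m =
      tri m (g b) := by
    intro m
    induction m with
    | zero => intro _; rw [gen_zero, tri_zero (h0 b)]
    | succ m ih =>
      intro hm
      have e : (Par.setM (b, m)).m = m := min_eq_left (by omega : m ≤ b.l)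
      have h1 := fun tw => norm_eig tw (Par.setM (b, m)) (hg.shift.2 _) (hg.2 _)
      have h2 := fun tw => norm_eig tw (Par.setM (b, m)) (hh.2 _) (Cf.zero.2 _)
      rw [gen_succ, ih (by omega)]
      simp only [e, eg, eh] at h1 h2 ⊢
      rw [shI_eq (show m < (Par.setM (b, m)).l from hm)]
      refine stepOp_mul (fun tw x h => ?_) (fun tw x h => ?_) fun n hn => hc b n ?_
      · have := (h1 tw x).1
        rw [h, norm_zero] at this
        linarith
      · have := (h2 tw x).1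
        rw [h, norm_zero] at this
        linarith
      · have h3 := b.lt_q
        have h4 : 2 ^ (m + 1) ≤ 2 ^ b.l := Nat.pow_le_pow_right two_pos hm
        rw [pow_succ] at h4
        omega
  exact key _ le_rfl

/-! ### The coefficients -/

/-- The root of unity of the transform. -/
noncomputable def om (b : Par) : ℂ :=
  Complex.exp (2 * Real.pi * Complex.I * ((if b.inv then -1 else 1 : ℤ) : ℂ) / (b.q : ℕ))

lemma om_prim (b : Par) : IsPrimitiveRoot (om b) b.q := by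
  have h := Complex.isPrimitiveRoot_exp b.q b.q_pos.ne'
  rw [om]
  split_ifs
  · have e : Complex.exp (2 * Real.pi * Complex.I * ((-1 : ℤ) : ℂ) / (b.q : ℕ)) =
        (Complex.exp (2 * Real.pi * Complex.I / b.q))⁻¹ := by
      rw [← Complex.exp_neg]
      congr 1
      push_cast
      ring
    rw [e]
    exact h.inv
  · simpa using h

lemma norm_om (b : Par) : ‖om b‖ = 1 := (om_prim b).norm'_eq_one b.q_pos.ne'

lemma apx_om : Apx om := Apx.expI (by fun_prop) (by fun_prop) Par.q_pos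

lemma norm_pow_sub_one {z : ℂ} (hz : ‖z‖ = 1) (k : ℕ) : ‖z ^ k - 1‖ ≤ k * ‖z - 1‖ := by
  induction k with
  | zero => simp
  | succ k ih =>
    have := norm_add_le (z * (z ^ k - 1)) (z - 1)
    rw [norm_mul, hz, one_mul, show z * (z ^ k - 1) + (z - 1) = z ^ (k + 1) - 1 by ring] at this
    push_cast
    linarith

lemma norm_sub_one_ge {z : ℂ} {q : ℕ} (hq : 0 < q) (hz : ‖z‖ = 1) (h1 : z ≠ 1) (h : z ^ q = 1) :
    1 ≤ q * ‖z - 1‖ := by
  have h2 : ∑ k ∈ range q, z ^ k = 0 := by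
    have := geom_sum_mul z q
    rw [h, sub_self] at this
    exact (mul_eq_zero.1 this).resolve_right (sub_ne_zero.2 h1)
  have h3 : ‖∑ k ∈ range q, (z ^ k - 1)‖ = q := by
    rw [sum_sub_distrib, h2]; simp
  have h4 : ‖∑ k ∈ range q, (z ^ k - 1)‖ ≤ q * (q * ‖z - 1‖) := by
    refine (norm_sum_le _ _).trans ((sum_le_card_nsmul _ _ (q * ‖z - 1‖) fun k hk => ?_).trans ?_)
    · exact (norm_pow_sub_one hz k).trans (mul_le_mul_of_nonneg_right
        (by exact_mod_cast (mem_range.1 hk).le) (norm_nonneg _))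
    · simp
  rw [h3] at h4
  have h5 : (0 : ℝ) < q := by exact_mod_cast hq
  nlinarith

lemma qf_of_le {ω : ℂ} {q n : ℕ} (hq : 0 < q) (h : ω ^ q = 1) (hn : q ≤ n) : qf ω n = 0 :=
  prod_eq_zero (i := q - 1) (mem_range.2 (by omega)) (by
    rw [show q - 1 + 1 = q by omega, h, sub_self])

lemma norm_qf_ge (b : Par) {n : ℕ} (hn : n < b.q) : 1 / 2 ^ 4 ^ b.l ≤ ‖qf (om b) n‖ := by
  have hq : (0 : ℝ) < b.q := by exact_mod_cast b.q_pos
  have hq' : (b.q : ℝ) ≤ 2 ^ b.l := by exact_mod_cast b.q_le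
  have h1 : ∏ _l ∈ range n, (1 / 2 ^ b.l : ℝ) ≤ ‖qf (om b) n‖ := by
    rw [qf, norm_prod]
    refine prod_le_prod (fun _ _ => by positivity) fun l hl => ?_
    have := mem_range.1 hl
    have h2 := norm_sub_one_ge (z := om b ^ (l + 1)) b.q_pos (by rw [norm_pow, norm_om, one_pow])
      ((om_prim b).pow_ne_one_of_pos_of_lt (by omega) (by omega))
      (by rw [← pow_mul, mul_comm, pow_mul, (om_prim b).pow_eq_one, one_pow])
    rw [div_le_iff₀ (by positivity)]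
    nlinarith [norm_nonneg (om b ^ (l + 1) - 1)]
  refine le_trans ?_ h1
  rw [prod_const, card_range, _root_.one_div_pow, ← pow_mul]
  refine one_div_le_one_div_of_le (by positivity) (pow_le_pow_right₀ one_le_two ?_)
  have h3 := b.q_le
  calc b.l * n ≤ 2 ^ b.l * 2 ^ b.l := Nat.mul_le_mul Nat.lt_two_pow_self.le (by omega)
    _ = 4 ^ b.l := (mul_pow 2 2 b.l).symm

lemma norm_qf_le (b : Par) (n : ℕ) : ‖qf (om b) n‖ ≤ 2 ^ 4 ^ b.l := by
  by_cases hn : n < b.q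
  · have h1 : ‖qf (om b) n‖ ≤ ∏ _l ∈ range n, (2 : ℝ) := by
      rw [qf, norm_prod]
      refine prod_le_prod (fun _ _ => norm_nonneg _) fun l _ => (norm_sub_le _ _).trans ?_
      rw [norm_pow, norm_om, one_pow, norm_one]; norm_num
    refine h1.trans ?_
    rw [prod_const, card_range]
    refine pow_le_pow_right₀ one_le_two ?_
    have h3 := b.q_le
    have h4 : 2 ^ b.l ≤ 4 ^ b.l := Nat.pow_le_pow_left (by norm_num) _
    omega
  · rw [qf_of_le b.q_pos (om_prim b).pow_eq_one (not_lt.1 hn), norm_zero]; positivity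

lemma norm_qf_inv_le (b : Par) (n : ℕ) : ‖(qf (om b) n)⁻¹‖ ≤ 2 ^ 4 ^ b.l := by
  by_cases hn : n < b.q
  · rw [norm_inv]
    exact inv_le_of_inv_le₀ (by positivity) (by simpa using norm_qf_ge b hn)
  · rw [qf_of_le b.q_pos (om_prim b).pow_eq_one (not_lt.1 hn), _root_.inv_zero, norm_zero]
    positivity

lemma pb_lt_q : PB fun p : {p : Par × ℕ // p.2 < p.1.q} => p.1.2 :=
  (Par.pb_q (b := fun p : {p : Par × ℕ // p.2 < p.1.q} => p.1.1) (by fun_prop)).mono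
    fun p => p.2.le

lemma apx_qf_lt : Apx fun p : {p : Par × ℕ // p.2 < p.1.q} => qf (om p.1.1) p.1.2 :=
  Apx.prod_un (by fun_prop) pb_lt_q
    (Apx.sub (Apx.pow (apx_om.comp' (by fun_prop)) (by fun_prop) (by fun_prop)) Apx.one)

lemma apx_qf_inv_lt : Apx fun p : {p : Par × ℕ // p.2 < p.1.q} => (qf (om p.1.1) p.1.2)⁻¹ :=
  apx_qf_lt.inv' (B := fun p => p.1.1.N * p.1.1.N) (by fun_prop) fun p => by
    rw [Par.N_eq, ← mul_pow]; exact norm_qf_ge _ p.2

lemma apx_pw_lt :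
    Apx fun p : {p : Par × ℕ // p.2 < p.1.q} => ∏ l ∈ range p.1.2, om p.1.1 ^ l :=
  Apx.prod_un (by fun_prop) pb_lt_q
    (Apx.pow (apx_om.comp' (by fun_prop)) (by fun_prop) (by fun_prop))

lemma apx_of_lt (f : Par → ℕ → ℂ) (h : Apx fun p : {p : Par × ℕ // p.2 < p.1.q} => f p.1.1 p.1.2)
    (h0 : ∀ b n, qf (om b) n = 0 → f b n = 0) : Apx fun p : Par × ℕ => f p.1 p.2 :=
  Apx.of_cases (p := fun p : Par × ℕ => p.2 < p.1.q) (by fun_prop) h
    (Apx.zero.congr fun p =>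
      (h0 _ _ (qf_of_le p.1.1.q_pos (om_prim _).pow_eq_one (not_lt.1 p.2))).symm)

lemma norm_pw (b : Par) (n : ℕ) : ‖∏ l ∈ range n, om b ^ l‖ = 1 := by
  rw [norm_prod]
  exact prod_eq_one fun l _ => by rw [norm_pow, norm_om, one_pow]

lemma cf_qf : Cf fun b n => qf (om b) n := 
  ⟨apx_of_lt (fun b n => qf (om b) n) apx_qf_lt fun _ _ h => h, norm_qf_le⟩

lemma cf_g : Cf fun b n => (qf (om b) n)⁻¹ :=
  ⟨apx_of_lt (fun b n => (qf (om b) n)⁻¹) apx_qf_inv_lt fun _ _ h => by simp [h], norm_qf_inv_le⟩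

lemma cf_d : Cf fun b n => (∏ l ∈ range n, om b ^ l) * (qf (om b) n)⁻¹ :=
  ⟨apx_of_lt (fun b n => (∏ l ∈ range n, om b ^ l) * (qf (om b) n)⁻¹)
      (apx_pw_lt.mul apx_qf_inv_lt) fun _ _ h => by simp [h],
    fun b n => by rw [norm_mul, norm_pw, one_mul]; exact norm_qf_inv_le b n⟩

lemma cf_h : Cf fun b n => (-1) ^ n * ((∏ l ∈ range n, om b ^ l) * (qf (om b) n)⁻¹) :=
  ⟨apx_of_lt (fun b n => (-1) ^ n * ((∏ l ∈ range n, om b ^ l) * (qf (om b) n)⁻¹))
      ((Apx.pow Apx.one.neg (by fun_prop) pb_lt_q).mul (apx_pw_lt.mul apx_qf_inv_lt))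
      fun _ _ h => by simp [h],
    fun b n => by
      rw [norm_mul, norm_pow, norm_neg, norm_one, one_pow, one_mul]; exact cf_d.2 b n⟩

lemma conv_eq {ω : ℂ} {q : ℕ} (hω : IsPrimitiveRoot ω q) {n : ℕ} (hn : n < q) :
    ∑ i ∈ range (n + 1), (-1) ^ (n - i) * ((∏ l ∈ range (n - i), ω ^ l) * (qf ω (n - i))⁻¹) *
      (qf ω i)⁻¹ = if n = 0 then 1 else 0 := by
  have h1 := pow_eq_sum_qb ω 0 n
  rw [← sum_range_reflect] at h1
  have h2 : ∑ i ∈ range (n + 1), (-1) ^ (n - i) * ((∏ l ∈ range (n - i), ω ^ l) *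
      (qf ω (n - i))⁻¹) * (qf ω i)⁻¹ = 0 ^ n * (qf ω n)⁻¹ := by
    rw [h1, sum_mul]
    refine sum_congr rfl fun i hi => ?_
    have hi' := mem_range.1 hi
    have h3 := qb_mul ω n (n - i) (by omega)
    rw [show n - (n - i) = i by omega] at h3
    have n1 := qf_ne_zero hω hn
    have n2 := qf_ne_zero hω (show n - i < q by omega)
    have n3 := qf_ne_zero hω (show i < q by omega)
    have h4 : nw ω (n - i) 0 = (-1) ^ (n - i) * ∏ l ∈ range (n - i), ω ^ l := by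
      rw [nw]
      simp only [zero_sub]
      rw [prod_neg, card_range]
    rw [Nat.add_sub_cancel, h4]
    field_simp
    rw [← h3]
    ring
  rw [h2]
  split_ifs with h
  · subst h; simp [qf]
  · simp [h]

lemma fam_L : Fam 2 fun b => tri b.l fun n => (qf (om b) n)⁻¹ :=
  fam_tri cf_g cf_h (fun _ _ => rfl) (fun _ _ => rfl) (fun _ => by simp [qf])
    fun b _ hn => conv_eq (om_prim b) hn

lemma toM_tri (ℓ : ℕ) (g : ℕ → ℂ) (x y : Fin (2 ^ ℓ)) :
    toM ℓ (tri ℓ g) x y = if y.val ≤ x.val then g (x - y) else 0 := by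
  rw [toM, of_apply, tri, blk_apply, Nat.div_eq_of_lt x.2, Nat.mod_eq_of_lt x.2,
    sum_eq_single y.val (fun z _ hz => by simp [pos, hz]) (fun h => absurd (mem_range.2 y.2) h)]
  simp [pos]

lemma factor_sum {ω : ℂ} {q n x y : ℕ} (hω : IsPrimitiveRoot ω q) (hx : x < q) (hy : y < q)
    (hn : q ≤ n) :
    ∑ i ∈ range n, qf ω x * (if i ≤ x then (qf ω (x - i))⁻¹ else 0) *
      ((∏ l ∈ range i, ω ^ l) * (qf ω i)⁻¹) * (if i ≤ y then (qf ω (y - i))⁻¹ else 0) * qf ω y =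
      ω ^ (x * y) := by
  rw [pow_mul, pow_eq_sum_qb ω, Finset.sum_subset (s₁ := range (y + 1)) (s₂ := range n)
    (by intro i hi; simp only [Finset.mem_range] at hi ⊢; omega)
    (by intro i _ hi; rw [qb_of_lt ω _ _ (by simpa using hi), zero_mul])]
  refine sum_congr rfl fun i _ => ?_
  by_cases hix : i ≤ x
  · by_cases hiy : i ≤ y
    · rw [if_pos hix, if_pos hiy]
      have h1 := qb_mul ω y i hiy
      have h2 := nw_mul ω x i hix
      have n1 := qf_ne_zero hω (show i < q by omega)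
      have n2 := qf_ne_zero hω (show x - i < q by omega)
      have n3 := qf_ne_zero hω (show y - i < q by omega)
      field_simp
      rw [← h1]
      linear_combination (-qb ω y i * qf ω i * qf ω (y - i)) * h2
    · rw [if_neg hiy, qb_of_lt ω _ _ (not_le.1 hiy)]; simp
  · rw [if_neg hix, nw_of_lt ω (not_le.1 hix)]; simp

lemma famM_dft : FamM 2 fun b => dftM b.l b.q b.inv := by
  have hc : ∀ {f : Par → ℕ → ℂ}, Cf f → FamM 2 fun b => diagonal fun x => f b x.val :=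
    fun hf => FamM.diag hf.1 1 fun b x => by rw [one_mul]; exact hf.2 b x
  have hs : FamM 2 fun b => diagonal fun _ => if b.inv then (b.q : ℂ)⁻¹ else 1 := by
    refine FamM.diag (t := fun b _ => if b.inv then (b.q : ℂ)⁻¹ else 1)
      (Apx.ite (by fun_prop) (Apx.invNat (by fun_prop)) Apx.one) 0 fun b x => ?_
    rw [zero_mul, pow_zero]
    split_ifs
    · rw [norm_inv, Complex.norm_natCast]
      exact inv_le_one_of_one_le₀ (by exact_mod_cast b.q_pos)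
    · simp
  refine (hs.mul (((((hc cf_qf).mul fam_L.2).mul (hc cf_d)).mul fam_L.2.transpose).mul
    (hc cf_qf))).congr fun b => ?_
  ext x y
  rw [diagonal_mul, mul_diagonal, Matrix.mul_apply, sum_mul]
  simp only [mul_diagonal, diagonal_mul, transpose_apply, toM_tri]
  rw [dftM, of_apply]
  by_cases h : x.val < b.q ∧ y.val < b.q
  · rw [if_pos h, Fin.sum_univ_eq_sum_range (fun i => qf (om b) x *
      (if i ≤ x.val then (qf (om b) (x - i))⁻¹ else 0) *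
      ((∏ l ∈ range i, om b ^ l) * (qf (om b) i)⁻¹) *
      (if i ≤ y.val then (qf (om b) (y - i))⁻¹ else 0) * qf (om b) y),
      factor_sum (om_prim b) h.1 h.2 b.q_le, om, ← Complex.exp_nat_mul]
    split_ifs
    · congr 2
      push_cast
      ring
    · rw [one_mul]
      congr 1
      push_cast
      ring
  · rw [if_neg h]
    rcases not_and_or.1 h with h | h
    · simp [qf_of_le b.q_pos (om_prim b).pow_eq_one (not_lt.1 h)]
    · simp [qf_of_le b.q_pos (om_prim b).pow_eq_one (not_lt.1 h)]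

end Crest.Agent.R326.Dft

namespace Crest.Agent.R326

open Crest.Agent.Lib.PolyTime Dft

theorem dftSpec : DftSpec := by
  obtain ⟨c, len, sc, tb, h1, h2, h3, h4, h5, h6⟩ := famM_dft.mono (show 2 ≤ 4 by norm_num)
  refine ⟨c, fun ℓ => len (ℓ, 0, 0), fun ℓ l => sc (ℓ, 0, 0) l,
    fun ℓ q inv l x => if h : 2 ^ ℓ < 2 * q ∧ q ≤ 2 ^ ℓ then
      tb ⟨(⟨2 ^ ℓ⟩, ℓ, q, inv, 0, 0), rfl, h.1, h.2, Nat.zero_le _, Nat.zero_le _⟩ l x else 0,
    fun ℓ => h1 _, fun ℓ l j _ h => h2 _ _ _ h, by fun_prop,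
    h4.comp (g := fun a : Un × ℕ => ((a.1.n, 0, 0), a.2)) (by fun_prop), ?_,
    fun ℓ q inv _ hq hq' => ?_⟩
  · have hφ : Poly fun a : TbIx => (⟨(a.1.1, a.1.2.1, a.1.2.2.1, a.1.2.2.2.1, 0, 0), a.2.1, a.2.2.1,
        a.2.2.2.1, Nat.zero_le _, Nat.zero_le _⟩ : Par) := Poly.subtype_mk (by fun_prop) _
    refine (h5.comp' (hφ.pair (g := fun a : TbIx => (a.1.2.2.2.2.1, a.1.2.2.2.2.2))
      (by fun_prop))).congr ?_
    rintro ⟨⟨⟨N⟩, ℓ, q, inv, l, x⟩, hN, hq, hq', hx⟩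
    dsimp only at hN hq hq' ⊢
    subst hN
    rw [dif_pos ⟨hq, hq'⟩]
  · have h7 := h6 ⟨(⟨2 ^ ℓ⟩, ℓ, q, inv, 0, 0), rfl, hq, hq', Nat.zero_le _, Nat.zero_le _⟩
    simp only [dif_pos (And.intro hq hq')]
    exact ⟨fun l x _ => h7.1 l x, (layersM_eq ..).trans h7.2⟩

end Crest.Agent.R326
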