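import Crest.Agent.R324.QBinom

/-!
# Operators on sequences used for the in-place Fourier transform (row 326)

A lower triangular Toeplitz operator on blocks of size `2 ^ ℓ` is written as a product of
Hadamard butterflies and diagonal operators.
-/

namespace Crest.Agent.R326.Dft

open Finset

/-! ### Ordered products -/

/-- `f (L - 1) * ⋯ * f 0`. -/
def gen {M : Type} [Monoid M] (f : ℕ → M) : ℕ → M
  | 0 => 1
  | L + 1 => f L * gen f L

section Gen
variable {M : Type} [Monoid M]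

@[simp] lemma gen_zero (f : ℕ → M) : gen f 0 = 1 := rfl

lemma gen_succ (f : ℕ → M) (L : ℕ) : gen f (L + 1) = f L * gen f L := rfl

lemma gen_congr {f g : ℕ → M} {L : ℕ} (h : ∀ l < L, f l = g l) : gen f L = gen g L := by
  induction L with
  | zero => rfl
  | succ L ih => rw [gen_succ, gen_succ, h L (by omega), ih fun l hl => h l (by omega)]

lemma gen_add (f : ℕ → M) (a b : ℕ) : gen f (a + b) = gen (fun l => f (a + l)) b * gen f a := by
  induction b with
  | zero => simp
  | succ b ih => rw [← add_assoc, gen_succ, gen_succ, ih, mul_assoc]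

lemma gen_succ' (f : ℕ → M) (L : ℕ) : gen f (L + 1) = gen (fun l => f (l + 1)) L * f 0 := by
  rw [add_comm L 1, gen_add]
  simp [gen_succ, add_comm]

lemma gen_one (L : ℕ) : gen (fun _ => (1 : M)) L = 1 := by
  induction L with
  | zero => rfl
  | succ L ih => rw [gen_succ, ih, one_mul]

lemma gen_pad (f : ℕ → M) {a L : ℕ} (h : a ≤ L) :
    gen (fun l => if l < a then f l else 1) L = gen f a := by
  obtain ⟨b, rfl⟩ := Nat.exists_eq_add_of_le h
  rw [gen_add, gen_congr (g := fun _ => 1) fun l _ => if_neg (by omega), gen_one, one_mul]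
  exact gen_congr fun l hl => if_pos hl

lemma gen_mul (f : ℕ → M) (K L : ℕ) :
    gen f (K * L) = gen (fun k => gen (fun l => f (k * L + l)) L) K := by
  induction K with
  | zero => simp
  | succ K ih => rw [Nat.succ_mul, gen_add, ih, gen_succ]

lemma gen_mul_rev {f g : ℕ → M} (h : ∀ j, g j * f j = 1) (m : ℕ) :
    gen g m * gen (fun i => f (m - 1 - i)) m = 1 := by
  induction m with
  | zero => simp
  | succ m ih =>
    have e : gen (fun l => f (m + 1 - 1 - (l + 1))) m = gen (fun i => f (m - 1 - i)) m :=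
      gen_congr fun l _ => by congr 1; omega
    rw [gen_succ g, gen_succ', e, mul_assoc, ← mul_assoc (gen g m), ih, one_mul]
    exact h m

lemma gen_rev_mul {f g : ℕ → M} (h : ∀ j, f j * g j = 1) (m : ℕ) :
    gen (fun i => f (m - 1 - i)) m * gen g m = 1 := by
  induction m with
  | zero => simp
  | succ m ih =>
    rw [gen_succ g, gen_succ', gen_congr (g := fun i => f (m - 1 - i)) fun l _ => by
      congr 1; omega, mul_assoc, ← mul_assoc _ (g m)]
    rw [show m + 1 - 1 - 0 = m by omega, h m, one_mul, ih]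

end Gen

/-! ### Positions -/

/-- The position with high part `a` and low part `lo`. -/
def pos (j a lo : ℕ) : ℕ := a * 2 ^ j + lo

lemma pos_div {j lo : ℕ} (a : ℕ) (h : lo < 2 ^ j) : pos j a lo / 2 ^ j = a := by
  rw [pos, add_comm, Nat.add_mul_div_right _ _ (by positivity), Nat.div_eq_of_lt h, zero_add]

lemma pos_mod {j lo : ℕ} (a : ℕ) (h : lo < 2 ^ j) : pos j a lo % 2 ^ j = lo := by
  rw [pos, add_comm, Nat.add_mul_mod_self_right, Nat.mod_eq_of_lt h]

lemma pos_div_mod (j x : ℕ) : pos j (x / 2 ^ j) (x % 2 ^ j) = x := by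
  rw [pos, mul_comm]; exact Nat.div_add_mod _ _

lemma tb_pos {j lo : ℕ} (a : ℕ) (h : lo < 2 ^ j) (i : ℕ) :
    (pos j a lo).testBit i = if i < j then lo.testBit i else a.testBit (i - j) := by
  rw [pos, mul_comm, Nat.testBit_two_pow_mul_add _ h]

lemma tb_even {j lo : ℕ} (a : ℕ) (h : lo < 2 ^ j) : (pos j (2 * a) lo).testBit j = false := by
  rw [tb_pos _ h]; simp

lemma tb_odd {j lo : ℕ} (a : ℕ) (h : lo < 2 ^ j) : (pos j (2 * a + 1) lo).testBit j = true := by
  rw [tb_pos _ h]; simp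

lemma pos_even (j a lo : ℕ) : pos j (2 * a) lo = pos (j + 1) a lo := by
  simp only [pos]; ring

lemma pos_odd (j a lo : ℕ) : pos j (2 * a + 1) lo = pos (j + 1) a (2 ^ j + lo) := by
  simp only [pos]; ring

lemma pos_cases (j : ℕ) {P : ℕ → Prop} (h0 : ∀ a lo, lo < 2 ^ j → P (pos j (2 * a) lo))
    (h1 : ∀ a lo, lo < 2 ^ j → P (pos j (2 * a + 1) lo)) (x : ℕ) : P x := by
  rw [← pos_div_mod j x]
  have hl : x % 2 ^ j < 2 ^ j := Nat.mod_lt _ (by positivity)
  obtain ⟨a, h | h⟩ := Nat.even_or_odd' (x / 2 ^ j)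
  · rw [h]; exact h0 _ _ hl
  · rw [h]; exact h1 _ _ hl

/-! ### Operators -/

/-- Linear operators on sequences. -/
abbrev Op := Module.End ℂ (ℕ → ℂ)

/-- The butterfly on bit `j`. -/
noncomputable def had (j : ℕ) : Op where
  toFun v x := v (pos j (2 * (x / 2 ^ j / 2)) (x % 2 ^ j)) +
    (if x.testBit j then -1 else 1) * v (pos j (2 * (x / 2 ^ j / 2) + 1) (x % 2 ^ j))
  map_add' v w := by ext x; simp only [Pi.add_apply]; ring
  map_smul' c v := by ext x; simp only [Pi.smul_apply, smul_eq_mul, RingHom.id_apply]; ring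

/-- A diagonal operator. -/
noncomputable def dg (t : ℕ → ℂ) : Op where
  toFun v x := t x * v x
  map_add' v w := by ext x; simp only [Pi.add_apply]; ring
  map_smul' c v := by ext x; simp only [Pi.smul_apply, smul_eq_mul, RingHom.id_apply]; ring

/-- A block diagonal operator with blocks of size `2 ^ m`. -/
noncomputable def blk (m : ℕ) (K : ℕ → ℕ → ℂ) : Op where
  toFun v x := ∑ y ∈ range (2 ^ m), K x y * v (pos m (x / 2 ^ m) y)
  map_add' v w := by ext x; simp only [Pi.add_apply, mul_add, sum_add_distrib]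
  map_smul' c v := by
    ext x; simp only [Pi.smul_apply, smul_eq_mul, RingHom.id_apply, mul_sum]
    exact sum_congr rfl fun _ _ => by ring

/-- Copy even blocks to the following odd blocks. -/
noncomputable def Q (m : ℕ) : Op where
  toFun v x := if x.testBit m then v (x - 2 ^ m) else 0
  map_add' v w := by ext x; simp only [Pi.add_apply]; split_ifs <;> simp
  map_smul' c v := by
    ext x; simp only [Pi.smul_apply, smul_eq_mul, RingHom.id_apply]; split_ifs <;> simp

lemma dg_apply (t v : ℕ → ℂ) (x : ℕ) : dg t v x = t x * v x := rfl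

lemma blk_apply (m : ℕ) (K : ℕ → ℕ → ℂ) (v : ℕ → ℂ) (x : ℕ) :
    blk m K v x = ∑ y ∈ range (2 ^ m), K x y * v (pos m (x / 2 ^ m) y) := rfl

lemma blk_pos {m lo : ℕ} (K : ℕ → ℕ → ℂ) (v : ℕ → ℂ) (a : ℕ) (h : lo < 2 ^ m) :
    blk m K v (pos m a lo) = ∑ y ∈ range (2 ^ m), K (pos m a lo) y * v (pos m a y) := by
  rw [blk_apply, pos_div _ h]

lemma had_even {j lo : ℕ} (v : ℕ → ℂ) (a : ℕ) (h : lo < 2 ^ j) :
    had j v (pos j (2 * a) lo) = v (pos j (2 * a) lo) + v (pos j (2 * a + 1) lo) := by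
  change v _ + _ * v _ = _
  rw [pos_div _ h, pos_mod _ h, tb_even _ h, show 2 * a / 2 = a by omega]
  simp

lemma had_odd {j lo : ℕ} (v : ℕ → ℂ) (a : ℕ) (h : lo < 2 ^ j) :
    had j v (pos j (2 * a + 1) lo) = v (pos j (2 * a) lo) - v (pos j (2 * a + 1) lo) := by
  change v _ + _ * v _ = _
  rw [pos_div _ h, pos_mod _ h, tb_odd _ h, show (2 * a + 1) / 2 = a by omega]
  simp [sub_eq_add_neg]

lemma Q_even {j lo : ℕ} (v : ℕ → ℂ) (a : ℕ) (h : lo < 2 ^ j) : Q j v (pos j (2 * a) lo) = 0 := by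
  change (if _ then _ else _) = _
  rw [tb_even _ h]; simp

lemma Q_odd {j lo : ℕ} (v : ℕ → ℂ) (a : ℕ) (h : lo < 2 ^ j) :
    Q j v (pos j (2 * a + 1) lo) = v (pos j (2 * a) lo) := by
  change (if _ then _ else _) = _
  rw [tb_odd _ h, if_pos rfl]
  congr 1
  simp only [pos, add_mul, one_mul]
  omega

lemma op_ext (j : ℕ) {A B : Op}
    (h0 : ∀ v a lo, lo < 2 ^ j → A v (pos j (2 * a) lo) = B v (pos j (2 * a) lo))
    (h1 : ∀ v a lo, lo < 2 ^ j → A v (pos j (2 * a + 1) lo) = B v (pos j (2 * a + 1) lo)) :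
    A = B :=
  LinearMap.ext fun v => funext (pos_cases j (h0 v) (h1 v))

lemma dg_mul (s t : ℕ → ℂ) : dg s * dg t = dg fun x => s x * t x :=
  LinearMap.ext fun v => funext fun x => by simp [dg_apply, mul_assoc]

lemma dg_one : dg (fun _ => 1) = 1 := LinearMap.ext fun v => funext fun x => by simp [dg_apply]

/-- A diagonal operator depending only on bit `j`. -/
noncomputable def bd (j : ℕ) (a b : ℚ) : Op := dg fun x => if x.testBit j then b else a

lemma shear_eq (j : ℕ) : bd j 1 (3 / 5) * had j * bd j 1 (-1 / 2) * had j * bd j (3 / 2) (1 / 2) *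
    had j * bd j (2 / 3) (5 / 6) = 1 + Q j := by
  refine op_ext j (fun v a lo h => ?_) (fun v a lo h => ?_)
  · simp [bd, dg_apply, had_even _ _ h, had_odd _ _ h, tb_even _ h, tb_odd _ h, Q_even _ _ h]
    ring
  · simp [bd, dg_apply, had_even _ _ h, had_odd _ _ h, tb_even _ h, tb_odd _ h, Q_odd _ _ h]
    ring

lemma blk_mul (m : ℕ) (K K' : ℕ → ℕ → ℂ) : blk m K * blk m K' =
    blk m fun x y => ∑ c ∈ range (2 ^ m), K x c * K' (pos m (x / 2 ^ m) c) y := by
  refine LinearMap.ext fun v => funext fun x => ?_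
  rw [Module.End.mul_apply, blk_apply, blk_apply]
  simp only [sum_mul]
  rw [sum_comm]
  refine sum_congr rfl fun c hc => ?_
  rw [blk_pos _ _ _ (mem_range.1 hc), mul_sum]
  exact sum_congr rfl fun _ _ => by ring

lemma blk_add (m : ℕ) (K K' : ℕ → ℕ → ℂ) :
    blk m K + blk m K' = blk m fun x y => K x y + K' x y := by
  refine LinearMap.ext fun v => funext fun x => ?_
  simp [blk_apply, add_mul, sum_add_distrib]

lemma blk_congr {m : ℕ} {K K' : ℕ → ℕ → ℂ} (h : ∀ x, ∀ y < 2 ^ m, K x y = K' x y) :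
    blk m K = blk m K' := by
  refine LinearMap.ext fun v => funext fun x => ?_
  rw [blk_apply, blk_apply]
  exact sum_congr rfl fun y hy => by rw [h x y (mem_range.1 hy)]

lemma dg_mul_blk (m : ℕ) (t : ℕ → ℂ) (K : ℕ → ℕ → ℂ) :
    dg t * blk m K = blk m fun x y => t x * K x y := by
  refine LinearMap.ext fun v => funext fun x => ?_
  simp [blk_apply, dg_apply, mul_sum, mul_assoc]

lemma blk_one (m : ℕ) : (blk m fun x y => if y = x % 2 ^ m then 1 else 0) = 1 := by
  refine LinearMap.ext fun v => funext fun x => ?_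
  rw [blk_apply, sum_eq_single (x % 2 ^ m) (fun y _ hy => by simp [hy])
    (fun h => absurd (mem_range.2 (Nat.mod_lt _ (by positivity))) h)]
  simp [pos_div_mod]

lemma Q_mul_blk {m : ℕ} {K K' : ℕ → ℕ → ℂ}
    (h : ∀ a, ∀ lo < 2 ^ m, ∀ y < 2 ^ m, K (pos m (2 * a) lo) y = K' (pos m (2 * a + 1) lo) y) :
    Q m * blk m K = blk m K' * Q m := by
  refine op_ext m (fun v a lo hl => ?_) (fun v a lo hl => ?_)
  · rw [Module.End.mul_apply, Module.End.mul_apply, Q_even _ _ hl, blk_pos _ _ _ hl]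
    exact (sum_eq_zero fun y hy => by rw [Q_even _ _ (mem_range.1 hy), mul_zero]).symm
  · rw [Module.End.mul_apply, Module.End.mul_apply, Q_odd _ _ hl, blk_pos _ _ _ hl,
      blk_pos _ _ _ hl]
    exact sum_congr rfl fun y hy => by
      rw [Q_odd _ _ (mem_range.1 hy), h a lo hl y (mem_range.1 hy)]

lemma blk_mul_Q_congr {m : ℕ} {K K' : ℕ → ℕ → ℂ}
    (h : ∀ a, ∀ lo < 2 ^ m, ∀ y < 2 ^ m,
      K (pos m (2 * a + 1) lo) y = K' (pos m (2 * a + 1) lo) y) :
    blk m K * Q m = blk m K' * Q m := by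
  refine op_ext m (fun v a lo hl => ?_) (fun v a lo hl => ?_)
  · rw [Module.End.mul_apply, Module.End.mul_apply, blk_pos _ _ _ hl, blk_pos _ _ _ hl]
    exact sum_congr rfl fun y hy => by rw [Q_even _ _ (mem_range.1 hy), mul_zero, mul_zero]
  · rw [Module.End.mul_apply, Module.End.mul_apply, blk_pos _ _ _ hl, blk_pos _ _ _ hl]
    exact sum_congr rfl fun y hy => by rw [h a lo hl y (mem_range.1 hy)]

lemma Q_mul_Q (m : ℕ) : Q m * Q m = 0 := by
  refine op_ext m (fun v a lo hl => ?_) (fun v a lo hl => ?_)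
  · simp [Q_even _ _ hl]
  · simp [Q_odd _ _ hl, Q_even _ _ hl]

/-! ### The fast Fourier transform -/

/-- The primitive root of unity of order `2 ^ i`. -/
noncomputable def zt (i : ℕ) : ℂ :=
  Complex.exp (2 * Real.pi * Complex.I * ((1 : ℤ) : ℂ) / ((2 ^ i : ℕ) : ℂ))

lemma zt_sq (i : ℕ) : zt (i + 1) ^ 2 = zt i := by
  rw [zt, zt, ← Complex.exp_nat_mul]
  congr 1
  push_cast
  field_simp
  ring

lemma zt_one : zt 1 = -1 := by
  rw [zt, ← Complex.exp_pi_mul_I]
  congr 1
  push_cast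
  ring

lemma norm_zt (i : ℕ) : ‖zt i‖ = 1 := by
  rw [zt, show (2 * Real.pi * Complex.I * ((1 : ℤ) : ℂ) / ((2 ^ i : ℕ) : ℂ)) =
    ((2 * Real.pi / 2 ^ i : ℝ) : ℂ) * Complex.I by push_cast; ring]
  exact Complex.norm_exp_ofReal_mul_I _

/-- Roots (`s = 1`) and twiddle factors (`s = 2`) after `i` levels. -/
noncomputable def V (tw s i h : ℕ) : ℂ :=
  zt (i + s) ^ tw * ∏ t ∈ range i, if h.testBit t then zt (t + s) else 1

lemma V_sq (tw i h : ℕ) : V tw 2 i h ^ 2 = V tw 1 i h := by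
  rw [V, V, mul_pow, ← prod_pow, ← pow_mul, mul_comm tw, pow_mul, zt_sq (i + 1)]
  congr 1
  refine prod_congr rfl fun t _ => ?_
  split_ifs
  · exact zt_sq (t + 1)
  · simp

lemma V_even (tw i h : ℕ) : V tw 1 (i + 1) (2 * h) = V tw 2 i h := by
  rw [V, V, prod_range_succ']
  simp [Nat.testBit_succ, add_assoc]

lemma V_odd (tw i h : ℕ) : V tw 1 (i + 1) (2 * h + 1) = -V tw 2 i h := by
  rw [V, V, prod_range_succ']
  simp [Nat.testBit_succ, add_assoc, zt_one, show (2 * h + 1) / 2 = h by omega]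

lemma norm_V (tw s i h : ℕ) : ‖V tw s i h‖ = 1 := by
  rw [V, norm_mul, norm_pow, norm_zt, norm_prod, prod_eq_one, one_pow, one_mul]
  intro t _
  split_ifs
  · exact norm_zt _
  · simp

lemma V_ne_zero (tw s i h : ℕ) : V tw s i h ≠ 0 := by
  rw [← norm_ne_zero_iff, norm_V]; exact one_ne_zero

lemma V_pow (tw i : ℕ) : ∀ h, V tw 1 i h ^ 2 ^ i = (-1) ^ tw := by
  induction i with
  | zero => intro h; simp [V, zt_one]
  | succ i ih =>
    intro h
    obtain ⟨a, rfl | rfl⟩ := Nat.even_or_odd' h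
    · rw [V_even, pow_succ', pow_mul, V_sq, ih]
    · rw [V_odd, pow_succ', pow_mul, neg_sq, V_sq, ih]

/-- Twiddle factors of the level acting on bit `j` of a transform of length `2 ^ m`. -/
noncomputable def twd (tw m j x : ℕ) : ℂ :=
  if x.testBit j then V tw 2 (m - 1 - j) (x / 2 ^ (j + 1)) else 1

lemma norm_twd (tw m j x : ℕ) : ‖twd tw m j x‖ = 1 := by
  rw [twd]; split_ifs
  · exact norm_V ..
  · simp

lemma twd_ne_zero (tw m j x : ℕ) : twd tw m j x ≠ 0 := by
  rw [← norm_ne_zero_iff, norm_twd]; exact one_ne_zero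

/-- One level of the transform. -/
noncomputable def lev (tw m j : ℕ) : Op := had j * dg (twd tw m j)

/-- The inverse level. -/
noncomputable def levI (tw m j : ℕ) : Op := dg (fun x => (twd tw m j x)⁻¹ * (1 / 2 : ℚ)) * had j

lemma had_mul_had (j : ℕ) : had j * had j = dg fun _ => 2 := by
  refine op_ext j (fun v a lo h => ?_) (fun v a lo h => ?_)
  · simp [dg_apply, had_even _ _ h, had_odd _ _ h]; ring
  · simp [dg_apply, had_even _ _ h, had_odd _ _ h]; ring

lemma levI_mul (tw m j : ℕ) : levI tw m j * lev tw m j = 1 := by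
  rw [levI, lev, mul_assoc, ← mul_assoc (had j), had_mul_had, dg_mul, dg_mul, ← dg_one]
  congr 1
  ext x
  have := twd_ne_zero tw m j x
  push_cast
  field_simp

lemma lev_mul (tw m j : ℕ) : lev tw m j * levI tw m j = 1 := by
  rw [levI, lev, mul_assoc, ← mul_assoc (dg _), dg_mul]
  have : (fun x => twd tw m j x * ((twd tw m j x)⁻¹ * (1 / 2 : ℚ))) = fun _ => (1 / 2 : ℂ) := by
    ext x
    have := twd_ne_zero tw m j x
    push_cast
    field_simp
  rw [this]
  refine op_ext j (fun v a lo h => ?_) (fun v a lo h => ?_)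
  · simp [dg_apply, had_even _ _ h, had_odd _ _ h]; ring
  · simp [dg_apply, had_even _ _ h, had_odd _ _ h]; ring

/-- The transform of length `2 ^ m`. -/
noncomputable def fft (tw m : ℕ) : Op := gen (fun i => lev tw m (m - 1 - i)) m

/-- The inverse transform. -/
noncomputable def fftI (tw m : ℕ) : Op := gen (levI tw m) m

lemma fftI_mul (tw m : ℕ) : fftI tw m * fft tw m = 1 := gen_mul_rev (levI_mul tw m) m

lemma fft_mul (tw m : ℕ) : fft tw m * fftI tw m = 1 := gen_rev_mul (lev_mul tw m) m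

lemma sum_range_two_mul (f : ℕ → ℂ) (n : ℕ) :
    ∑ y ∈ range (2 * n), f y = ∑ y ∈ range n, (f (2 * y) + f (2 * y + 1)) := by
  induction n with
  | zero => simp
  | succ n ih => rw [Nat.mul_succ, sum_range_succ, sum_range_succ, ih, sum_range_succ, add_assoc]

lemma fft_partial (tw m : ℕ) (v : ℕ → ℂ) : ∀ i j, i + j = m → ∀ h lo, lo < 2 ^ j →
    gen (fun i => lev tw m (m - 1 - i)) i v (pos j h lo) =
      ∑ y ∈ range (2 ^ i), V tw 1 i h ^ y * v (pos j (pos i (h / 2 ^ i) y) lo) := by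
  intro i
  induction i with
  | zero => intro j _ h lo _; simp [pos]
  | succ i ih =>
    intro j hm h lo hl
    have hl0 : lo < 2 ^ (j + 1) := by rw [pow_succ]; omega
    have hl1 : 2 ^ j + lo < 2 ^ (j + 1) := by rw [pow_succ]; omega
    have key : ∀ a, dg (twd tw m j) (gen (fun i => lev tw m (m - 1 - i)) i v) (pos j (2 * a) lo) =
        ∑ y ∈ range (2 ^ i), V tw 1 i a ^ y * v (pos j (pos (i + 1) (a / 2 ^ i) (2 * y)) lo) ∧
        dg (twd tw m j) (gen (fun i => lev tw m (m - 1 - i)) i v) (pos j (2 * a + 1) lo) =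
        ∑ y ∈ range (2 ^ i), V tw 2 i a * V tw 1 i a ^ y *
          v (pos j (pos (i + 1) (a / 2 ^ i) (2 * y + 1)) lo) := by
      intro a
      constructor
      · rw [dg_apply, twd, tb_even _ hl, pos_even, ih (j + 1) (by omega) _ _ hl0]
        simp only [Bool.false_eq_true, if_false, one_mul]
        refine sum_congr rfl fun y _ => ?_
        congr 2
        simp only [pos]; ring
      · rw [dg_apply, twd, tb_odd _ hl, pos_odd, ih (j + 1) (by omega) _ _ hl1, pos_div _ hl1,
          if_pos rfl, show m - 1 - j = i by omega, mul_sum]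
        refine sum_congr rfl fun y _ => ?_
        rw [← mul_assoc]
        congr 2
        simp only [pos]; ring
    rw [gen_succ, show m - 1 - i = j by omega, lev, Module.End.mul_apply, Module.End.mul_apply,
      pow_succ' 2 i, sum_range_two_mul]
    obtain ⟨a, rfl | rfl⟩ := Nat.even_or_odd' h
    · rw [had_even _ _ hl, (key a).1, (key a).2, ← sum_add_distrib, V_even,
        ← Nat.div_div_eq_div_mul, show 2 * a / 2 = a by omega]
      refine sum_congr rfl fun y _ => ?_
      rw [pow_succ, pow_mul, V_sq]; ring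
    · rw [had_odd _ _ hl, (key a).1, (key a).2, ← sum_sub_distrib, V_odd,
        ← Nat.div_div_eq_div_mul, show (2 * a + 1) / 2 = a by omega]
      refine sum_congr rfl fun y _ => ?_
      rw [pow_succ, pow_mul, neg_sq, V_sq]; ring

lemma fft_eq (tw m : ℕ) : fft tw m = blk m fun x y => V tw 1 m x ^ y := by
  refine LinearMap.ext fun v => funext fun x => ?_
  have := fft_partial tw m v m 0 rfl x 0 (by simp)
  simpa [pos, blk_apply, fft] using this

/-! ### Twisted circulants -/

/-- Kernel of multiplication by `∑ a i z ^ i` modulo `z ^ s - ε`. -/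
noncomputable def ck (s : ℕ) (ε : ℂ) (a : ℕ → ℂ) (u y : ℕ) : ℂ :=
  if y ≤ u then a (u - y) else ε * a (u + s - y)

lemma sum_ck {s y : ℕ} (hy : y < s) {r ε : ℂ} (hr : r ^ s = ε) (a : ℕ → ℂ) :
    ∑ c ∈ range s, r ^ c * ck s ε a c y = (∑ i ∈ range s, a i * r ^ i) * r ^ y := by
  obtain ⟨d, rfl⟩ := Nat.exists_eq_add_of_le hy.le
  rw [sum_range_add]
  conv_rhs => rw [add_comm y d, sum_range_add, add_mul, add_comm, sum_mul, sum_mul]
  congr 1
  · refine sum_congr rfl fun c hc => ?_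
    have := mem_range.1 hc
    rw [ck, if_neg (by omega), show c + (y + d) - y = d + c by omega, ← hr]
    ring
  · refine sum_congr rfl fun c _ => ?_
    rw [ck, if_pos (by omega), show y + c - y = c by omega]
    ring

/-- The twisted circulant on all blocks. -/
noncomputable def circU (tw m : ℕ) (a : ℕ → ℂ) : Op :=
  blk m fun x y => ck (2 ^ m) ((-1) ^ tw) a (x % 2 ^ m) y

/-- The twisted circulant on even blocks, the identity on odd blocks. -/
noncomputable def circE (tw m : ℕ) (a : ℕ → ℂ) : Op :=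
  blk m fun x y => if x.testBit m then (if y = x % 2 ^ m then 1 else 0)
    else ck (2 ^ m) ((-1) ^ tw) a (x % 2 ^ m) y

/-- Eigenvalues of `circE`. -/
noncomputable def eig (tw m : ℕ) (a : ℕ → ℂ) (x : ℕ) : ℂ :=
  if x.testBit m then 1 else ∑ i ∈ range (2 ^ m), a i * V tw 1 m x ^ i

lemma fft_mul_circE (tw m : ℕ) (a : ℕ → ℂ) :
    fft tw m * circE tw m a = dg (eig tw m a) * fft tw m := by
  rw [fft_eq, circE, blk_mul, dg_mul_blk]
  refine blk_congr fun x y hy => ?_
  have hb : ∀ c < 2 ^ m, (pos m (x / 2 ^ m) c).testBit m = x.testBit m := fun c hc => by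
    rw [tb_pos _ hc, if_neg (lt_irrefl _), Nat.testBit_div_two_pow]; simp
  rw [eig]
  split_ifs with h
  · rw [sum_eq_single y (fun c hc hne => ?_) (fun h => absurd (mem_range.2 hy) h)]
    · rw [hb y hy, if_pos h, pos_mod _ hy]; simp
    · rw [hb c (mem_range.1 hc), if_pos h, pos_mod _ (mem_range.1 hc), if_neg (Ne.symm hne),
        mul_zero]
  · rw [← sum_ck hy (V_pow tw m x)]
    exact sum_congr rfl fun c hc => by
      rw [hb c (mem_range.1 hc), if_neg h, pos_mod _ (mem_range.1 hc)]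

/-- A diagonal operator conjugated by the transform. -/
noncomputable def cj (tw m : ℕ) (d : ℕ → ℂ) : Op := fftI tw m * dg d * fft tw m

lemma cj_eig (tw m : ℕ) (a : ℕ → ℂ) : cj tw m (eig tw m a) = circE tw m a := by
  rw [cj, mul_assoc, ← fft_mul_circE, ← mul_assoc, fftI_mul, one_mul]

lemma cj_inv_mul (tw m : ℕ) {d : ℕ → ℂ} (h : ∀ x, d x ≠ 0) :
    cj tw m (fun x => (d x)⁻¹) * cj tw m d = 1 := by
  have : dg (fun x => (d x)⁻¹) * dg d = 1 := by
    rw [dg_mul, ← dg_one]; congr 1; ext x; exact inv_mul_cancel₀ (h x)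
  calc cj tw m (fun x => (d x)⁻¹) * cj tw m d
      = fftI tw m * (dg (fun x => (d x)⁻¹) * (fft tw m * fftI tw m) * dg d) * fft tw m := by
        simp only [cj, mul_assoc]
    _ = 1 := by rw [fft_mul, mul_one, this, mul_one, fftI_mul]

lemma circE_mul_Q (tw m : ℕ) (a : ℕ → ℂ) : circE tw m a * Q m = Q m := by
  rw [circE, blk_mul_Q_congr (K' := fun x y => if y = x % 2 ^ m then 1 else 0), blk_one, one_mul]
  intro a lo hl y _
  rw [tb_odd _ hl, if_pos rfl]

lemma Q_mul_circE (tw m : ℕ) (a : ℕ → ℂ) : Q m * circE tw m a = circU tw m a * Q m := by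
  refine Q_mul_blk fun a lo hl y _ => ?_
  rw [tb_even _ hl, pos_mod _ hl, pos_mod _ hl]; simp

lemma Q_mul_ub (m : ℕ) (k : ℕ → ℕ → ℂ) :
    Q m * blk m (fun x y => k (x % 2 ^ m) y) = blk m (fun x y => k (x % 2 ^ m) y) * Q m :=
  Q_mul_blk fun a lo hl y _ => by rw [pos_mod _ hl, pos_mod _ hl]

/-- The conjugated shear. -/
noncomputable def shr (S : Op) (m tw tw' : ℕ) (a b : ℕ → ℂ) : Op :=
  cj tw' m (fun x => (eig tw' m b x)⁻¹) * cj tw m (fun x => (eig tw m a x)⁻¹) * S *
    cj tw m (eig tw m a) * cj tw' m (eig tw' m b)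

lemma shr_eq (m tw tw' : ℕ) {a b : ℕ → ℂ} (ha : ∀ x, eig tw m a x ≠ 0)
    (hb : ∀ x, eig tw' m b x ≠ 0) :
    shr (1 + Q m) m tw tw' a b = 1 + Q m * (circE tw m a * circE tw' m b) := by
  have h1 := cj_inv_mul tw m ha
  have h2 := cj_inv_mul tw' m hb
  rw [shr]
  rw [cj_eig] at h1 h2
  rw [cj_eig, cj_eig]
  have h3 := circE_mul_Q tw m a
  have h4 := circE_mul_Q tw' m b
  generalize cj tw' m _ = Y' at *
  generalize cj tw m _ = Y at *
  generalize circE tw m a = X at *
  generalize circE tw' m b = X' at *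
  have h5 : Y * Q m = Q m := by rw [← h3, ← mul_assoc, h1, one_mul, h3]
  have h6 : Y' * Q m = Q m := by rw [← h4, ← mul_assoc, h2, one_mul, h4]
  calc Y' * Y * (1 + Q m) * X * X' = Y' * (Y * X) * X' + Y' * (Y * Q m) * (X * X') := by
        noncomm_ring
    _ = _ := by rw [h1, h5, h6, mul_one, h2]

/-- Coefficients of the two twisted circulants adding up to a Toeplitz matrix. -/
noncomputable def cf (tw : ℕ) (τ : ℂ) (f f' : ℕ → ℂ) (i : ℕ) : ℂ :=
  (f i + (-1) ^ tw * f' i) * (1 / 2 : ℚ) + if i = 0 then (-1) ^ tw * τ else 0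

lemma circU_add (m : ℕ) (τ : ℂ) (f f' : ℕ → ℂ) :
    circU 0 m (cf 0 τ f f') + circU 1 m (cf 1 τ f f') =
      blk m fun x y => if y ≤ x % 2 ^ m then f (x % 2 ^ m - y) else f' (x % 2 ^ m + 2 ^ m - y) := by
  rw [circU, circU, blk_add]
  refine blk_congr fun x y hy => ?_
  simp only [ck, cf]
  split_ifs with h1 h2 h3
  · push_cast; ring
  · push_cast; ring
  · omega
  · push_cast; ring

/-- The lower triangular Toeplitz operator on blocks of size `2 ^ m`. -/
noncomputable def tri (m : ℕ) (g : ℕ → ℂ) : Op :=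
  blk m fun x y => if y ≤ x % 2 ^ m then g (x % 2 ^ m - y) else 0

lemma tri_zero {g : ℕ → ℂ} (h : g 0 = 1) : tri 0 g = 1 := by
  rw [tri, ← blk_one 0]
  refine blk_congr fun x y hy => ?_
  obtain rfl : y = 0 := by simpa using hy
  simp [Nat.mod_one, h]

lemma tri_mul_tri {m : ℕ} {g h : ℕ → ℂ}
    (hc : ∀ n < 2 ^ m, ∑ i ∈ range (n + 1), h (n - i) * g i = if n = 0 then 1 else 0) :
    tri m h * tri m g = 1 := by
  rw [tri, tri, blk_mul, ← blk_one m]
  refine blk_congr fun x y hy => ?_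
  have hu : x % 2 ^ m < 2 ^ m := Nat.mod_lt _ (by positivity)
  generalize x % 2 ^ m = u at hu ⊢
  rw [sum_congr rfl fun c hc => by rw [pos_mod _ (mem_range.1 hc)]]
  by_cases hyu : y ≤ u
  · obtain ⟨n, rfl⟩ := Nat.exists_eq_add_of_le hyu
    obtain ⟨d, hd⟩ := Nat.exists_eq_add_of_lt hu
    rw [hd, show y + n + d + 1 = y + (n + 1) + d by omega, sum_range_add, sum_range_add,
      sum_eq_zero (s := range y) fun c hc => by
        rw [if_neg (show ¬ y ≤ c by have := mem_range.1 hc; omega), mul_zero],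
      sum_eq_zero (s := range d) fun c _ => by rw [if_neg (by omega), zero_mul], zero_add, add_zero,
      sum_congr rfl (g := fun i => h (n - i) * g i) fun i hi => by
        have := mem_range.1 hi
        rw [if_pos (by omega), if_pos (by omega), show y + n - (y + i) = n - i by omega,
          show y + i - y = i by omega], hc n (by omega)]
    simp
  · rw [if_neg (by omega)]
    refine sum_eq_zero fun c _ => ?_
    split_ifs with h1 h2
    · omega
    all_goals simp

lemma tri_succ (m : ℕ) (g : ℕ → ℂ) :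
    tri (m + 1) g = tri m g + blk m (fun x y => g (x % 2 ^ m + 2 ^ m - y)) * Q m := by
  refine op_ext m (fun v a lo hl => ?_) (fun v a lo hl => ?_)
  · have hl0 : lo < 2 ^ (m + 1) := by rw [pow_succ]; omega
    rw [LinearMap.add_apply, Pi.add_apply, Module.End.mul_apply, tri, tri, blk_pos _ _ _ hl,
      blk_pos _ _ _ hl, pos_mod _ hl,
      sum_eq_zero (f := fun y => _ * Q m v _) fun y hy => by
        rw [Q_even _ _ (mem_range.1 hy), mul_zero],
      add_zero, pos_even, blk_pos _ _ _ hl0, pos_mod _ hl0, pow_succ, mul_two, sum_range_add,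
      sum_eq_zero (f := fun y => _ * v (pos (m + 1) a (2 ^ m + y))) fun y _ => by
        rw [if_neg (by omega), zero_mul], add_zero]
    simp only [pos_even]
  · have hl1 : 2 ^ m + lo < 2 ^ (m + 1) := by rw [pow_succ]; omega
    rw [LinearMap.add_apply, Pi.add_apply, Module.End.mul_apply, tri, tri, blk_pos _ _ _ hl,
      blk_pos _ _ _ hl, pos_mod _ hl, pos_odd, blk_pos _ _ _ hl1, pos_mod _ hl1, pow_succ, mul_two,
      sum_range_add, add_comm]
    congr 1
    · refine sum_congr rfl fun y _ => ?_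
      rw [pos_odd, show 2 ^ m + lo - (2 ^ m + y) = lo - y by omega]
      simp
    · refine sum_congr rfl fun y hy => ?_
      have := mem_range.1 hy
      rw [Q_odd _ _ this, pos_even, if_pos (by omega), add_comm lo]

/-- The four conjugated shears taking blocks of size `2 ^ m` to blocks of size `2 ^ (m + 1)`. -/
noncomputable def stepOp (S : Op) (m : ℕ) (τ : ℂ) (g h : ℕ → ℂ) : Op :=
  shr S m 0 0 (cf 0 τ (fun i => g (2 ^ m + i)) g) (cf 0 τ h 0) *
  shr S m 0 1 (cf 0 τ (fun i => g (2 ^ m + i)) g) (cf 1 τ h 0) *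
  shr S m 1 0 (cf 1 τ (fun i => g (2 ^ m + i)) g) (cf 0 τ h 0) *
  shr S m 1 1 (cf 1 τ (fun i => g (2 ^ m + i)) g) (cf 1 τ h 0)

lemma stepOp_mul {m : ℕ} {τ : ℂ} {g h : ℕ → ℂ}
    (ha : ∀ tw x, eig tw m (cf tw τ (fun i => g (2 ^ m + i)) g) x ≠ 0)
    (hb : ∀ tw x, eig tw m (cf tw τ h 0) x ≠ 0)
    (hc : ∀ n < 2 ^ m, ∑ i ∈ range (n + 1), h (n - i) * g i = if n = 0 then 1 else 0) :
    stepOp (1 + Q m) m τ g h * tri m g = tri (m + 1) g := by
  rw [stepOp, shr_eq _ _ _ (ha 0) (hb 0), shr_eq _ _ _ (ha 0) (hb 1), shr_eq _ _ _ (ha 1) (hb 0),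
    shr_eq _ _ _ (ha 1) (hb 1)]
  have e : ∀ tw tw' a b, Q m * (circE tw m a * circE tw' m b) =
      circU tw m a * circU tw' m b * Q m := fun tw tw' a b => by
    rw [← mul_assoc, Q_mul_circE, mul_assoc, Q_mul_circE, mul_assoc]
  have e' : ∀ tw tw' a b, Q m * (circU tw m a * circU tw' m b * Q m) = 0 := fun tw tw' a b => by
    rw [← e, ← mul_assoc, Q_mul_Q, zero_mul]
  have hA := circU_add m τ (fun i => g (2 ^ m + i)) g
  have hB := circU_add m τ h 0
  have hA' : (blk m fun x y => if y ≤ x % 2 ^ m then g (2 ^ m + (x % 2 ^ m - y))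
      else g (x % 2 ^ m + 2 ^ m - y)) = blk m (fun x y => g (x % 2 ^ m + 2 ^ m - y)) := by
    refine blk_congr fun x y _ => ?_
    split_ifs with h1
    · congr 1; omega
    · rfl
  rw [hA'] at hA
  have hB' : circU 0 m (cf 0 τ h 0) + circU 1 m (cf 1 τ h 0) = tri m h := hB
  have hT : Q m * tri m g = tri m g * Q m :=
    Q_mul_ub m fun u y => if y ≤ u then g (u - y) else 0
  have hH := tri_mul_tri hc
  rw [tri_succ, ← hA]
  simp only [e]
  have e00 := e' 0 0 (cf 0 τ (fun i => g (2 ^ m + i)) g) (cf 0 τ h 0)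
  have e01 := e' 0 1 (cf 0 τ (fun i => g (2 ^ m + i)) g) (cf 1 τ h 0)
  have e10 := e' 1 0 (cf 1 τ (fun i => g (2 ^ m + i)) g) (cf 0 τ h 0)
  have e11 := e' 1 1 (cf 1 τ (fun i => g (2 ^ m + i)) g) (cf 1 τ h 0)
  rw [← hB'] at hH
  generalize circU 0 m (cf 0 τ (fun i => g (2 ^ m + i)) g) = A0 at *
  generalize circU 1 m (cf 1 τ (fun i => g (2 ^ m + i)) g) = A1 at *
  generalize circU 0 m (cf 0 τ h 0) = B0 at *
  generalize circU 1 m (cf 1 τ h 0) = B1 at *
  generalize tri m g = T at *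
  generalize Q m = P at *
  have m2 : ∀ X Y : Op, P * (Y * P) = 0 → (1 + X * P) * (1 + Y * P) = 1 + (X + Y) * P := by
    intro X Y hY
    calc (1 + X * P) * (1 + Y * P) = 1 + (X + Y) * P + X * (P * (Y * P)) := by noncomm_ring
      _ = _ := by rw [hY, mul_zero, add_zero]
  rw [m2 _ _ e01, m2 _ _ e10, m2 _ _ e11]
  calc (1 + (A0 * B0 + A0 * B1 + A1 * B0 + A1 * B1) * P) * T
      = T + (A0 + A1) * (B0 + B1) * (P * T) := by noncomm_ring
    _ = T + (A0 + A1) * ((B0 + B1) * T) * P := by rw [hT]; noncomm_ring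
    _ = _ := by rw [hH, mul_one]

end Crest.Agent.R326.Dft
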