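import Crest.Agent.R326.Apx
import Crest.Agent.R326.DftOp

/-!
# Families of operators given by uniformly computable layers (row 326)
-/

namespace Crest.Agent.R326.Dft

open Finset Matrix
open Crest.Agent.Lib.PolyTime

/-! ### From operators to matrices -/

/-- The operator does not move information from high positions to low positions. -/
def Loc (ℓ : ℕ) (A : Op) : Prop :=
  ∀ v w : ℕ → ℂ, (∀ y < 2 ^ ℓ, v y = w y) → ∀ x < 2 ^ ℓ, A v x = A w x

/-- The matrix of an operator on the first `2 ^ ℓ` positions. -/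
noncomputable def toM (ℓ : ℕ) (A : Op) : Matrix (Fin (2 ^ ℓ)) (Fin (2 ^ ℓ)) ℂ :=
  Matrix.of fun x y => A (Pi.single y.val 1) x.val

lemma Loc.one (ℓ : ℕ) : Loc ℓ 1 := fun _ _ h x hx => h x hx

lemma Loc.mul {ℓ : ℕ} {A B : Op} (hA : Loc ℓ A) (hB : Loc ℓ B) : Loc ℓ (A * B) :=
  fun v w h x hx => hA _ _ (hB v w h) x hx

lemma Loc.dg (ℓ : ℕ) (t : ℕ → ℂ) : Loc ℓ (dg t) := fun v w h x hx => by
  rw [dg_apply, dg_apply, h x hx]

lemma pos_lt {ℓ j a lo : ℕ} (hj : j < ℓ) (hl : lo < 2 ^ j) (h : pos j (2 * a) lo < 2 ^ ℓ) :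
    pos j (2 * a + 1) lo < 2 ^ ℓ := by
  obtain ⟨n, rfl⟩ := Nat.exists_eq_add_of_lt hj
  have e : 2 ^ (j + n + 1) = 2 * 2 ^ n * 2 ^ j := by ring
  rw [e] at h ⊢
  simp only [pos] at h ⊢
  have h1 : 2 * a < 2 * 2 ^ n := lt_of_mul_lt_mul_right (by omega) (Nat.zero_le (2 ^ j))
  have h2 : (2 * a + 2) * 2 ^ j ≤ 2 * 2 ^ n * 2 ^ j := Nat.mul_le_mul_right _ (by omega)
  nlinarith

lemma pos_lt' {ℓ j a lo : ℕ} (h : pos j (2 * a + 1) lo < 2 ^ ℓ) : pos j (2 * a) lo < 2 ^ ℓ := by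
  simp only [pos, add_mul] at h ⊢
  omega

lemma Loc.had {ℓ j : ℕ} (hj : j < ℓ) : Loc ℓ (had j) := by
  intro v w h
  refine pos_cases j (P := fun x => x < 2 ^ ℓ → Dft.had j v x = Dft.had j w x) ?_ ?_
  · intro a lo hl hx
    rw [had_even _ _ hl, had_even _ _ hl, h _ hx, h _ (pos_lt hj hl hx)]
  · intro a lo hl hx
    rw [had_odd _ _ hl, had_odd _ _ hl, h _ hx, h _ (pos_lt' hx)]

lemma Loc.gen {ℓ : ℕ} {f : ℕ → Op} {K : ℕ} (h : ∀ k < K, Loc ℓ (f k)) : Loc ℓ (gen f K) := by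
  induction K with
  | zero => exact Loc.one ℓ
  | succ K ih => exact (h K (by omega)).mul (ih fun k hk => h k (by omega))

lemma Loc.apply {ℓ : ℕ} {A : Op} (hA : Loc ℓ A) (v : ℕ → ℂ) (x : Fin (2 ^ ℓ)) :
    A v x = ∑ y : Fin (2 ^ ℓ), toM ℓ A x y * v y := by
  rw [hA v (∑ y : Fin (2 ^ ℓ), v y • Pi.single y.val (1 : ℂ)) (fun y hy => ?_) x x.2]
  · simp [toM, mul_comm]
  · rw [Finset.sum_apply, sum_eq_single ⟨y, hy⟩ (fun z _ hz => ?_) (by simp)]
    · simp
    · rw [Pi.smul_apply, Pi.single_eq_of_ne (fun h => hz (Fin.ext h.symm)), smul_zero]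

lemma toM_mul {ℓ : ℕ} {A : Op} (hA : Loc ℓ A) (B : Op) : toM ℓ (A * B) = toM ℓ A * toM ℓ B := by
  ext x z
  rw [Matrix.mul_apply]
  exact hA.apply _ x

lemma toM_one (ℓ : ℕ) : toM ℓ 1 = 1 := by
  ext x y
  simp [toM, Matrix.one_apply, Pi.single_apply, Fin.ext_iff]

lemma toM_dg (ℓ : ℕ) (t : ℕ → ℂ) : toM ℓ (dg t) = diagonal fun x => t x.val := by
  ext x y
  simp [toM, diagonal_apply, dg_apply, Pi.single_apply, Fin.ext_iff]

lemma toM_gen {ℓ : ℕ} {f : ℕ → Op} {K : ℕ} (h : ∀ k < K, Loc ℓ (f k)) :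
    toM ℓ (gen f K) = gen (fun k => toM ℓ (f k)) K := by
  induction K with
  | zero => exact toM_one ℓ
  | succ K ih => rw [gen_succ, gen_succ, toM_mul (h K (by omega)), ih fun k hk => h k (by omega)]

lemma tb_even_odd {j lo i : ℕ} (a : ℕ) (hl : lo < 2 ^ j) (hi : i ≠ j) :
    (pos j (2 * a + 1) lo).testBit i = (pos j (2 * a) lo).testBit i := by
  rw [tb_pos _ hl, tb_pos _ hl]
  split_ifs with h
  · rfl
  · obtain ⟨k, hk⟩ : ∃ k, i - j = k + 1 := ⟨i - j - 1, by omega⟩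
    rw [hk, Nat.testBit_succ, Nat.testBit_succ]
    congr 1
    omega

lemma agree_iff {j lo : ℕ} (a : ℕ) (hl : lo < 2 ^ j) (y : ℕ) :
    (∀ i, i ≠ j → (pos j (2 * a) lo).testBit i = y.testBit i) ↔
      y = pos j (2 * a) lo ∨ y = pos j (2 * a + 1) lo := by
  constructor
  · intro h
    cases hb : y.testBit j
    · refine Or.inl (Nat.eq_of_testBit_eq fun i => ?_)
      by_cases hi : i = j
      · rw [hi, hb, tb_even _ hl]
      · exact (h i hi).symm
    · refine Or.inr (Nat.eq_of_testBit_eq fun i => ?_)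
      by_cases hi : i = j
      · rw [hi, hb, tb_odd _ hl]
      · rw [tb_even_odd _ hl hi]; exact (h i hi).symm
  · rintro (rfl | rfl) i hi
    · rfl
    · exact (tb_even_odd _ hl hi).symm

open Classical in
lemma had_single (j y x : ℕ) : had j (Pi.single y 1) x =
    if ∀ i, i ≠ j → x.testBit i = y.testBit i then
      (if x.testBit j ∧ y.testBit j then -1 else 1) else 0 := by
  have hne : ∀ a lo, pos j (2 * a) lo ≠ pos j (2 * a + 1) lo := fun a lo => by
    have : 0 < 2 ^ j := by positivity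
    simp only [pos, add_mul]; omega
  induction x using pos_cases j with
  | h0 a lo hl =>
    rw [had_even _ _ hl, tb_even _ hl]
    simp only [agree_iff a hl]
    by_cases h0 : y = pos j (2 * a) lo
    · subst h0; simp [(hne a lo).symm]
    · by_cases h1 : y = pos j (2 * a + 1) lo
      · subst h1; simp [hne a lo]
      · simp [h0, h1, Ne.symm h0, Ne.symm h1]
  | h1 a lo hl =>
    rw [had_odd _ _ hl, tb_odd _ hl]
    have : (∀ i, i ≠ j → (pos j (2 * a + 1) lo).testBit i = y.testBit i) ↔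
        y = pos j (2 * a) lo ∨ y = pos j (2 * a + 1) lo := by
      rw [← agree_iff a hl]
      exact forall₂_congr fun i hi => by rw [tb_even_odd _ hl hi]
    simp only [this]
    by_cases h0 : y = pos j (2 * a) lo
    · subst h0; simp [(hne a lo).symm, tb_even _ hl]
    · by_cases h1 : y = pos j (2 * a + 1) lo
      · subst h1; simp [hne a lo, tb_odd _ hl]
      · simp [h0, h1, Ne.symm h0, Ne.symm h1]

lemma toM_had (ℓ j : ℕ) : toM ℓ (had j) = hadM ℓ j := by
  ext x y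
  exact had_single j y x

lemma layersM_eq (ℓ : ℕ) (sc : ℕ → Option ℕ) (tb : ℕ → ℕ → ℂ) (L : ℕ) :
    layersM ℓ sc tb L = gen (fun l => layerM ℓ (sc l) (tb l)) L := by
  induction L with
  | zero => rfl
  | succ L ih => rw [layersM, ih, gen_succ]

lemma layerM_transpose (ℓ : ℕ) (o : Option ℕ) (t : ℕ → ℂ) : (layerM ℓ o t)ᵀ = layerM ℓ o t := by
  cases o with
  | none => exact diagonal_transpose _
  | some j =>
    ext x y
    simp only [layerM, hadM, transpose_apply, of_apply]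
    have e : (∀ i, i ≠ j → y.val.testBit i = x.val.testBit i) ↔
        ∀ i, i ≠ j → x.val.testBit i = y.val.testBit i := forall₂_congr fun _ _ => eq_comm
    by_cases h : ∀ i, i ≠ j → x.val.testBit i = y.val.testBit i
    · rw [if_pos h, if_pos (e.2 h)]; simp only [and_comm]
    · rw [if_neg h, if_neg (mt e.1 h)]

lemma gen_transpose {n : Type} [Fintype n] [DecidableEq n] {f : ℕ → Matrix n n ℂ}
    (h : ∀ l, (f l)ᵀ = f l) (L : ℕ) : (gen f L)ᵀ = gen (fun l => f (L - 1 - l)) L := by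
  induction L with
  | zero => simp
  | succ L ih =>
    have e : gen (fun l => f (L + 1 - 1 - (l + 1))) L = gen (fun i => f (L - 1 - i)) L :=
      gen_congr fun l _ => by congr 1; omega
    rw [gen_succ f, gen_succ', e, transpose_mul, ih, h]
    rfl

/-! ### Parameters -/

/-- `2 ^ ℓ` in unary, `ℓ`, `q`, direction and two loop counters. -/
abbrev Par : Type :=
  {b : Un × ℕ × ℕ × Bool × ℕ × ℕ // b.1.n = 2 ^ b.2.1 ∧ 2 ^ b.2.1 < 2 * b.2.2.1 ∧
    b.2.2.1 ≤ 2 ^ b.2.1 ∧ b.2.2.2.2.1 ≤ b.2.1 ∧ b.2.2.2.2.2 ≤ b.2.1}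

namespace Par

/-- Number of positions. -/
def N (b : Par) : ℕ := b.1.1.n
/-- Number of bits. -/
def l (b : Par) : ℕ := b.1.2.1
/-- Transform length. -/
def q (b : Par) : ℕ := b.1.2.2.1
/-- Direction. -/
def inv (b : Par) : Bool := b.1.2.2.2.1
/-- Outer counter. -/
def m (b : Par) : ℕ := b.1.2.2.2.2.1
/-- Inner counter. -/
def j (b : Par) : ℕ := b.1.2.2.2.2.2
/-- The data the schedule may depend on. -/
def π (b : Par) : ℕ × ℕ × ℕ := (b.l, b.m, b.j)

lemma N_eq (b : Par) : b.N = 2 ^ b.l := b.2.1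
lemma lt_q (b : Par) : 2 ^ b.l < 2 * b.q := b.2.2.1
lemma q_le (b : Par) : b.q ≤ 2 ^ b.l := b.2.2.2.1
lemma m_le (b : Par) : b.m ≤ b.l := b.2.2.2.2.1
lemma j_le (b : Par) : b.j ≤ b.l := b.2.2.2.2.2
lemma q_pos (b : Par) : 0 < b.q := by have := b.lt_q; have : 0 < 2 ^ b.l := by positivity
                                      omega

variable {α : Type} [PEnc α] {b : α → Par}

@[fun_prop] lemma poly_N (h : Poly b) : Poly fun a => (b a).N := by unfold N; fun_prop
@[fun_prop] lemma poly_l (h : Poly b) : Poly fun a => (b a).l := by unfold l; fun_prop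
@[fun_prop] lemma poly_q (h : Poly b) : Poly fun a => (b a).q := by unfold q; fun_prop
@[fun_prop] lemma poly_inv (h : Poly b) : Poly fun a => (b a).inv := by unfold inv; fun_prop
@[fun_prop] lemma poly_m (h : Poly b) : Poly fun a => (b a).m := by unfold m; fun_prop
@[fun_prop] lemma poly_j (h : Poly b) : Poly fun a => (b a).j := by unfold j; fun_prop
@[fun_prop] lemma poly_π (h : Poly b) : Poly fun a => (b a).π := by unfold π; fun_prop
@[fun_prop] lemma pb_N (h : Poly b) : PB fun a => (b a).N := by unfold N; fun_prop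
@[fun_prop] lemma pb_l (h : Poly b) : PB fun a => (b a).l :=
  (pb_N h).mono fun a => by rw [N_eq]; exact Nat.lt_two_pow_self.le
@[fun_prop] lemma pb_q (h : Poly b) : PB fun a => (b a).q :=
  (pb_N h).mono fun a => by rw [N_eq]; exact q_le _
@[fun_prop] lemma pb_m (h : Poly b) : PB fun a => (b a).m := (pb_l h).mono fun _ => m_le _
@[fun_prop] lemma pb_j (h : Poly b) : PB fun a => (b a).j := (pb_l h).mono fun _ => j_le _
lemma pb_pow_m (h : Poly b) : PB fun a => 2 ^ (b a).m :=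
  (pb_N h).mono fun a => by rw [N_eq]; exact Nat.pow_le_pow_right two_pos (m_le _)

/-- Set the outer counter. -/
def setM (p : Par × ℕ) : Par :=
  ⟨(p.1.1.1, p.1.l, p.1.q, p.1.inv, min p.2 p.1.l, p.1.j),
    p.1.N_eq, p.1.lt_q, p.1.q_le, min_le_right _ _, p.1.j_le⟩

/-- Set the inner counter. -/
def setJ (p : Par × ℕ) : Par :=
  ⟨(p.1.1.1, p.1.l, p.1.q, p.1.inv, p.1.m, min p.2 p.1.l),
    p.1.N_eq, p.1.lt_q, p.1.q_le, p.1.m_le, min_le_right _ _⟩

lemma poly_setM : Poly setM := Poly.subtype_mk (by fun_prop) _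
lemma poly_setJ : Poly setJ := Poly.subtype_mk (by fun_prop) _

end Par

/-! ### Families -/

/-- The matrices `A b` are products of `O(ℓ ^ d)` uniformly computable layers. -/
def FamM (d : ℕ) (A : (b : Par) → Matrix (Fin (2 ^ b.l)) (Fin (2 ^ b.l)) ℂ) : Prop :=
  ∃ (c : ℕ) (len : ℕ × ℕ × ℕ → ℕ) (sc : ℕ × ℕ × ℕ → ℕ → Option ℕ) (tb : Par → ℕ → ℕ → ℂ),
    (∀ a, len a ≤ c * (a.1 + 1) ^ d) ∧ (∀ a l j, sc a l = some j → j < a.1) ∧
    Poly len ∧ Poly (fun p : (ℕ × ℕ × ℕ) × ℕ => sc p.1 p.2) ∧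
    Apx (fun p : Par × ℕ × ℕ => tb p.1 p.2.1 p.2.2) ∧
    ∀ b, (∀ l x, ‖tb b l x‖ ≤ 2 ^ (c * 4 ^ b.l)) ∧
      gen (fun l => layerM b.l (sc b.π l) (tb b l)) (len b.π) = A b

lemma bnd_mono {c c' ℓ : ℕ} (h : c ≤ c') : (2 : ℝ) ^ (c * 4 ^ ℓ) ≤ 2 ^ (c' * 4 ^ ℓ) :=
  pow_le_pow_right₀ one_le_two (Nat.mul_le_mul_right _ h)

namespace FamM

variable {d : ℕ} {A B : (b : Par) → Matrix (Fin (2 ^ b.l)) (Fin (2 ^ b.l)) ℂ}

lemma congr (h : FamM d A) (e : ∀ b, A b = B b) : FamM d B := funext e ▸ h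

lemma mono (h : FamM d A) {d' : ℕ} (hd : d ≤ d') : FamM d' A := by
  obtain ⟨c, len, sc, tb, h1, h2⟩ := h
  exact ⟨c, len, sc, tb, fun a => (h1 a).trans
    (Nat.mul_le_mul_left _ (Nat.pow_le_pow_right (by omega) hd)), h2⟩

lemma mul (hA : FamM d A) (hB : FamM d B) : FamM d fun b => A b * B b := by
  obtain ⟨c, len, sc, tb, h1, h2, h3, h4, h5, h6⟩ := hA
  obtain ⟨c', len', sc', tb', h1', h2', h3', h4', h5', h6'⟩ := hB
  refine ⟨c' + c, fun a => len' a + len a,
    fun a l => if l < len' a then sc' a l else sc a (l - len' a),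
    fun b l x => if l < len' b.π then tb' b l x else tb b (l - len' b.π) x,
    fun a => ?_, fun a l j h => ?_, by fun_prop, ?_, ?_, fun b => ⟨fun l x => ?_, ?_⟩⟩
  · rw [add_mul]; exact add_le_add (h1' a) (h1 a)
  · dsimp only at h
    split_ifs at h
    exacts [h2' a _ _ h, h2 a _ _ h]
  · exact Poly.ite (by fun_prop) h4'
      (h4.comp (g := fun p : (ℕ × ℕ × ℕ) × ℕ => (p.1, p.2 - len' p.1)) (by fun_prop))
  · exact Apx.ite (by fun_prop) h5'
      (h5.comp' (g := fun p : Par × ℕ × ℕ => (p.1, p.2.1 - len' p.1.π, p.2.2)) (by fun_prop))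
  · dsimp only
    split_ifs
    exacts [((h6' b).1 _ _).trans (bnd_mono (by omega)), ((h6 b).1 _ _).trans (bnd_mono (by omega))]
  · dsimp only
    rw [gen_add, ← (h6 b).2, ← (h6' b).2]
    congr 1
    · exact gen_congr fun l _ => by simp
    · exact gen_congr fun l hl => by simp [hl]

lemma transpose (hA : FamM d A) : FamM d fun b => (A b)ᵀ := by
  obtain ⟨c, len, sc, tb, h1, h2, h3, h4, h5, h6⟩ := hA
  refine ⟨c, len, fun a l => sc a (len a - 1 - l), fun b l x => tb b (len b.π - 1 - l) x,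
    h1, fun a l j h => h2 a _ _ h, h3, ?_, ?_, fun b => ⟨fun l x => (h6 b).1 _ _, ?_⟩⟩
  · exact h4.comp (g := fun p : (ℕ × ℕ × ℕ) × ℕ => (p.1, len p.1 - 1 - p.2)) (by fun_prop)
  · exact h5.comp' (g := fun p : Par × ℕ × ℕ => (p.1, len p.1.π - 1 - p.2.1, p.2.2)) (by fun_prop)
  · dsimp only
    rw [← (h6 b).2, gen_transpose fun l => layerM_transpose _ _ _]

lemma diag {t : Par → ℕ → ℂ} (ht : Apx fun p : Par × ℕ => t p.1 p.2) (c : ℕ)
    (hb : ∀ b x, ‖t b x‖ ≤ 2 ^ (c * 4 ^ b.l)) : FamM d fun b => diagonal fun x => t b x.val := by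
  refine ⟨c + 1, fun _ => 1, fun _ _ => none, fun b _ x => t b x, fun a => ?_, by simp,
    by fun_prop, by fun_prop, ht.comp' (g := fun p : Par × ℕ × ℕ => (p.1, p.2.2)) (by fun_prop),
    fun b => ⟨fun l x => (hb b x).trans (bnd_mono (by omega)), ?_⟩⟩
  · exact Nat.mul_pos (by omega) (by positivity)
  · simp [gen_succ, layerM]

end FamM

/-- The operators `A b` are products of `O(ℓ ^ d)` uniformly computable layers. -/
def Fam (d : ℕ) (A : Par → Op) : Prop :=
  (∀ b, Loc b.l (A b)) ∧ FamM d fun b => toM b.l (A b)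

/-- The butterfly on bit `j` if this bit exists. -/
noncomputable def hadI (ℓ j : ℕ) : Op := if j < ℓ then had j else 1

namespace Fam

variable {d : ℕ} {A B : Par → Op}

lemma congr (h : Fam d A) (e : ∀ b, A b = B b) : Fam d B := funext e ▸ h

lemma mono (h : Fam d A) {d' : ℕ} (hd : d ≤ d') : Fam d' A := ⟨h.1, h.2.mono hd⟩

lemma mul (hA : Fam d A) (hB : Fam d B) : Fam d fun b => A b * B b :=
  ⟨fun b => (hA.1 b).mul (hB.1 b), (hA.2.mul hB.2).congr fun b => (toM_mul (hA.1 b) _).symm⟩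

lemma dg {t : Par → ℕ → ℂ} (ht : Apx fun p : Par × ℕ => t p.1 p.2) (c : ℕ)
    (hb : ∀ b x, ‖t b x‖ ≤ 2 ^ (c * 4 ^ b.l)) : Fam d fun b => dg (t b) :=
  ⟨fun _ => Loc.dg _ _, (FamM.diag ht c hb).congr fun _ => (toM_dg _ _).symm⟩

lemma had {f : ℕ × ℕ × ℕ → ℕ} (hf : Poly f) : Fam d fun b => hadI b.l (f b.π) := by
  refine ⟨fun b => ?_, 1, fun _ => 1, fun a _ => if f a < a.1 then some (f a) else none,
    fun _ _ _ => 1, fun a => ?_, fun a l j h => ?_, by fun_prop, by fun_prop, by fun_prop,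
    fun b => ⟨fun l x => ?_, ?_⟩⟩
  · dsimp only
    rw [hadI]; split_ifs with h
    exacts [Loc.had h, Loc.one _]
  · exact Nat.mul_pos (by omega) (by positivity)
  · dsimp only at h
    split_ifs at h with h'
    cases h; exact h'
  · rw [norm_one]; exact one_le_pow₀ one_le_two
  · dsimp only
    rw [gen_succ, gen_zero, mul_one, hadI]
    by_cases h : f b.π < b.l
    · rw [if_pos h, if_pos (show f b.π < b.π.1 from h), toM_had]; rfl
    · rw [if_neg h, if_neg (show ¬ f b.π < b.π.1 from h), toM_one]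
      simp [layerM]

lemma prod (hA : Fam d A) {ι : Par × ℕ → Par} {σ : (ℕ × ℕ × ℕ) × ℕ → ℕ × ℕ × ℕ}
    {K : ℕ × ℕ × ℕ → ℕ} (hι : Poly ι) (hσ : Poly σ) (hK : Poly K)
    (hπ : ∀ b k, (ι (b, k)).π = σ (b.π, k)) (hσ1 : ∀ a k, (σ (a, k)).1 = a.1)
    (hKl : ∀ a, K a ≤ a.1) : Fam (d + 1) fun b => gen (fun k => A (ι (b, k))) (K b.π) := by
  obtain ⟨hL, c, len, sc, tb, h1, h2, h3, h4, h5, h6⟩ := hA
  have hl : ∀ b k, (ι (b, k)).l = b.l := fun b k =>
    (congrArg Prod.fst (hπ b k)).trans (hσ1 b.π k)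
  have hL' : ∀ b k, Loc b.l (A (ι (b, k))) := fun b k => hl b k ▸ hL (ι (b, k))
  let W : ℕ × ℕ × ℕ → ℕ := fun a => (c + 1) * (a.1 + 1) ^ d
  have hW : Poly W := by fun_prop
  have hW0 : ∀ a, 0 < W a := fun a => Nat.mul_pos (by omega) (by positivity)
  refine ⟨fun b => Loc.gen fun k _ => hL' b k, c + 1, fun a => K a * W a,
    fun a l => if l % W a < len (σ (a, l / W a)) then sc (σ (a, l / W a)) (l % W a) else none,
    fun b l x => if l % W b.π < len (σ (b.π, l / W b.π)) then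
      tb (ι (b, l / W b.π)) (l % W b.π) x else 1,
    fun a => ?_, fun a l j h => ?_, by fun_prop, ?_, ?_, fun b => ⟨fun l x => ?_, ?_⟩⟩
  · calc K a * W a ≤ (a.1 + 1) * W a := Nat.mul_le_mul_right _ ((hKl a).trans (by omega))
      _ = _ := by simp only [W]; ring
  · dsimp only at h
    split_ifs at h
    exact hσ1 a _ ▸ h2 _ _ _ h
  · exact Poly.ite (by fun_prop) (h4.comp (g := fun p : (ℕ × ℕ × ℕ) × ℕ =>
      (σ (p.1, p.2 / W p.1), p.2 % W p.1)) (by fun_prop)) (by fun_prop)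
  · exact Apx.ite (by fun_prop) (h5.comp' (g := fun p : Par × ℕ × ℕ =>
      (ι (p.1, p.2.1 / W p.1.π), p.2.1 % W p.1.π, p.2.2)) (by fun_prop)) (by fun_prop)
  · dsimp only
    split_ifs
    · exact (hl b _ ▸ (h6 _).1 _ _).trans (bnd_mono (by omega))
    · rw [norm_one]; exact one_le_pow₀ one_le_two
  · dsimp only
    rw [gen_mul, toM_gen fun k _ => hL' b k]
    refine gen_congr fun k _ => ?_
    have h7 := (h6 (ι (b, k))).2
    dsimp only at h7
    rw [hl, hπ] at h7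
    have h8 : len (σ (b.π, k)) ≤ W b.π := (h1 _).trans (by
      rw [hσ1]; exact Nat.mul_le_mul_right _ (by omega))
    rw [← h7, ← gen_pad _ h8]
    refine gen_congr fun l hl' => ?_
    have e1 : (k * W b.π + l) / W b.π = k := by
      rw [add_comm, Nat.add_mul_div_right _ _ (hW0 _), Nat.div_eq_of_lt hl', zero_add]
    have e2 : (k * W b.π + l) % W b.π = l := by
      rw [add_comm, Nat.add_mul_mod_self_right, Nat.mod_eq_of_lt hl']
    simp only [e1, e2]
    split_ifs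
    · rfl
    · simp [layerM]

lemma prodJ (hA : Fam d A) : Fam (d + 1) fun b => gen (fun k => A (Par.setJ (b, k))) b.m := by
  refine (hA.prod (σ := fun p => (p.1.1, p.1.2.1, min p.2 p.1.1)) (K := fun a => min a.2.1 a.1)
    Par.poly_setJ (by fun_prop) (by fun_prop) (fun _ _ => rfl) (fun _ _ => rfl)
    (fun _ => min_le_right _ _)).congr fun b => ?_
  rw [show min b.π.2.1 b.π.1 = b.m from min_eq_left b.m_le]

lemma prodM (hA : Fam d A) : Fam (d + 1) fun b => gen (fun k => A (Par.setM (b, k))) b.l :=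
  hA.prod (σ := fun p => (p.1.1, min p.2 p.1.1, p.1.2.2)) (K := fun a => a.1)
    Par.poly_setM (by fun_prop) (by fun_prop) (fun _ _ => rfl) (fun _ _ => rfl) (fun _ => le_rfl)

end Fam

end Crest.Agent.R326.Dft
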