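import Crest.Agent.R326.Main
import Crest.Agent.R326.Bridge
import Crest.Prelude.Def_IntMul
import Crest.Prelude.Def_TimeBound

/-!
# From the fast multiplication routine to the machine
-/

set_option linter.unusedVariables false
set_option maxHeartbeats 200000

namespace Crest.Agent.R326

open Crest.Agent.Lib.PolyTime Crest.LogicCS.IntMul Crest.DTime

theorem bitsVal_eq (x : List Bool) : bitsVal x = bval x.reverse := by
  induction x using List.reverseRecOn with
  | nil => rfl
  | append_singleton x b ih =>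
    unfold bitsVal at ih ⊢
    rw [List.foldl_append, ih]
    cases b <;> simp [bval, Nat.add_comm]

theorem bits_bitsVal (x : List Bool) : bits x.length (bitsVal x) = x.reverse := by
  rw [bitsVal_eq, ← List.length_reverse, bits_bval]

theorem bitsVal_lt (x : List Bool) : bitsVal x < 2 ^ x.length := by
  rw [bitsVal_eq, ← List.length_reverse]; exact bval_lt _

theorem bud_le (n : ℕ) :
    bud n ≤ ⌈((2 * n : ℕ) : ℝ) * Real.logb 2 (2 * n : ℕ) ^ (1 - 1 / (2 : ℝ) ^ 182)⌉₊ + 1 := by
  unfold bud
  refine add_le_add_left (le_trans ?_ (Nat.le_ceil _)) _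
  rcases Nat.eq_zero_or_pos n with rfl | hn
  · simp
  have h1 : (Nat.log 2 n : ℝ) + 1 ≤ Real.logb 2 (2 * n : ℕ) := by
    rw [Real.le_logb_iff_rpow_le (by norm_num) (by positivity)]
    have := Nat.pow_log_le_self 2 hn.ne'
    rw [Real.rpow_add (by norm_num), Real.rpow_natCast, Real.rpow_one, mul_comm]
    exact_mod_cast Nat.mul_le_mul_left 2 this
  gcongr
  omega

theorem final (hC : ConvSpec) (hS : SieveSpec) (hP : ParSpec) :
    ∃ c : ℕ, TimeBoundComputable EqLenPair.enc (Computability.encodingList Bool).encode mulOutput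
      (fun N => c * ⌈(N : ℝ) * (Real.logb 2 N) ^ (1 - 1 / (2 : ℝ) ^ 182)⌉₊ + c) := by
  have henc : ∀ p : EqLenPair, p.enc = p.1.1.map Sum.inl ++ p.1.2.map Sum.inr := fun _ => rfl
  have hlen : ∀ p : EqLenPair, p.enc.length = 2 * p.1.1.length := fun p => by
    have := p.2
    rw [henc]; simp; omega
  set D : Ctx EqLenPair := Ctx.of (fun p => p.enc.map sumCode) fun _ p => bud p.1.1.length with hD
  have h0 : R D fun p => p.enc.map sumCode := R.of_self 0 16 (by norm_num) fun p => by
    have h1 := sz_list_le (l := p.enc.map sumCode) (B := 7) fun x _ => by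
      have := sz_bool_le x.1
      have := sz_bool_le x.2
      rw [sz_prod]; omega
    rw [List.length_map, hlen] at h1
    have h2 := le_bud p.1.1.length
    have h3 : (sz (p.enc.map sumCode) : ℝ) ≤ 2 * p.1.1.length * (7 + 1) + 1 := by exact_mod_cast h1
    linarith
  have hX : R D fun p => bits p.1.1.length (bitsVal p.1.1) :=
    (R.flatMap (f := fun a : Bool × Bool => bif a.1 then [] else [a.2]) (by rp) h0).reverse.congr
      fun p => by
        rw [bits_bitsVal, henc]
        simp [List.flatMap_map, sumCode]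
  have hY : R D fun p => bits p.1.1.length (bitsVal p.1.2) :=
    (R.flatMap (f := fun a : Bool × Bool => bif a.1 then [a.2] else []) (by rp) h0).reverse.congr
      fun p => by
        rw [p.2, bits_bitsVal, henc]
        simp [List.flatMap_map, sumCode]
  have hR : R D mulOutput := (fastMul hC hS hP (Ctx.dom_of _ 0) hX hY).reverse.congr fun p => by
    rw [Nat.mod_eq_of_lt (bitsVal_lt _), Nat.mod_eq_of_lt (p.2 ▸ bitsVal_lt _)]
    rfl
  obtain ⟨code, G, hG, h⟩ := hR
  obtain ⟨_, K, hK, hG⟩ := Ctx.dom_of_elim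
    (fun _ (p : EqLenPair) => le_trans (by positivity) (le_bud p.1.1.length)) (fun _ _ => le_rfl) hG
  obtain ⟨M, hM⟩ := exists_machine_pairs code
  refine ⟨300 * ⌈K⌉₊, ⟨M, _, fun p => Classical.choice ?_⟩, fun _ => le_rfl⟩
  obtain ⟨k, hk, he⟩ := h p code fun _ => []
  obtain ⟨⟨r, hr⟩⟩ := hM p.enc (mulOutput p) k he
  refine ⟨⟨r, hr.trans ?_⟩⟩
  rw [hlen, ← Nat.mul_succ, Nat.mul_assoc]
  refine Nat.mul_le_mul_left _ ?_
  have h1 := mul_le_mul (Nat.le_ceil K) (bud_le p.1.1.length)
    (le_trans (by positivity) (le_bud _)) (by positivity)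
  exact_mod_cast hk.trans ((hG p).trans h1)

end Crest.Agent.R326
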