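import Crest.Agent.R326.FxTens

/-!
# Error analysis of the fixed-point multidimensional Fourier transform (row 326)
-/

set_option autoImplicit false

namespace Crest.Agent.R326
namespace FxMath

open Finset FxTens

/-- The complex number with the given real and imaginary parts. -/
noncomputable def toC (z : ℤ × ℤ) : ℂ := (z.1 : ℂ) + (z.2 : ℂ) * Complex.I

/-- `z` represents `α` at scale `2 ^ P`; norm at most `V`, error at most `E`. -/
def Rep (P : ℕ) (V E : ℝ) (z : ℤ × ℤ) (α : ℂ) : Prop :=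
  ‖α‖ ≤ V ∧ ‖toC z - 2 ^ P * α‖ ≤ E

lemma Rep.mono {P : ℕ} {V E V' E' : ℝ} {z : ℤ × ℤ} {α : ℂ} (h : Rep P V E z α) (hV : V ≤ V')
    (hE : E ≤ E') : Rep P V' E' z α := ⟨h.1.trans hV, h.2.trans hE⟩

lemma floor_err (n : ℤ) (P : ℕ) : |((n / 2 ^ P : ℤ) : ℝ) - n / 2 ^ P| ≤ 1 := by
  have hp : (0 : ℤ) < 2 ^ P := by positivity
  have h1 := Int.emod_nonneg n hp.ne'
  have h2 := Int.emod_lt_of_pos n hp
  have h3 := Int.mul_ediv_add_emod n (2 ^ P)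
  have hp' : (0 : ℝ) < 2 ^ P := by positivity
  have e : ((n / 2 ^ P : ℤ) : ℝ) - n / 2 ^ P = -(((n % 2 ^ P : ℤ) : ℝ) / 2 ^ P) := by
    have h4 : (2 : ℝ) ^ P * ((n / 2 ^ P : ℤ) : ℝ) + ((n % 2 ^ P : ℤ) : ℝ) = n := by
      exact_mod_cast h3
    field_simp
    linarith
  rw [e, abs_neg, abs_of_nonneg (by positivity), div_le_one hp']
  exact_mod_cast h2.le

lemma cm_err (P : ℕ) (u v : ℤ × ℤ) : ‖toC (cm P u v) - toC u * toC v / 2 ^ P‖ ≤ 2 := by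
  have e : toC (cm P u v) - toC u * toC v / 2 ^ P =
      ((((u.1 * v.1 - u.2 * v.2) / 2 ^ P : ℤ) : ℝ) - ((u.1 * v.1 - u.2 * v.2 : ℤ) : ℝ) / 2 ^ P : ℝ) +
      ((((u.1 * v.2 + u.2 * v.1) / 2 ^ P : ℤ) : ℝ) - ((u.1 * v.2 + u.2 * v.1 : ℤ) : ℝ) / 2 ^ P : ℝ) *
        Complex.I := by
    simp only [toC, cm]
    generalize (u.1 * v.1 - u.2 * v.2) / 2 ^ P = A
    generalize (u.1 * v.2 + u.2 * v.1) / 2 ^ P = B
    push_cast
    have : (2 : ℂ) ^ P ≠ 0 := pow_ne_zero _ two_ne_zero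
    field_simp
    linear_combination (-(u.2 : ℂ) * v.2) * Complex.I_sq
  rw [e]
  refine (norm_add_le _ _).trans ?_
  rw [norm_mul, Complex.norm_I, mul_one, Complex.norm_real, Complex.norm_real, Real.norm_eq_abs,
    Real.norm_eq_abs]
  linarith [floor_err (u.1 * v.1 - u.2 * v.2) P, floor_err (u.1 * v.2 + u.2 * v.1) P]

lemma Rep.cm {P : ℕ} {V E V' E' : ℝ} {u v : ℤ × ℤ} {α β : ℂ} (h : Rep P V E u α)
    (h' : Rep P V' E' v β) :
    Rep P (V * V') (2 + V * E' + V' * E + E * E') (cm P u v) (α * β) := by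
  have hV : 0 ≤ V := (norm_nonneg _).trans h.1
  have hV' : 0 ≤ V' := (norm_nonneg _).trans h'.1
  have hE : 0 ≤ E := (norm_nonneg _).trans h.2
  refine ⟨by rw [norm_mul]; exact mul_le_mul h.1 h'.1 (norm_nonneg _) hV, ?_⟩
  have hp : (2 : ℂ) ^ P ≠ 0 := pow_ne_zero _ two_ne_zero
  have e : toC (R326.cm P u v) - 2 ^ P * (α * β) = (toC (R326.cm P u v) - toC u * toC v / 2 ^ P) +
      α * (toC v - 2 ^ P * β) + β * (toC u - 2 ^ P * α) +
        (toC u - 2 ^ P * α) * (toC v - 2 ^ P * β) / 2 ^ P := by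
    field_simp
    ring
  rw [e]
  have h1 := cm_err P u v
  have h2 : ‖α * (toC v - 2 ^ P * β)‖ ≤ V * E' := by
    rw [norm_mul]; exact mul_le_mul h.1 h'.2 (norm_nonneg _) hV
  have h3 : ‖β * (toC u - 2 ^ P * α)‖ ≤ V' * E := by
    rw [norm_mul]; exact mul_le_mul h'.1 h.2 (norm_nonneg _) hV'
  have h4 : ‖(toC u - 2 ^ P * α) * (toC v - 2 ^ P * β) / 2 ^ P‖ ≤ E * E' := by
    rw [norm_div, norm_mul]
    refine (div_le_self (by positivity) ?_).trans (mul_le_mul h.2 h'.2 (norm_nonneg _) hE)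
    rw [norm_pow, Complex.norm_two]
    exact one_le_pow₀ (by norm_num)
  refine (norm_add_le _ _).trans ?_
  have h5 := norm_add₃_le (a := toC (R326.cm P u v) - toC u * toC v / 2 ^ P)
    (b := α * (toC v - 2 ^ P * β)) (c := β * (toC u - 2 ^ P * α))
  linarith

lemma Rep.fits {P w : ℕ} {S : ℝ} {z : ℤ × ℤ} {α : ℂ} (h : Rep P S S z α)
    (hS : 2 * 2 ^ P * S < 2 ^ w) : Fits w z := by
  have hS0 : 0 ≤ S := (norm_nonneg _).trans h.1
  have h1 : ‖toC z‖ ≤ 2 * 2 ^ P * S := by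
    have e : toC z = (toC z - 2 ^ P * α) + 2 ^ P * α := by ring
    rw [e]
    refine (norm_add_le _ _).trans ?_
    rw [norm_mul, norm_pow, Complex.norm_two]
    have hp : (1 : ℝ) ≤ 2 ^ P := one_le_pow₀ (by norm_num)
    have h2 : (2 : ℝ) ^ P * ‖α‖ ≤ 2 ^ P * S := mul_le_mul_of_nonneg_left h.1 (by positivity)
    nlinarith [h.2]
  have hre : |(z.1 : ℝ)| ≤ ‖toC z‖ := by
    simpa [toC] using Complex.abs_re_le_norm (toC z)
  have him : |(z.2 : ℝ)| ≤ ‖toC z‖ := by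
    simpa [toC] using Complex.abs_im_le_norm (toC z)
  constructor
  · have : |(z.1 : ℝ)| < 2 ^ w := by linarith
    exact_mod_cast this
  · have : |(z.2 : ℝ)| < 2 ^ w := by linarith
    exact_mod_cast this

lemma Rep.round {P : ℕ} {V E : ℝ} {z : ℤ × ℤ} {c : ℕ} (h : Rep P V E z (c : ℂ)) (hP : 1 ≤ P)
    (hE : E < 2 ^ (P - 1)) : (z.1 + 2 ^ (P - 1)) / 2 ^ P = c := by
  have hre : |(z.1 : ℝ) - 2 ^ P * c| ≤ E := by
    have h1 := Complex.abs_re_le_norm (toC z - 2 ^ P * (c : ℂ))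
    have e : (toC z - 2 ^ P * (c : ℂ)).re = (z.1 : ℝ) - 2 ^ P * c := by
      have : (2 ^ P * (c : ℂ)) = ((2 ^ P * c : ℝ) : ℂ) := by push_cast; ring
      rw [this, Complex.sub_re, Complex.ofReal_re]
      simp [toC]
    rw [e] at h1
    exact h1.trans h.2
  have h2 : |z.1 - 2 ^ P * (c : ℤ)| < 2 ^ (P - 1) := by
    have : |(z.1 : ℝ) - 2 ^ P * c| < 2 ^ (P - 1) := lt_of_le_of_lt hre hE
    exact_mod_cast this
  have e : (2 : ℤ) ^ P = 2 * 2 ^ (P - 1) := by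
    rw [← pow_succ']; congr 1; omega
  rw [abs_lt] at h2
  have hp : (0 : ℤ) < 2 ^ P := by positivity
  rw [Int.ediv_eq_iff_of_pos hp]
  constructor <;> nlinarith

/-- The table products. -/
lemma rep_kd {P ℓ d B : ℕ} {T : ℕ → ℕ → ℤ × ℤ} {t : ℕ → ℕ → ℂ}
    (h : ∀ i p, i < d → p < 2 ^ ℓ → Rep P (2 ^ B) 2 (T i p) (t i p)) (j i : ℕ) (hi : i ≤ d) :
    Rep P (2 ^ (B * i)) (2 ^ ((B + 3) * i)) (kd P ℓ T i j) (∏ k ∈ range i, t k (dg ℓ j k)) := by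
  induction i with
  | zero => constructor <;> simp [kd, toC]
  | succ i ih =>
    rw [kd, Finset.prod_range_succ, mul_comm (∏ k ∈ range i, t k (dg ℓ j k))]
    refine ((h i _ hi (dg_lt ℓ j i)).cm (ih (by omega))).mono (le_of_eq (by ring)) ?_
    have h1 : (1 : ℝ) ≤ 2 ^ B := one_le_pow₀ (by norm_num)
    have h2 : (1 : ℝ) ≤ 2 ^ (B * i) := one_le_pow₀ (by norm_num)
    have h3 : (2 : ℝ) ^ (B * i) ≤ 2 ^ ((B + 3) * i) :=
      pow_le_pow_right₀ (by norm_num) (Nat.mul_le_mul_right _ (by omega))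
    have e : (2 : ℝ) ^ ((B + 3) * (i + 1)) = 8 * 2 ^ B * 2 ^ ((B + 3) * i) := by ring
    rw [e]
    nlinarith

lemma rep_wht {P ℓ d jb : ℕ} (hjb : jb < ℓ) {S : ℝ} {a : ℕ → ℤ × ℤ} {α : ℕ → ℂ}
    (h : ∀ j, j < 2 ^ (d * ℓ) → Rep P S S (a j) (α j)) (k : ℕ) (hk : k ≤ d) :
    ∀ j, j < 2 ^ (d * ℓ) → Rep P (2 ^ k * S) (2 ^ k * S)
      (wht ℓ jb k (fun n => (a n).1) j, wht ℓ jb k (fun n => (a n).2) j) (whtC ℓ jb k α j) := by
  induction k with
  | zero => intro j hj; simpa [wht, whtC] using h j hj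
  | succ k ih =>
    intro j hj
    have h1 := ih (by omega) j hj
    have h2 := ih (by omega) _ (xor_lt hk hjb hj)
    simp only [wht, whtC, hbit, hbitC]
    have e : (2 : ℝ) ^ (k + 1) * S = 2 ^ k * S + 2 ^ k * S := by ring
    rw [e]
    split_ifs
    · refine ⟨(norm_sub_le _ _).trans (add_le_add h2.1 h1.1), ?_⟩
      refine le_trans (le_of_eq ?_) ((norm_sub_le _ _).trans (add_le_add h2.2 h1.2))
      congr 1
      simp only [toC]
      push_cast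
      ring
    · refine ⟨(norm_add_le _ _).trans (add_le_add h1.1 h2.1), ?_⟩
      refine le_trans (le_of_eq ?_) ((norm_add_le _ _).trans (add_le_add h1.2 h2.2))
      congr 1
      simp only [toC]
      push_cast
      ring

/-- The growth factor of one layer is `K ^ 2`. -/
lemma rep_step {P ℓ d B : ℕ} {o : Option ℕ} (ho : ∀ jb, o = some jb → jb < ℓ)
    {T : ℕ → ℕ → ℤ × ℤ} {t : ℕ → ℕ → ℂ}
    (hT : ∀ i p, i < d → p < 2 ^ ℓ → Rep P (2 ^ B) 2 (T i p) (t i p))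
    {S K : ℝ} (hS : 1 ≤ S) (hK : 2 ^ ((B + 3) * (d + 1)) ≤ K) {a : ℕ → ℤ × ℤ} {α : ℕ → ℂ}
    (h : ∀ j, j < 2 ^ (d * ℓ) → Rep P S S (a j) (α j)) (j : ℕ) (hj : j < 2 ^ (d * ℓ)) :
    Rep P (K * S) (K * S) (fxStep P ℓ d o T a j) (exStep ℓ d o t α j) := by
  have e : (2 : ℝ) ^ ((B + 3) * (d + 1)) = 8 * 2 ^ B * 2 ^ ((B + 3) * d) := by ring
  have h1 : (1 : ℝ) ≤ 2 ^ B := one_le_pow₀ (by norm_num)
  have h2 : (1 : ℝ) ≤ 2 ^ (B * d) := one_le_pow₀ (by norm_num)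
  have h3 : (2 : ℝ) ^ (B * d) ≤ 2 ^ ((B + 3) * d) :=
    pow_le_pow_right₀ (by norm_num) (Nat.mul_le_mul_right _ (by omega))
  have h4 : (2 : ℝ) ^ d ≤ 2 ^ ((B + 3) * d) :=
    pow_le_pow_right₀ (by norm_num) (Nat.le_mul_of_pos_left _ (by omega))
  have h5 : 8 * (2 : ℝ) ^ ((B + 3) * d) ≤ K := by nlinarith
  cases o with
  | none =>
    refine ((rep_kd hT j d le_rfl).cm (h j hj)).mono ?_ ?_
    · exact mul_le_mul_of_nonneg_right (by linarith) (by linarith)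
    · nlinarith
  | some jb =>
    have : (2 : ℝ) ^ d * S ≤ K * S := mul_le_mul_of_nonneg_right (by linarith) (by linarith)
    exact (rep_wht (ho jb rfl) h d le_rfl j hj).mono this this

lemma rep_run {P ℓ d B len : ℕ} {sc : ℕ → Option ℕ} (hsc : ∀ l jb, sc l = some jb → jb < ℓ)
    {T : ℕ → ℕ → ℕ → ℤ × ℤ} {t : ℕ → ℕ → ℕ → ℂ}
    (hT : ∀ l i p, l < len → i < d → p < 2 ^ ℓ → Rep P (2 ^ B) 2 (T l i p) (t l i p))
    {S K : ℝ} (hS : 1 ≤ S) (hK : 2 ^ ((B + 3) * (d + 1)) ≤ K) {a : ℕ → ℤ × ℤ} {α : ℕ → ℂ}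
    (h : ∀ j, j < 2 ^ (d * ℓ) → Rep P S S (a j) (α j)) (l : ℕ) (hl : l ≤ len) :
    ∀ j, j < 2 ^ (d * ℓ) →
      Rep P (K ^ l * S) (K ^ l * S) (fxRun P ℓ d sc T a l j) (exRun ℓ d sc t α l j) := by
  have hK1 : 1 ≤ K := le_trans (one_le_pow₀ (by norm_num)) hK
  induction l with
  | zero => intro j hj; simpa [fxRun, exRun] using h j hj
  | succ l ih =>
    intro j hj
    have h1 : 1 ≤ K ^ l * S := one_le_mul_of_one_le_of_one_le (one_le_pow₀ hK1) hS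
    have := rep_step (hsc l) (fun i p => hT l i p hl) h1 hK (ih (by omega)) j hj
    rw [← mul_assoc, ← pow_succ'] at this
    exact this

lemma runFits {w P ℓ d B len : ℕ} {sc : ℕ → Option ℕ} (hsc : ∀ l jb, sc l = some jb → jb < ℓ)
    {T : ℕ → ℕ → ℕ → ℤ × ℤ} {t : ℕ → ℕ → ℕ → ℂ}
    (hT : ∀ l i p, l < len → i < d → p < 2 ^ ℓ → Rep P (2 ^ B) 2 (T l i p) (t l i p))
    {S K : ℝ} (hS : 1 ≤ S) (hK : 2 ^ ((B + 3) * (d + 1)) ≤ K) {a : ℕ → ℤ × ℤ} {α : ℕ → ℂ}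
    (h : ∀ j, j < 2 ^ (d * ℓ) → Rep P S S (a j) (α j))
    (hw : 2 * 2 ^ P * (K ^ (len + 1) * S) < 2 ^ w) : RunFits w P ℓ d len sc T a := by
  have hK1 : 1 ≤ K := le_trans (one_le_pow₀ (by norm_num)) hK
  have hp : ∀ n, n ≤ (B + 3) * (d + 1) → (2 : ℝ) ^ n ≤ K ^ (len + 1) * S := fun n hn =>
    calc (2 : ℝ) ^ n ≤ 2 ^ ((B + 3) * (d + 1)) := pow_le_pow_right₀ (by norm_num) hn
      _ ≤ K := hK
      _ ≤ K ^ (len + 1) := le_self_pow₀ hK1 (by omega)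
      _ ≤ K ^ (len + 1) * S := le_mul_of_one_le_right (by positivity) hS
  refine ⟨fun l i x hl hi hx => ?_, fun l i j hl hi => ?_, fun l j hl hj => ?_⟩
  · refine ((hT l i x hl hi hx).mono (hp B (by nlinarith)) ?_).fits hw
    simpa using hp 1 (by nlinarith)
  · exact ((rep_kd (fun i p => hT l i p hl) j i hi).mono (hp _ (by nlinarith))
      (hp _ (by nlinarith))).fits hw
  · have : K ^ l * S ≤ K ^ (len + 1) * S :=
      mul_le_mul_of_nonneg_right (pow_le_pow_right₀ hK1 (by omega)) (by linarith)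
    exact ((rep_run hsc hT hS hK h l hl j hj).mono this this).fits hw

end FxMath

open FxMath FxTens in
theorem fxMathSpec : FxMathSpec := by
  intro ℓ d b B len g P w q sc tb Tb x y hq hsc hdft hT hxy hg hP hw x₀ y₀ z₀
  set K : ℝ := 2 ^ ((B + 3) * (d + 1)) with hKdef
  have hK8 : 8 ≤ K := by
    rw [hKdef, show (8 : ℝ) = 2 ^ 3 by norm_num]
    exact pow_le_pow_right₀ (by norm_num) (by nlinarith)
  have hK1 : 1 ≤ K := by linarith
  have hg1 : 1 ≤ g := le_trans (Nat.one_le_iff_ne_zero.2 (by positivity)) hg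
  -- `K ^ (2 * (len + 1)) ≤ 2 ^ g`
  have hKg : K ^ (len + 1) * K ^ (len + 1) ≤ 2 ^ g := by
    rw [hKdef, ← pow_mul, ← pow_add]
    refine pow_le_pow_right₀ (by norm_num) (le_trans ?_ hg)
    have : (B + 3) * (d + 1) * (len + 1) ≤ (2 * (B + 2)) * (d + 1) * (len + 1) :=
      Nat.mul_le_mul_right _ (Nat.mul_le_mul_right _ (by omega))
    nlinarith
  have hM1 : 1 ≤ K ^ len := one_le_pow₀ hK1
  have hM2 : 1 ≤ K ^ (len + 1) := one_le_pow₀ hK1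
  have hKg' : K ^ (len + 1) ≤ 2 ^ g := by nlinarith
  have hT' : ∀ inv l i p, l < len → i < d → p < 2 ^ ℓ →
      Rep P (2 ^ B) 2 (Tb inv l i p) (tb inv l i p) := fun inv l i p hl hi hp =>
    hT inv l i p hl hi hp
  have hb1 : (1 : ℝ) ≤ 2 ^ b := one_le_pow₀ (by norm_num)
  have hin : ∀ n : ℕ, n < 2 ^ b → Rep P (2 ^ b) (2 ^ b) ((2 ^ P * n : ℤ), 0) (n : ℂ) := by
    intro n hn
    constructor
    · rw [Complex.norm_natCast]
      exact_mod_cast hn.le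
    · simp [toC]
  have hx0 : ∀ j, j < 2 ^ (d * ℓ) → Rep P (2 ^ b) (2 ^ b) (x₀ j) (x j : ℂ) :=
    fun j _ => hin _ (hxy j).1
  have hy0 : ∀ j, j < 2 ^ (d * ℓ) → Rep P (2 ^ b) (2 ^ b) (y₀ j) (y j : ℂ) :=
    fun j _ => hin _ (hxy j).2
  have hS1 : (1 : ℝ) ≤ 2 ^ (2 * b + g) := one_le_pow₀ (by norm_num)
  have hz0 : ∀ j, j < 2 ^ (d * ℓ) → Rep P (2 ^ (2 * b + g)) (2 ^ (2 * b + g)) (z₀ j)
      (exRun ℓ d sc (tb false) (fun n => (x n : ℂ)) len j *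
        exRun ℓ d sc (tb false) (fun n => (y n : ℂ)) len j) := by
    intro j hj
    have h1 := rep_run hsc (hT' false) hb1 le_rfl hx0 len le_rfl j hj
    have h2 := rep_run hsc (hT' false) hb1 le_rfl hy0 len le_rfl j hj
    have h3 : 1 ≤ (K ^ len * 2 ^ b) * (K ^ len * 2 ^ b) :=
      one_le_mul_of_one_le_of_one_le (one_le_mul_of_one_le_of_one_le hM1 hb1)
        (one_le_mul_of_one_le_of_one_le hM1 hb1)
    have h4 : 64 * ((K ^ len * 2 ^ b) * (K ^ len * 2 ^ b)) ≤ 2 ^ (2 * b + g) := by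
      have h5 : 64 * (K ^ len * K ^ len) ≤ 2 ^ g := by
        refine le_trans ?_ hKg
        have : K ^ (len + 1) * K ^ (len + 1) = (K * K) * (K ^ len * K ^ len) := by ring
        rw [this]
        exact mul_le_mul_of_nonneg_right (by nlinarith) (by positivity)
      calc 64 * ((K ^ len * 2 ^ b) * (K ^ len * 2 ^ b))
          = 2 ^ (2 * b) * (64 * (K ^ len * K ^ len)) := by ring
        _ ≤ 2 ^ (2 * b) * 2 ^ g := mul_le_mul_of_nonneg_left h5 (by positivity)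
        _ = 2 ^ (2 * b + g) := by ring
    exact (h1.cm h2).mono (by linarith) (by linarith)
  have hbig : K ^ (len + 1) * 2 ^ (2 * b + g) ≤ 2 ^ (2 * b + 2 * g) :=
    calc K ^ (len + 1) * 2 ^ (2 * b + g) ≤ 2 ^ g * 2 ^ (2 * b + g) :=
          mul_le_mul_of_nonneg_right hKg' (by positivity)
      _ = 2 ^ (2 * b + 2 * g) := by ring
  have hw1 : 2 * 2 ^ P * (K ^ (len + 1) * 2 ^ (2 * b + g)) < 2 ^ w :=
    calc 2 * 2 ^ P * (K ^ (len + 1) * 2 ^ (2 * b + g)) ≤ 2 * 2 ^ P * 2 ^ (2 * b + 2 * g) :=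
          mul_le_mul_of_nonneg_left hbig (by positivity)
      _ = 2 ^ (P + 2 * b + 2 * g + 1) := by ring
      _ < 2 ^ w := pow_lt_pow_right₀ (by norm_num) (by omega)
  have hw2 : 2 * 2 ^ P * (K ^ (len + 1) * 2 ^ b) < 2 ^ w := by
    refine lt_of_le_of_lt ?_ hw1
    have : (2 : ℝ) ^ b ≤ 2 ^ (2 * b + g) := pow_le_pow_right₀ (by norm_num) (by omega)
    gcongr
  refine ⟨runFits hsc (hT' false) hb1 le_rfl hx0 hw2, runFits hsc (hT' false) hb1 le_rfl hy0 hw2,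
    runFits hsc (hT' true) hS1 le_rfl hz0 hw1, fun j hj => ?_⟩
  have h1 := rep_run hsc (hT' true) hS1 le_rfl hz0 len le_rfl j hj
  have e : ∀ inv (a : ℕ → ℂ) j, j < 2 ^ (d * ℓ) →
      exRun ℓ d sc (tb inv) a len j = tens ℓ d (fun i => dftM ℓ (q i) inv) a j := by
    intro inv a j hj
    rw [exRun_eq hsc _ _ _ j hj]
    exact tens_congr (hdft inv) (fun _ _ => rfl) j
  rw [e true _ j hj, tens_congr (fun _ _ => rfl)
    (fun m hm => by rw [e false _ m hm, e false _ m hm]), conv hq] at h1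
  refine h1.round (by omega) ?_
  calc K ^ len * 2 ^ (2 * b + g) ≤ K ^ (len + 1) * 2 ^ (2 * b + g) :=
        mul_le_mul_of_nonneg_right (pow_le_pow_right₀ hK1 (by omega)) (by positivity)
    _ ≤ 2 ^ (2 * b + 2 * g) := hbig
    _ < 2 ^ (P - 1) := pow_lt_pow_right₀ (by norm_num) (by omega)

end Crest.Agent.R326
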