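import Crest.Agent.R326.Spec2

/-!
# Fixed-point complex products and runs of layers on the machine (row 326)
-/

set_option linter.unusedVariables false

namespace Crest.Agent.R326

open Crest.Agent.Lib.PolyTime

namespace FxTape

variable {ι : Type} {C : Ctx ι}

/-- The logarithmic factor of one multiplication. -/
noncomputable def lg (w : ℕ) : ℝ := (Nat.log 2 w + 2) ^ 10

theorem one_le_lg (w : ℕ) : 1 ≤ lg w :=
  one_le_pow₀ (by have : (0 : ℝ) ≤ Nat.log 2 w := by positivity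
                  linarith)

theorem sz_crec_le (w : ℕ) (z : ℤ × ℤ) : sz (crec (w + 1) z) ≤ 11 * (w + 1) := by
  have h1 := sz_ibits_le (w + 1) z.1
  have h2 := sz_ibits_le (w + 1) z.2
  simp only [crec, sz_pair]; omega

theorem sz_crec_le' (w : ℕ) (z : ℤ × ℤ) : (sz (crec (w + 1) z) : ℝ) ≤ 11 * (w + 1) := by
  exact_mod_cast sz_crec_le w z

theorem log_le {P w : ℕ} (h : P ≤ w) : Nat.log 2 (w + 1 + P) ≤ Nat.log 2 w + 1 := by
  have h1 : w < 2 ^ (Nat.log 2 w + 1) := Nat.lt_pow_succ_log_self (by norm_num) w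
  have h2 : w + 1 + P < 2 ^ (Nat.log 2 w + 1 + 1) := by rw [pow_succ]; omega
  exact Nat.lt_succ_iff.1 (Nat.log_lt_of_lt_pow (by omega) h2)

/-- Multiplication modulo `2 ^ w`. -/
theorem mulI (hM : MulSpec) {w : ι → ℕ} {x y : ι → ℤ} (hx : R C fun i => ibits (w i) (x i))
    (hy : R C fun i => ibits (w i) (y i))
    (hD : C.Dom fun i => (((w i + 1) * (Nat.log 2 (w i) + 1) ^ 10 : ℕ) : ℝ)) :
    R C fun i => ibits (w i) (x i * y i) := by
  have h := R.use hM (fun i => (w i, (x i % 2 ^ w i).toNat, (y i % 2 ^ w i).toNat))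
    (hx.pair hy) fun _ => hD
  refine (R.take hx.widthI h).congr fun i => ?_
  rw [take_bits _ (by omega)]
  refine ibits_eq ?_
  rw [Nat.mod_eq_of_lt (toNat_emod_lt _ _), Nat.mod_eq_of_lt (toNat_emod_lt _ _)]
  push_cast
  exact (toNat_emod_modEq _ _).mul (toNat_emod_modEq _ _)

/-- One product of complex fixed-point numbers. -/
theorem cmI (hM : MulSpec) {P w : ι → ℕ} {u v : ι → ℤ × ℤ} (hP : R C fun i => Un.mk (P i))
    (hPw : ∀ i, P i ≤ w i) (hf : ∀ i, Fits (w i) (u i) ∧ Fits (w i) (v i))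
    (hD : C.Dom fun i => ((w i : ℝ) + 1) * lg (w i))
    (hu : R C fun i => crec (w i + 1) (u i)) (hv : R C fun i => crec (w i + 1) (v i)) :
    R C fun i => crec (w i + 1) (cm (P i) (u i) (v i)) := by
  have ext : ∀ {x : ι → ℤ}, (R C fun i => ibits (w i + 1) (x i)) → (∀ i, |x i| < 2 ^ w i) →
      R C fun i => ibits (w i + 1 + P i) (x i) := fun hx h =>
    hx.extendI hP fun i => ⟨(abs_lt.1 (h i)).1.le, (abs_lt.1 (h i)).2⟩
  have u1 := ext hu.fst fun i => (hf i).1.1
  have u2 := ext hu.snd fun i => (hf i).1.2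
  have v1 := ext hv.fst fun i => (hf i).2.1
  have v2 := ext hv.snd fun i => (hf i).2.2
  have hD' : C.Dom fun i =>
      (((w i + 1 + P i + 1) * (Nat.log 2 (w i + 1 + P i) + 1) ^ 10 : ℕ) : ℝ) :=
    hD.mono_mul 2 (by norm_num) fun i => by
      have h1 := log_le (hPw i)
      have h2 : (w i + 1 + P i + 1) * (Nat.log 2 (w i + 1 + P i) + 1) ^ 10 ≤
          (2 * (w i + 1)) * (Nat.log 2 (w i) + 2) ^ 10 :=
        Nat.mul_le_mul (by have := hPw i; omega) (Nat.pow_le_pow_left (by omega) _)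
      have h3 : (((w i + 1 + P i + 1) * (Nat.log 2 (w i + 1 + P i) + 1) ^ 10 : ℕ) : ℝ) ≤
          (((2 * (w i + 1)) * (Nat.log 2 (w i) + 2) ^ 10 : ℕ) : ℝ) := by exact_mod_cast h2
      refine h3.trans (le_of_eq ?_)
      unfold lg
      push_cast; ring
  have fin : ∀ {x : ι → ℤ}, (R C fun i => ibits (w i + 1 + P i) (x i)) →
      R C fun i => ibits (w i + 1) (x i / 2 ^ P i) := fun hx =>
    (R.drop hP hx).congr fun i => by rw [Nat.add_comm (w i + 1) (P i), drop_ibits]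
  exact (fin ((mulI hM u1 v1 hD').subI (mulI hM u2 v2 hD'))).pair
    (fin ((mulI hM u1 v2 hD').addI (mulI hM u2 v1 hD')))

/-- Pointwise products. -/
theorem mulT (hM : MulSpec) {T P w : ι → ℕ} {u v : ι → ℕ → ℤ × ℤ}
    (hP : R C fun i => Un.mk (P i)) (hPw : ∀ i, P i ≤ w i)
    (hf : ∀ i j, j < T i → Fits (w i) (u i j) ∧ Fits (w i) (v i j))
    (hD : C.Dom fun i => (T i : ℝ) * (((w i : ℝ) + 1) * lg (w i)))
    (hu : R C fun i => tab (T i) fun j => crec (w i + 1) (u i j))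
    (hv : R C fun i => tab (T i) fun j => crec (w i + 1) (v i j)) :
    R C fun i => tab (T i) fun j => crec (w i + 1) (cm (P i) (u i j) (v i j)) := by
  refine R.tabMap hP (hu.zipTab hv) (hD.mono_mul 2 (by norm_num) fun i => ?_) fun h₁ h₂ => ?_
  · have h1 := one_le_lg (w i)
    have h2 : (P i : ℝ) ≤ w i := by exact_mod_cast hPw i
    have h3 : (0 : ℝ) ≤ T i := by positivity
    have h4 : (0 : ℝ) ≤ w i := by positivity
    rw [sz_un]
    push_cast
    have h5 : 2 * (P i : ℝ) + 1 ≤ 2 * ((w i + 1) * lg (w i)) := by nlinarith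
    nlinarith
  · exact cmI hM h₁ (fun p => hPw p.1) (fun p => hf p.1 p.2 p.2.2)
      (Ctx.dom_pos_unif hD (fun i => by have := one_le_lg (w i); positivity) fun _ => le_rfl)
      h₂.fst h₂.snd

theorem replicate_eq_tab {α : Type} (n : ℕ) (x : α) : List.replicate n x = tab n fun _ => x := by
  simp [tab]

/-- The table of all products of an entry of `u` (high part) and an entry of `v` (low part). -/
theorem outer (hM : MulSpec) {Q S P w : ι → ℕ} {u v : ι → ℕ → ℤ × ℤ}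
    (hP : R C fun i => Un.mk (P i)) (hPw : ∀ i, P i ≤ w i)
    (hfu : ∀ i x, x < Q i → Fits (w i) (u i x)) (hfv : ∀ i y, y < S i → Fits (w i) (v i y))
    (hD : C.Dom fun i => ((Q i * S i : ℕ) : ℝ) * (((w i : ℝ) + 1) * lg (w i)))
    (hu : R C fun i => tab (Q i) fun j => crec (w i + 1) (u i j))
    (hv : R C fun i => tab (S i) fun j => crec (w i + 1) (v i j)) :
    R C fun i => tab (Q i * S i) fun j =>
      crec (w i + 1) (cm (P i) (u i (j / S i)) (v i (j % S i))) := by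
  have hQ : R C fun i => Un.mk (Q i) := by simpa using hu.lenUn
  have hS : R C fun i => Un.mk (S i) := by simpa using hv.lenUn
  have hD1 : C.Dom fun i => (Q i : ℝ) * (S i * (w i + 1)) := hD.mono fun i => by
    have h1 := one_le_lg (w i)
    have h2 : (0 : ℝ) ≤ (Q i : ℝ) * (S i * (w i + 1)) := by positivity
    push_cast
    nlinarith
  have hl : R C fun i => tab (Q i) fun x => tab (S i) fun _ => crec (w i + 1) (u i x) := by
    refine R.tabMap hS hu (((hD1.smul (K := 2) (by norm_num)).add hQ.dom_un).mono fun i => ?_)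
      fun h₁ h₂ => ?_
    · have h2 : (0 : ℝ) ≤ (Q i : ℝ) * (S i * w i) := by positivity
      rw [sz_un]
      push_cast
      nlinarith
    · refine (R.replicate h₁ h₂ (Ctx.dom_pos_unif (β := fun i => 11 * (S i * (w i + 1)))
        (hD1.mono_mul 11 (by norm_num) fun i => le_of_eq (by ring)) (fun _ => by positivity)
        fun p => ?_)).congr fun p => (replicate_eq_tab _ _).symm
      have h1 := sz_crec_le' (w p.1) (u p.1 p.2)
      have h2 : (0 : ℝ) ≤ S p.1 := by positivity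
      nlinarith
  have hr : R C fun i => tab (Q i) fun _ => tab (S i) fun y => crec (w i + 1) (v i y) := by
    refine (R.replicate hQ hv (((hD1.smul (K := 12) (by norm_num)).add hQ.dom_un).mono
      fun i => ?_)).congr fun i => (replicate_eq_tab _ _).symm
    have h1 := sz_tab_le (T := S i) (a := fun y => crec (w i + 1) (v i y)) (B := 11 * (w i + 1))
      fun k _ => sz_crec_le _ _
    have h2 : (sz (tab (S i) fun y => crec (w i + 1) (v i y)) : ℝ) ≤
        S i * (11 * (w i + 1) + 1) + 1 := by exact_mod_cast h1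
    have h3 : (0 : ℝ) ≤ Q i := by positivity
    have h4 : (0 : ℝ) ≤ (Q i : ℝ) * (S i * w i) := by positivity
    nlinarith
  refine mulT hM (u := fun i j => u i (j / S i)) (v := fun i j => v i (j % S i)) hP hPw
    (fun i j hj => ?_) hD hl.unchunks hr.unchunks
  have hS0 : 0 < S i := Nat.pos_of_ne_zero fun h => by simp [h] at hj
  exact ⟨hfu i _ (Nat.div_lt_of_lt_mul (by rwa [Nat.mul_comm])), hfv i _ (Nat.mod_lt _ hS0)⟩

theorem kd_mod (P ℓ : ℕ) (t : ℕ → ℕ → ℤ × ℤ) {ax m : ℕ} (h : ax ≤ m) (j : ℕ) :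
    kd P ℓ t ax (j % 2 ^ (m * ℓ)) = kd P ℓ t ax j := by
  induction ax with
  | zero => rfl
  | succ ax ih =>
    have e : dg ℓ (j % 2 ^ (m * ℓ)) ax = dg ℓ j ax := by
      unfold dg
      rw [← Nat.mod_mul_right_div_self, ← Nat.mod_mul_right_div_self, Nat.mod_mod_of_dvd]
      rw [← pow_add]
      exact pow_dvd_pow 2 (by nlinarith)
    simp only [kd, e, ih (by omega)]

theorem sum_pow_le {ℓ : ℕ} (hℓ : 1 ≤ ℓ) (d : ℕ) :
    ∑ k ∈ Finset.range d, 2 ^ ((k + 1) * ℓ) ≤ 2 * 2 ^ (d * ℓ) := by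
  induction d with
  | zero => simp
  | succ d ih =>
    rw [Finset.sum_range_succ]
    have : 2 * 2 ^ (d * ℓ) ≤ 2 ^ ((d + 1) * ℓ) := by
      rw [← pow_succ']
      exact Nat.pow_le_pow_right (by norm_num) (by nlinarith)
    omega

theorem ibits_two_pow {P w : ℕ} (h : P ≤ w) :
    ibits (w + 1) (2 ^ P) = List.replicate P false ++ true :: List.replicate (w - P) false := by
  have h1 := ibits_shift P (w - P + 1) 1
  rw [mul_one, show P + (w - P + 1) = w + 1 by omega] at h1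
  have h2 : ibits (w - P + 1) 1 = bits (w - P + 1) 1 := ibits_nat _ 1
  rw [h1, h2, bits_succ, show 1 / 2 = 0 from rfl, bits_zero]
  rfl

/-- The table of the products of the diagonal entries over all axes. -/
theorem kdTab (hM : MulSpec) {P ℓ d w : ι → ℕ} {t : ι → ℕ → ℕ → ℤ × ℤ}
    (hP : R C fun i => Un.mk (P i)) (hw : R C fun i => Un.mk (w i)) (hPw : ∀ i, P i ≤ w i)
    (hℓ : ∀ i, 1 ≤ ℓ i)
    (ht : ∀ i ax x, ax < d i → x < 2 ^ ℓ i → Fits (w i) (t i ax x))
    (hk : ∀ i ax j, ax ≤ d i → Fits (w i) (kd (P i) (ℓ i) (t i) ax j))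
    (hD : C.Dom fun i => (2 : ℝ) ^ (d i * ℓ i) * (((w i : ℝ) + 1) * lg (w i)))
    (hl : R C fun i => tab (d i) fun ax => tab (2 ^ ℓ i) fun x => crec (w i + 1) (t i ax x)) :
    R C fun i => tab (2 ^ (d i * ℓ i)) fun j =>
      crec (w i + 1) (kd (P i) (ℓ i) (t i) (d i) j) := by
  have := hP.isOk
  have hone : R C fun i => crec (w i + 1) (2 ^ P i, 0) := by
    have h0 : ∀ {n : ι → ℕ}, (R C fun i => Un.mk (n i)) →
        R C fun i => List.replicate (n i) false := fun hn =>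
      R.replicate hn (R.const false) (hn.dom_un.mono fun i => by simp)
    exact (((h0 hP).hAppend ((R.const true).cons (h0 (hw.unSub hP)))).congr
      fun i => ibits_two_pow (hPw i)).pair (hw.unAdd (R.const (Un.mk 1))).zeroI
  have hsum : C.Dom fun i => ∑ k ∈ Finset.range (d i),
      (2 : ℝ) ^ ((k + 1) * ℓ i) * (((w i : ℝ) + 1) * lg (w i)) :=
    hD.mono_mul 2 (by norm_num) fun i => by
      have h1 : ((∑ k ∈ Finset.range (d i), 2 ^ ((k + 1) * ℓ i) : ℕ) : ℝ) ≤
          ((2 * 2 ^ (d i * ℓ i) : ℕ) : ℝ) := by exact_mod_cast sum_pow_le (hℓ i) (d i)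
      push_cast at h1
      have h2 : 0 ≤ ((w i : ℝ) + 1) * lg (w i) := by have := one_le_lg (w i); positivity
      rw [← Finset.sum_mul]
      exact (mul_le_mul_of_nonneg_right h1 h2).trans (le_of_eq (mul_assoc _ _ _))
  refine (R.iter (s := fun i ax => (Un.mk (P i), tab (2 ^ (ax * ℓ i)) fun j =>
      crec (w i + 1) (kd (P i) (ℓ i) (t i) ax j)))
    (hP.pair ((hone.cons (R.const [])).congr fun i => by simp [tab, kd])) hl
    (hsum.mono_mul 16 (by norm_num) fun i => ?_) fun h₁ h₂ => h₁.fst.pair ?_).snd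
  · rw [Finset.mul_sum]
    refine Finset.sum_le_sum fun k _ => ?_
    have h1 := sz_tab_le (T := 2 ^ (k * ℓ i))
      (a := fun j => crec (w i + 1) (kd (P i) (ℓ i) (t i) k j)) (B := 11 * (w i + 1))
      fun k _ => sz_crec_le _ _
    have h2 : 2 ^ (k * ℓ i) ≤ 2 ^ ((k + 1) * ℓ i) :=
      Nat.pow_le_pow_right (by norm_num) (by nlinarith)
    have h3 : 1 ≤ 2 ^ (k * ℓ i) := Nat.one_le_two_pow
    have h4 : sz (Un.mk (P i), tab (2 ^ (k * ℓ i)) fun j =>
        crec (w i + 1) (kd (P i) (ℓ i) (t i) k j)) ≤ 16 * (2 ^ ((k + 1) * ℓ i) * (w i + 1)) := by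
      have := hPw i
      rw [sz_pair, sz_un]
      simp only
      nlinarith
    have h5 : (sz (Un.mk (P i), tab (2 ^ (k * ℓ i)) fun j =>
        crec (w i + 1) (kd (P i) (ℓ i) (t i) k j)) : ℝ) ≤
        16 * (2 ^ ((k + 1) * ℓ i) * (w i + 1)) := by exact_mod_cast h4
    have h6 := one_le_lg (w i)
    have h7 : (0 : ℝ) ≤ 2 ^ ((k + 1) * ℓ i) * (w i + 1) := by positivity
    nlinarith
  · refine (outer hM (Q := fun p : Σ i, Fin (d i) => 2 ^ ℓ p.1)
      (S := fun p => 2 ^ (p.2 * ℓ p.1)) (u := fun p => t p.1 p.2)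
      (v := fun p => kd (P p.1) (ℓ p.1) (t p.1) p.2) h₁.fst (fun p => hPw p.1)
      (fun p x hx => ht p.1 p.2 x p.2.2 hx) (fun p y _ => hk p.1 p.2 y p.2.2.le)
      (Ctx.dom_pos (fun p => by have := one_le_lg (w p.1); positivity)
        (hsum.congr fun i => ?_)) h₂ h₁.snd).congr fun p => ?_
    · rw [Finset.sum_range]
      refine Finset.sum_congr rfl fun k _ => ?_
      push_cast
      rw [← pow_add, Nat.succ_mul, Nat.add_comm]
    · rw [← pow_add, Nat.succ_mul, Nat.add_comm (ℓ p.1)]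
      refine tab_congr fun j hj => ?_
      have e : dg (ℓ p.1) j p.2 = j / 2 ^ (p.2 * ℓ p.1) :=
        Nat.mod_eq_of_lt (Nat.div_lt_of_lt_mul (by rwa [← pow_add]))
      simp only [kd, e, kd_mod _ _ _ le_rfl]

theorem tau_pos : 0 ≤ tau := by unfold tau; norm_num

theorem one_le_of_pow {d ℓ : ℕ} (h : (d * ℓ + 2) ^ 4 ≤ 2 ^ (ℓ / 4)) : 1 ≤ ℓ := by
  by_contra h0
  obtain rfl : ℓ = 0 := by omega
  simp at h

/-- One layer. -/
theorem step (hM : MulSpec) (hW : WhtSpec) {P ℓ d w L : ι → ℕ} {o : ι → Option ℕ}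
    {t : ι → ℕ → ℕ → ℤ × ℤ} {a : ι → ℕ → ℤ × ℤ} (hP : C.PD (fun i => 2 ^ (d i * ℓ i)) L)
    (hs : SC C L fun i => (Un.mk (d i * ℓ i), ℓ i, d i, P i, w i))
    (hℓ : ∀ i, (d i * ℓ i + 2) ^ 4 ≤ 2 ^ (ℓ i / 4)) (hPw : ∀ i, P i ≤ w i)
    (ho : ∀ i jb, o i = some jb → jb < ℓ i)
    (ht : ∀ i ax x, ax < d i → x < 2 ^ ℓ i → Fits (w i) (t i ax x))
    (hk : ∀ i ax j, ax ≤ d i → Fits (w i) (kd (P i) (ℓ i) (t i) ax j))
    (ha : ∀ i j, j < 2 ^ (d i * ℓ i) → Fits (w i) (a i j))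
    (hD : C.Dom fun i => (2 : ℝ) ^ (d i * ℓ i) * (w i + 1) *
      (((d i : ℝ) * ℓ i + 1) ^ tau + lg (w i)))
    (h₁ : R C o)
    (h₂ : R C fun i => tab (d i) fun ax => tab (2 ^ ℓ i) fun x => crec (w i + 1) (t i ax x))
    (h₃ : R C fun i => tab (2 ^ (d i * ℓ i)) fun j => crec (w i + 1) (a i j)) :
    R C fun i => tab (2 ^ (d i * ℓ i)) fun j =>
      crec (w i + 1) (fxStep (P i) (ℓ i) (d i) (o i) (t i) (a i) j) := by
  have := h₁.isOk
  have hD1 : C.Dom fun i => (2 : ℝ) ^ (d i * ℓ i) * (((w i : ℝ) + 1) * lg (w i)) :=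
    hD.mono fun i => by
      have h1 : (0 : ℝ) ≤ ((d i : ℝ) * ℓ i + 1) ^ tau := by positivity
      have h2 : (0 : ℝ) ≤ (2 : ℝ) ^ (d i * ℓ i) * (w i + 1) := by positivity
      nlinarith
  have hD2 : C.Dom fun i => (2 : ℝ) ^ (d i * ℓ i) * ((w i + 1 : ℕ) : ℝ) *
      ((d i : ℝ) * ℓ i + 1) ^ tau :=
    hD.mono fun i => by
      have h1 := one_le_lg (w i)
      have h2 : (0 : ℝ) ≤ (2 : ℝ) ^ (d i * ℓ i) * (w i + 1) := by positivity
      push_cast
      nlinarith
  have hDw : C.Dom fun i => (w i : ℝ) := hD1.mono fun i => by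
    have h1 := one_le_lg (w i)
    have h2 : (1 : ℝ) ≤ (2 : ℝ) ^ (d i * ℓ i) := one_le_pow₀ (by norm_num)
    have h3 : (0 : ℝ) ≤ w i := by positivity
    have h4 : (w i : ℝ) + 1 ≤ (w i + 1) * lg (w i) := by nlinarith
    nlinarith
  have hw : R C fun i => Un.mk (w i) := hs.snd.snd.snd.snd.r.toUn hDw
  have hPu : R C fun i => Un.mk (P i) :=
    hs.snd.snd.snd.fst.r.toUn (hDw.mono fun i => by exact_mod_cast hPw i)
  refine R.dcond (c := fun i => (o i).toList.isEmpty) h₁.toList.isEmpty ?_ ?_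
  · have hk' := kdTab hM hPu hw hPw (fun i => one_le_of_pow (hℓ i)) ht hk hD1 h₂
    have hm := mulT hM hPu hPw (fun i j hj => ⟨hk i _ j le_rfl, ha i j hj⟩)
      (hD1.congr fun i => by push_cast; rfl) hk' h₃
    refine (hm.comap _).congr fun i => ?_
    have hi := i.2
    cases h : o i.1 with
    | none => rfl
    | some jb => simp [h] at hi
  · set φ : {i // (o i).toList.isEmpty = false} → ι := Subtype.val with hφ
    have hjb : ∀ i, o (φ i) = some ((o (φ i)).toList.headD 0) := fun i => by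
      have hi : (o (φ i)).toList.isEmpty = false := i.2
      cases h : o (φ i) with
      | none => simp [h] at hi
      | some jb => rfl
    have hlt : ∀ i, (o (φ i)).toList.headD 0 < ℓ (φ i) := fun i => ho _ _ (hjb i)
    have hs' := hs.comap φ
    have hP' := hP.comap φ
    have hj : SC (C.comap φ) (fun i => L (φ i)) fun i => (o (φ i)).toList.headD 0 :=
      ⟨(h₁.toList.headD (R.const 0)).comap φ, hs'.snd.fst.sm.sz_of_le fun i => (hlt i).le⟩
    have hw1 : SC (C.comap φ) (fun i => L (φ i)) fun i => w (φ i) + 1 :=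
      hs'.snd.snd.snd.snd.poly hP' (f := fun n : ℕ => n + 1) (by fun_prop)
    have key : ∀ {b : ι → ℕ → ℤ},
        (R C fun i => tab (2 ^ (d i * ℓ i)) fun j => ibits (w i + 1) (b i j)) →
        R (C.comap φ) fun i => tab (2 ^ (d (φ i) * ℓ (φ i))) fun j => ibits (w (φ i) + 1)
          (wht (ℓ (φ i)) ((o (φ i)).toList.headD 0) (d (φ i)) (b (φ i)) j) := fun hb =>
      hW hP' (hs'.fst.pair (hs'.snd.fst.pair (hj.pair (hs'.snd.snd.fst.pair hw1)))) hlt
        (fun i => hℓ _) (fun i => le_rfl) (hD2.comap φ) (hb.comap φ)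
    have hre := key (b := fun i j => (a i j).1) (R.tabMap₀ h₃ fun h => h.fst)
    have him := key (b := fun i j => (a i j).2) (R.tabMap₀ h₃ fun h => h.snd)
    refine (hre.zipTab him).congr fun i => ?_
    conv_lhs => rw [hjb i]
    rfl

end FxTape

open FxTape in
theorem fxTapeSpec_of (hM : MulSpec) (hW : WhtSpec) : FxTapeSpec where
  mul := fun {ι C T P w u v} hP hPw hf hD hu hv =>
    mulT hM hP hPw hf (hD.mono fun i => by
      have h1 := one_le_lg (w i)
      have h2 : (0 : ℝ) ≤ (w i + 1) * lg (w i) := by positivity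
      unfold lg at *
      nlinarith) hu hv
  run := fun {ι C P ℓ d len w L sc tb a} hP hs hd hℓ hPw hsc hfit hD hl ha => by
    have hpar : SC C L fun i => (Un.mk (d i * ℓ i), ℓ i, d i, P i, w i) :=
      hs.fst.pair (hs.snd.fst.pair (hs.snd.snd.fst.pair (hs.snd.snd.snd.fst.pair
        hs.snd.snd.snd.snd.fst)))
    have hlen : Sm L len := hs.snd.snd.snd.snd.snd.sm.of_un
    have hτ : ∀ i, (0 : ℝ) ≤ ((d i : ℝ) * ℓ i + 1) ^ tau := fun i => by positivity
    have hD' : C.Dom fun i => (len i : ℝ) * ((2 : ℝ) ^ (d i * ℓ i) * (w i + 1) *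
        (((d i : ℝ) * ℓ i + 1) ^ tau + lg (w i))) := hD.mono fun i => by
      have h1 := one_le_lg (w i)
      have h2 : (0 : ℝ) ≤ (2 : ℝ) ^ (d i * ℓ i) * (w i + 1) *
        (((d i : ℝ) * ℓ i + 1) ^ tau + lg (w i)) := by have := hτ i; positivity
      unfold lg at *
      nlinarith
    refine (R.iter (s := fun i l => ((Un.mk (d i * ℓ i), ℓ i, d i, P i, w i),
        tab (2 ^ (d i * ℓ i)) fun j =>
          crec (w i + 1) (fxRun (P i) (ℓ i) (d i) (sc i) (tb i) (a i) l j)))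
      (hpar.r.pair ha) hl (Ctx.dom_sum_unif
        (β := fun i => sz (Un.mk (d i * ℓ i), ℓ i, d i, P i, w i) +
          14 * ((2 : ℝ) ^ (d i * ℓ i) * (w i + 1) * (((d i : ℝ) * ℓ i + 1) ^ tau + lg (w i))))
        (((hP.dom₁ (hlen.mul hpar.sm)).add (hD'.smul (K := 14) (by norm_num))).congr
          fun i => by push_cast; ring) fun i l _ => ?_) fun h₁ h₂ => h₁.fst.pair ?_).snd
    · have h1 := sz_tab_le (T := 2 ^ (d i * ℓ i))
        (a := fun j => crec (w i + 1) (fxRun (P i) (ℓ i) (d i) (sc i) (tb i) (a i) l j))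
        (B := 11 * (w i + 1)) fun k _ => sz_crec_le _ _
      have h3 : 1 ≤ 2 ^ (d i * ℓ i) := Nat.one_le_two_pow
      have h4 : sz (tab (2 ^ (d i * ℓ i)) fun j =>
          crec (w i + 1) (fxRun (P i) (ℓ i) (d i) (sc i) (tb i) (a i) l j)) + 1 ≤
          14 * (2 ^ (d i * ℓ i) * (w i + 1)) := by nlinarith
      have h5 : (sz (tab (2 ^ (d i * ℓ i)) fun j =>
          crec (w i + 1) (fxRun (P i) (ℓ i) (d i) (sc i) (tb i) (a i) l j)) : ℝ) + 1 ≤
          14 * (2 ^ (d i * ℓ i) * (w i + 1)) := by exact_mod_cast h4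
      have h6 := one_le_lg (w i)
      have h7 : (0 : ℝ) ≤ 2 ^ (d i * ℓ i) * (w i + 1) := by positivity
      have h8 := hτ i
      rw [sz_pair]
      push_cast
      nlinarith
    · exact step hM hW (hP.pos hlen (fun i => le_of_eq (Nat.mul_comm _ _)) _)
        ⟨h₁.fst, hpar.sm.comap _⟩ (fun p => hℓ p.1) (fun p => hPw p.1)
        (fun p jb h => hsc p.1 p.2 jb h)
        (fun p ax x hax hx => (hfit p.1).1 p.2 ax x p.2.2 hax hx)
        (fun p ax j hax => (hfit p.1).2.1 p.2 ax j p.2.2 hax)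
        (fun p j hj => (hfit p.1).2.2 p.2 j p.2.2.le hj)
        (Ctx.dom_pos_unif hD' (fun i => by
          have := one_le_lg (w i); have := hτ i; positivity) fun _ => le_rfl)
        h₂.fst h₂.snd h₁.snd

end Crest.Agent.R326
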