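import Crest.Agent.R326.Spec2

/-!
# Tensor products of matrices acting on the digits of an index (row 326)
-/

set_option autoImplicit false

namespace Crest.Agent.R326
namespace FxTens

open Finset

/-- The digit as an element of `Fin (2 ^ ℓ)`. -/
def dgF (ℓ j i : ℕ) : Fin (2 ^ ℓ) := ⟨dg ℓ j i, Nat.mod_lt _ (by positivity)⟩

lemma dg_lt (ℓ j i : ℕ) : dg ℓ j i < 2 ^ ℓ := Nat.mod_lt _ (by positivity)

lemma testBit_dg (ℓ j i s : ℕ) :
    (dg ℓ j i).testBit s = (decide (s < ℓ) && j.testBit (i * ℓ + s)) := by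
  unfold dg
  rw [Nat.testBit_mod_two_pow, Nat.testBit_div_two_pow, add_comm]

lemma sum_range_mul' (a b : ℕ) (g : ℕ → ℂ) :
    ∑ j ∈ range (a * b), g j = ∑ p ∈ range b, ∑ r ∈ range a, g (a * p + r) := by
  induction b with
  | zero => simp
  | succ b ih => rw [Nat.mul_succ, Finset.sum_range_add, ih, Finset.sum_range_succ]

lemma dg_low {ℓ d p r i : ℕ} (hr : r < 2 ^ (d * ℓ)) (hi : i < d) :
    dg ℓ (2 ^ (d * ℓ) * p + r) i = dg ℓ r i := by
  apply Nat.eq_of_testBit_eq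
  intro s
  rw [testBit_dg, testBit_dg, Nat.testBit_two_pow_mul_add _ hr]
  by_cases hs : s < ℓ
  · have : i * ℓ + s < d * ℓ := by
      calc i * ℓ + s < i * ℓ + ℓ := by omega
        _ = (i + 1) * ℓ := by ring
        _ ≤ d * ℓ := Nat.mul_le_mul_right _ hi
    simp [this]
  · simp [hs]

lemma dg_top {ℓ d p r : ℕ} (hr : r < 2 ^ (d * ℓ)) (hp : p < 2 ^ ℓ) :
    dg ℓ (2 ^ (d * ℓ) * p + r) d = p := by
  apply Nat.eq_of_testBit_eq
  intro s
  rw [testBit_dg, Nat.testBit_two_pow_mul_add _ hr]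
  by_cases hs : s < ℓ
  · simp [hs]
  · have : p.testBit s = false :=
      Nat.testBit_lt_two_pow (lt_of_lt_of_le hp (Nat.pow_le_pow_right (by norm_num) (by omega)))
    simp [hs, this]

lemma sum_prod_dg (ℓ d : ℕ) (f : ℕ → Fin (2 ^ ℓ) → ℂ) :
    ∑ j ∈ range (2 ^ (d * ℓ)), ∏ i ∈ range d, f i (dgF ℓ j i) = ∏ i ∈ range d, ∑ p, f i p := by
  induction d with
  | zero => simp
  | succ d ih =>
    rw [show 2 ^ ((d + 1) * ℓ) = 2 ^ (d * ℓ) * 2 ^ ℓ by rw [← pow_add]; congr 1; ring,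
      sum_range_mul', Finset.prod_range_succ, ← ih, Finset.mul_sum,
      Finset.sum_range (fun p => ∑ r ∈ range (2 ^ (d * ℓ)),
        ∏ i ∈ range (d + 1), f i (dgF ℓ (2 ^ (d * ℓ) * p + r) i))]
    refine Finset.sum_congr rfl fun p _ => ?_
    rw [Finset.sum_mul]
    refine Finset.sum_congr rfl fun r hr => ?_
    rw [Finset.prod_range_succ]
    have hr' := Finset.mem_range.1 hr
    congr 1
    · refine Finset.prod_congr rfl fun i hi => ?_
      congr 1
      exact Fin.ext (dg_low hr' (Finset.mem_range.1 hi))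
    · congr 1
      exact Fin.ext (dg_top hr' p.2)

/-- Bits below `d * ℓ` are bits of digits. -/
lemma testBit_eq_of_dg {ℓ d j j' r : ℕ} (hj : j < 2 ^ (d * ℓ)) (hj' : j' < 2 ^ (d * ℓ))
    (h : ∀ i s, i < d → s < ℓ → r = i * ℓ + s →
      (dg ℓ j i).testBit s = (dg ℓ j' i).testBit s) : j.testBit r = j'.testBit r := by
  by_cases hr : r < d * ℓ
  · have hℓ : 0 < ℓ := by
      rcases Nat.eq_zero_or_pos ℓ with h0 | h0
      · simp [h0] at hr
      · exact h0
    have e : r = r / ℓ * ℓ + r % ℓ := (Nat.div_add_mod' r ℓ).symm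
    have := h (r / ℓ) (r % ℓ) ((Nat.div_lt_iff_lt_mul hℓ).2 hr) (Nat.mod_lt _ hℓ) e
    rw [testBit_dg, testBit_dg, ← e] at this
    simpa [Nat.mod_lt _ hℓ] using this
  · have h2 : 2 ^ (d * ℓ) ≤ 2 ^ r := Nat.pow_le_pow_right (by norm_num) (by omega)
    rw [Nat.testBit_lt_two_pow (lt_of_lt_of_le hj h2),
      Nat.testBit_lt_two_pow (lt_of_lt_of_le hj' h2)]

lemma eq_of_dg {ℓ d j j' : ℕ} (hj : j < 2 ^ (d * ℓ)) (hj' : j' < 2 ^ (d * ℓ))
    (h : ∀ i, i < d → dg ℓ j i = dg ℓ j' i) : j = j' :=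
  Nat.eq_of_testBit_eq fun _ => testBit_eq_of_dg hj hj' fun i _ hi _ _ => by rw [h i hi]

/-- The tensor product of the matrices `A i` applied to an array. -/
noncomputable def tens (ℓ d : ℕ) (A : ℕ → Matrix (Fin (2 ^ ℓ)) (Fin (2 ^ ℓ)) ℂ) (a : ℕ → ℂ)
    (j : ℕ) : ℂ :=
  ∑ j' ∈ range (2 ^ (d * ℓ)), (∏ i ∈ range d, A i (dgF ℓ j i) (dgF ℓ j' i)) * a j'

lemma tens_congr {ℓ d : ℕ} {A A' : ℕ → Matrix (Fin (2 ^ ℓ)) (Fin (2 ^ ℓ)) ℂ} {a a' : ℕ → ℂ}
    (hA : ∀ i, i < d → A i = A' i) (ha : ∀ j, j < 2 ^ (d * ℓ) → a j = a' j) (j : ℕ) :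
    tens ℓ d A a j = tens ℓ d A' a' j := by
  refine Finset.sum_congr rfl fun j' hj' => ?_
  rw [ha j' (Finset.mem_range.1 hj')]
  congr 1
  exact Finset.prod_congr rfl fun i hi => by rw [hA i (Finset.mem_range.1 hi)]

lemma tens_tens (ℓ d : ℕ) (A B : ℕ → Matrix (Fin (2 ^ ℓ)) (Fin (2 ^ ℓ)) ℂ) (a : ℕ → ℂ) (j : ℕ) :
    tens ℓ d A (tens ℓ d B a) j = tens ℓ d (fun i => A i * B i) a j := by
  unfold tens
  simp_rw [Finset.mul_sum]
  rw [Finset.sum_comm]
  refine Finset.sum_congr rfl fun j'' _ => ?_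
  simp_rw [← mul_assoc, ← Finset.prod_mul_distrib]
  rw [← Finset.sum_mul,
    sum_prod_dg ℓ d (fun i p => A i (dgF ℓ j i) p * B i p (dgF ℓ j'' i))]
  rfl

lemma tens_diag (ℓ d : ℕ) (t : ℕ → Fin (2 ^ ℓ) → ℂ) (a : ℕ → ℂ) {j : ℕ} (hj : j < 2 ^ (d * ℓ)) :
    tens ℓ d (fun i => Matrix.diagonal (t i)) a j = (∏ i ∈ range d, t i (dgF ℓ j i)) * a j := by
  unfold tens
  rw [Finset.sum_eq_single j]
  · simp
  · intro j' hj' hne
    have : ∃ i, i < d ∧ dg ℓ j i ≠ dg ℓ j' i := by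
      by_contra hc
      push Not at hc
      exact hne (eq_of_dg hj (Finset.mem_range.1 hj') hc).symm
    obtain ⟨i, hi, hne⟩ := this
    rw [Finset.prod_eq_zero (Finset.mem_range.2 hi), zero_mul]
    exact Matrix.diagonal_apply_ne _ fun h => hne (congrArg Fin.val h)
  · intro h
    exact absurd (Finset.mem_range.2 hj) h

lemma tens_one (ℓ d : ℕ) (a : ℕ → ℂ) {j : ℕ} (hj : j < 2 ^ (d * ℓ)) :
    tens ℓ d (fun _ => 1) a j = a j := by
  have := tens_diag ℓ d (fun _ _ => 1) a hj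
  simpa using this

/-- The complex butterfly. -/
def hbitC (p : ℕ) (a : ℕ → ℂ) (n : ℕ) : ℂ :=
  if n.testBit p then a (n ^^^ 2 ^ p) - a n else a n + a (n ^^^ 2 ^ p)

/-- The complex Walsh–Hadamard layer. -/
def whtC (ℓ jb : ℕ) : ℕ → (ℕ → ℂ) → ℕ → ℂ
  | 0, a => a
  | k + 1, a => hbitC (k * ℓ + jb) (whtC ℓ jb k a)

lemma pos_lt {ℓ d k jb : ℕ} (hk : k < d) (hjb : jb < ℓ) : k * ℓ + jb < d * ℓ := by
  calc k * ℓ + jb < k * ℓ + ℓ := by omega
    _ = (k + 1) * ℓ := by ring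
    _ ≤ d * ℓ := Nat.mul_le_mul_right _ hk

lemma xor_lt {ℓ d k jb j : ℕ} (hk : k < d) (hjb : jb < ℓ) (hj : j < 2 ^ (d * ℓ)) :
    j ^^^ 2 ^ (k * ℓ + jb) < 2 ^ (d * ℓ) :=
  Nat.xor_lt_two_pow hj (Nat.pow_lt_pow_right (by norm_num) (pos_lt hk hjb))

lemma pos_inj {ℓ i s k jb : ℕ} (hs : s < ℓ) (hjb : jb < ℓ) (h : k * ℓ + jb = i * ℓ + s) :
    k = i ∧ jb = s := by
  have hℓ : 0 < ℓ := by omega
  have h1 : (k * ℓ + jb) / ℓ = k := by
    rw [add_comm, Nat.add_mul_div_right _ _ hℓ, Nat.div_eq_of_lt hjb, zero_add]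
  have h2 : (i * ℓ + s) / ℓ = i := by
    rw [add_comm, Nat.add_mul_div_right _ _ hℓ, Nat.div_eq_of_lt hs, zero_add]
  have : k = i := by rw [← h1, h, h2]
  subst this
  exact ⟨rfl, by omega⟩

lemma testBit_dg_xor {ℓ k jb : ℕ} (hjb : jb < ℓ) (j i s : ℕ) :
    (dg ℓ (j ^^^ 2 ^ (k * ℓ + jb)) i).testBit s =
      if k = i ∧ jb = s then !(dg ℓ j i).testBit s else (dg ℓ j i).testBit s := by
  rw [testBit_dg, testBit_dg, Nat.testBit_xor, Nat.testBit_two_pow]
  by_cases hs : s < ℓ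
  · split_ifs with h
    · obtain ⟨rfl, rfl⟩ := h
      simp [hs]
    · have : ¬ k * ℓ + jb = i * ℓ + s := fun e => h (pos_inj hs hjb e)
      simp [this]
  · have : ¬ (k = i ∧ jb = s) := by omega
    simp [hs, this]

lemma tens_had {ℓ d k jb : ℕ} (hk : k < d) (hjb : jb < ℓ) (a : ℕ → ℂ) {j : ℕ}
    (hj : j < 2 ^ (d * ℓ)) :
    tens ℓ d (fun i => if i = k then hadM ℓ jb else 1) a j = hbitC (k * ℓ + jb) a j := by
  classical
  have hx := xor_lt hk hjb hj
  have hbit : (j ^^^ 2 ^ (k * ℓ + jb)).testBit (k * ℓ + jb) = !j.testBit (k * ℓ + jb) := by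
    rw [Nat.testBit_xor, Nat.testBit_two_pow]; simp
  have hne : j ≠ j ^^^ 2 ^ (k * ℓ + jb) := by
    intro h
    have := congrArg (fun n => n.testBit (k * ℓ + jb)) h
    simp only [hbit] at this
    cases hb : j.testBit (k * ℓ + jb) <;> simp [hb] at this
  have hdg : (dg ℓ j k).testBit jb = j.testBit (k * ℓ + jb) := by
    rw [testBit_dg]; simp [hjb]
  unfold tens
  rw [Finset.sum_eq_add j (j ^^^ 2 ^ (k * ℓ + jb)) hne]
  · have e1 : ∏ i ∈ range d, (if i = k then hadM ℓ jb else 1) (dgF ℓ j i) (dgF ℓ j i) =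
        if j.testBit (k * ℓ + jb) then -1 else 1 := by
      rw [Finset.prod_eq_single k]
      · simp [hadM, dgF, hdg]
      · intro i _ hi
        simp [hi]
      · intro h
        exact absurd (Finset.mem_range.2 hk) h
    have e2 : ∏ i ∈ range d, (if i = k then hadM ℓ jb else 1) (dgF ℓ j i)
        (dgF ℓ (j ^^^ 2 ^ (k * ℓ + jb)) i) = 1 := by
      refine Finset.prod_eq_one fun i _ => ?_
      by_cases hi : i = k
      · subst hi
        simp only [if_true, hadM, Matrix.of_apply, dgF, testBit_dg_xor hjb]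
        rw [if_pos, if_neg]
        · simp
        · intro s hs
          simp [hs.symm]
      · have : dgF ℓ (j ^^^ 2 ^ (k * ℓ + jb)) i = dgF ℓ j i := by
          apply Fin.ext
          apply Nat.eq_of_testBit_eq
          intro s
          simp only [dgF, testBit_dg_xor hjb]
          rw [if_neg]
          exact fun h => hi h.1.symm
        rw [this, if_neg hi, Matrix.one_apply_eq]
    rw [e1, e2, hbitC]
    split_ifs <;> ring
  · rintro j' hj' ⟨h1, h2⟩
    have hj'' := Finset.mem_range.1 hj'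
    rw [mul_eq_zero]
    left
    by_contra hc
    have hall := Finset.prod_ne_zero_iff.1 hc
    have hb : ∀ r, r ≠ k * ℓ + jb → j.testBit r = j'.testBit r := by
      intro r hr
      refine testBit_eq_of_dg hj hj'' fun i s hi hs e => ?_
      have h0 := hall i (Finset.mem_range.2 hi)
      by_cases hik : i = k
      · subst hik
        simp only [if_true, hadM, Matrix.of_apply, dgF] at h0
        by_contra hne
        apply h0
        rw [if_neg]
        intro hh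
        exact hne (hh s (by rintro rfl; exact hr e))
      · simp only [hik, if_false] at h0
        have : dgF ℓ j i = dgF ℓ j' i := by
          by_contra hne
          exact h0 (Matrix.one_apply_ne hne)
        exact congrArg (fun z : Fin (2 ^ ℓ) => z.val.testBit s) this
    by_cases hp : j'.testBit (k * ℓ + jb) = j.testBit (k * ℓ + jb)
    · apply h1
      apply Nat.eq_of_testBit_eq
      intro r
      by_cases hr : r = k * ℓ + jb
      · rw [hr, hp]
      · exact (hb r hr).symm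
    · apply h2
      apply Nat.eq_of_testBit_eq
      intro r
      by_cases hr : r = k * ℓ + jb
      · rw [hr, hbit]
        cases h3 : j.testBit (k * ℓ + jb) <;> simp_all
      · rw [Nat.testBit_xor, Nat.testBit_two_pow, ← hb r hr]
        simp [Ne.symm hr]
  · intro h
    exact absurd (Finset.mem_range.2 hj) h
  · intro h
    exact absurd (Finset.mem_range.2 hx) h

lemma hbitC_congr {ℓ d k jb : ℕ} (hk : k < d) (hjb : jb < ℓ) {a a' : ℕ → ℂ}
    (ha : ∀ j, j < 2 ^ (d * ℓ) → a j = a' j) {j : ℕ} (hj : j < 2 ^ (d * ℓ)) :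
    hbitC (k * ℓ + jb) a j = hbitC (k * ℓ + jb) a' j := by
  unfold hbitC
  rw [ha j hj, ha _ (xor_lt hk hjb hj)]

lemma whtC_eq_aux {ℓ d jb : ℕ} (hjb : jb < ℓ) (a : ℕ → ℂ) (k : ℕ) (hk : k ≤ d) :
    ∀ j, j < 2 ^ (d * ℓ) →
      whtC ℓ jb k a j = tens ℓ d (fun i => if i < k then hadM ℓ jb else 1) a j := by
  induction k with
  | zero =>
    intro j hj
    simpa [whtC] using (tens_one ℓ d a hj).symm
  | succ k ih =>
    intro j hj
    rw [whtC, hbitC_congr hk hjb (ih (by omega)) hj, ← tens_had hk hjb _ hj, tens_tens]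
    refine tens_congr (fun i _ => ?_) (fun _ _ => rfl) j
    rcases lt_trichotomy i k with h | h | h
    · simp [h, h.ne, Nat.lt_succ_of_lt h]
    · simp [h]
    · have h1 : ¬ i < k := by omega
      have h2 : ¬ i < k + 1 := by omega
      simp [h.ne', h1, h2]

lemma whtC_eq {ℓ d jb : ℕ} (hjb : jb < ℓ) (a : ℕ → ℂ) {j : ℕ} (hj : j < 2 ^ (d * ℓ)) :
    whtC ℓ jb d a j = tens ℓ d (fun _ => hadM ℓ jb) a j := by
  rw [whtC_eq_aux hjb a d le_rfl j hj]
  exact tens_congr (fun i hi => by simp [hi]) (fun _ _ => rfl) j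

/-- One exact layer. -/
noncomputable def exStep (ℓ d : ℕ) (o : Option ℕ) (t : ℕ → ℕ → ℂ) (a : ℕ → ℂ) (j : ℕ) : ℂ :=
  match o with
  | some jb => whtC ℓ jb d a j
  | none => (∏ i ∈ range d, t i (dg ℓ j i)) * a j

/-- The exact run. -/
noncomputable def exRun (ℓ d : ℕ) (sc : ℕ → Option ℕ) (tb : ℕ → ℕ → ℕ → ℂ) (a : ℕ → ℂ) :
    ℕ → ℕ → ℂ
  | 0 => a
  | l + 1 => exStep ℓ d (sc l) (tb l) (exRun ℓ d sc tb a l)

lemma exStep_eq {ℓ d : ℕ} (o : Option ℕ) (ho : ∀ jb, o = some jb → jb < ℓ) (t : ℕ → ℕ → ℂ)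
    (a : ℕ → ℂ) {j : ℕ} (hj : j < 2 ^ (d * ℓ)) :
    exStep ℓ d o t a j = tens ℓ d (fun i => layerM ℓ o (t i)) a j := by
  cases o with
  | none => exact (tens_diag ℓ d (fun i x => t i x.val) a hj).symm
  | some jb => exact whtC_eq (ho jb rfl) a hj

lemma exRun_eq {ℓ d : ℕ} {sc : ℕ → Option ℕ} (hsc : ∀ l jb, sc l = some jb → jb < ℓ)
    (tb : ℕ → ℕ → ℕ → ℂ) (a : ℕ → ℂ) (l : ℕ) :
    ∀ j, j < 2 ^ (d * ℓ) →
      exRun ℓ d sc tb a l j = tens ℓ d (fun i => layersM ℓ sc (fun l => tb l i) l) a j := by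
  induction l with
  | zero => intro j hj; exact (tens_one ℓ d a hj).symm
  | succ l ih =>
    intro j hj
    rw [exRun, exStep_eq _ (hsc l) _ _ hj, tens_congr (fun _ _ => rfl) ih, tens_tens]
    rfl

/-- Orthogonality of characters on one axis. -/
lemma dft_axis {ℓ q : ℕ} (hq : 0 < q) (hqℓ : q ≤ 2 ^ ℓ) (a b c : Fin (2 ^ ℓ)) :
    ∑ p, dftM ℓ q true a p * (dftM ℓ q false p b * dftM ℓ q false p c) =
      if a.val < q ∧ b.val < q ∧ c.val < q ∧ (b.val + c.val) % q = a.val then 1 else 0 := by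
  by_cases h : a.val < q ∧ b.val < q ∧ c.val < q
  · obtain ⟨ha, hb, hc⟩ := h
    have hq' : (q : ℂ) ≠ 0 := by exact_mod_cast hq.ne'
    set ζ : ℂ := Complex.exp (2 * Real.pi * Complex.I * ((b.val + c.val - a.val : ℤ) : ℂ) / q)
      with hζ
    have e1 : ∀ p : Fin (2 ^ ℓ), dftM ℓ q true a p * (dftM ℓ q false p b * dftM ℓ q false p c) =
        if p.val < q then (q : ℂ)⁻¹ * ζ ^ p.val else 0 := by
      intro p
      simp only [dftM, Matrix.of_apply, ha, hb, hc, true_and, and_true, if_true,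
        Bool.false_eq_true, if_false]
      split_ifs
      · rw [hζ, ← Complex.exp_nat_mul, mul_assoc, ← Complex.exp_add, ← Complex.exp_add]
        congr 2
        push_cast
        ring
      · simp
    simp_rw [e1]
    rw [← Finset.sum_range (fun p => if p < q then (q : ℂ)⁻¹ * ζ ^ p else 0),
      ← Finset.sum_filter]
    have e2 : (range (2 ^ ℓ)).filter (fun p => p < q) = range q := by
      ext p; simp; omega
    rw [e2, ← Finset.mul_sum]
    have hζq : ζ ^ q = 1 := by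
      rw [hζ, ← Complex.exp_nat_mul, Complex.exp_eq_one_iff]
      exact ⟨(b.val + c.val - a.val : ℤ), by field_simp⟩
    have hiff : ζ = 1 ↔ (b.val + c.val) % q = a.val := by
      rw [hζ, Complex.exp_eq_one_iff]
      constructor
      · rintro ⟨n, hn⟩
        have hpi : (2 * Real.pi * Complex.I : ℂ) ≠ 0 := Complex.two_pi_I_ne_zero
        have h3 : ((b.val + c.val - a.val : ℤ) : ℂ) = ((q * n : ℤ) : ℂ) := by
          rw [div_eq_iff hq'] at hn
          apply mul_left_cancel₀ hpi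
          rw [hn]; push_cast; ring
        have h4 : (b.val + c.val - a.val : ℤ) = q * n := by exact_mod_cast h3
        have h5 : ((b.val + c.val : ℕ) : ℤ) % q = (a.val : ℤ) % q := by
          have : ((b.val + c.val : ℕ) : ℤ) = a.val + q * n := by push_cast; linarith
          rw [this, Int.add_mul_emod_self_left]
        have h6 : (b.val + c.val) % q = a.val % q := by exact_mod_cast h5
        rw [h6, Nat.mod_eq_of_lt ha]
      · intro h
        refine ⟨((b.val + c.val) / q : ℕ), ?_⟩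
        have h1 := Nat.div_add_mod (b.val + c.val) q
        rw [h] at h1
        have h2 : ((b.val + c.val - a.val : ℤ) : ℂ) = q * (((b.val + c.val) / q : ℕ) : ℂ) := by
          have h3 : (q : ℂ) * (((b.val + c.val) / q : ℕ) : ℂ) + a.val = b.val + c.val := by
            exact_mod_cast h1
          push_cast at h3 ⊢
          linear_combination -h3
        rw [h2, Int.cast_natCast]
        field_simp
    by_cases hz : ζ = 1
    · rw [if_pos ⟨ha, hb, hc, hiff.1 hz⟩]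
      simp [hz, hq']
    · rw [if_neg fun h => hz (hiff.2 h.2.2.2), geom_sum_eq hz, hζq]
      simp
  · rw [if_neg fun h' => h ⟨h'.1, h'.2.1, h'.2.2.1⟩]
    refine Finset.sum_eq_zero fun p _ => ?_
    simp only [dftM, Matrix.of_apply]
    by_cases ha : a.val < q
    · by_cases hb : b.val < q
      · have hc : ¬ c.val < q := fun hc => h ⟨ha, hb, hc⟩
        simp [hc]
      · simp [hb]
    · simp [ha]

/-- The convolution theorem. -/
theorem conv {ℓ d : ℕ} {q : ℕ → ℕ} (hq : ∀ i, i < d → 0 < q i ∧ q i ≤ 2 ^ ℓ) (x y : ℕ → ℕ)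
    (j : ℕ) :
    tens ℓ d (fun i => dftM ℓ (q i) true)
      (fun m => tens ℓ d (fun i => dftM ℓ (q i) false) (fun n => (x n : ℂ)) m *
        tens ℓ d (fun i => dftM ℓ (q i) false) (fun n => (y n : ℂ)) m) j =
      (cconv ℓ d q x y j : ℂ) := by
  classical
  have key : ∀ j₁ j₂, ∑ m ∈ range (2 ^ (d * ℓ)),
      (∏ i ∈ range d, dftM ℓ (q i) true (dgF ℓ j i) (dgF ℓ m i)) *
        (((∏ i ∈ range d, dftM ℓ (q i) false (dgF ℓ m i) (dgF ℓ j₁ i)) * (x j₁ : ℂ)) *
          ((∏ i ∈ range d, dftM ℓ (q i) false (dgF ℓ m i) (dgF ℓ j₂ i)) * (y j₂ : ℂ))) =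
      if Valid ℓ d q j ∧ Valid ℓ d q j₁ ∧ Valid ℓ d q j₂ ∧
        ∀ i, i < d → (dg ℓ j₁ i + dg ℓ j₂ i) % q i = dg ℓ j i then (x j₁ * y j₂ : ℂ) else 0 := by
    intro j₁ j₂
    have e : ∀ m, (∏ i ∈ range d, dftM ℓ (q i) true (dgF ℓ j i) (dgF ℓ m i)) *
        (((∏ i ∈ range d, dftM ℓ (q i) false (dgF ℓ m i) (dgF ℓ j₁ i)) * (x j₁ : ℂ)) *
          ((∏ i ∈ range d, dftM ℓ (q i) false (dgF ℓ m i) (dgF ℓ j₂ i)) * (y j₂ : ℂ))) =
        (∏ i ∈ range d, dftM ℓ (q i) true (dgF ℓ j i) (dgF ℓ m i) *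
          (dftM ℓ (q i) false (dgF ℓ m i) (dgF ℓ j₁ i) *
            dftM ℓ (q i) false (dgF ℓ m i) (dgF ℓ j₂ i))) * (x j₁ * y j₂ : ℂ) := by
      intro m
      rw [Finset.prod_mul_distrib, Finset.prod_mul_distrib]
      ring
    simp_rw [e]
    rw [← Finset.sum_mul, sum_prod_dg ℓ d (fun i p => dftM ℓ (q i) true (dgF ℓ j i) p *
          (dftM ℓ (q i) false p (dgF ℓ j₁ i) * dftM ℓ (q i) false p (dgF ℓ j₂ i))),
      Finset.prod_congr rfl fun i hi =>
        dft_axis (hq i (Finset.mem_range.1 hi)).1 (hq i (Finset.mem_range.1 hi)).2 _ _ _,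
      Finset.prod_ite_zero, Finset.prod_const_one, ite_mul, one_mul, zero_mul]
    refine if_congr ?_ rfl rfl
    simp only [Finset.mem_range, dgF, Valid]
    exact ⟨fun h => ⟨fun i hi => (h i hi).1, fun i hi => (h i hi).2.1, fun i hi => (h i hi).2.2.1,
      fun i hi => (h i hi).2.2.2⟩, fun h i hi => ⟨h.1 i hi, h.2.1 i hi, h.2.2.1 i hi, h.2.2.2 i hi⟩⟩
  unfold tens
  simp_rw [Finset.sum_mul_sum, Finset.mul_sum]
  rw [Finset.sum_comm]
  simp_rw [Finset.sum_comm (s := range (2 ^ (d * ℓ))) (f := fun m j₂ =>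
    (∏ i ∈ range d, dftM ℓ (q i) true (dgF ℓ j i) (dgF ℓ m i)) * (_ * ((∏ i ∈ range d,
      dftM ℓ (q i) false (dgF ℓ m i) (dgF ℓ j₂ i)) * (y j₂ : ℂ))))]
  simp_rw [key]
  unfold cconv
  by_cases hv : Valid ℓ d q j
  · simp [hv]
  · simp [hv]

end FxTens
end Crest.Agent.R326
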