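import Crest.Agent.R326.Code
import Crest.Agent.Lib.PolyTime.Enc

/-!
# Cost judgements

A context `C : Ctx ι` is a family of inputs `C.inp i` together with a cone `C.Dom` of admissible
cost functions.  `R C y` says that one program maps `C.inp i` to (the code of) `y i` for all `i`, at
an admissible cost.  `J C ok cnt y` allows in addition `cnt i` calls of the environment on pairs
satisfying `ok i`; `JS` also tracks the top of the stream stack `3`.
-/

set_option linter.unusedVariables false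

namespace Crest.Agent.R326

open Function
open Crest.Agent.Lib.PolyTime

/-- Inputs and admissible costs. -/
structure Ctx (ι : Type) where
  inp : ι → V
  Dom : (ι → ℝ) → Prop
  add' : ∀ {g h}, Dom g → Dom h → Dom fun i => g i + h i
  smul' : ∀ {g} (K : ℝ), 0 ≤ K → Dom g → Dom fun i => K * g i
  mono' : ∀ {g h}, Dom h → (∀ i, g i ≤ max (h i) 0) → Dom g

namespace Ctx
variable {ι κ : Type} {C : Ctx ι} {g h : ι → ℝ}

theorem Dom.add (hg : C.Dom g) (hh : C.Dom h) : C.Dom fun i => g i + h i := C.add' hg hh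

theorem Dom.smul (hg : C.Dom g) {K : ℝ} (hK : 0 ≤ K) : C.Dom fun i => K * g i := C.smul' K hK hg

theorem Dom.mono (hh : C.Dom h) (le : ∀ i, g i ≤ h i) : C.Dom g :=
  C.mono' hh fun i => (le i).trans (le_max_left _ _)

theorem Dom.pos (hh : C.Dom h) : C.Dom fun i => max (h i) 0 := C.mono' hh fun _ => le_rfl

/-- Domination up to a constant factor. -/
theorem Dom.mono_mul (hh : C.Dom h) (K : ℝ) (hK : 0 ≤ K) (le : ∀ i, g i ≤ K * h i) : C.Dom g :=
  (hh.smul hK).mono le

theorem Dom.congr (hh : C.Dom h) (e : ∀ i, g i = h i) : C.Dom g := hh.mono fun i => (e i).le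

theorem Dom.max (hg : C.Dom g) (hh : C.Dom h) : C.Dom fun i => max (g i) (h i) :=
  (hg.pos.add hh.pos).mono fun i => by
    have := le_max_left (g i) 0
    have := le_max_right (g i) 0
    have := le_max_left (h i) 0
    have := le_max_right (h i) 0
    exact max_le (by linarith) (by linarith)

theorem Dom.sum {α : Type} (s : Finset α) {f : α → ι → ℝ} (h0 : C.Dom h)
    (hf : ∀ a ∈ s, C.Dom (f a)) : C.Dom fun i => ∑ a ∈ s, f a i := by
  classical
  induction s using Finset.induction_on with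
  | empty => exact C.mono' h0 fun i => by simp
  | insert a s ha ih =>
    exact ((hf a (by simp)).add (ih fun b hb => hf b (by simp [hb]))).congr fun i => by
      rw [Finset.sum_insert ha]

/-- Same costs, new input. -/
def re (C : Ctx ι) {α : Type} [PEnc α] (x : ι → α) : Ctx ι := { C with inp := fun i => enc (x i) }

@[simp] theorem re_inp {α : Type} [PEnc α] (x : ι → α) (i : ι) : (C.re x).inp i = enc (x i) := rfl
@[simp] theorem re_Dom {α : Type} [PEnc α] (x : ι → α) : (C.re x).Dom = C.Dom := rfl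

/-- Pull back along a map of index types. -/
def comap (C : Ctx ι) (φ : κ → ι) : Ctx κ where
  inp k := C.inp (φ k)
  Dom g := ∃ G, C.Dom G ∧ ∀ k, g k ≤ G (φ k)
  add' := fun ⟨G, hG, h⟩ ⟨G', hG', h'⟩ => ⟨_, hG.add hG', fun k => add_le_add (h k) (h' k)⟩
  smul' := fun K hK ⟨G, hG, h⟩ => ⟨_, hG.smul hK, fun k => mul_le_mul_of_nonneg_left (h k) hK⟩
  mono' := fun ⟨G, hG, h⟩ le => ⟨_, hG.pos, fun k => (le k).trans (max_le_max_right _ (h k))⟩

theorem Dom.comap (hg : C.Dom g) (φ : κ → ι) : (C.comap φ).Dom fun k => g (φ k) :=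
  ⟨g, hg, fun _ => le_rfl⟩

/-- The context of the positions `k < T i`: costs are summed over the positions. -/
def pos (C : Ctx ι) (T : ι → ℕ) {α : Type} [PEnc α] (x : ι → ℕ → α) : Ctx (Σ i, Fin (T i)) where
  inp p := enc (x p.1 p.2)
  Dom g := C.Dom fun i => ∑ k : Fin (T i), max (g ⟨i, k⟩) 0
  add' := fun hg hh => (hg.add hh).mono fun i => by
    rw [← Finset.sum_add_distrib]
    exact Finset.sum_le_sum fun k _ => max_le (add_le_add (le_max_left _ _) (le_max_left _ _))
      (by positivity)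
  smul' := fun K hK hg => (hg.smul hK).mono fun i => by
    rw [Finset.mul_sum]
    exact Finset.sum_le_sum fun k _ => max_le (mul_le_mul_of_nonneg_left (le_max_left _ _) hK)
      (by positivity)
  mono' := fun hh le => hh.mono fun i =>
    Finset.sum_le_sum fun k _ => max_le (le _) (le_max_right _ _)

theorem dom_pos {T : ι → ℕ} {α : Type} [PEnc α] {x : ι → ℕ → α} {g : (Σ i, Fin (T i)) → ℝ}
    (h0 : ∀ p, 0 ≤ g p) (hg : C.Dom fun i => ∑ k : Fin (T i), g ⟨i, k⟩) : (C.pos T x).Dom g :=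
  hg.congr fun i => Finset.sum_congr rfl fun k _ => max_eq_left (h0 _)

/-- A cost bounded uniformly over the positions. -/
theorem dom_pos_unif {T : ι → ℕ} {α : Type} [PEnc α] {x : ι → ℕ → α}
    {g : (Σ i, Fin (T i)) → ℝ} {β : ι → ℝ} (hβ : C.Dom fun i => T i * β i) (h0 : ∀ i, 0 ≤ β i)
    (hg : ∀ p, g p ≤ β p.1) : (C.pos T x).Dom g :=
  hβ.mono fun i => by
    calc _ ≤ ∑ _k : Fin (T i), β i := Finset.sum_le_sum fun k _ => max_le (hg ⟨i, k⟩) (h0 i)
      _ = _ := by simp

/-- The context with costs `O(B c)` for some `c`. -/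
def of {α : Type} [PEnc α] (x : ι → α) (B : ℕ → ι → ℝ) : Ctx ι where
  inp i := enc (x i)
  Dom g := ∃ (c : ℕ) (K : ℝ), 0 ≤ K ∧ ∀ i, g i ≤ K * ∑ k ∈ Finset.range (c + 1), max (B k i) 0
  add' := fun {g h} ⟨c, K, hK, hg⟩ ⟨c', K', hK', hh⟩ => ⟨max c c', K + K', by positivity, fun i => by
    have h1 : ∀ a b : ℕ, a ≤ b → ∑ k ∈ Finset.range (a + 1), max (B k i) 0 ≤
        ∑ k ∈ Finset.range (b + 1), max (B k i) 0 := fun a b hab =>
      Finset.sum_le_sum_of_subset_of_nonneg (Finset.range_mono (by omega)) fun _ _ _ => by positivity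
    have h2 := mul_le_mul_of_nonneg_left (h1 c _ (le_max_left c c')) hK
    have h3 := mul_le_mul_of_nonneg_left (h1 c' _ (le_max_right c c')) hK'
    have := hg i
    have := hh i
    linarith⟩
  smul' := fun L hL ⟨c, K, hK, hg⟩ => ⟨c, L * K, by positivity, fun i => by
    rw [mul_assoc]; exact mul_le_mul_of_nonneg_left (hg i) hL⟩
  mono' := fun ⟨c, K, hK, hg⟩ le => ⟨c, K, hK, fun i => (le i).trans (max_le (hg i)
    (mul_nonneg hK (Finset.sum_nonneg fun _ _ => by positivity)))⟩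

theorem dom_of {α : Type} [PEnc α] {x : ι → α} (B : ℕ → ι → ℝ) (c : ℕ) : (of x B).Dom (B c) :=
  ⟨c, 1, zero_le_one, fun i => by
    rw [one_mul]
    exact (le_max_left _ 0).trans (Finset.single_le_sum (f := fun k => max (B k i) 0)
      (fun _ _ => by positivity) (Finset.self_mem_range_succ c))⟩

theorem dom_of_sub {α : Type} [PEnc α] {x : κ → α} {B : ℕ → κ → ℝ} {φ : ι → κ}
    (hB : ∀ c, C.Dom fun i => B c (φ i)) {G : κ → ℝ} (hG : (of x B).Dom G) :
    C.Dom fun i => G (φ i) := by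
  obtain ⟨c, K, hK, hG⟩ := hG
  exact (Dom.sum (Finset.range (c + 1)) (hB 0) fun k _ => (hB k).pos).mono_mul K hK fun i => hG _

theorem dom_of_elim {α : Type} [PEnc α] {x : ι → α} {B : ℕ → ι → ℝ} (h0 : ∀ c i, 0 ≤ B c i)
    (hm : ∀ c i, B c i ≤ B (c + 1) i) (hG : (of x B).Dom g) :
    ∃ (c : ℕ) (K : ℝ), 0 ≤ K ∧ ∀ i, g i ≤ K * B c i := by
  obtain ⟨c, K, hK, hG⟩ := hG
  refine ⟨c, K * (c + 1), by positivity, fun i => (hG i).trans ?_⟩
  rw [mul_assoc]
  refine mul_le_mul_of_nonneg_left ?_ hK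
  have hmono : Monotone fun c => B c i := monotone_nat_of_le_succ fun c => hm c i
  calc _ ≤ ∑ _k ∈ Finset.range (c + 1), B c i := Finset.sum_le_sum fun k hk =>
        max_le (hmono (by simpa [Nat.lt_succ_iff] using hk)) (h0 c i)
    _ = _ := by simp

end Ctx

/-- Evaluation with a real cost bound. -/
def ER (E c : Cd) (v : V) (σ : Str) (w : V) (σ' : Str) (r : ℝ) : Prop :=
  ∃ n : ℕ, (n : ℝ) ≤ r ∧ EL E c v σ w σ' n

theorem EL.er {E c : Cd} {v w : V} {σ σ' : Str} {n : ℕ} {r : ℝ} (h : EL E c v σ w σ' n)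
    (le : (n : ℝ) ≤ r) : ER E c v σ w σ' r := ⟨n, le, h⟩

/-- The environment answers the calls in `ok` at cost `φ`. -/
def Orc (E : Cd) (ok : V → V → Prop) (φ : ℝ) : Prop := ∀ v w, ok v w → ∀ σ, ER E E v σ w σ φ

variable {ι κ : Type}

/-- The general judgement. -/
def JS (C : Ctx ι) (ok : ι → V → V → Prop) (cnt : ι → ℝ) (pre post : ι → List V) {β : Type}
    [PEnc β] (y : ι → β) : Prop :=
  ∃ (code : Cd) (G : ι → ℝ), C.Dom G ∧ ∀ i, ((C.inp i).size : ℝ) ≤ G i ∧ (sz (y i) : ℝ) ≤ G i ∧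
    ∀ (E : Cd) (φ : ℝ), 0 ≤ φ → Orc E (ok i) φ → ∀ (σ : Str) (r : List V), σ 3 = pre i ++ r →
      ER E code (C.inp i) σ (enc (y i)) (update σ 3 (post i ++ r)) (G i + cnt i * φ)

/-- Programs calling the environment. -/
def J (C : Ctx ι) (ok : ι → V → V → Prop) (cnt : ι → ℝ) {β : Type} [PEnc β] (y : ι → β) : Prop :=
  JS C ok cnt (fun _ => []) (fun _ => []) y

/-- Programs computing `y i` from the input `C.inp i` at an admissible cost. -/
@[fun_prop]
def R (C : Ctx ι) {β : Type} [PEnc β] (y : ι → β) : Prop :=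
  ∃ (code : Cd) (G : ι → ℝ), C.Dom G ∧ ∀ i E σ, ER E code (C.inp i) σ (enc (y i)) σ (G i)

variable {C : Ctx ι} {ok : ι → V → V → Prop} {cnt cnt' : ι → ℝ} {pre mid post : ι → List V}
  {α β γ δ : Type} [PEnc α] [PEnc β] [PEnc γ] [PEnc δ]

theorem R.js {y : ι → β} (h : R C y) (ok : ι → V → V → Prop) (pre : ι → List V) :
    JS C ok (fun _ => 0) pre pre y := by
  obtain ⟨code, G, hG, h⟩ := h
  refine ⟨code, G, hG, fun i => ?_⟩
  obtain ⟨n, hn, he⟩ := h i .nil (fun _ => [])
  refine ⟨le_trans (by exact_mod_cast he.size_in) hn, le_trans (by exact_mod_cast he.size_out) hn,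
    fun E φ _ _ σ r hσ => ?_⟩
  rw [← hσ, update_eq_self]
  simpa using h i E σ

theorem R.j {y : ι → β} (h : R C y) (ok : ι → V → V → Prop) : J C ok (fun _ => 0) y := h.js _ _

theorem J.r {y : ι → β} (h : J C (fun _ _ _ => False) cnt y) : R C y := by
  obtain ⟨code, G, hG, h⟩ := h
  refine ⟨code, G, hG, fun i E σ => ?_⟩
  simpa using (h i).2.2 E 0 le_rfl (fun _ _ h => h.elim) σ (σ 3) rfl

namespace JS

theorem dom_sz {y : ι → β} (h : JS C ok cnt pre post y) : C.Dom fun i => sz (y i) := by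
  obtain ⟨code, G, hG, h⟩ := h
  exact hG.mono fun i => (h i).2.1

theorem dom_inp {y : ι → β} (h : JS C ok cnt pre post y) : C.Dom fun i => (C.inp i).size := by
  obtain ⟨code, G, hG, h⟩ := h
  exact hG.mono fun i => (h i).1

theorem mono {y : ι → β} {ok' : ι → V → V → Prop} (h : JS C ok cnt pre post y)
    (hok : ∀ i v w, ok i v w → ok' i v w) (hc : ∀ i, cnt i ≤ cnt' i) :
    JS C ok' cnt' pre post y := by
  obtain ⟨code, G, hG, h⟩ := h
  refine ⟨code, G, hG, fun i => ⟨(h i).1, (h i).2.1, fun E φ hφ hO σ r hσ => ?_⟩⟩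
  obtain ⟨n, hn, he⟩ := (h i).2.2 E φ hφ (fun v w hv => hO v w (hok i v w hv)) σ r hσ
  exact ⟨n, hn.trans (by gcongr; exact hc i), he⟩

theorem of_enc {y : ι → β} {z : ι → γ} (h : JS C ok cnt pre post y)
    (e : ∀ i, enc (z i) = enc (y i)) : JS C ok cnt pre post z := by
  obtain ⟨code, G, hG, h⟩ := h
  refine ⟨code, G, hG, fun i => ?_⟩
  unfold sz
  rw [e i]
  exact h i

theorem congr {y z : ι → β} (h : JS C ok cnt pre post y) (e : ∀ i, z i = y i) :
    JS C ok cnt pre post z := h.of_enc fun i => by rw [e i]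

theorem congr_str {y : ι → β} {pre' post' : ι → List V} (h : JS C ok cnt pre post y)
    (e : ∀ i, pre' i = pre i) (e' : ∀ i, post' i = post i) : JS C ok cnt pre' post' y := by
  rwa [funext e, funext e']

theorem frame {y : ι → β} (h : JS C ok cnt pre post y) (f : ι → List V) :
    JS C ok cnt (fun i => pre i ++ f i) (fun i => post i ++ f i) y := by
  obtain ⟨code, G, hG, h⟩ := h
  refine ⟨code, G, hG, fun i => ⟨(h i).1, (h i).2.1, fun E φ hφ hO σ r hσ => ?_⟩⟩
  simpa using (h i).2.2 E φ hφ hO σ (f i ++ r) (by simpa using hσ)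

/-- Change of index type and context. -/
theorem transfer {y : ι → β} (h : JS C ok cnt pre post y) (C' : Ctx κ) (φ : κ → ι)
    (hi : ∀ k, C'.inp k = C.inp (φ k)) (hD : ∀ G, C.Dom G → C'.Dom fun k => G (φ k)) :
    JS C' (fun k => ok (φ k)) (fun k => cnt (φ k)) (fun k => pre (φ k)) (fun k => post (φ k))
      fun k => y (φ k) := by
  obtain ⟨code, G, hG, h⟩ := h
  refine ⟨code, _, hD G hG, fun k => ?_⟩
  rw [hi]
  exact h (φ k)

theorem comp {x : ι → α} {y : ι → β} (h₁ : JS C ok cnt pre mid x)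
    (h₂ : JS (C.re x) ok cnt' mid post y) : JS C ok (fun i => cnt i + cnt' i) pre post y := by
  obtain ⟨c₁, G₁, hG₁, h₁⟩ := h₁
  obtain ⟨c₂, G₂, hG₂, h₂⟩ := h₂
  refine ⟨.comp c₂ c₁, _, hG₁.add hG₂, fun i => ?_⟩
  obtain ⟨a1, a2, a3⟩ := h₁ i
  obtain ⟨b1, b2, b3⟩ := h₂ i
  have p1 : (0 : ℝ) ≤ G₁ i := le_trans (by positivity) a1
  have p2 : (0 : ℝ) ≤ G₂ i := le_trans (by positivity) b1
  refine ⟨by linarith, by linarith, fun E φ hφ hO σ r hσ => ?_⟩
  obtain ⟨n, hn, he⟩ := a3 E φ hφ hO σ r hσ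
  obtain ⟨m, hm, he'⟩ := b3 E φ hφ hO (update σ 3 (mid i ++ r)) r (by simp)
  rw [update_idem] at he'
  exact (he.comp he').er (by push_cast; linarith)

theorem pair {x : ι → α} {y : ι → β} (h₁ : JS C ok cnt pre mid x)
    (h₂ : JS C ok cnt' mid post y) :
    JS C ok (fun i => cnt i + cnt' i) pre post fun i => (x i, y i) := by
  obtain ⟨c₁, G₁, hG₁, h₁⟩ := h₁
  obtain ⟨c₂, G₂, hG₂, h₂⟩ := h₂
  refine ⟨.pair c₁ c₂, _, (hG₁.smul (K := 3) (by norm_num)).add hG₂, fun i => ?_⟩
  obtain ⟨a1, a2, a3⟩ := h₁ i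
  obtain ⟨b1, b2, b3⟩ := h₂ i
  have p1 : (1 : ℝ) ≤ (C.inp i).size := by exact_mod_cast (C.inp i).one_le_size
  refine ⟨by linarith, by simp; linarith, fun E φ hφ hO σ r hσ => ?_⟩
  obtain ⟨n, hn, he⟩ := a3 E φ hφ hO σ r hσ
  obtain ⟨m, hm, he'⟩ := b3 E φ hφ hO (update σ 3 (mid i ++ r)) r (by simp)
  rw [update_idem] at he'
  exact (he.pair he').er (by push_cast; rw [size_enc]; linarith)

/-- Case distinction on whether the code of `c i` is `nil`. -/
theorem caseV {c : ι → γ} {y : ι → β} (hc : R C c)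
    (h₀ : JS (C.comap (Subtype.val : {i // enc (c i) = V.nil} → ι)) (fun i => ok i.1)
      (fun i => cnt i.1) (fun i => pre i.1) (fun i => post i.1) fun i => y i.1)
    (h₁ : JS (C.comap (Subtype.val : {i // enc (c i) ≠ V.nil} → ι)) (fun i => ok i.1)
      (fun i => cnt i.1) (fun i => pre i.1) (fun i => post i.1) fun i => y i.1) :
    JS C ok cnt pre post y := by
  obtain ⟨k, G, hG, hk⟩ := hc
  obtain ⟨e, G₀, ⟨F₀, hF₀, hG₀⟩, h₀⟩ := h₀
  obtain ⟨d, G₁, ⟨F₁, hF₁, hG₁⟩, h₁⟩ := h₁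
  refine ⟨.ite k d e, _, (hG.smul (K := 3) (by norm_num)).add (hF₀.max hF₁), fun i => ?_⟩
  have s1 : ((C.inp i).size : ℝ) ≤ G i := by
    obtain ⟨n, hn, he⟩ := hk i .nil (fun _ => [])
    exact le_trans (by exact_mod_cast he.size_in) hn
  have s2 : ((enc (c i)).size : ℝ) ≤ G i := by
    obtain ⟨n, hn, he⟩ := hk i .nil (fun _ => [])
    exact le_trans (by exact_mod_cast he.size_out) hn
  have p1 : (1 : ℝ) ≤ (C.inp i).size := by exact_mod_cast (C.inp i).one_le_size
  have m0 := le_max_left (F₀ i) (F₁ i)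
  have m1 := le_max_right (F₀ i) (F₁ i)
  cases hv : enc (c i) with
  | nil =>
    obtain ⟨a1, a2, a3⟩ := h₀ ⟨i, hv⟩
    have := hG₀ ⟨i, hv⟩
    change ((C.inp i).size : ℝ) ≤ _ at a1
    refine ⟨by simp only at this; linarith, by simp only at this a2; linarith,
      fun E φ hφ hO σ r hσ => ?_⟩
    obtain ⟨n, hn, he⟩ := hk i E σ
    obtain ⟨m, hm, he'⟩ := a3 E φ hφ hO σ r hσ
    rw [hv] at he
    exact (he.ite_nil he').er (by push_cast; simp only at this hm; linarith)
  | node u v =>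
    have hne : enc (c i) ≠ V.nil := by simp [hv]
    obtain ⟨a1, a2, a3⟩ := h₁ ⟨i, hne⟩
    have := hG₁ ⟨i, hne⟩
    change ((C.inp i).size : ℝ) ≤ _ at a1
    refine ⟨by simp only at this; linarith, by simp only at this a2; linarith,
      fun E φ hφ hO σ r hσ => ?_⟩
    obtain ⟨n, hn, he⟩ := hk i E σ
    obtain ⟨m, hm, he'⟩ := a3 E φ hφ hO σ r hσ
    rw [hv] at he s2
    simp only [V.size_node] at s2
    push_cast at s2
    exact (he.ite_node he').er (by push_cast; simp only at this hm; linarith)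

/-- Conditional; each branch is only needed on the indices that reach it. -/
theorem cond {c : ι → Bool} {y : ι → β} (hc : R C c)
    (h₁ : JS (C.comap (Subtype.val : {i // c i = true} → ι)) (fun i => ok i.1)
      (fun i => cnt i.1) (fun i => pre i.1) (fun i => post i.1) fun i => y i.1)
    (h₀ : JS (C.comap (Subtype.val : {i // c i = false} → ι)) (fun i => ok i.1)
      (fun i => cnt i.1) (fun i => pre i.1) (fun i => post i.1) fun i => y i.1) :
    JS C ok cnt pre post y := by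
  refine caseV hc ?_ ?_
  · have key : ∀ a : {a // enc (c a) = V.nil}, c a.1 = false := fun a => by
      have := a.2
      cases h : c a.1 <;> simp_all
    exact h₀.transfer (C.comap (Subtype.val : {i // enc (c i) = V.nil} → ι))
      (fun a => ⟨a.1, key a⟩) (fun _ => rfl) fun G ⟨F, hF, h⟩ => ⟨F, hF, fun k => h ⟨k.1, key k⟩⟩
  · have key : ∀ a : {a // enc (c a) ≠ V.nil}, c a.1 = true := fun a => by
      have := a.2
      cases h : c a.1 <;> simp_all
    exact h₁.transfer (C.comap (Subtype.val : {i // enc (c i) ≠ V.nil} → ι))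
      (fun a => ⟨a.1, key a⟩) (fun _ => rfl) fun G ⟨F, hF, h⟩ => ⟨F, hF, fun k => h ⟨k.1, key k⟩⟩

/-- A primitive instruction acting on the input. -/
theorem prim {x : ι → α} {y : ι → β} (hx : R C x) (code : Cd) (G : ι → ℝ) (hG : C.Dom G)
    (h : ∀ i E (σ : Str) r, σ 3 = pre i ++ r →
      ER E code (enc (x i)) σ (enc (y i)) (update σ 3 (post i ++ r)) (G i)) :
    JS C ok (fun _ => 0) pre post y := by
  have h2 : JS (C.re x) ok (fun _ => 0) pre post y := by
    refine ⟨code, G, hG, fun i => ?_⟩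
    obtain ⟨n, hn, he⟩ := h i .nil (fun _ => pre i) [] (by simp)
    refine ⟨le_trans (by exact_mod_cast he.size_in) hn,
      le_trans (by exact_mod_cast he.size_out) hn, fun E φ _ _ σ r hσ => ?_⟩
    simpa using h i E σ r hσ
  simpa using (hx.js ok pre).comp h2

theorem push {x : ι → α} (hx : R C x) :
    JS C ok (fun _ => 0) pre (fun i => enc (x i) :: pre i) fun _ => () :=
  prim hx (.push 3) _ (hx.js ok pre).dom_sz fun i E σ r hσ => by
    have := EL.push (E := E) (j := 3) (v := enc (x i)) (σ := σ)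
    rw [hσ] at this
    exact this.er (by simp)

theorem pop {x : ι → α} {t : ι → β} (hx : R C x) (ht : C.Dom fun i => sz (t i)) :
    JS C ok (fun _ => 0) (fun i => enc (t i) :: post i) post t :=
  prim hx (.pop 3) _ ((hx.js ok post).dom_sz.add ht) fun i E σ r hσ =>
    (EL.pop (E := E) (v := enc (x i)) hσ).er (by simp)

theorem cons {x : ι → α} {t : ι → List α} (hx : R C x) :
    JS C ok (fun _ => 0) (fun i => enc (t i) :: pre i) (fun i => enc (x i :: t i) :: pre i)
      fun _ => () :=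
  prim hx (.cons 3) _ (hx.js ok pre).dom_sz fun i E σ r hσ =>
    (EL.cons (E := E) (v := enc (x i)) hσ).er (by simp)

theorem uncons {u : ι → γ} {x : ι → α} {t : ι → List α} (hu : R C u)
    (hx : C.Dom fun i => sz (x i)) :
    JS C ok (fun _ => 0) (fun i => enc (x i :: t i) :: pre i) (fun i => enc (t i) :: pre i) x := by
  have h1 : JS C ok (fun _ => 0) (fun i => enc (x i :: t i) :: pre i)
      (fun i => enc (t i) :: pre i) fun i => (x i, ()) :=
    prim hu (.uncons 3) _ (((hu.js ok pre).dom_sz.smul (K := 2) (by norm_num)).add hx)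
      fun i E σ r hσ => (EL.uncons_node (E := E) (v := enc (u i)) hσ).er (by
        have : (1 : ℝ) ≤ sz (u i) := by exact_mod_cast one_le_sz (u i)
        simp; linarith)
  have h2 : R (C.re fun i => (x i, ())) x :=
    ⟨.fst, _, h1.dom_sz, fun i E σ => EL.fst.er (by simp)⟩
  simpa using h1.comp (h2.js ok _)

/-- A call of the environment. -/
theorem call {x : ι → α} {y : ι → β} (hx : R C x) (hy : C.Dom fun i => sz (y i))
    (hok : ∀ i, ok i (enc (x i)) (enc (y i))) : JS C ok (fun _ => 1) pre pre y := by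
  have h2 : JS (C.re x) ok (fun _ => 1) pre pre y := by
    refine ⟨.self, _, (hx.js ok pre).dom_sz.add hy, fun i => ?_⟩
    have p1 : (1 : ℝ) ≤ sz (x i) := by exact_mod_cast one_le_sz (x i)
    have p2 : (1 : ℝ) ≤ sz (y i) := by exact_mod_cast one_le_sz (y i)
    refine ⟨by simp, by simp, fun E φ _ hO σ r hσ => ?_⟩
    obtain ⟨n, hn, he⟩ := hO _ _ (hok i) σ
    rw [← hσ, update_eq_self]
    exact he.self.er (by push_cast; linarith)
  simpa using (hx.js ok pre).comp h2

end JS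

/-- Tying the knot: a recursive program. -/
theorem J.knot {y : ι → β} {sub : ι → ι → Prop} (μ : ι → ℕ) (hμ : ∀ i j, sub i j → μ j < μ i)
    (h : J C (fun i v w => ∃ j, sub i j ∧ v = C.inp j ∧ w = enc (y j)) cnt y)
    (C' : Ctx ι) (hi : ∀ i, C'.inp i = C.inp i)
    (hsolve : ∀ G, C.Dom G → ∃ Φ φ : ι → ℝ, C'.Dom Φ ∧ (∀ i, 0 ≤ φ i) ∧
      (∀ i j, sub i j → Φ j ≤ φ i) ∧ ∀ i, G i + cnt i * φ i ≤ Φ i) : R C' y := by
  obtain ⟨code, G, hG, h⟩ := h
  obtain ⟨Φ, φ, hΦ, h0, h1, h2⟩ := hsolve G hG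
  have key : ∀ n i, μ i < n → ∀ σ, ER code code (C.inp i) σ (enc (y i)) σ (Φ i) := by
    intro n
    induction n with
    | zero => intro i hi; omega
    | succ n ih =>
      intro i hi σ
      obtain ⟨m, hm, he⟩ := (h i).2.2 code (φ i) (h0 i) (by
        rintro _ _ ⟨j, hj, rfl, rfl⟩ σ'
        obtain ⟨m, hm, he⟩ := ih j (by have := hμ i j hj; omega) σ'
        exact ⟨m, hm.trans (h1 i j hj), he⟩) σ (σ 3) rfl
      simp only [List.nil_append, update_eq_self] at he
      exact ⟨m, hm.trans (h2 i), he⟩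
  refine ⟨.fix code, _, hΦ.smul (K := 2) (by norm_num), fun i E σ => ?_⟩
  obtain ⟨m, hm, he⟩ := key _ i (Nat.lt_succ_self _) σ
  have p1 : (1 : ℝ) ≤ m := by exact_mod_cast (C.inp i).one_le_size.trans he.size_in
  rw [hi]
  exact he.fix.er (by push_cast; linarith)

end Crest.Agent.R326
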