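import Crest.Agent.R326.Tac

/-!
# Linear-time list primitives
-/

set_option linter.unusedVariables false

namespace Crest.Agent.R326

open Function
open Crest.Agent.Lib.PolyTime

variable {ι κ : Type} {C : Ctx ι} {ok : ι → V → V → Prop} {cnt cnt' : ι → ℝ}
  {α β γ δ : Type} [PEnc α] [PEnc β] [PEnc γ] [PEnc δ]

theorem enc_un' (n : ℕ) : enc (Un.mk n) = enc (tab n fun _ => ()) := by
  rw [enc_un]; congr 1; simp [tab]

theorem R.unTab {n : ι → ℕ} (h : R C fun i => Un.mk (n i)) : R C fun i => tab (n i) fun _ => () :=
  h.of_enc fun i => (enc_un' _).symm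

theorem R.ofUnTab {n : ι → ℕ} (h : R C fun i => tab (n i) fun _ => ()) :
    R C fun i => Un.mk (n i) := h.of_enc fun i => enc_un' _

theorem R.dom_length {l : ι → List α} (h : R C l) : C.Dom fun i => (l i).length + 1 :=
  h.dom_sz.mono fun i => by exact_mod_cast length_lt_sz (l i)

theorem R.dom_un {n : ι → ℕ} (h : R C fun i => Un.mk (n i)) : C.Dom fun i => n i + 1 := by
  simpa using h.unTab.dom_length

namespace Ctx

theorem pos_ok {T : ι → ℕ} {x : ι → ℕ → α}
    (h : C.Dom fun i => ∑ k ∈ Finset.range (T i), (sz (x i k) : ℝ)) : (C.pos T x).Ok :=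
  ⟨dom_pos (fun _ => by positivity) (h.congr fun i => by rw [Finset.sum_range]; rfl)⟩

theorem pos_ok₀ {T : ι → ℕ} {a : ι → ℕ → α} (h : C.Dom fun i => sz (tab (T i) (a i))) :
    (C.pos T a).Ok :=
  pos_ok (h.mono fun i => by
    rw [sz_tab]; push_cast; rw [Finset.sum_add_distrib]
    have : (0 : ℝ) ≤ ∑ k ∈ Finset.range (T i), (1 : ℝ) := by positivity
    linarith)

theorem pos_ok₂ {T : ι → ℕ} {s : ι → ℕ → γ} {a : ι → ℕ → α}
    (hs : C.Dom fun i => ∑ k ∈ Finset.range (T i), (sz (s i k) : ℝ))
    (h : C.Dom fun i => sz (tab (T i) (a i))) : (C.pos T fun i k => (s i k, a i k)).Ok :=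
  pos_ok ((hs.add h).mono fun i => by
    rw [sz_tab]; push_cast
    simp only [sz_pair]; push_cast
    simp only [Finset.sum_add_distrib]
    linarith)

theorem dom_sum_unif {T : ι → ℕ} {g : ι → ℕ → ℝ} {β : ι → ℝ} (h : C.Dom fun i => T i * β i)
    (hg : ∀ i k, k < T i → g i k ≤ β i) : C.Dom fun i => ∑ k ∈ Finset.range (T i), g i k :=
  h.mono fun i => by
    calc _ ≤ ∑ _k ∈ Finset.range (T i), β i :=
          Finset.sum_le_sum fun k hk => hg i k (Finset.mem_range.1 hk)
      _ = _ := by simp

/-- The elements of a list of admissible size have admissible sizes. -/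
theorem dom_pos_elem {T : ι → ℕ} {a : ι → ℕ → α} {x : ι → ℕ → γ}
    (h : C.Dom fun i => sz (tab (T i) (a i))) : (C.pos T x).Dom fun p => sz (a p.1 p.2) :=
  (pos_ok₀ h).out

end Ctx

theorem R.posInp {T : ι → ℕ} {x : ι → ℕ → α} (h : (C.pos T x).Ok) :
    R (C.pos T x) fun p => x p.1 p.2 := (R.inp h).of_enc fun _ => rfl

theorem R.reverseV {l : ι → List V} (h : R C l) : R C fun i => (l i).reverse := by
  have := h.isOk
  have hl : R C fun i => tab (l i).length fun k => (l i).getD k .nil :=
    h.congr fun i => tab_getD _ _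
  have hok := Ctx.pos_ok₂ (s := fun _ _ => ()) (Ctx.dom_sum_unif (β := fun _ => 1)
    (h.dom_length.mono fun i => by simp) (by simp)) hl.dom_sz
  have := (R.of_js (JS.accumRev (s := fun _ _ => ()) (t := fun _ _ => [])
    (b := fun i k => (l i).getD k .nil) (by rp) hl ((R.posInp hok).j _))).snd
  simpa only [tab_getD] using this

theorem R.reverse {l : ι → List α} (h : R C l) : R C fun i => (l i).reverse :=
  (R.reverseV (l := fun i => (l i).map enc) (h.of_enc fun i => enc_map_enc _)).of_enc fun i => by
    rw [← List.map_reverse, enc_map_enc]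

theorem JS.post_r {x : ι → α} {y : ι → β} {pre post : ι → List V} (h : JS C ok cnt pre post x)
    (hy : R (C.re x) (fun i => x i) → R (C.re x) y) : JS C ok cnt pre post y := by
  simpa using h.comp ((hy (R.self h.dom_sz)).js ok post)

theorem JS.pre_r {x : ι → α} {y : ι → β} {pre post : ι → List V} (hx : R C x)
    (h : JS (C.re x) ok cnt pre post y) : JS C ok cnt pre post y := by
  simpa using (hx.js ok pre).comp h

theorem JS.pair_l {x : ι → α} {y : ι → β} {pre post : ι → List V} (hx : R C x)
    (h : JS C ok cnt pre post y) : JS C ok cnt pre post fun i => (x i, y i) := by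
  simpa using (hx.js ok pre).pair h

theorem JS.pair_r {x : ι → α} {y : ι → β} {pre post : ι → List V} (h : JS C ok cnt pre post x)
    (hy : R C y) : JS C ok cnt pre post fun i => (x i, y i) := by
  simpa using h.pair (hy.js ok post)

/-- Run two programs one after the other and keep the second result. -/
theorem JS.andThen {x : ι → α} {y : ι → β} {pre mid post : ι → List V}
    (h₁ : JS C ok cnt pre mid x) (h₂ : JS C ok cnt' mid post y) :
    JS C ok (fun i => cnt i + cnt' i) pre post y := (h₁.pair h₂).post_r fun h => h.snd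

theorem JS.accum {T : ι → ℕ} {s : ι → ℕ → γ} {a : ι → ℕ → α} {b : ι → ℕ → β}
    {t : ι → ℕ → List V} {cn : (Σ i, Fin (T i)) → ℝ} (hs : R C fun i => s i 0)
    (hl : R C fun i => tab (T i) (a i))
    (hb : JS (C.pos T fun i k => (s i k, a i k)) (fun p => ok p.1) cn (fun p => t p.1 p.2)
      (fun p => t p.1 (p.2 + 1)) fun p => (s p.1 (p.2 + 1), b p.1 p.2)) :
    JS C ok (fun i => ∑ k : Fin (T i), cn ⟨i, k⟩) (fun i => t i 0) (fun i => t i (T i))
      fun i => (s i (T i), tab (T i) (b i)) :=
  (JS.accumRev hs hl hb).post_r fun h => by simpa using h.fst.pair h.snd.reverse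

/-- `mapAccum`. -/
theorem R.accum {T : ι → ℕ} {s : ι → ℕ → γ} {a : ι → ℕ → α} {b : ι → ℕ → β}
    (hs : R C fun i => s i 0) (hl : R C fun i => tab (T i) (a i))
    (hD : C.Dom fun i => ∑ k ∈ Finset.range (T i), (sz (s i k) : ℝ))
    (hb : R (C.pos T fun i k => (s i k, a i k)) (fun p => s p.1 p.2) →
      R (C.pos T fun i k => (s i k, a i k)) (fun p => a p.1 p.2) →
      R (C.pos T fun i k => (s i k, a i k)) fun p => (s p.1 (p.2 + 1), b p.1 p.2)) :
    R C fun i => (s i (T i), tab (T i) (b i)) := by
  have h := R.posInp (Ctx.pos_ok₂ hD hl.dom_sz)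
  exact R.of_js (JS.accum (t := fun _ _ => []) hs hl ((hb h.fst h.snd).j _))

/-- Iteration of a state along a list. -/
theorem R.iter {T : ι → ℕ} {s : ι → ℕ → γ} {a : ι → ℕ → α}
    (hs : R C fun i => s i 0) (hl : R C fun i => tab (T i) (a i))
    (hD : C.Dom fun i => ∑ k ∈ Finset.range (T i), (sz (s i k) : ℝ))
    (hb : R (C.pos T fun i k => (s i k, a i k)) (fun p => s p.1 p.2) →
      R (C.pos T fun i k => (s i k, a i k)) (fun p => a p.1 p.2) →
      R (C.pos T fun i k => (s i k, a i k)) fun p => s p.1 (p.2 + 1)) :
    R C fun i => s i (T i) :=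
  (R.accum (b := fun _ _ => ()) hs hl hD fun h₁ h₂ =>
    (hb h₁ h₂).pair (R.const (h := h₁.isOk) ())).fst

/-- `map` with a parameter; the body may call the environment. -/
theorem J.tabMap {T : ι → ℕ} {par : ι → γ} {a : ι → ℕ → α} {b : ι → ℕ → β}
    {cn : (Σ i, Fin (T i)) → ℝ} (hp : R C par) (hl : R C fun i => tab (T i) (a i))
    (hD : C.Dom fun i => T i * sz (par i))
    (hb : R (C.pos T fun i k => (par i, a i k)) (fun p => par p.1) →
      R (C.pos T fun i k => (par i, a i k)) (fun p => a p.1 p.2) →
      J (C.pos T fun i k => (par i, a i k)) (fun p => ok p.1) cn fun p => b p.1 p.2) :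
    J C ok (fun i => ∑ k : Fin (T i), cn ⟨i, k⟩) fun i => tab (T i) (b i) := by
  have h := R.posInp (Ctx.pos_ok₂ (s := fun i _ => par i)
    (Ctx.dom_sum_unif hD fun _ _ _ => le_rfl) hl.dom_sz)
  exact (JS.accum (s := fun i _ => par i) (t := fun _ _ => []) hp hl
    (JS.pair_l h.fst (hb h.fst h.snd))).post_r fun h => h.snd

/-- `map` with a parameter. -/
theorem R.tabMap {T : ι → ℕ} {par : ι → γ} {a : ι → ℕ → α} {b : ι → ℕ → β}
    (hp : R C par) (hl : R C fun i => tab (T i) (a i)) (hD : C.Dom fun i => T i * sz (par i))
    (hb : R (C.pos T fun i k => (par i, a i k)) (fun p => par p.1) →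
      R (C.pos T fun i k => (par i, a i k)) (fun p => a p.1 p.2) →
      R (C.pos T fun i k => (par i, a i k)) fun p => b p.1 p.2) :
    R C fun i => tab (T i) (b i) :=
  J.r (J.tabMap hp hl hD fun h₁ h₂ => (hb h₁ h₂).j _)

/-- `map` without parameter. -/
theorem R.tabMap₀ {T : ι → ℕ} {a : ι → ℕ → α} {b : ι → ℕ → β} (hl : R C fun i => tab (T i) (a i))
    (hb : R (C.pos T fun i k => ((), a i k)) (fun p => a p.1 p.2) →
      R (C.pos T fun i k => ((), a i k)) fun p => b p.1 p.2) :
    R C fun i => tab (T i) (b i) :=
  R.tabMap (R.const (h := hl.isOk) ()) hl (hl.dom_length.mono fun i => by simp) fun _ h => hb h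

theorem enc_tab_getD (l : List α) :
    enc (tab l.length fun k => ((l.map enc).getD k V.nil : V)) = enc l := by
  conv_rhs => rw [← enc_map_enc, ← tab_getD (l.map enc) V.nil, List.length_map]

/-- `map` of a linear-time function. -/
theorem R.map {f : α → β} {l : ι → List α} (hf : Lin f) (hl : R C l) :
    R C fun i => (l i).map f := by
  have h1 : R C fun i => tab (l i).length fun k => (((l i).map enc).getD k V.nil : V) :=
    hl.of_enc fun i => enc_tab_getD _
  refine (R.tabMap₀ (b := fun i k => ((((l i).map f).map enc).getD k V.nil : V)) h1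
    fun h => ?_).of_enc fun i => by simpa using (enc_tab_getD ((l i).map f)).symm
  have h2 : R (C.pos (fun i => (l i).length) fun i k => ((), (((l i).map enc).getD k V.nil : V)))
      fun p => (l p.1)[p.2] := h.of_enc fun p => by simp
  exact (hf.r h2).of_enc fun p => by simp

/-- Push the elements of a list, in reverse order, on the list on top of stream `3`. -/
theorem JS.revOnto {l t : ι → List V} {pre : ι → List V} (hl : R C l) :
    JS C ok (fun _ => 0) (fun i => enc (t i) :: pre i)
      (fun i => enc ((l i).reverse ++ t i) :: pre i) fun _ => () := by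
  have := hl.isOk
  have h1 : R C fun i => tab (l i).length fun k => (l i).getD k .nil :=
    hl.congr fun i => tab_getD _ _
  have hok := Ctx.pos_ok₂ (s := fun _ _ => ()) (Ctx.dom_sum_unif (β := fun _ => 1)
    (hl.dom_length.mono fun i => by simp) (by simp)) h1.dom_sz
  have h2 := JS.accumRev (ok := ok) (s := fun _ _ => ()) (b := fun _ _ => ())
    (t := fun i k => enc (((l i).take k).reverse ++ t i) :: pre i) (cn := fun _ => 0) (by rp) h1
    (JS.pair_l (by rp) ((JS.cons (pre := fun p => pre p.1)
      (t := fun p => ((l p.1).take p.2).reverse ++ t p.1) (R.posInp hok).snd).congr_str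
        (fun _ => rfl) fun p => by
          rw [List.take_add_one, List.getD_eq_getElem?_getD, List.getElem?_eq_getElem p.2.2,
            Option.toList_some, List.reverse_append]; rfl))
  exact ((h2.post_r fun h => h.fst).congr_str (by simp) (by simp)).mono (fun _ _ _ h => h)
    (by simp)

theorem R.flattenV {l : ι → List (List V)} (hl : R C l) : R C fun i => (l i).flatten := by
  have := hl.isOk
  have h1 : R C fun i => tab (l i).length fun k => (l i).getD k [] :=
    hl.congr fun i => tab_getD _ _
  have hok := Ctx.pos_ok₂ (s := fun _ _ => ()) (Ctx.dom_sum_unif (β := fun _ => 1)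
    (hl.dom_length.mono fun i => by simp) (by simp)) h1.dom_sz
  have h2 := JS.accumRev (ok := fun _ _ _ => False) (s := fun _ _ => ()) (b := fun _ _ => ())
    (t := fun i k => [enc ((l i).take k).flatten.reverse]) (cn := fun _ => 0) (by rp) h1
    (JS.pair_l (by rp) ((JS.revOnto (pre := fun p => [])
      (t := fun p => ((l p.1).take p.2).flatten.reverse) (R.posInp hok).snd).congr_str
        (fun _ => rfl) fun p => by
          rw [List.take_add_one, List.getD_eq_getElem?_getD, List.getElem?_eq_getElem p.2.2,
            Option.toList_some, List.flatten_append, List.reverse_append]; simp))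
  have hsz : C.Dom fun i => sz (l i).flatten.reverse := hl.dom_sz.mono fun i => by
    rw [sz_reverse]
    norm_cast
    induction l i with
    | nil => simp
    | cons x xs ih => have := sz_append x xs.flatten; simp only [List.flatten_cons, sz_cons]; omega
  have h3 := ((JS.push (ok := fun _ _ _ => False) (pre := fun _ => [])
    (x := fun _ => ([] : List V)) (by rp)).andThen
    (h2.congr_str (fun _ => rfl) (post' := fun i => [enc (l i).flatten.reverse])
      (by simp))).andThen (JS.pop (post := fun _ => []) (x := fun _ => ()) (by rp) hsz)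
  simpa using (R.of_js h3).reverse

theorem R.flatten {l : ι → List (List α)} (hl : R C l) : R C fun i => (l i).flatten :=
  (R.flattenV (l := fun i => (l i).map (List.map enc)) (hl.of_enc fun i => by
    induction l i with
    | nil => rfl
    | cons x xs ih => simp [ih, enc_map_enc])).of_enc fun i => by
      rw [← List.map_flatten, enc_map_enc]

theorem R.hAppend {l m : ι → List α} (hl : R C l) (hm : R C m) : R C fun i => l i ++ m i := by
  have := hl.isOk
  have : R C fun i => [l i, m i].flatten := R.flatten (by rp)
  simpa using this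

theorem R.flatMap {f : α → List β} {l : ι → List α} (hf : Lin f) (hl : R C l) :
    R C fun i => (l i).flatMap f := (R.map hf hl).flatten.congr fun i => List.flatMap_def ..

theorem R.toList {o : ι → Option α} (h : R C o) : R C fun i => (o i).toList :=
  h.of_enc fun i => by cases o i <;> rfl

theorem R.head? {l : ι → List α} (h : R C l) : R C fun i => (l i).head? :=
  h.isEmpty.dcond ((R.const (h := @Ctx.Ok.comap _ _ _ h.isOk _) (none : Option α)).congr
      fun i => by have := i.2; cases hl : l i.1 <;> simp_all)
    (((h.comap _).enc'.left.pair (R.const (h := @Ctx.Ok.comap _ _ _ h.isOk _) ())).of_enc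
      fun i => by have := i.2; cases hl : l i.1 <;> simp_all)

theorem R.reduceOption {l : ι → List (Option α)} (hl : R C l) :
    R C fun i => (l i).reduceOption :=
  (R.flatten (l := fun i => (l i).map Option.toList) (hl.of_enc fun i => by
    induction l i with
    | nil => rfl
    | cons x xs ih => cases x <;> simp [ih])).congr fun i => by
      induction l i with
      | nil => rfl
      | cons x xs ih => cases x <;> simp [ih]

/-- Pop the head, if any, of the list on top of stream `3`. -/
theorem JS.unconsOpt {u : ι → γ} {t : ι → List α} {pre : ι → List V} (hu : R C u)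
    (ht : C.Dom fun i => sz (t i).head?) :
    JS C ok (fun _ => 0) (fun i => enc (t i) :: pre i) (fun i => enc (t i).tail :: pre i)
      fun i => (t i).head? :=
  JS.prim hu (.uncons 3) _ (hu.dom_sz.add ht) fun i E σ r hσ => by
    cases h : t i with
    | nil =>
      rw [h] at hσ
      have := EL.uncons_nil (E := E) (v := enc (u i)) hσ
      have e : update σ 3 (enc ([] : List α).tail :: pre i ++ r) = σ := by
        rw [show enc ([] : List α).tail :: pre i ++ r = σ 3 from hσ.symm, update_eq_self]
      rw [e]
      exact this.er (by simp)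
    | cons x xs =>
      rw [h] at hσ
      exact (EL.uncons_node (E := E) (v := enc (u i)) hσ).er (by simp; linarith)

theorem sum_sz_getElem? (l : List α) (n : ℕ) :
    ∑ k ∈ Finset.range n, sz l[k]? ≤ 2 * sz l + n := by
  induction l generalizing n with
  | nil => simp
  | cons x xs ih =>
    cases n with
    | zero => simp
    | succ n =>
      rw [Finset.sum_range_succ']
      have := ih n
      simp; omega

/-- `take` and `drop` with a unary count. -/
theorem R.splitAt {l : ι → List α} {n : ι → ℕ} (hn : R C fun i => Un.mk (n i)) (hl : R C l) :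
    R C fun i => ((l i).take (n i), (l i).drop (n i)) := by
  have := hl.isOk
  have hok := Ctx.pos_ok₂ (s := fun _ _ => ()) (Ctx.dom_sum_unif (β := fun _ => 1)
    (hn.dom_un.mono fun i => by simp) (by simp)) hn.unTab.dom_sz
  have h2 := JS.accum (ok := fun _ _ _ => False) (s := fun _ _ => ()) (b := fun i k => (l i)[k]?)
    (t := fun i k => [enc ((l i).drop k)]) (cn := fun _ => 0) (by rp) hn.unTab
    (JS.pair_l (by rp) (((JS.unconsOpt (pre := fun p => []) (u := fun _ => ())
      (t := fun p => (l p.1).drop p.2) (by rp) (Ctx.dom_pos (fun _ => by positivity)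
        (((hl.dom_sz.smul (K := 2) (by norm_num)).add hn.dom_un).mono fun i => by
          have := sum_sz_getElem? (l i) (n i)
          rw [Finset.sum_range] at this
          simp only [List.head?_drop]
          have : ((∑ k : Fin (n i), sz (l i)[(k : ℕ)]? : ℕ) : ℝ) ≤ 2 * sz (l i) + n i := by
            exact_mod_cast this
          push_cast at this
          linarith))).congr_str (fun _ => rfl) fun p => by simp).congr fun p => by simp))
  have h3 := ((JS.push (ok := fun _ _ _ => False) (pre := fun _ => []) hl).andThen h2).pair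
    (JS.pop (post := fun _ => []) (x := fun _ => ()) (t := fun i => (l i).drop (n i)) (by rp)
      (hl.dom_sz.mono fun i => by exact_mod_cast sz_le_of_sublist (List.drop_sublist _ _)))
  have h4 := R.of_js h3
  refine (h4.fst.snd.reduceOption.pair h4.snd).congr fun i => ?_
  congr 1
  simp only
  generalize n i = m
  induction m with
  | zero => simp
  | succ m ih => rw [tab_succ, List.reduceOption_append, ← ih, List.take_add_one]; cases (l i)[m]? <;> simp

theorem R.take {l : ι → List α} {n : ι → ℕ} (hn : R C fun i => Un.mk (n i)) (hl : R C l) :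
    R C fun i => (l i).take (n i) := (R.splitAt hn hl).fst

theorem R.drop {l : ι → List α} {n : ι → ℕ} (hn : R C fun i => Un.mk (n i)) (hl : R C l) :
    R C fun i => (l i).drop (n i) := (R.splitAt hn hl).snd

theorem drop_tab {α : Type} (T k : ℕ) (a : ℕ → α) (h : k < T) :
    (tab T a).drop k = a k :: (tab T a).drop (k + 1) := by
  rw [List.drop_eq_getElem_cons (by simpa using h)]; simp

theorem R.zipTab {T : ι → ℕ} {a : ι → ℕ → α} {b : ι → ℕ → β} (ha : R C fun i => tab (T i) (a i))
    (hb : R C fun i => tab (T i) (b i)) : R C fun i => tab (T i) fun k => (a i k, b i k) := by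
  have := ha.isOk
  have hok := Ctx.pos_ok₂ (s := fun _ _ => ()) (Ctx.dom_sum_unif (β := fun _ => 1)
    (ha.dom_length.mono fun i => by simp) (by simp)) ha.dom_sz
  have h2 := JS.accum (ok := fun _ _ _ => False) (s := fun _ _ => ())
    (b := fun i k => (a i k, b i k))
    (t := fun i k => [enc ((tab (T i) (b i)).drop k)]) (cn := fun _ => 0) (by rp) ha
    (JS.pair_l (by rp) (JS.pair_l (R.posInp hok).snd ((JS.uncons
      (C := C.pos T fun i k => ((), a i k)) (pre := fun p => [])
      (u := fun _ => ()) (x := fun p => b p.1 p.2)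
      (t := fun p => (tab (T p.1) (b p.1)).drop (p.2 + 1)) (by rp)
      (Ctx.dom_pos_elem hb.dom_sz)).congr_str
        (fun p => by rw [drop_tab _ _ _ p.2.2]) fun p => rfl)))
  have h3 := ((JS.push (ok := fun _ _ _ => False) (pre := fun _ => []) hb).andThen h2).pair
    (JS.pop (post := fun _ => []) (x := fun _ => ())
      (t := fun i => (tab (T i) (b i)).drop (T i)) (by rp)
      (hb.dom_sz.mono fun i => by exact_mod_cast sz_le_of_sublist (List.drop_sublist _ _)))
  exact (R.of_js h3).fst.snd

theorem R.zip {l : ι → List α} {m : ι → List β} (hl : R C l) (hm : R C m)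
    (h : ∀ i, (l i).length = (m i).length) : R C fun i => (l i).zip (m i) := by
  have h1 : R C fun i => tab (l i).length fun k => (((l i).map enc).getD k V.nil : V) :=
    hl.of_enc fun i => enc_tab_getD _
  have h2 : R C fun i => tab (l i).length fun k => (((m i).map enc).getD k V.nil : V) :=
    hm.of_enc fun i => by rw [h i]; exact enc_tab_getD _
  refine (h1.zipTab h2).of_enc fun i => ?_
  rw [← enc_tab_getD, List.length_zip, ← h i, min_self]
  refine enc_tab_congr fun k hk => ?_
  have := h i ▸ hk
  simp [hk, this, enc_prod]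

theorem R.zipWith {f : α → β → γ} {l : ι → List α} {m : ι → List β}
    (hf : Lin fun p : α × β => f p.1 p.2) (hl : R C l) (hm : R C m)
    (h : ∀ i, (l i).length = (m i).length) : R C fun i => List.zipWith f (l i) (m i) :=
  (R.map hf (hl.zip hm h)).congr fun i => by simp [List.zip, List.map_zipWith]

/-- Cut a list of length `n * k` into `n` pieces of length `k`. -/
theorem R.chunks {n k : ι → ℕ} {a : ι → ℕ → α} (hn : R C fun i => Un.mk (n i))
    (hk : R C fun i => Un.mk (k i)) (ha : R C fun i => tab (n i * k i) (a i)) :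
    R C fun i => tab (n i) fun c => tab (k i) fun t => a i (c * k i + t) := by
  have := ha.isOk
  have hnk : C.Dom fun i => n i * sz (Un.mk (k i)) :=
    ((ha.dom_length.smul (K := 2) (by norm_num)).add hn.dom_un).mono fun i => by
      simp [sz_un]; nlinarith
  have hok := Ctx.pos_ok₂ (s := fun i _ => Un.mk (k i))
    (Ctx.dom_sum_unif hnk fun _ _ _ => le_rfl) hn.unTab.dom_sz
  set C' := C.pos n fun i c => (Un.mk (k i), ()) with hC'
  have hk' : R C' fun p => Un.mk (k p.1) := (R.posInp hok).fst
  have hok' := Ctx.pos_ok₂ (s := fun _ _ => ()) (Ctx.dom_sum_unif (β := fun _ => 1)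
    (hk'.dom_un.mono fun i => by simp) (by simp)) hk'.unTab.dom_sz
  have hsz : C'.Dom fun p => sz (tab (k p.1) fun t => a p.1 (p.2 * k p.1 + t)) :=
    Ctx.dom_pos (fun _ => by positivity) ((ha.dom_sz.add hn.dom_un).mono fun i => by
      have : ∀ m, ∑ c ∈ Finset.range m, sz (tab (k i) fun t => a i (c * k i + t)) ≤
          sz (tab (m * k i) (a i)) + m := by
        intro m
        induction m with
        | zero => simp
        | succ m ih =>
          rw [Finset.sum_range_succ, Nat.succ_mul, tab_add]
          have := sz_append (tab (m * k i) (a i)) (tab (k i) fun t => a i (m * k i + t))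
          omega
      have h := this (n i)
      rw [Finset.sum_range] at h
      have : ((∑ c : Fin (n i), sz (tab (k i) fun t => a i (c * k i + t)) : ℕ) : ℝ) ≤
          sz (tab (n i * k i) (a i)) + n i := by exact_mod_cast h
      push_cast at this
      linarith)
  have hin := JS.accum (C := C') (ok := fun _ _ _ => False) (s := fun _ _ => ())
    (b := fun p t => a p.1 (p.2 * k p.1 + t))
    (t := fun p t => [enc ((tab (n p.1 * k p.1) (a p.1)).drop (p.2 * k p.1 + t))])
    (cn := fun _ => 0) (by rp) hk'.unTab
    (JS.pair_l (by rp) ((JS.uncons (C := C'.pos (fun p => k p.1) fun _ _ => ((), ()))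
      (pre := fun p => []) (u := fun _ => ())
      (x := fun q => a q.1.1 (q.1.2 * k q.1.1 + q.2))
      (t := fun q => (tab (n q.1.1 * k q.1.1) (a q.1.1)).drop (q.1.2 * k q.1.1 + q.2 + 1)) (by rp)
      (Ctx.dom_pos_elem (C := C') (a := fun p t => a p.1 (p.2 * k p.1 + t)) hsz)).congr_str
        (fun q => by
          rw [drop_tab]
          have h1 := q.2.2
          have h2 := q.1.2.2
          nlinarith) fun p => rfl))
  have h2 := JS.accum (ok := fun _ _ _ => False) (s := fun i _ => Un.mk (k i))
    (b := fun i c => tab (k i) fun t => a i (c * k i + t))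
    (t := fun i c => [enc ((tab (n i * k i) (a i)).drop (c * k i))]) hk hn.unTab
    (JS.pair_l hk' ((hin.post_r fun h => h.snd).congr_str (fun _ => rfl)
      fun p => by rw [Nat.succ_mul]))
  have h3 := ((JS.push (ok := fun _ _ _ => False) (pre := fun _ => []) ha).andThen
    (h2.congr_str (fun _ => by simp) fun _ => rfl)).pair
    (JS.pop (post := fun _ => []) (x := fun _ => ())
      (t := fun i => (tab (n i * k i) (a i)).drop (n i * k i)) (by rp)
      (ha.dom_sz.mono fun i => by exact_mod_cast sz_le_of_sublist (List.drop_sublist _ _)))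
  exact (R.of_js h3).fst.snd

theorem flatten_tab {α : Type} (n k : ℕ) (a : ℕ → ℕ → α) :
    (tab n fun c => tab k (a c)).flatten = tab (n * k) fun j => a (j / k) (j % k) := by
  induction n with
  | zero => simp
  | succ n ih =>
    rw [tab_succ, List.flatten_append, ih, Nat.succ_mul, tab_add]
    simp only [List.flatten_cons, List.flatten_nil, List.append_nil]
    congr 1
    refine tab_congr fun t ht => ?_
    have hk : 0 < k := by omega
    rw [Nat.add_comm, Nat.add_mul_div_right _ _ hk, Nat.add_mul_mod_self_right,
      Nat.div_eq_of_lt ht, Nat.mod_eq_of_lt ht, Nat.zero_add]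

theorem R.unchunks {n k : ι → ℕ} {a : ι → ℕ → ℕ → α}
    (ha : R C fun i => tab (n i) fun c => tab (k i) (a i c)) :
    R C fun i => tab (n i * k i) fun j => a i (j / k i) (j % k i) :=
  ha.flatten.congr fun i => (flatten_tab _ _ _).symm

theorem R.replicate {n : ι → ℕ} {x : ι → α} (hn : R C fun i => Un.mk (n i)) (hx : R C x)
    (hD : C.Dom fun i => n i * sz (x i)) : R C fun i => List.replicate (n i) (x i) :=
  (R.tabMap (b := fun i _ => x i) hx hn.unTab hD fun h _ => h).congr fun i => by simp [tab]

theorem R.lenUn {l : ι → List α} (hl : R C l) : R C fun i => Un.mk (l i).length :=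
  R.ofUnTab ((R.map (f := fun _ => ()) (by rp) hl).congr fun i => by
    apply List.ext_getElem <;> simp)

theorem R.unAdd {m n : ι → ℕ} (hm : R C fun i => Un.mk (m i)) (hn : R C fun i => Un.mk (n i)) :
    R C fun i => Un.mk (m i + n i) := by
  simpa using (hm.unTab.hAppend hn.unTab).lenUn

theorem R.unSub {m n : ι → ℕ} (hm : R C fun i => Un.mk (m i)) (hn : R C fun i => Un.mk (n i)) :
    R C fun i => Un.mk (m i - n i) := by
  simpa using (R.drop hn hm.unTab).lenUn

theorem R.unMul {m n : ι → ℕ} (hm : R C fun i => Un.mk (m i)) (hn : R C fun i => Un.mk (n i))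
    (hD : C.Dom fun i => m i * n i) : R C fun i => Un.mk (m i * n i) := by
  have := (R.replicate hm hn.unTab (((hD.smul (K := 2) (by norm_num)).add hm.dom_un).mono
    fun i => by rw [sz, ← enc_un', size_enc, sz_un]; push_cast; nlinarith)).flatten.lenUn
  simpa using this

theorem R.unConstMul {n : ι → ℕ} (c : ℕ) (hn : R C fun i => Un.mk (n i)) :
    R C fun i => Un.mk (c * n i) :=
  R.unMul (R.const (h := hn.isOk) _) hn (hn.dom_un.mono_mul c (by positivity) fun i => by
    nlinarith [(by positivity : (0 : ℝ) ≤ c)])

/-- Access at a fixed position. -/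
theorem R.getD {l : ι → List α} {d : ι → α} (k : ℕ) (hl : R C l) (hd : R C d) :
    R C fun i => (l i).getD k (d i) := by
  induction k generalizing l with
  | zero => exact (hl.headD hd).congr fun i => by cases l i <;> simp
  | succ k ih => exact (ih hl.tail).congr fun i => by cases l i <;> simp

theorem R.ofFn {W : ℕ} [C.Ok] {x : ι → Fin W → α} (h : ∀ w, R C fun i => x i w) :
    R C fun i => List.ofFn (x i) := by
  induction W with
  | zero => simpa using R.const ([] : List α)
  | succ W ih => simpa [List.ofFn_succ] using (h 0).cons (ih fun w => h w.succ)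

theorem R.ofFn_get {W : ℕ} {x : ι → Fin W → α} (h : R C fun i => List.ofFn (x i)) (w : Fin W) :
    R C fun i => x i w := by
  have := h.isOk
  have h1 : R C fun i => ((List.ofFn (x i)).map enc : List V) := h.of_enc fun i => enc_map_enc _
  exact (R.getD w.val h1 (R.const V.nil)).of_enc fun i => by simp

end Crest.Agent.R326
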