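import Mathlib

/-!
# The Schönhage–Strassen recursion for negacyclic products of integer sequences (mathematics)

`alg ℓ μ e a b` multiplies two tables in `ℤ[y, x] / (y ^ 2 ^ ℓ + 1, x ^ 2 ^ μ - y ^ e)`, up to the
factor `2 ^ sig ℓ μ`.
-/

set_option autoImplicit false

namespace Crest.Agent.R326.Mul

open Finset Polynomial

/-- Multiplication by `y ^ (-s)` modulo `y ^ n + 1`. -/
def shf (n s : ℕ) (a : ℕ → ℤ) (j : ℕ) : ℤ := (-1) ^ ((s + j) / n) * a ((s + j) % n)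

/-- Reduction modulo `x ^ m - y ^ e`. -/
def fwP (n m e : ℕ) (a : ℕ → ℕ → ℤ) (i j : ℕ) : ℤ := a i j + shf n (2 * n - e) (a (m + i)) j

/-- Reduction modulo `x ^ m + y ^ e`. -/
def fwM (n m e : ℕ) (a : ℕ → ℕ → ℤ) (i j : ℕ) : ℤ := a i j - shf n (2 * n - e) (a (m + i)) j

/-- Chinese remaindering (times two). -/
def bw (n m e : ℕ) (u v : ℕ → ℕ → ℤ) (i j : ℕ) : ℤ :=
  if i < m then u i j + v i j else shf n e (fun t => u (i - m) t - v (i - m) t) j

/-- Cut into blocks of length `m` and pad them with zeros. -/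
def pad (m : ℕ) (a : ℕ → ℤ) (i j : ℕ) : ℤ := if j < m then a (i * m + j) else 0

/-- Overlap and add blocks of length `2 m`. -/
def fold (n m : ℕ) (c : ℕ → ℕ → ℤ) (t : ℕ) : ℤ :=
  c (t / m) (t % m) + shf n (2 * n - m) (fun t => c (t / m) (m + t % m)) t

/-- The multiples `y ^ k b`. -/
def schB (n : ℕ) (b : ℕ → ℤ) : ℕ → ℕ → ℤ
  | 0 => b
  | k + 1 => shf n (2 * n - 1) (schB n b k)

/-- Partial sums of the schoolbook product. -/
def schA (n : ℕ) (a b : ℕ → ℤ) : ℕ → ℕ → ℤ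
  | 0 => fun _ => 0
  | k + 1 => fun t => schA n a b k t + a k * schB n b k t

/-- The recursive algorithm. -/
def alg (ℓ μ e : ℕ) (a b : ℕ → ℕ → ℤ) : ℕ → ℕ → ℤ :=
  if μ ≠ 0 then
    bw (2 ^ ℓ) (2 ^ (μ - 1)) (e / 2)
      (alg ℓ (μ - 1) (e / 2) (fwP (2 ^ ℓ) (2 ^ (μ - 1)) (e / 2) a)
        (fwP (2 ^ ℓ) (2 ^ (μ - 1)) (e / 2) b))
      (alg ℓ (μ - 1) (e / 2 + 2 ^ ℓ) (fwM (2 ^ ℓ) (2 ^ (μ - 1)) (e / 2) a)
        (fwM (2 ^ ℓ) (2 ^ (μ - 1)) (e / 2) b))
  else if 2 < ℓ then fun _ =>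
    fold (2 ^ ℓ) (2 ^ (ℓ / 2))
      (alg (ℓ / 2 + 1) (ℓ - ℓ / 2) (2 ^ (ℓ / 2 + 1)) (pad (2 ^ (ℓ / 2)) (a 0))
        (pad (2 ^ (ℓ / 2)) (b 0)))
  else fun _ => schA (2 ^ ℓ) (a 0) (b 0) (2 ^ ℓ)
termination_by (ℓ, μ)
decreasing_by
  · exact Prod.Lex.right _ (by omega)
  · exact Prod.Lex.right _ (by omega)
  · exact Prod.Lex.left _ _ (by omega)

/-- The number of doublings. -/
def sig (ℓ μ : ℕ) : ℕ :=
  if μ ≠ 0 then sig ℓ (μ - 1) + 1
  else if 2 < ℓ then sig (ℓ / 2 + 1) (ℓ - ℓ / 2) else 0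
termination_by (ℓ, μ)
decreasing_by
  · exact Prod.Lex.right _ (by omega)
  · exact Prod.Lex.left _ _ (by omega)

theorem sig_le (ℓ μ : ℕ) : sig ℓ μ ≤ μ + 3 * (ℓ - 2) := by
  induction ℓ, μ using sig.induct with
  | case1 ℓ μ h ih => rw [sig, if_pos h]; omega
  | case2 ℓ μ h h' ih => rw [sig, if_neg h, if_pos h']; omega
  | case3 ℓ μ h h' => rw [sig, if_neg h, if_neg h']; omega

section ev
variable {A : Type} [CommRing A]

/-- Evaluation of a sequence. -/
def evL (y : A) (n : ℕ) (a : ℕ → ℤ) : A := ∑ j ∈ range n, (a j : A) * y ^ j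

/-- Evaluation of a table. -/
def evT (x y : A) (m n : ℕ) (a : ℕ → ℕ → ℤ) : A := ∑ i ∈ range m, evL y n (a i) * x ^ i

theorem evL_congr (y : A) {n : ℕ} {a b : ℕ → ℤ} (h : ∀ j, j < n → a j = b j) :
    evL y n a = evL y n b := sum_congr rfl fun j hj => by rw [h j (mem_range.1 hj)]

theorem evL_add (y : A) (n : ℕ) (a b : ℕ → ℤ) :
    evL y n (fun j => a j + b j) = evL y n a + evL y n b := by
  simp [evL, add_mul, sum_add_distrib]

theorem evL_sub (y : A) (n : ℕ) (a b : ℕ → ℤ) :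
    evL y n (fun j => a j - b j) = evL y n a - evL y n b := by
  simp [evL, sub_mul, sum_sub_distrib]

theorem evL_mul (y : A) (n : ℕ) (c : ℤ) (a : ℕ → ℤ) :
    evL y n (fun j => c * a j) = c * evL y n a := by
  simp [evL, mul_sum, mul_assoc]

theorem evL_split (y : A) (m n : ℕ) (a : ℕ → ℤ) :
    evL y (m + n) a = evL y m a + y ^ m * evL y n fun j => a (m + j) := by
  rw [evL, sum_range_add, evL, evL, mul_sum]
  congr 1
  exact sum_congr rfl fun j _ => by ring

theorem evT_split (x y : A) (m k n : ℕ) (a : ℕ → ℕ → ℤ) :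
    evT x y (m + k) n a = evT x y m n a + x ^ m * evT x y k n fun i => a (m + i) := by
  rw [evT, sum_range_add, evT, evT, mul_sum]
  congr 1
  exact sum_congr rfl fun j _ => by ring

theorem evT_one (x y : A) (n : ℕ) (a : ℕ → ℕ → ℤ) : evT x y 1 n a = evL y n (a 0) := by
  simp [evT]

theorem map_evL {B : Type} [CommRing B] (φ : A →+* B) (y : A) (n : ℕ) (a : ℕ → ℤ) :
    φ (evL y n a) = evL (φ y) n a := by simp [evL]

theorem map_evT {B : Type} [CommRing B] (φ : A →+* B) (x y : A) (m n : ℕ) (a : ℕ → ℕ → ℤ) :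
    φ (evT x y m n a) = evT (φ x) (φ y) m n a := by simp [evT, map_evL]

theorem evL_shf {y : A} {n : ℕ} (hn : 0 < n) (hy : y ^ n = -1) (s : ℕ) (a : ℕ → ℤ) :
    evL y n (shf n s a) * y ^ s = evL y n a := by
  set f : ℕ → A := fun t => (((-1) ^ (t / n) * a (t % n) : ℤ) : A) * y ^ t with hf
  have hper : ∀ t, f (t + n) = f t := fun t => by
    simp only [hf, Nat.add_div_right t hn, Nat.add_mod_right, pow_add, hy]
    push_cast; ring
  have h1 : ∀ s, ∑ j ∈ range n, f (s + j) = ∑ j ∈ range n, f j := by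
    intro s
    induction s with
    | zero => simp
    | succ s ih =>
      have e1 := sum_range_succ (fun j => f (s + j)) n
      have e2 := sum_range_succ' (fun j => f (s + j)) n
      rw [← ih]
      have e3 : ∑ j ∈ range n, f (s + 1 + j) = ∑ j ∈ range n, f (s + (j + 1)) :=
        sum_congr rfl fun j _ => by congr 1; omega
      rw [e3]
      rw [hper] at e1
      rw [Nat.add_zero] at e2
      exact add_right_cancel (e2.symm.trans e1)
  calc evL y n (shf n s a) * y ^ s = ∑ j ∈ range n, f (s + j) := by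
        rw [evL, sum_mul]
        exact sum_congr rfl fun j _ => by simp only [hf, shf]; ring
    _ = ∑ j ∈ range n, f j := h1 s
    _ = evL y n a := sum_congr rfl fun j hj => by
        have := mem_range.1 hj
        simp [hf, Nat.div_eq_of_lt this, Nat.mod_eq_of_lt this]

theorem pow_mul_pow_eq_one {y : A} {n : ℕ} (hy : y ^ n = -1) {s : ℕ} (hs : s ≤ 2 * n) :
    y ^ (2 * n - s) * y ^ s = 1 := by
  rw [← pow_add, Nat.sub_add_cancel hs, mul_comm, pow_mul, hy]; simp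

theorem evL_shf' {y : A} {n : ℕ} (hn : 0 < n) (hy : y ^ n = -1) {s : ℕ} (hs : s ≤ 2 * n)
    (a : ℕ → ℤ) : evL y n (shf n (2 * n - s) a) = y ^ s * evL y n a := by
  rw [← evL_shf hn hy (2 * n - s) a]
  linear_combination (-evL y n (shf n (2 * n - s) a)) * pow_mul_pow_eq_one hy hs

theorem evL_shf'' {y : A} {n : ℕ} (hn : 0 < n) (hy : y ^ n = -1) {s : ℕ} (hs : s ≤ 2 * n)
    (a : ℕ → ℤ) : evL y n (shf n s a) = y ^ (2 * n - s) * evL y n a := by
  rw [← evL_shf hn hy s a]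
  linear_combination (-evL y n (shf n s a)) * pow_mul_pow_eq_one hy hs

theorem evT_fwP (x : A) {y : A} {n : ℕ} (hn : 0 < n) (hy : y ^ n = -1) {e : ℕ} (he : e ≤ 2 * n)
    (m : ℕ) (a : ℕ → ℕ → ℤ) : evT x y m n (fwP n m e a) =
      evT x y m n a + y ^ e * evT x y m n fun i => a (m + i) := by
  rw [evT, evT, evT, mul_sum, ← sum_add_distrib]
  refine sum_congr rfl fun i _ => ?_
  rw [show fwP n m e a i = fun j => a i j + shf n (2 * n - e) (a (m + i)) j from rfl, evL_add,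
    evL_shf' hn hy he]
  ring

theorem evT_fwM (x : A) {y : A} {n : ℕ} (hn : 0 < n) (hy : y ^ n = -1) {e : ℕ} (he : e ≤ 2 * n)
    (m : ℕ) (a : ℕ → ℕ → ℤ) : evT x y m n (fwM n m e a) =
      evT x y m n a - y ^ e * evT x y m n fun i => a (m + i) := by
  rw [evT, evT, evT, mul_sum, ← sum_sub_distrib]
  refine sum_congr rfl fun i _ => ?_
  rw [show fwM n m e a i = fun j => a i j - shf n (2 * n - e) (a (m + i)) j from rfl, evL_sub,
    evL_shf' hn hy he]
  ring

theorem evT_bw (x : A) {y : A} {n : ℕ} (hn : 0 < n) (hy : y ^ n = -1) {e : ℕ} (he : e ≤ 2 * n)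
    (m : ℕ) (u v : ℕ → ℕ → ℤ) : evT x y (m + m) n (bw n m e u v) =
      evT x y m n u + evT x y m n v +
        x ^ m * (y ^ (2 * n - e) * (evT x y m n u - evT x y m n v)) := by
  rw [evT_split]
  congr 1
  · rw [evT, evT, evT, ← sum_add_distrib]
    refine sum_congr rfl fun i hi => ?_
    rw [← add_mul, ← evL_add]
    congr 1
    exact evL_congr _ fun j _ => by simp [bw, mem_range.1 hi]
  · congr 1
    rw [evT, evT, evT, ← sum_sub_distrib, mul_sum]
    refine sum_congr rfl fun i _ => ?_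
    rw [← sub_mul, ← evL_sub, ← mul_assoc, ← evL_shf'' hn hy he]
    congr 1
    exact evL_congr _ fun j _ => by simp [bw]

theorem evL_blocks (y : A) (k m : ℕ) (c : ℕ → ℕ → ℤ) :
    evL y (k * m) (fun t => c (t / m) (t % m)) = evT (y ^ m) y k m c := by
  induction k with
  | zero => simp [evL, evT]
  | succ k ih =>
    rw [Nat.succ_mul, evL_split, ih, evT, evT, sum_range_succ, ← pow_mul, mul_comm m k, mul_comm]
    congr 2
    refine evL_congr _ fun j hj => ?_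
    have hm : 0 < m := by omega
    rw [Nat.add_comm, Nat.add_mul_div_right _ _ hm, Nat.add_mul_mod_self_right,
      Nat.div_eq_of_lt hj, Nat.mod_eq_of_lt hj, Nat.zero_add]

theorem evT_halves (x y : A) (k m : ℕ) (c : ℕ → ℕ → ℤ) : evT x y k (m + m) c =
    evT x y k m c + y ^ m * evT x y k m fun i j => c i (m + j) := by
  rw [evT, evT, evT, mul_sum, ← sum_add_distrib]
  exact sum_congr rfl fun i _ => by rw [evL_split]; ring

theorem evT_pad (x y : A) (k m : ℕ) (a : ℕ → ℤ) :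
    evT x y k (m + m) (pad m a) = evT x y k m fun i j => a (i * m + j) := by
  rw [evT_halves]
  have : evT x y k m (fun i j => pad m a i (m + j)) = 0 := by simp [evT, evL, pad]
  rw [this, mul_zero, add_zero]
  exact sum_congr rfl fun i _ => by
    congr 1
    exact evL_congr _ fun j hj => by simp [pad, hj]

theorem evL_fold {y : A} {k m : ℕ} (hk : 0 < k) (hm : 0 < m) (hy : y ^ (k * m) = -1)
    (c : ℕ → ℕ → ℤ) : evL y (k * m) (fold (k * m) m c) = evT (y ^ m) y k (m + m) c := by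
  rw [show fold (k * m) m c = fun t => c (t / m) (t % m) +
    shf (k * m) (2 * (k * m) - m) (fun t => c (t / m) (m + t % m)) t from rfl, evL_add,
    evL_shf' (by positivity) hy (by nlinarith), evL_blocks,
    evL_blocks y k m fun i j => c i (m + j), evT_halves]

theorem evL_schB {y : A} {n : ℕ} (hn : 0 < n) (hy : y ^ n = -1) (b : ℕ → ℤ) (k : ℕ) :
    evL y n (schB n b k) = y ^ k * evL y n b := by
  induction k with
  | zero => simp [schB]
  | succ k ih => rw [schB, evL_shf' hn hy (by omega), ih]; ring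

theorem evL_schA {y : A} {n : ℕ} (hn : 0 < n) (hy : y ^ n = -1) (a b : ℕ → ℤ) (k : ℕ) :
    evL y n (schA n a b k) = evL y k a * evL y n b := by
  induction k with
  | zero => simp [schA, evL]
  | succ k ih =>
    rw [schA, evL_add, evL_mul, ih, evL_schB hn hy, evL, evL, evL, sum_range_succ]; ring

theorem natDegree_evT (z : A) (k n : ℕ) (c : ℕ → ℕ → ℤ) :
    (evT (C z) X k n c).natDegree ≤ n - 1 := by
  refine natDegree_sum_le_of_forall_le _ _ fun i _ => ?_
  rw [← C_pow]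
  refine (natDegree_mul_C_le _ _).trans (natDegree_sum_le_of_forall_le _ _ fun j hj => ?_)
  rw [← C_eq_intCast]
  exact (natDegree_C_mul_X_pow_le _ _).trans (by have := mem_range.1 hj; omega)

/-- From congruences modulo `y ^ (2 m) + 1` to an identity of polynomials. -/
theorem lift {z : A} {k m s : ℕ} (hm : 0 < m) (hz : z ^ k = -1) {a b c a' b' : ℕ → ℕ → ℤ}
    (ha : evT (C z) X k (m + m) a = evT (C z) X k m a')
    (hb : evT (C z) X k (m + m) b = evT (C z) X k m b')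
    (h : ∀ (B : Type) [CommRing B] (x y : B), y ^ (m + m) = -1 → (x ^ k - y ^ (m + m)) ∣
      evT x y k (m + m) c - 2 ^ s * (evT x y k (m + m) a * evT x y k (m + m) b)) :
    evT (C z) X k (m + m) c = 2 ^ s * (evT (C z) X k m a' * evT (C z) X k m b') := by
  nontriviality A
  have hmon : (X ^ (m + m) + C 1 : A[X]).Monic := monic_X_pow_add_C _ (by omega)
  have hy : AdjoinRoot.root (X ^ (m + m) + C 1 : A[X]) ^ (m + m) = -1 := by
    have := AdjoinRoot.eval₂_root (X ^ (m + m) + C 1 : A[X])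
    simp only [eval₂_add, eval₂_pow, eval₂_X, map_one, eval₂_one] at this
    exact eq_neg_of_add_eq_zero_left this
  have h1 := h _ (AdjoinRoot.of (X ^ (m + m) + C 1 : A[X]) z) _ hy
  rw [hy, ← map_pow, hz, map_neg, (AdjoinRoot.of _).map_one, sub_self, zero_dvd_iff] at h1
  have h2 : AdjoinRoot.mk (X ^ (m + m) + C 1 : A[X]) (evT (C z) X k (m + m) c -
      2 ^ s * (evT (C z) X k (m + m) a * evT (C z) X k (m + m) b)) = 0 := by
    simp only [map_sub, map_mul, map_pow, map_evT, map_ofNat, AdjoinRoot.mk_C, AdjoinRoot.mk_X]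
    exact h1
  rw [AdjoinRoot.mk_eq_zero, ha, hb] at h2
  by_contra hne
  refine hmon.not_dvd_of_natDegree_lt (sub_ne_zero.2 hne) ?_ h2
  rw [natDegree_X_pow_add_C]
  have d1 := natDegree_evT z k (m + m) c
  have d2 := natDegree_evT z k m a'
  have d3 := natDegree_evT z k m b'
  have d4 : (2 ^ s * (evT (C z) X k m a' * evT (C z) X k m b') : A[X]).natDegree ≤
      (m - 1) + (m - 1) := by
    rw [show (2 ^ s : A[X]) = C (2 ^ s) by simp [map_ofNat]]
    exact (natDegree_C_mul_le _ _).trans (natDegree_mul_le.trans (add_le_add d2 d3))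
  exact (natDegree_sub_le _ _).trans_lt (max_lt (by omega) (by omega))

end ev

/-- Correctness of the recursion. -/
theorem alg_spec (ℓ μ e : ℕ) (a b : ℕ → ℕ → ℤ) (hμ : μ ≤ ℓ) (hd : 2 ^ μ ∣ e) (he : e ≤ 2 * 2 ^ ℓ) :
    ∀ (A : Type) [CommRing A] (x y : A), y ^ 2 ^ ℓ = -1 → (x ^ 2 ^ μ - y ^ e) ∣
      evT x y (2 ^ μ) (2 ^ ℓ) (alg ℓ μ e a b) -
        2 ^ sig ℓ μ * (evT x y (2 ^ μ) (2 ^ ℓ) a * evT x y (2 ^ μ) (2 ^ ℓ) b) := by
  induction ℓ, μ, e, a, b using alg.induct with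
  | case1 ℓ μ e a b h ih1 ih2 =>
    intro A _ x y hy
    obtain ⟨ν, rfl⟩ : ∃ ν, μ = ν + 1 := ⟨μ - 1, by omega⟩
    obtain ⟨f, rfl⟩ : 2 ∣ e := (dvd_pow_self 2 (by omega)).trans hd
    rw [alg, sig, if_pos h, if_pos h]
    simp only [Nat.add_sub_cancel, Nat.mul_div_cancel_left _ two_pos] at ih1 ih2 ⊢
    have hd' : 2 ^ ν ∣ f := by
      rw [pow_succ'] at hd
      exact Nat.dvd_of_mul_dvd_mul_left two_pos hd
    have hn : 0 < 2 ^ ℓ := by positivity
    have hf : f ≤ 2 * 2 ^ ℓ := by omega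
    obtain ⟨q₁, h₁⟩ := ih1 (by omega) hd' hf A x y hy
    obtain ⟨q₂, h₂⟩ := ih2 (by omega) (hd'.add (pow_dvd_pow 2 (by omega))) (by omega) A x y hy
    rw [evT_fwP x hn hy hf, evT_fwP x hn hy hf] at h₁
    rw [evT_fwM x hn hy hf, evT_fwM x hn hy hf, pow_add, hy] at h₂
    have h2 : 2 ^ (ν + 1) = 2 ^ ν + 2 ^ ν := by ring
    have h3 := pow_mul_pow_eq_one hy hf
    rw [h2, evT_bw x hn hy hf, evT_split, evT_split, pow_add, two_mul f, pow_add, pow_succ]
    generalize evT x y (2 ^ ν) (2 ^ ℓ) (alg ℓ ν f _ _) = U at *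
    generalize evT x y (2 ^ ν) (2 ^ ℓ) (alg ℓ ν (f + 2 ^ ℓ) _ _) = V at *
    generalize evT x y (2 ^ ν) (2 ^ ℓ) a = a₀ at *
    generalize evT x y (2 ^ ν) (2 ^ ℓ) b = b₀ at *
    generalize evT x y (2 ^ ν) (2 ^ ℓ) (fun i => a (2 ^ ν + i)) = a₁ at *
    generalize evT x y (2 ^ ν) (2 ^ ℓ) (fun i => b (2 ^ ν + i)) = b₁ at *
    generalize y ^ (2 * 2 ^ ℓ - f) = ρ at *
    generalize y ^ f = r at *
    generalize x ^ 2 ^ ν = Z at *
    generalize (2 : A) ^ sig ℓ ν = t at *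
    refine ⟨-2 * t * a₁ * b₁ + ρ * q₁ - ρ * q₂, ?_⟩
    linear_combination (1 + Z * ρ) * h₁ + (1 - Z * ρ) * h₂ +
      (2 * t * Z * (a₀ * b₁ + a₁ * b₀) - (Z - r) * q₁ - (Z + r) * q₂) * h3
  | case2 ℓ μ e a b h h' ih =>
    intro A _ x y hy
    obtain rfl : μ = 0 := by omega
    rw [alg, sig, if_neg h, if_pos h', if_neg h, if_pos h', pow_zero, evT_one, evT_one, evT_one]
    have e1 : 2 ^ ℓ = 2 ^ (ℓ - ℓ / 2) * 2 ^ (ℓ / 2) := by
      rw [← pow_add]; congr 1; omega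
    have e2 : 2 ^ (ℓ / 2 + 1) = 2 ^ (ℓ / 2) + 2 ^ (ℓ / 2) := by ring
    have ih' := ih (by omega) (pow_dvd_pow 2 (by omega)) (by omega)
    generalize alg (ℓ / 2 + 1) (ℓ - ℓ / 2) (2 ^ (ℓ / 2 + 1)) _ _ = c at *
    rw [e2] at ih'
    rw [e1] at hy ⊢
    have hk : 0 < 2 ^ (ℓ - ℓ / 2) := by positivity
    have hm : 0 < 2 ^ (ℓ / 2) := by positivity
    generalize 2 ^ (ℓ - ℓ / 2) = k at *
    generalize 2 ^ (ℓ / 2) = m at *
    have h1 := congrArg (evalRingHom y) (lift (z := y ^ m) hm (by rw [← pow_mul, mul_comm, hy])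
      (evT_pad _ _ _ _ _) (evT_pad _ _ _ _ _) ih')
    simp only [map_mul, map_pow, map_evT, map_ofNat, coe_evalRingHom, eval_C, eval_X] at h1
    rw [evL_fold hk hm hy, h1, ← evL_blocks, ← evL_blocks]
    simp only [Nat.div_add_mod', sub_self, dvd_zero]
  | case3 ℓ μ e a b h h' =>
    intro A _ x y hy
    obtain rfl : μ = 0 := by omega
    rw [alg, sig, if_neg h, if_neg h', if_neg h, if_neg h', pow_zero, evT_one, evT_one, evT_one,
      evL_schA (by positivity) hy]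
    simp

theorem coeff_evL (n : ℕ) (a : ℕ → ℤ) (j : ℕ) :
    (evL (X : ℤ[X]) n a).coeff j = if j < n then a j else 0 := by
  simp only [evL, ← C_eq_intCast, finsetSum_coeff, coeff_C_mul_X_pow]
  simp

/-- The sequence of bits of `x`. -/
def bitZ (x j : ℕ) : ℤ := ((x.testBit j).toNat : ℕ)

theorem evL_bitZ (x n : ℕ) : evL (2 : ℤ) n (bitZ x) = (x % 2 ^ n : ℕ) := by
  induction n with
  | zero => simp [evL, Nat.mod_one]
  | succ n ih =>
    rw [evL, sum_range_succ, ← evL, ih, Nat.mod_pow_succ, bitZ, Nat.toNat_testBit]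
    push_cast; ring

/-- The product of two numbers from the convolution of their bits. -/
theorem alg_top (l x y : ℕ) (hx : x < 2 ^ 2 ^ l) (hy : y < 2 ^ 2 ^ l) :
    let c := alg (l + 1) 0 (2 ^ (l + 1)) (fun _ => bitZ x) (fun _ => bitZ y) 0
    (∀ j, j < 2 ^ (l + 1) → 0 ≤ c j ∧ c j ≤ 2 ^ (sig (l + 1) 0 + (l + 1))) ∧
      evL (2 : ℤ) (2 ^ (l + 1)) c = 2 ^ sig (l + 1) 0 * (x * y) := by
  intro c
  have e2 : 2 ^ (l + 1) = 2 ^ l + 2 ^ l := by ring
  have hz : ∀ x, x < 2 ^ 2 ^ l → evT (C (-1 : ℤ)) X 1 (2 ^ l + 2 ^ l) (fun _ => bitZ x) =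
      evT (C (-1 : ℤ)) X 1 (2 ^ l) fun _ => bitZ x := fun x hx => by
    rw [evT_one, evT_one, evL_split]
    have : evL (X : ℤ[X]) (2 ^ l) (fun j => bitZ x (2 ^ l + j)) = 0 :=
      sum_eq_zero fun j _ => by
        simp [bitZ, Nat.testBit_lt_two_pow
          (hx.trans_le (Nat.pow_le_pow_right two_pos (Nat.le_add_right _ j)))]
    rw [this, mul_zero, add_zero]
  have h := alg_spec (l + 1) 0 (2 ^ (l + 1)) (fun _ => bitZ x) (fun _ => bitZ y) (by omega)
    (by simp) (by omega)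
  have h1 : evL (X : ℤ[X]) (2 ^ (l + 1)) c =
      2 ^ sig (l + 1) 0 * (evL X (2 ^ l) (bitZ x) * evL X (2 ^ l) (bitZ y)) := by
    have := lift (z := (-1 : ℤ)) (k := 1) (s := sig (l + 1) 0)
      (c := alg (l + 1) 0 (2 ^ (l + 1)) (fun _ => bitZ x) fun _ => bitZ y) (by positivity)
      (by simp) (hz x hx) (hz y hy) (by rw [← e2]; simpa using h)
    rwa [evT_one, evT_one, evT_one, ← e2] at this
  refine ⟨fun j hj => ?_, ?_⟩
  · have h2 := congrArg (fun p => p.coeff j) h1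
    rw [show (2 ^ sig (l + 1) 0 : ℤ[X]) = C (2 ^ sig (l + 1) 0) by simp] at h2
    simp only [coeff_C_mul] at h2
    simp only [coeff_evL, if_pos hj, coeff_mul] at h2
    have hb : ∀ x j, (0 : ℤ) ≤ (if j < 2 ^ l then bitZ x j else 0) ∧
        (if j < 2 ^ l then bitZ x j else 0) ≤ (1 : ℤ) := fun x j => by
      unfold bitZ
      split_ifs
      · cases x.testBit j <;> simp
      · simp
    rw [h2, pow_add]
    refine ⟨mul_nonneg (by positivity) (sum_nonneg fun p _ => mul_nonneg (hb _ _).1 (hb _ _).1),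
      mul_le_mul_of_nonneg_left ?_ (by positivity)⟩
    calc _ ≤ ∑ _p ∈ antidiagonal j, (1 : ℤ) := sum_le_sum fun p _ =>
          mul_le_one₀ (hb _ _).2 (hb _ _).1 (hb _ _).2
      _ = ((j + 1 : ℕ) : ℤ) := by simp
      _ ≤ 2 ^ (l + 1) := by exact_mod_cast hj
  · have h2 := congrArg (evalRingHom (2 : ℤ)) h1
    simp only [map_mul, map_pow, map_evL, map_ofNat, coe_evalRingHom, eval_X, evL_bitZ,
      Nat.mod_eq_of_lt hx, Nat.mod_eq_of_lt hy] at h2
    exact h2

end Crest.Agent.R326.Mul
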