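import Crest.Agent.R326.Bits
import Crest.Agent.R326.MulMath

/-!
# Linear-time routines on lists and tables of words used by the multiplier
-/

set_option autoImplicit false
set_option linter.unusedVariables false

namespace Crest.Agent.R326.Mul

open Crest.Agent.Lib.PolyTime

/-- A list of `n` words of width `W`. -/
def lst (W n : ℕ) (x : ℕ → ℤ) : List (List Bool) := tab n fun j => ibits W (x j)

/-- A table of `m` lists. -/
def tbl (W m n : ℕ) (a : ℕ → ℕ → ℤ) : List (List (List Bool)) := tab m fun i => lst W n (a i)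

theorem lst_congr {W n : ℕ} {x y : ℕ → ℤ} (h : ∀ j, j < n → x j = y j) : lst W n x = lst W n y :=
  tab_congr fun j hj => by rw [h j hj]

theorem tbl_congr {W m n : ℕ} {a b : ℕ → ℕ → ℤ} (h : ∀ i j, i < m → j < n → a i j = b i j) :
    tbl W m n a = tbl W m n b := tab_congr fun i hi => lst_congr fun j hj => h i j hi hj

theorem le_sz_tab {α : Type} [PEnc α] {T : ℕ} {a : ℕ → α} {B : ℕ}
    (h : ∀ k, k < T → B ≤ sz (a k)) : T * (B + 1) + 1 ≤ sz (tab T a) := by
  rw [sz_tab]
  have := Finset.card_nsmul_le_sum (Finset.range T) (fun k => sz (a k) + 1) (B + 1)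
    fun k hk => Nat.succ_le_succ (h k (Finset.mem_range.1 hk))
  simpa using this

theorem le_sz_ibits (W : ℕ) (z : ℤ) : W + 1 ≤ sz (ibits W z) := by
  simpa using Nat.succ_le_of_lt (length_lt_sz (ibits W z))

theorem le_sz_lst (W n : ℕ) (x : ℕ → ℤ) : n * (W + 2) + 1 ≤ sz (lst W n x) :=
  le_sz_tab fun _ _ => le_sz_ibits _ _

theorem sz_lst_le (W n : ℕ) (x : ℕ → ℤ) : sz (lst W n x) ≤ n * (4 * W + 2) + 1 :=
  sz_tab_le fun _ _ => sz_ibits_le _ _

theorem le_sz_tbl (W m n : ℕ) (a : ℕ → ℕ → ℤ) :
    m * (n * (W + 2) + 2) + 1 ≤ sz (tbl W m n a) := le_sz_tab fun _ _ => le_sz_lst _ _ _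

theorem sz_tbl_le (W m n : ℕ) (a : ℕ → ℕ → ℤ) :
    sz (tbl W m n a) ≤ m * (n * (4 * W + 2) + 2) + 1 := sz_tab_le fun _ _ => sz_lst_le _ _ _

theorem take_drop_tab {α : Type} {T s n : ℕ} (h : s + n ≤ T) (f : ℕ → α) :
    ((tab T f).drop s).take n = tab n fun j => f (s + j) := by
  apply List.ext_getElem
  · simp; omega
  · simp

variable {ι : Type} {C : Ctx ι} {α β γ : Type} [PEnc α] [PEnc β] [PEnc γ]

theorem length_reduceOption_odd (n : ℕ) :
    (tab n fun k => bif k.bodd then some () else none).reduceOption.length = n / 2 := by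
  induction n with
  | zero => rfl
  | succ n ih =>
    rw [tab_succ, List.reduceOption_append, List.length_append, ih]
    have := Nat.bodd_add_div2 n
    rw [Nat.div2_val] at this
    cases h : n.bodd <;> simp [h] at this ⊢ <;> omega

/-- Halving in unary. -/
theorem half {n : ι → ℕ} (hn : R C fun i => Un.mk (n i)) : R C fun i => Un.mk (n i / 2) := by
  have := hn.isOk
  have h1 := R.accum (s := fun i k => k.bodd) (b := fun i k => bif k.bodd then some () else none)
    (R.const false) hn.unTab (hn.unTab.dom_states 3 fun _ _ => sz_bool_le _) fun h₁ h₂ => by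
      have := h₁.isOk
      simp only [Nat.bodd_succ]
      rp
  simpa only [length_reduceOption_odd] using h1.snd.reduceOption.lenUn

/-- Powers of two in unary. -/
theorem pow2 {n : ι → ℕ} (hn : R C fun i => Un.mk (n i)) (hD : C.Dom fun i => 2 ^ n i) :
    R C fun i => Un.mk (2 ^ n i) := by
  have := hn.isOk
  refine R.iter (s := fun i k => Un.mk (2 ^ k)) (R.const (Un.mk 1)) hn.unTab
    (hD.mono_mul 3 (by norm_num) fun i => ?_) fun h₁ h₂ => ?_
  · induction n i with
    | zero => simp
    | succ m ih =>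
      rw [Finset.sum_range_succ, sz_un, pow_succ]
      have : (1 : ℝ) ≤ 2 ^ m := one_le_pow₀ (by norm_num)
      push_cast; linarith
  · simpa only [pow_succ, mul_two] using h₁.unAdd h₁

/-- The two halves of a list. -/
theorem halves {m : ι → ℕ} {f : ι → ℕ → α} (h : R C fun i => tab (m i + m i) (f i)) :
    R C fun i => (tab (m i) (f i), tab (m i) fun j => f i (m i + j)) := by
  have h1 : R C fun i => Un.mk (m i) := (half h.lenUn).congr fun i => by
    simp only [length_tab]; congr 1; omega
  refine (R.splitAt h1 h).congr fun i => ?_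
  rw [tab_add, List.take_left' (by simp), List.drop_left' (by simp)]

theorem appendTab {m n : ι → ℕ} {f g : ι → ℕ → α} (hf : R C fun i => tab (m i) (f i))
    (hg : R C fun i => tab (n i) (g i)) :
    R C fun i => tab (m i + n i) fun j => if j < m i then f i j else g i (j - m i) :=
  (hf.hAppend hg).congr fun i => by
    rw [tab_add]
    congr 1
    · exact tab_congr fun k hk => by simp [hk]
    · exact tab_congr fun k hk => by simp

variable {W m n : ι → ℕ}

theorem addL {x y : ι → ℕ → ℤ} (hx : R C fun i => lst (W i) (n i) (x i))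
    (hy : R C fun i => lst (W i) (n i) (y i)) :
    R C fun i => lst (W i) (n i) fun j => x i j + y i j :=
  R.tabMap₀ (hx.zipTab hy) fun h => h.fst.addI h.snd

theorem subL {x y : ι → ℕ → ℤ} (hx : R C fun i => lst (W i) (n i) (x i))
    (hy : R C fun i => lst (W i) (n i) (y i)) :
    R C fun i => lst (W i) (n i) fun j => x i j - y i j :=
  R.tabMap₀ (hx.zipTab hy) fun h => h.fst.subI h.snd

theorem negL {x : ι → ℕ → ℤ} (hx : R C fun i => lst (W i) (n i) (x i)) :
    R C fun i => lst (W i) (n i) fun j => -x i j :=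
  R.tabMap₀ hx fun h => h.negI

theorem zeroL {x : ι → ℕ → ℤ} (hx : R C fun i => lst (W i) (n i) (x i)) :
    R C fun i => lst (W i) (n i) fun _ => 0 := by simpa using subL hx hx

theorem lenL {x : ι → ℕ → ℤ} (hx : R C fun i => lst (W i) (n i) (x i)) :
    R C fun i => Un.mk (n i) := by simpa [lst] using hx.lenUn

theorem addT {a b : ι → ℕ → ℕ → ℤ} (ha : R C fun i => tbl (W i) (m i) (n i) (a i))
    (hb : R C fun i => tbl (W i) (m i) (n i) (b i)) :
    R C fun i => tbl (W i) (m i) (n i) fun k j => a i k j + b i k j :=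
  R.tabMap₀ (ha.zipTab hb) fun h => addL h.fst h.snd

theorem subT {a b : ι → ℕ → ℕ → ℤ} (ha : R C fun i => tbl (W i) (m i) (n i) (a i))
    (hb : R C fun i => tbl (W i) (m i) (n i) (b i)) :
    R C fun i => tbl (W i) (m i) (n i) fun k j => a i k j - b i k j :=
  R.tabMap₀ (ha.zipTab hb) fun h => subL h.fst h.snd

/-- Negacyclic rotation. -/
theorem shfL {s : ι → ℕ} {x : ι → ℕ → ℤ} (hs : R C fun i => Un.mk (s i))
    (hx : R C fun i => lst (W i) (n i) (x i)) (h : ∀ i, s i ≤ 2 * n i) :
    R C fun i => lst (W i) (n i) (shf (n i) (s i) (x i)) := by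
  have := hx.isOk
  have hn := negL hx
  have h1 : R C fun i => tab 3 fun c => tab (n i) fun t => ibits (W i) ((-1) ^ c * x i t) :=
    (hx.cons (hn.cons (hx.cons (R.const [])))).congr fun i => by
      simp [tab_succ', lst]
  have h2 := R.unchunks (n := fun _ => 3) h1
  refine (R.take (lenL hx) (R.drop hs h2)).congr fun i => ?_
  rw [take_drop_tab (by have := h i; omega)]
  rfl

theorem shfT {s : ι → ℕ} {a : ι → ℕ → ℕ → ℤ} (hs : R C fun i => Un.mk (s i))
    (ha : R C fun i => tbl (W i) (m i) (n i) (a i)) (h : ∀ i, s i ≤ 2 * n i) :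
    R C fun i => tbl (W i) (m i) (n i) fun k => shf (n i) (s i) (a i k) :=
  R.tabMap hs ha (ha.dom_sz.mono_mul 2 (by norm_num) fun i => by
    have h1 := le_sz_tbl (W i) (m i) (n i) (a i)
    have h2 : m i * sz (Un.mk (s i)) ≤ 2 * sz (tbl (W i) (m i) (n i) (a i)) := by
      rw [sz_un]
      have := h i
      have : m i * (2 * s i + 1) ≤ m i * (2 * (n i * (W i + 2) + 2)) :=
        Nat.mul_le_mul_left _ (by nlinarith)
      nlinarith
    exact_mod_cast h2) fun h₁ h₂ => shfL h₁ h₂ fun p => h p.1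

/-- Schoolbook product of two words. -/
theorem mulI {x y : ι → ℤ} (hx : R C fun i => ibits (W i) (x i))
    (hy : R C fun i => ibits (W i) (y i)) (hD : C.Dom fun i => (W i + 1) ^ 2) :
    R C fun i => ibits (W i) (x i * y i) := by
  set u : ι → ℕ := fun i => (x i % 2 ^ W i).toNat with hu
  have h1 := R.iter
    (s := fun i k => (ibits (W i) ((u i % 2 ^ k : ℕ) * y i), ibits (W i) (2 ^ k * y i)))
    (a := fun i k => (u i).testBit k)
    ((hx.widthI.zeroI.pair hy).congr fun i => by simp [Nat.mod_one]) hx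
    (Ctx.dom_sum_unif (β := fun i => 8 * W i + 3) (hD.mono_mul 8 (by norm_num) fun i => by
      nlinarith [(by positivity : (0 : ℝ) ≤ W i)]) fun i k _ => by
      have h1 := sz_ibits_le (W i) ((u i % 2 ^ k : ℕ) * y i)
      have h2 := sz_ibits_le (W i) (2 ^ k * y i)
      have h3 : sz (ibits (W i) ((u i % 2 ^ k : ℕ) * y i), ibits (W i) (2 ^ k * y i)) ≤
          8 * W i + 3 := by rw [sz_pair]; omega
      exact_mod_cast h3) fun h₁ h₂ =>
    ((h₂.cond (h₁.fst.addI h₁.snd) h₁.fst).pair (h₁.snd.addI h₁.snd)).congr fun p => by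
      rw [Nat.mod_pow_succ, ← Nat.toNat_testBit]
      refine Prod.ext ?_ ?_
      · cases (u p.1).testBit p.2
        · simp
        · simp only [Bool.toNat_true, cond_true]
          congr 1
          push_cast; ring
      · simp only
        congr 1
        ring
  refine h1.fst.congr fun i => ibits_congr ?_
  rw [Nat.mod_eq_of_lt (toNat_emod_lt _ _)]
  exact (toNat_emod_modEq _ _).symm.mul_right _

/-- Schoolbook negacyclic product. -/
theorem schL {a b : ι → ℕ → ℤ} (ha : R C fun i => lst (W i) (n i) (a i))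
    (hb : R C fun i => lst (W i) (n i) (b i)) (hD : C.Dom fun i => (n i + 1) ^ 2 * (W i + 1) ^ 2) :
    R C fun i => lst (W i) (n i) (schA (n i) (a i) (b i) (n i)) := by
  have h1 := R.iter
    (s := fun i k => (lst (W i) (n i) (schA (n i) (a i) (b i) k),
      lst (W i) (n i) (schB (n i) (b i) k)))
    (a := fun i k => ibits (W i) (a i k)) ((zeroL hb).pair hb) ha
    (Ctx.dom_sum_unif (β := fun i => 2 * (n i * (4 * W i + 2) + 1) + 1)
      (hD.mono_mul 8 (by norm_num) fun i => by
        have h1 : (0 : ℝ) ≤ W i := by positivity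
        have h2 : (0 : ℝ) ≤ n i := by positivity
        nlinarith [mul_nonneg h1 h2, mul_nonneg (mul_nonneg h1 h2) h2,
          mul_nonneg (mul_nonneg h1 h2) h1, mul_nonneg (mul_nonneg (mul_nonneg h1 h2) h1) h2])
      fun i k _ => by
        have h1 := sz_lst_le (W i) (n i) (schA (n i) (a i) (b i) k)
        have h2 := sz_lst_le (W i) (n i) (schB (n i) (b i) k)
        rw [sz_pair]
        exact_mod_cast (by omega)) fun h₁ h₂ => by
    have hD' : (C.pos n fun i k => ((lst (W i) (n i) (schA (n i) (a i) (b i) k),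
        lst (W i) (n i) (schB (n i) (b i) k)), ibits (W i) (a i k))).Dom
        fun p => n p.1 * (W p.1 + 1) ^ 2 :=
      Ctx.dom_pos_unif (β := fun i => n i * (W i + 1) ^ 2) (hD.mono fun i => by
        have h1 : (0 : ℝ) ≤ (W i + 1) ^ 2 := by positivity
        have h2 : (0 : ℝ) ≤ n i := by positivity
        nlinarith [mul_nonneg h1 h2]) (fun i => by positivity) fun p => le_rfl
    have hn := lenL h₁.snd
    have h3 := R.tabMap (b := fun p t => ibits (W p.1) (a p.1 p.2 * schB (n p.1) (b p.1) p.2 t))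
      h₂ h₁.snd (hD'.mono_mul 4 (by norm_num) fun p => by
        have h1 : (sz (ibits (W p.1) (a p.1 p.2)) : ℝ) ≤ 4 * W p.1 + 1 := by
          exact_mod_cast sz_ibits_le _ _
        have h2 : (0 : ℝ) ≤ W p.1 := by positivity
        have h3 : (0 : ℝ) ≤ n p.1 := by positivity
        nlinarith [mul_le_mul_of_nonneg_left h1 h3, mul_nonneg h2 h3,
          mul_nonneg (mul_nonneg h2 h3) h2])
      fun g₁ g₂ => mulI g₁ g₂ (Ctx.dom_pos_unif (β := fun p => (W p.1 + 1) ^ 2) hD'
        (fun _ => by positivity) fun _ => le_rfl)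
    exact (addL h₁.fst h3).pair (shfL ((hn.unConstMul 2).unSub (R.const (h := hn.isOk) (Un.mk 1)))
      h₁.snd fun p => Nat.sub_le _ _)
  exact h1.fst

theorem fwPT {e : ι → ℕ} {a : ι → ℕ → ℕ → ℤ} (hn : R C fun i => Un.mk (n i))
    (he : R C fun i => Un.mk (e i)) (ha : R C fun i => tbl (W i) (m i + m i) (n i) (a i)) :
    R C fun i => tbl (W i) (m i) (n i) (fwP (n i) (m i) (e i) (a i)) :=
  addT (halves ha).fst (shfT (a := fun i k => a i (m i + k)) ((hn.unConstMul 2).unSub he)
    (halves ha).snd fun _ => Nat.sub_le _ _)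

theorem fwMT {e : ι → ℕ} {a : ι → ℕ → ℕ → ℤ} (hn : R C fun i => Un.mk (n i))
    (he : R C fun i => Un.mk (e i)) (ha : R C fun i => tbl (W i) (m i + m i) (n i) (a i)) :
    R C fun i => tbl (W i) (m i) (n i) (fwM (n i) (m i) (e i) (a i)) :=
  subT (halves ha).fst (shfT (a := fun i k => a i (m i + k)) ((hn.unConstMul 2).unSub he)
    (halves ha).snd fun _ => Nat.sub_le _ _)

theorem bwT {e : ι → ℕ} {u v : ι → ℕ → ℕ → ℤ} (he : R C fun i => Un.mk (e i))
    (hu : R C fun i => tbl (W i) (m i) (n i) (u i)) (hv : R C fun i => tbl (W i) (m i) (n i) (v i))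
    (h : ∀ i, e i ≤ 2 * n i) :
    R C fun i => tbl (W i) (m i + m i) (n i) (bw (n i) (m i) (e i) (u i) (v i)) :=
  (appendTab (addT hu hv) (shfT he (subT hu hv) h)).congr fun i => tab_congr fun k _ => by
    unfold bw
    split_ifs <;> rfl

theorem padT {a : ι → ℕ → ℤ} (hm : R C fun i => Un.mk (m i)) (hn : R C fun i => Un.mk (n i))
    (ha : R C fun i => lst (W i) (m i * n i) (a i)) :
    R C fun i => tbl (W i) (m i) (n i + n i) (pad (n i) (a i)) :=
  R.tabMap₀ (R.chunks hm hn ha) fun h =>
    (appendTab h (zeroL (x := fun p t => a p.1 (p.2 * n p.1 + t)) h)).congr fun p =>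
      tab_congr fun j _ => by
        unfold pad
        split_ifs <;> rfl

theorem foldL {c : ι → ℕ → ℕ → ℤ} (hn : R C fun i => Un.mk (n i))
    (hc : R C fun i => tbl (W i) (m i) (n i + n i) (c i)) :
    R C fun i => lst (W i) (m i * n i) (fold (m i * n i) (n i) (c i)) := by
  have h1 : R C fun i => lst (W i) (m i * n i) fun t => c i (t / n i) (t % n i) :=
    R.unchunks (a := fun i k j => ibits (W i) (c i k j)) (R.tabMap₀ hc fun h => (halves h).fst)
  have h2 : R C fun i => lst (W i) (m i * n i) fun t => c i (t / n i) (n i + t % n i) :=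
    R.unchunks (a := fun i k j => ibits (W i) (c i k (n i + j)))
      (R.tabMap₀ hc fun h => (halves h).snd)
  exact addL h1 (shfL (((lenL h1).unConstMul 2).unSub hn) h2 fun _ => Nat.sub_le _ _)

theorem headT {a : ι → ℕ → ℕ → ℤ} (ha : R C fun i => tbl (W i) (m i) (n i) (a i))
    (h : ∀ i, 0 < m i) : R C fun i => lst (W i) (n i) (a i 0) :=
  (ha.headD (R.const (h := ha.isOk) [])).congr fun i => by
    obtain ⟨k, hk⟩ : ∃ k, m i = k + 1 := ⟨m i - 1, by have := h i; omega⟩
    rw [hk, tbl, tab_succ']; rfl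

theorem oneT {a : ι → ℕ → ℤ} (ha : R C fun i => lst (W i) (n i) (a i)) :
    R C fun i => tbl (W i) 1 (n i) fun _ => a i :=
  (ha.cons (R.const (h := ha.isOk) [])).congr fun i => rfl

end Crest.Agent.R326.Mul
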