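import Crest.Agent.R326.Arr
import Crest.Agent.R326.MulPrim

/-!
# Multiplication of `w`-bit numbers in `O(w log ^ 5 w)` steps
-/

set_option autoImplicit false
set_option linter.unusedVariables false

namespace Crest.Agent.R326
namespace Mul

open Crest.Agent.Lib.PolyTime

/-- An instance of the recursion. -/
structure Ix where
  ℓ : ℕ
  μ : ℕ
  e : ℕ
  W : ℕ
  a : ℕ → ℕ → ℤ
  b : ℕ → ℕ → ℤ
  he : e ≤ 2 * 2 ^ ℓ

namespace Ix

/-- The input of the recursive program. -/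
def inp (i : Ix) : Un × Un × List (List (List Bool)) × List (List (List Bool)) :=
  (Un.mk i.ℓ, Un.mk i.e, tbl i.W (2 ^ i.μ) (2 ^ i.ℓ) i.a, tbl i.W (2 ^ i.μ) (2 ^ i.ℓ) i.b)

/-- The output of the recursive program. -/
def out (i : Ix) : Un × List (List (List Bool)) :=
  (Un.mk (sig i.ℓ i.μ), tbl i.W (2 ^ i.μ) (2 ^ i.ℓ) (alg i.ℓ i.μ i.e i.a i.b))

/-- The cost of one step. -/
def B (i : Ix) : ℕ := 2 ^ i.μ * 2 ^ i.ℓ * (i.W + 1) ^ 2

/-- The total cost. -/
def P (i : Ix) : ℕ := i.B * (i.μ + 24 * (i.ℓ - 2) ^ 3 + 1)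

/-- First child of a splitting step. -/
def c₁ (i : Ix) : Ix :=
  ⟨i.ℓ, i.μ - 1, i.e / 2, i.W, fwP (2 ^ i.ℓ) (2 ^ (i.μ - 1)) (i.e / 2) i.a,
    fwP (2 ^ i.ℓ) (2 ^ (i.μ - 1)) (i.e / 2) i.b, by have := i.he; omega⟩

/-- Second child of a splitting step. -/
def c₂ (i : Ix) : Ix :=
  ⟨i.ℓ, i.μ - 1, i.e / 2 + 2 ^ i.ℓ, i.W, fwM (2 ^ i.ℓ) (2 ^ (i.μ - 1)) (i.e / 2) i.a,
    fwM (2 ^ i.ℓ) (2 ^ (i.μ - 1)) (i.e / 2) i.b, by have := i.he; omega⟩

/-- The child of a regrouping step. -/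
def c₃ (i : Ix) : Ix :=
  ⟨i.ℓ / 2 + 1, i.ℓ - i.ℓ / 2, 2 ^ (i.ℓ / 2 + 1), i.W, pad (2 ^ (i.ℓ / 2)) (i.a 0),
    pad (2 ^ (i.ℓ / 2)) (i.b 0), by omega⟩

theorem B_pos (i : Ix) : 0 < i.B := by unfold B; positivity

theorem B_le_P (i : Ix) : i.B ≤ i.P := Nat.le_mul_of_pos_right _ (by omega)

theorem two_pow_le_B (i : Ix) : 2 ^ i.ℓ ≤ i.B ∧ 2 ^ i.μ ≤ i.B := by
  unfold B
  have h1 : 0 < 2 ^ i.ℓ := by positivity
  have h2 : 0 < 2 ^ i.μ := by positivity
  have h3 : 2 ^ i.μ * 2 ^ i.ℓ ≤ 2 ^ i.μ * 2 ^ i.ℓ * (i.W + 1) ^ 2 :=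
    Nat.le_mul_of_pos_right _ (by positivity)
  exact ⟨(Nat.le_mul_of_pos_left _ h2).trans h3, (Nat.le_mul_of_pos_right _ h1).trans h3⟩

theorem sz_tbl (i : Ix) (c : ℕ → ℕ → ℤ) : sz (tbl i.W (2 ^ i.μ) (2 ^ i.ℓ) c) ≤ 5 * i.B := by
  refine (sz_tbl_le _ _ _ _).trans ?_
  have h0 := i.B_pos
  unfold B at *
  have h1 : 0 < 2 ^ i.ℓ := by positivity
  generalize 2 ^ i.ℓ = n at *
  generalize 2 ^ i.μ = m at *
  have h2 : n * (4 * i.W + 2) + 2 ≤ 4 * (n * (i.W + 1) ^ 2) := by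
    nlinarith [Nat.zero_le (n * i.W ^ 2), Nat.zero_le (n * i.W)]
  have h3 := Nat.mul_le_mul_left m h2
  nlinarith

theorem sz_inp (i : Ix) : sz i.inp ≤ 25 * i.B := by
  have h1 := i.sz_tbl i.a
  have h2 := i.sz_tbl i.b
  have h3 := i.two_pow_le_B.1
  have h4 := i.he
  have h5 : i.ℓ < 2 ^ i.ℓ := Nat.lt_two_pow_self
  simp only [inp, sz_pair, sz_un]
  omega

theorem sz_out (i : Ix) : sz i.out ≤ 20 * i.B := by
  have h1 := i.sz_tbl (alg i.ℓ i.μ i.e i.a i.b)
  have h3 := i.two_pow_le_B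
  have h4 := sig_le i.ℓ i.μ
  have h5 : i.ℓ < 2 ^ i.ℓ := Nat.lt_two_pow_self
  have h6 : i.μ < 2 ^ i.μ := Nat.lt_two_pow_self
  simp only [out, sz_pair, sz_un]
  omega

theorem two_pow_mu {i : Ix} (h : i.μ ≠ 0) : 2 ^ i.μ = 2 ^ (i.μ - 1) + 2 ^ (i.μ - 1) := by
  obtain ⟨ν, hν⟩ : ∃ ν, i.μ = ν + 1 := ⟨i.μ - 1, by omega⟩
  rw [hν, Nat.add_sub_cancel]; ring

theorem two_pow_ell (ℓ : ℕ) : 2 ^ ℓ = 2 ^ (ℓ - ℓ / 2) * 2 ^ (ℓ / 2) := by
  rw [← pow_add]; congr 1; omega

theorem B_c₁ {i : Ix} (h : i.μ ≠ 0) : 2 * i.c₁.B = i.B := by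
  simp only [B, c₁]; rw [two_pow_mu h]; ring

theorem B_c₃ {i : Ix} (h : i.μ = 0) : i.c₃.B = 2 * i.B := by
  simp only [B, c₃]; rw [h, two_pow_ell i.ℓ]; ring

theorem P_c₁ {i : Ix} (h : i.μ ≠ 0) : 2 * i.c₁.P + i.B ≤ i.P := by
  rw [P, P, ← mul_assoc, B_c₁ h, ← Nat.mul_succ]
  exact Nat.mul_le_mul_left _ (by simp only [c₁]; omega)

theorem P_c₃ {i : Ix} (h : i.μ = 0) (h' : 2 < i.ℓ) : 2 * i.c₃.P + i.B ≤ i.P := by
  rw [P, P, B_c₃ h]
  have key : 4 * (i.c₃.μ + 24 * (i.c₃.ℓ - 2) ^ 3 + 1) + 1 ≤ i.μ + 24 * (i.ℓ - 2) ^ 3 + 1 := by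
    simp only [c₃]
    obtain ⟨d, hd⟩ : ∃ d, i.ℓ - 2 = d + 1 := ⟨i.ℓ - 3, by omega⟩
    have h1 : (2 * (i.ℓ / 2 + 1 - 2)) ^ 3 ≤ (d + 1) ^ 3 := Nat.pow_le_pow_left (by omega) 3
    have h2 : 4 * (i.ℓ - i.ℓ / 2) ≤ 2 * d + 8 := by omega
    have h3 : d + 1 ≤ (d + 1) ^ 3 := Nat.le_self_pow (by omega) _
    rw [hd, mul_pow] at *
    omega
  have := Nat.mul_le_mul_left i.B key
  nlinarith

end Ix

section steps
variable {κ : Type} {C : Ctx κ} {f : κ → Ix} {ok : κ → V → V → Prop}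

theorem dom_out {g : κ → Ix} (hB : C.Dom fun p => (f p).B) (h : ∀ p, (g p).B ≤ 2 * (f p).B) :
    C.Dom fun p => sz (g p).out :=
  hB.mono_mul 40 (by norm_num) fun p => by
    have h1 := (g p).sz_out
    have h2 := h p
    exact_mod_cast (by omega)

theorem step_split (hin : R C fun p => (f p).inp) (hB : C.Dom fun p => (f p).B)
    (hμ : ∀ p, (f p).μ ≠ 0) (h₁ : ∀ p, ok p (enc (f p).c₁.inp) (enc (f p).c₁.out))
    (h₂ : ∀ p, ok p (enc (f p).c₂.inp) (enc (f p).c₂.out)) :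
    J C ok (fun _ => 2) fun p => (f p).out := by
  have hℓ : R C fun p => Un.mk (f p).ℓ := hin.fst
  have he : R C fun p => Un.mk ((f p).e / 2) := half hin.snd.fst
  have ha : R C fun p => tbl (f p).W (2 ^ ((f p).μ - 1) + 2 ^ ((f p).μ - 1)) (2 ^ (f p).ℓ)
      (f p).a := hin.snd.snd.fst.congr fun p => by rw [← Ix.two_pow_mu (hμ p)]; rfl
  have hb : R C fun p => tbl (f p).W (2 ^ ((f p).μ - 1) + 2 ^ ((f p).μ - 1)) (2 ^ (f p).ℓ)
      (f p).b := hin.snd.snd.snd.congr fun p => by rw [← Ix.two_pow_mu (hμ p)]; rfl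
  have hn : R C fun p => Un.mk (2 ^ (f p).ℓ) := lenL (headT ha fun p => by positivity)
  have i₁ : R C fun p => (f p).c₁.inp := hℓ.pair (he.pair ((fwPT hn he ha).pair (fwPT hn he hb)))
  have i₂ : R C fun p => (f p).c₂.inp :=
    hℓ.pair ((he.unAdd hn).pair ((fwMT hn he ha).pair (fwMT hn he hb)))
  have hc : ∀ p, (f p).c₁.B ≤ 2 * (f p).B := fun p => by have := Ix.B_c₁ (hμ p); omega
  refine ((JS.pair_l he ((JS.call i₁ (dom_out hB hc) h₁).pair
    (JS.call i₂ (dom_out (g := fun p => (f p).c₂) hB hc) h₂))).post_r fun h => ?_).mono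
    (fun _ _ _ h => h) fun _ => by norm_num
  have h1 := (h.snd.fst.fst.unAdd (R.const (h := h.isOk) (Un.mk 1))).pair
    (bwT h.fst h.snd.fst.snd h.snd.snd.snd fun p => by have := (f p).he; simp only [Ix.c₁]; omega)
  refine h1.congr fun p => ?_
  rw [Ix.out, alg, sig, if_pos (hμ p), if_pos (hμ p), Ix.two_pow_mu (hμ p)]
  rfl

theorem step_fold (hin : R C fun p => (f p).inp) (hB : C.Dom fun p => (f p).B)
    (hμ : ∀ p, (f p).μ = 0) (hℓ : ∀ p, 2 < (f p).ℓ)
    (h₃ : ∀ p, ok p (enc (f p).c₃.inp) (enc (f p).c₃.out)) :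
    J C ok (fun _ => 2) fun p => (f p).out := by
  have := hin.isOk
  have hl : R C fun p => Un.mk ((f p).ℓ / 2) := half hin.fst
  have hk : R C fun p => Un.mk ((f p).ℓ - (f p).ℓ / 2) := R.unSub hin.fst hl
  have hD : ∀ g : κ → ℕ, (∀ p, g p ≤ (f p).ℓ) → C.Dom fun p => 2 ^ g p := fun g hg =>
    hB.mono fun p => by
      exact_mod_cast (Nat.pow_le_pow_right two_pos (hg p)).trans (f p).two_pow_le_B.1
  have hm := pow2 hl (hD _ fun p => by omega)
  have hK := pow2 hk (hD _ fun p => by omega)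
  have ha : R C fun p => lst (f p).W (2 ^ ((f p).ℓ - (f p).ℓ / 2) * 2 ^ ((f p).ℓ / 2))
      ((f p).a 0) := (headT hin.snd.snd.fst fun p => by positivity).congr fun p => by
    rw [← Ix.two_pow_ell]
  have hb : R C fun p => lst (f p).W (2 ^ ((f p).ℓ - (f p).ℓ / 2) * 2 ^ ((f p).ℓ / 2))
      ((f p).b 0) := (headT hin.snd.snd.snd fun p => by positivity).congr fun p => by
    rw [← Ix.two_pow_ell]
  have e2 : ∀ l : ℕ, 2 ^ (l + 1) = 2 ^ l + 2 ^ l := fun l => by ring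
  have i₃ : R C fun p => (f p).c₃.inp :=
    ((hl.unAdd (R.const (Un.mk 1))).pair ((hm.unAdd hm).pair
      ((padT hK hm ha).pair (padT hK hm hb)))).congr fun p => by
        simp only [Ix.inp, Ix.c₃, e2]
  refine ((JS.pair_l hm (JS.call i₃ (dom_out hB fun p => (Ix.B_c₃ (hμ p)).le) h₃)).post_r
    fun h => ?_).mono (fun _ _ _ h => h) fun _ => by norm_num
  have h1 : R (C.re fun p => (Un.mk (2 ^ ((f p).ℓ / 2)), (f p).c₃.out)) fun p =>
      tbl (f p).W (2 ^ ((f p).ℓ - (f p).ℓ / 2)) (2 ^ ((f p).ℓ / 2) + 2 ^ ((f p).ℓ / 2))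
        (alg (f p).c₃.ℓ (f p).c₃.μ (f p).c₃.e (f p).c₃.a (f p).c₃.b) :=
    h.snd.snd.congr fun p => by rw [← e2]; rfl
  refine (h.snd.fst.pair (oneT (foldL h.fst h1))).congr fun p => ?_
  rw [Ix.out, alg, sig, if_neg (not_not.2 (hμ p)), if_neg (not_not.2 (hμ p)), if_pos (hℓ p),
    if_pos (hℓ p), ← Ix.two_pow_ell, hμ p]
  rfl

theorem step_base (hin : R C fun p => (f p).inp) (hB : C.Dom fun p => (f p).B)
    (hμ : ∀ p, (f p).μ = 0) (hℓ : ∀ p, ¬ 2 < (f p).ℓ) : R C fun p => (f p).out := by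
  have := hin.isOk
  have h1 := schL (headT hin.snd.snd.fst fun p => by positivity)
    (headT hin.snd.snd.snd fun p => by positivity) (hB.mono_mul 25 (by norm_num) fun p => by
      have h2 : 2 ^ (f p).ℓ ≤ 2 ^ 2 := Nat.pow_le_pow_right two_pos (not_lt.1 (hℓ p))
      have h3 : (2 ^ (f p).ℓ + 1) ^ 2 * ((f p).W + 1) ^ 2 ≤ 25 * (f p).B := by
        rw [Ix.B]
        refine Nat.mul_le_mul ((Nat.pow_le_pow_left (by omega : _ ≤ 5) 2)) ?_
        exact Nat.le_mul_of_pos_left _ (by positivity)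
      exact_mod_cast h3)
  refine ((R.const (Un.mk 0)).pair (oneT h1)).congr fun p => ?_
  rw [Ix.out, alg, sig, if_neg (not_not.2 (hμ p)), if_neg (not_not.2 (hμ p)), if_neg (hℓ p),
    if_neg (hℓ p), hμ p]
  rfl

end steps

theorem isEmpty_drop_tab {α : Type} (T s : ℕ) (a : ℕ → α) :
    ((tab T a).drop s).isEmpty = decide (T ≤ s) := by
  by_cases h : T ≤ s
  · simp [h]
  · simp [h]

/-- The recursive program. -/
theorem knot : R (Ctx.of Ix.inp fun _ i => i.P) Ix.out := by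
  set D := Ctx.of Ix.inp fun _ i => (i.B : ℝ) with hD
  have h0 : R D Ix.inp := R.of_self 0 25 (by norm_num) fun i => by exact_mod_cast i.sz_inp
  have hB : D.Dom fun i => i.B := Ctx.dom_of _ 0
  have := h0.isOk
  refine J.knot (C := D) (cnt := fun _ => 2) (sub := fun i j => 2 * j.P + i.B ≤ i.P) Ix.P
    (fun i j h => by have := i.B_pos; omega) ?_ _ (fun _ => rfl) fun G hG => ?_
  · have c1 : R D fun i => decide (i.μ = 0) :=
      (R.drop (R.const (Un.mk 1)) h0.snd.snd.fst).isEmpty.congr fun i => by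
        simp only [Ix.inp, tbl, isEmpty_drop_tab, decide_eq_decide]
        exact ⟨fun h => by simp [h], fun h => by
          by_contra hne
          have := Nat.one_lt_two_pow hne
          omega⟩
    have c2 : R D fun i => decide (i.ℓ ≤ 2) :=
      (R.drop (R.const (Un.mk 2)) (R.unTab h0.fst)).isEmpty.congr fun i => by
        simp only [isEmpty_drop_tab]
    refine JS.cond c1 (JS.cond (c2.comap _) ?_ ?_) ?_
    · refine ((step_base (f := fun p : {p : {i : Ix // decide (i.μ = 0) = true} //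
        decide (p.1.ℓ ≤ 2) = true} => p.1.1) ((h0.comap Subtype.val).comap Subtype.val)
        ((hB.comap Subtype.val).comap Subtype.val)
        (fun p => by simpa using p.1.2) fun p => by simpa using p.2).js _ _).mono
        (fun _ _ _ h => h) fun _ => ?_
      norm_num
    · have h1 : ∀ p : {p : {i : Ix // decide (i.μ = 0) = true} // decide (p.1.ℓ ≤ 2) = false},
          p.1.1.μ = 0 ∧ 2 < p.1.1.ℓ := fun p => ⟨by simpa using p.1.2, by simpa using p.2⟩
      refine step_fold (f := fun p : {p : {i : Ix // decide (i.μ = 0) = true} //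
        decide (p.1.ℓ ≤ 2) = false} => p.1.1) ((h0.comap Subtype.val).comap Subtype.val)
        ((hB.comap Subtype.val).comap Subtype.val) (fun p => (h1 p).1) (fun p => (h1 p).2)
        fun p => ?_
      exact ⟨_, Ix.P_c₃ (h1 p).1 (h1 p).2, rfl, rfl⟩
    · have h1 : ∀ p : {i : Ix // decide (i.μ = 0) = false}, p.1.μ ≠ 0 := fun p => by
        simpa using p.2
      refine step_split (f := fun p : {i : Ix // decide (i.μ = 0) = false} => p.1)
        (h0.comap Subtype.val) (hB.comap Subtype.val) h1 (fun p => ?_) fun p => ?_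
      · exact ⟨_, Ix.P_c₁ (h1 p), rfl, rfl⟩
      · exact ⟨p.1.c₂, Ix.P_c₁ (h1 p), rfl, rfl⟩
  · obtain ⟨c, K, hK, hG⟩ := Ctx.dom_of_elim (fun _ _ => by positivity) (fun _ _ => le_rfl) hG
    refine ⟨fun i => K * i.P, fun i => K * ((i.P - i.B) / 2), (Ctx.dom_of _ 0).smul hK,
      fun i => mul_nonneg hK ?_, fun i j h => mul_le_mul_of_nonneg_left ?_ hK, fun i => ?_⟩
    · have : (i.B : ℝ) ≤ i.P := by exact_mod_cast i.B_le_P
      linarith
    · have : (2 * j.P + i.B : ℝ) ≤ i.P := by exact_mod_cast h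
      linarith
    · have := hG i
      linarith

variable {ι : Type} {C : Ctx ι}

/-- Partial sums of `∑ c k 2 ^ k`. -/
def psum (c : ℕ → ℕ) (k : ℕ) : ℕ := ∑ j ∈ Finset.range k, c j * 2 ^ j

theorem psum_div (c : ℕ → ℕ) (k : ℕ) :
    psum c (k + 1) / 2 ^ k = psum c k / 2 ^ k + c k := by
  rw [psum, Finset.sum_range_succ, Nat.add_mul_div_right _ _ (by positivity)]; rfl

theorem psum_div_succ (c : ℕ → ℕ) (k : ℕ) :
    psum c (k + 1) / 2 ^ (k + 1) = (psum c k / 2 ^ k + c k) / 2 := by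
  rw [pow_succ, ← Nat.div_div_eq_div_mul, psum_div]

theorem psum_div_le {c : ℕ → ℕ} {M n : ℕ} (h : ∀ k, k < n → c k ≤ M) (k : ℕ) (hk : k ≤ n) :
    psum c k / 2 ^ k ≤ M := by
  induction k with
  | zero => simp [psum]
  | succ k ih =>
    have := ih (by omega)
    have := h k (by omega)
    rw [psum_div_succ]; omega

theorem psum_testBit (c : ℕ → ℕ) {k n : ℕ} (h : k < n) :
    (psum c n).testBit k = (psum c k / 2 ^ k + c k).testBit 0 := by
  have h1 : psum c n % 2 ^ (k + 1) = psum c (k + 1) % 2 ^ (k + 1) := by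
    obtain ⟨d, rfl⟩ := Nat.exists_eq_add_of_le (Nat.succ_le_of_lt h)
    rw [psum, Finset.sum_range_add]
    refine (Nat.add_modEq_left_iff.2 (Finset.dvd_sum fun j _ => ?_))
    exact Dvd.dvd.mul_left (pow_dvd_pow 2 (by omega)) _
  have h2 := congrArg (fun x => x.testBit k) h1
  simp only [Nat.testBit_mod_two_pow, Nat.lt_succ_self, decide_true, Bool.true_and] at h2
  rw [h2, ← psum_div, Nat.testBit_div_two_pow, Nat.zero_add]

/-- Carry propagation. -/
theorem carrySum {W n : ι → ℕ} {c : ι → ℕ → ℕ} (hW : R C fun i => Un.mk (W i + 1))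
    (hc : R C fun i => tab (n i) fun k => bits (W i + 1) (c i k))
    (h : ∀ i k, k < n i → c i k < 2 ^ W i) :
    R C fun i => bits (n i + (W i + 1)) (psum (c i) (n i)) := by
  have := hc.isOk
  have h1 := R.accum (s := fun i k => bits (W i + 1) (psum (c i) k / 2 ^ k))
    (b := fun i k => (psum (c i) (n i)).testBit k)
    (hW.zeroI.congr fun i => by simp [psum, ← ibits_nat]) hc
    (Ctx.dom_sum_unif (β := fun i => 4 * (W i + 1) + 1) (hc.dom_sz.mono_mul 4 (by norm_num)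
      fun i => by
        have h1 := le_sz_tab (T := n i) (a := fun k => bits (W i + 1) (c i k)) (B := W i + 1)
          fun k _ => by simpa using length_le_sz (bits (W i + 1) (c i k))
        have h2 : n i * (4 * (W i + 1) + 1) ≤
            4 * sz (tab (n i) fun k => bits (W i + 1) (c i k)) := by nlinarith
        exact_mod_cast h2) fun i k _ => by exact_mod_cast sz_bits_le _ _) fun h₁ h₂ => by
    have := h₁.isOk
    have h3 := h₁.addBits h₂
    refine ((h3.tail.hAppend (R.const [false])).pair (h3.headD (R.const false))).congr fun p => ?_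
    have h4 := h p.1 p.2 p.2.2
    have h5 := psum_div_le (c := c p.1) (M := 2 ^ W p.1 - 1) (n := n p.1)
      (fun k hk => by have := h p.1 k hk; omega) p.2 p.2.2.le
    rw [psum_div_succ, psum_testBit _ p.2.2, bits_succ (W p.1) (_ + _), List.tail_cons,
      List.headD_cons, bits_add, Nat.div_eq_of_lt (b := 2 ^ W p.1) (by omega)]
    rfl
  exact (h1.snd.hAppend h1.fst).congr fun i => bits_add _ _ _

/-- The instance used for `w`-bit numbers. -/
def topIx (w x y : ℕ) : Ix :=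
  ⟨w.size + 1, 0, 2 ^ (w.size + 1), 4 * w.size + 4 + 1, fun _ => bitZ x, fun _ => bitZ y, by omega⟩

theorem size_le_log (w : ℕ) : w.size ≤ Nat.log 2 w + 1 :=
  Nat.size_le.2 (Nat.lt_pow_succ_log_self one_lt_two w)

theorem two_pow_size_le (w : ℕ) : 2 ^ w.size ≤ 2 * (w + 1) := by
  rcases Nat.eq_zero_or_pos w with rfl | h
  · simp
  · have h1 := Nat.size_pos.2 h
    have h2 : 2 ^ (w.size - 1) ≤ w := Nat.lt_size.1 (by omega)
    have : 2 ^ w.size = 2 * 2 ^ (w.size - 1) := by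
      rw [← pow_succ']; congr 1; omega
    omega

theorem topIx_P (w x y : ℕ) :
    (topIx w x y).P ≤ 10000 * ((w + 1) * (Nat.log 2 w + 1) ^ 10) := by
  have h1 := size_le_log w
  have h2 := two_pow_size_le w
  simp only [Ix.P, Ix.B, topIx]
  generalize Nat.log 2 w = L at *
  have h3 : (4 * w.size + 4 + 1 + 1) ^ 2 ≤ (10 * (L + 1)) ^ 2 := Nat.pow_le_pow_left (by omega) 2
  have h4 : (w.size + 1 - 2) ^ 3 ≤ (L + 1) ^ 3 := Nat.pow_le_pow_left (by omega) 3
  have h5 : 1 ≤ (L + 1) ^ 3 := Nat.one_le_pow _ _ (by omega)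
  have h6 : (L + 1) ^ 5 ≤ (L + 1) ^ 10 := Nat.pow_le_pow_right (by omega) (by omega)
  calc _ ≤ 1 * (4 * (w + 1)) * (10 * (L + 1)) ^ 2 * (25 * (L + 1) ^ 3) :=
        Nat.mul_le_mul (Nat.mul_le_mul (Nat.mul_le_mul (by simp) (by rw [pow_succ]; omega)) h3)
          (by omega)
    _ = 10000 * ((w + 1) * (L + 1) ^ 5) := by ring
    _ ≤ _ := Nat.mul_le_mul_left _ (Nat.mul_le_mul_left _ h6)

theorem ibits_bitZ (W x j : ℕ) :
    ibits (W + 1) (bitZ x j) = x.testBit j :: List.replicate W false := by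
  rw [bitZ, ibits_nat, bits_succ]
  cases x.testBit j <;> simp [bits_zero]

/-- The bits of a number as a list of words. -/
theorem wordsOfBits {W w n x : ι → ℕ} (hW : R C fun i => Un.mk (W i))
    (hn : R C fun i => Un.mk (n i)) (hx : R C fun i => bits (w i) (x i)) (h : ∀ i, w i ≤ n i)
    (hD : C.Dom fun i => n i * (W i + 1)) :
    R C fun i => lst (W i + 1) (n i) (bitZ (x i % 2 ^ w i)) := by
  have := hx.isOk
  have hrep : ∀ {m : ι → ℕ}, (R C fun i => Un.mk (m i)) →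
      R C fun i => List.replicate (m i) false := fun hm =>
    R.replicate hm (R.const false) (hm.dom_un.mono fun i => by simp)
  have h1 : R C fun i => bits (n i) (x i % 2 ^ w i) :=
    (hx.hAppend (hrep (hn.unSub hx.widthB))).congr fun i => by
      rw [← bits_zero, ← bits_mod (w i), bits_append (Nat.mod_lt _ (by positivity)),
        Nat.add_sub_cancel' (h i)]
      simp
  refine (R.tabMap (b := fun i j => (x i % 2 ^ w i).testBit j :: List.replicate (W i) false)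
    (hrep hW) h1 (hD.mono_mul 4 (by norm_num) fun i => ?_) fun h₁ h₂ => h₂.cons h₁).congr
    fun i => tab_congr fun j _ => ibits_bitZ _ _ _
  have h2 := sz_listBool_le (List.replicate (W i) false)
  have h3 : n i * sz (List.replicate (W i) false) ≤ 4 * (n i * (W i + 1)) := by
    rw [List.length_replicate] at h2
    nlinarith [Nat.mul_le_mul_left (n i) h2]
  exact_mod_cast h3

theorem mulAux {w x y : ι → ℕ} (hx : R C fun i => bits (w i) (x i))
    (hy : R C fun i => bits (w i) (y i))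
    (hD : C.Dom fun i => ((w i + 1) * (Nat.log 2 (w i) + 1) ^ 10 : ℕ)) :
    R C fun i => bits (2 * w i) (x i % 2 ^ w i * (y i % 2 ^ w i)) := by
  have := hx.isOk
  set I : ι → Ix := fun i => topIx (w i) (x i % 2 ^ w i) (y i % 2 ^ w i) with hI
  have hP : C.Dom fun i => (I i).P :=
    hD.mono_mul 10000 (by norm_num) fun i => by exact_mod_cast topIx_P _ _ _
  have hB : C.Dom fun i => (I i).B := hP.mono fun i => by exact_mod_cast (I i).B_le_P
  have hw := hx.widthB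
  have hs : R C fun i => Un.mk (w i).size :=
    (R.lenUn (l := fun i => (w i).bits) (hw.lenBin.of_enc fun _ => rfl)).congr fun i => by
      rw [Nat.size_eq_bits_len]
  have hℓ := hs.unAdd (R.const (Un.mk 1))
  have hn := pow2 hℓ (hB.mono fun i => by exact_mod_cast (I i).two_pow_le_B.1)
  have hW := (hs.unConstMul 4).unAdd (R.const (Un.mk 4))
  have hwl : ∀ i, w i < 2 ^ (w i).size := fun i => Nat.lt_size_self _
  have hwn : ∀ i, w i ≤ 2 ^ ((w i).size + 1) := fun i => by have := hwl i; omega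
  have hD' : C.Dom fun i => (2 ^ ((w i).size + 1) : ℕ) * ((4 * (w i).size + 4 : ℕ) + 1) :=
    hB.mono fun i => by
      have : 2 ^ ((w i).size + 1) * (4 * (w i).size + 4 + 1) ≤ (I i).B := by
        simp only [hI, Ix.B, topIx, pow_zero, one_mul]
        exact Nat.mul_le_mul_left _ (by nlinarith)
      exact_mod_cast this
  have hin : R C fun i => (I i).inp := hℓ.pair (hn.pair
    ((oneT (wordsOfBits hW hn hx hwn hD')).pair (oneT (wordsOfBits hW hn hy hwn hD'))))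
  have hout := knot.use I hin fun _ => hP
  have hlt : ∀ i z, z % 2 ^ w i < 2 ^ 2 ^ (w i).size := fun i z =>
    (Nat.mod_lt _ (by positivity)).trans_le (Nat.pow_le_pow_right two_pos (hwl i).le)
  have key := fun i => alg_top (w i).size _ _ (hlt i (x i)) (hlt i (y i))
  set c : ι → ℕ → ℤ := fun i => alg ((w i).size + 1) 0 (2 ^ ((w i).size + 1))
    (fun _ => bitZ (x i % 2 ^ w i)) (fun _ => bitZ (y i % 2 ^ w i)) 0 with hc
  have hsig : ∀ i, sig ((w i).size + 1) 0 ≤ 3 * (w i).size := fun i =>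
    (sig_le _ _).trans (by omega)
  have h1 : R C fun i => tab (2 ^ ((w i).size + 1)) fun k =>
      bits (4 * (w i).size + 4 + 1) (c i k).toNat :=
    (headT hout.snd fun i => by positivity).congr fun i => tab_congr fun k hk => by
      rw [← ibits_nat, Int.toNat_of_nonneg ((key i).1 k hk).1]; rfl
  have h2 := carrySum (hW.unAdd (R.const (Un.mk 1))) h1 fun i k hk => by
    have h3 := (key i).1 k hk
    have h4 : (2 : ℤ) ^ (sig ((w i).size + 1) 0 + ((w i).size + 1)) < 2 ^ (4 * (w i).size + 4) :=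
      pow_lt_pow_right₀ one_lt_two (by have := hsig i; omega)
    zify
    rw [Int.toNat_of_nonneg h3.1]
    exact h3.2.trans_lt h4
  refine (R.take (hw.unConstMul 2) (R.drop hout.fst h2)).congr fun i => ?_
  have h5 : psum (fun k => (c i k).toNat) (2 ^ ((w i).size + 1)) =
      2 ^ sig ((w i).size + 1) 0 * (x i % 2 ^ w i * (y i % 2 ^ w i)) := by
    have h6 := (key i).2
    zify
    push_cast at h6
    rw [← h6, psum, evL]
    push_cast
    exact Finset.sum_congr rfl fun k hk => by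
      rw [Int.toNat_of_nonneg ((key i).1 k (Finset.mem_range.1 hk)).1]
  change _ = ((bits _ _).drop (sig ((w i).size + 1) 0)).take _
  rw [h5, drop_bits, Nat.mul_div_cancel_left _ (by positivity), take_bits]
  have := hsig i
  have := hwl i
  omega

end Mul

theorem mulSpec : MulSpec := by
  have h : R (Ctx.of (fun p : ℕ × ℕ × ℕ => (bits p.1 p.2.1, bits p.1 p.2.2))
      fun _ p => ((p.1 + 1) * (Nat.log 2 p.1 + 1) ^ 10 : ℕ))
      fun p => (bits p.1 p.2.1, bits p.1 p.2.2) :=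
    R.of_self 0 8 (by norm_num) fun p => by
      have h1 := sz_bits_le p.1 p.2.1
      have h2 := sz_bits_le p.1 p.2.2
      have h3 : p.1 + 1 ≤ (p.1 + 1) * (Nat.log 2 p.1 + 1) ^ 10 :=
        Nat.le_mul_of_pos_right _ (by positivity)
      have h4 : Lib.PolyTime.sz (bits p.1 p.2.1, bits p.1 p.2.2) ≤
          8 * ((p.1 + 1) * (Nat.log 2 p.1 + 1) ^ 10) := by
        rw [Lib.PolyTime.sz_pair]; omega
      exact_mod_cast h4
  exact Mul.mulAux h.fst h.snd (Ctx.dom_of _ 0)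

/-- Quasi-linear multiplication as a closure rule. -/
theorem R.mulBits (h : MulSpec) {ι : Type} {C : Ctx ι} {w m n : ι → ℕ}
    (hm : R C fun i => bits (w i) (m i)) (hn : R C fun i => bits (w i) (n i))
    (hD : C.Dom fun i => ((w i + 1) * (Nat.log 2 (w i) + 1) ^ 10 : ℕ)) :
    R C fun i => bits (2 * w i) (m i % 2 ^ w i * (n i % 2 ^ w i)) :=
  R.use h (fun i => (w i, m i, n i)) (hm.pair hn) fun _ => hD

end Crest.Agent.R326
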