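import Crest.Agent.R326.Spec2

/-!
# Choice of the parameters of the multiplication algorithm (row 326)

Only definitions.
-/

namespace Crest.Agent.R326

/-- Bits per axis: about `(log n) ^ (2 ^ (-53))`. -/
def pl (n : ℕ) : ℕ := Nat.sqrt^[53] (Nat.log 2 n)

/-- Number of axes. -/
def pd (n : ℕ) : ℕ := Nat.log 2 n / pl n - 4

/-- Bits per chunk. -/
def pb (n : ℕ) : ℕ := n / (2 ^ (pd n * pl n) / 4) + 1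

/-- The time budget. -/
noncomputable def bud (n : ℕ) : ℝ :=
  n * ((Nat.log 2 n : ℝ) + 1) ^ (1 - 1 / (2 : ℝ) ^ 182) + 1

/-- For large `n` the parameters are admissible and all costs are within the budget. -/
def ParSpec : Prop :=
  ∀ c : ℕ, ∃ n₀ : ℕ,
    (∀ n, n₀ ≤ n → c ≤ pl n ∧ 2 ≤ pl n ∧ 1 ≤ pd n ∧
      c * (Nat.log 2 (pd n * pl n) + 1) ^ 2 ≤ pl n ∧
      (pd n * pl n + 2) ^ 4 ≤ 2 ^ (pl n / 4) ∧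
      4 * (c * (pl n + 1) ^ 4 + 1) * (c * 4 ^ pl n + 2) * (pd n + 1) ≤ pb n) ∧
    (∀ k : ℕ, ∃ K : ℝ, 0 ≤ K ∧ ∀ n, n₀ ≤ n →
      (((2 ^ (pd n * pl n) + 1) * (Nat.log 2 n + 2) ^ k : ℕ) : ℝ) ≤ K * bud n) ∧
    (∀ k : ℕ, ∃ K : ℝ, 0 ≤ K ∧ ∀ n, n₀ ≤ n →
      (((2 ^ pl n + pb n + 2) ^ k : ℕ) : ℝ) ≤ K * bud n) ∧
    (∃ K : ℝ, 0 ≤ K ∧ ∀ n, n₀ ≤ n →
      (2 : ℝ) ^ (pd n * pl n) * (c * ((pl n : ℝ) + 1) ^ 4 + 1) * (17 * pb n) *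
        (((pd n : ℝ) * pl n + 1) ^ tau + ((Nat.log 2 (17 * pb n) : ℝ) + 2) ^ 10) ≤ K * bud n) ∧
    (∃ K : ℝ, 0 ≤ K ∧ ∀ n, n₀ ≤ n →
      (2 : ℝ) ^ (pd n * pl n) * (7 * pb n + 1) * ((pd n : ℝ) + 1) * ((pl n : ℝ) + 1) ^ tau ≤
        K * bud n)

end Crest.Agent.R326
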