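import Crest.Agent.R326.Conv
import Crest.Agent.R326.Spec3
import Crest.Agent.R326.Mul

/-!
# The fast multiplication routine
-/

set_option linter.unusedVariables false
set_option maxHeartbeats 400000

namespace Crest.Agent.R326

open Crest.Agent.Lib.PolyTime

theorem poly_iter_sqrt (k : ℕ) : Poly fun n : ℕ => Nat.sqrt^[k] n := by
  induction k with
  | zero => exact Poly.id'
  | succ k ih => simpa only [Function.iterate_succ_apply'] using ih.sqrt

theorem iter_sqrt_le (k n : ℕ) : Nat.sqrt^[k] n ≤ n := by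
  induction k with
  | zero => exact le_rfl
  | succ k ih => rw [Function.iterate_succ_apply']; exact (Nat.sqrt_le_self _).trans ih

theorem poly_pl : Poly pl := (poly_iter_sqrt 53).comp (g := fun n => Nat.log 2 n) (by fun_prop)

theorem pl_le (n : ℕ) : pl n ≤ Nat.log 2 n := iter_sqrt_le _ _

theorem pb_pl : PB pl := PB.mono (h := fun n => Nat.log 2 n) (by fun_prop) pl_le

theorem poly_pd : Poly pd := by
  have := poly_pl
  unfold pd; fun_prop

theorem pd_le (n : ℕ) : pd n ≤ Nat.log 2 n := (Nat.sub_le _ _).trans (Nat.div_le_self _ _)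

theorem pb_pd : PB pd := PB.mono (h := fun n => Nat.log 2 n) (by fun_prop) pd_le

theorem poly_pb : Poly pb := by
  have : Poly fun n => 2 ^ (pd n * pl n) :=
    Lib.PolyTime.Poly.pow (Lib.PolyTime.Poly.const 2) (poly_pd.mul poly_pl) (pb_pd.mul pb_pl)
  exact (Poly.id'.div (this.div (Lib.PolyTime.Poly.const 4))).add (Lib.PolyTime.Poly.const 1)

theorem le_mul_pb {n : ℕ} (h : 0 < 2 ^ (pd n * pl n) / 4) : n ≤ 2 ^ (pd n * pl n) / 4 * pb n :=
  (Nat.lt_mul_div_succ n h).le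

attribute [local irreducible] pl pd pb

theorem pow_le_pow_mul_prod {A B : ℕ} {l : List ℕ} (h : ∀ q ∈ l, A ≤ B * q) :
    A ^ l.length ≤ B ^ l.length * l.prod := by
  induction l with
  | nil => simp
  | cons q l ih =>
    rw [List.length_cons, List.prod_cons, pow_succ, pow_succ]
    calc _ ≤ (B ^ l.length * l.prod) * (B * q) :=
          Nat.mul_le_mul (ih fun x hx => h x (by simp [hx])) (h q (by simp))
      _ = _ := by ring

theorem two_pow_le_prod {ℓ : ℕ} {l : List ℕ} (h1 : 1 ≤ l.length)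
    (h : ∀ q ∈ l, (2 * l.length - 1) * 2 ^ ℓ < 2 * l.length * q) :
    2 ^ (l.length * ℓ) ≤ 2 * l.prod := by
  have h2 := pow_le_pow_mul_prod fun q hq => (h q hq).le
  obtain ⟨d, hd⟩ : ∃ d, l.length = d + 1 := ⟨l.length - 1, by omega⟩
  rw [hd] at h2 ⊢
  rw [show 2 * (d + 1) - 1 = 2 * d + 1 by omega, mul_pow, ← pow_mul, Nat.mul_comm ℓ] at h2
  have h3 : (2 * (d + 1)) ^ (d + 1) ≤ 2 * (2 * d + 1) ^ (d + 1) := by
    have p : (0 : ℝ) < 2 * (d + 1) := by positivity
    have h4 := one_add_mul_le_pow (a := -1 / (2 * (d + 1) : ℝ)) (by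
      rw [le_div_iff₀ p]; nlinarith [(by positivity : (0 : ℝ) ≤ d)]) (d + 1)
    have e1 : 1 + -1 / (2 * (d + 1) : ℝ) = (2 * d + 1) / (2 * (d + 1)) := by field_simp; ring
    have e2 : 1 + ((d + 1 : ℕ) : ℝ) * (-1 / (2 * (d + 1) : ℝ)) = 1 / 2 := by
      push_cast; field_simp; ring
    rw [e1, e2, div_pow, div_le_div_iff₀ (by norm_num) (by positivity), one_mul, mul_comm _ (2 : ℝ)] at h4
    exact_mod_cast h4
  have h5 := h2.trans (Nat.mul_le_mul_right _ h3)
  rw [Nat.mul_comm 2 (_ ^ _), Nat.mul_assoc] at h5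
  exact Nat.le_of_mul_le_mul_left h5 (by positivity)

theorem le_bud (n : ℕ) : (n : ℝ) + 1 ≤ bud n := by
  have : (1 : ℝ) ≤ ((Nat.log 2 n : ℝ) + 1) ^ (1 - 1 / (2 : ℝ) ^ 182) :=
    Real.one_le_rpow (by simp) (by norm_num)
  unfold bud
  nlinarith [(by positivity : (0 : ℝ) ≤ n)]

theorem bigMul (hC : ConvSpec) (hS : SieveSpec) (hP : ParSpec) : ∃ n₀ : ℕ,
    ∀ {ι : Type} {C : Ctx ι} {n X Y : ι → ℕ}, (∀ i, n₀ ≤ n i) → C.Dom (fun i => bud (n i)) →
      R C (fun i => bits (n i) (X i)) → R C (fun i => bits (n i) (Y i)) →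
        R C fun i => bits (2 * n i) (X i % 2 ^ n i * (Y i % 2 ^ n i)) := by
  obtain ⟨c₁, hC⟩ := hC
  obtain ⟨f, c₂, hf, hS⟩ := hS
  obtain ⟨n₀, h1, h2, h3, ⟨K₄, hK₄, h4⟩, K₅, hK₅, h5⟩ := hP (c₁ + c₂)
  refine ⟨n₀, fun {ι C n X Y} hn hB hX hY => ?_⟩
  have := hX.isOk
  set ℓ : ι → ℕ := fun i => pl (n i) with hℓ
  set d : ι → ℕ := fun i => pd (n i) with hd
  set b : ι → ℕ := fun i => pb (n i) with hb
  set L : ι → ℕ := fun i => Nat.log 2 (n i) with hL
  set qs : ι → List ℕ := fun i => f (⟨2 ^ ℓ i⟩, d i) with hqs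
  have hg := fun i => h1 (n i) (hn i)
  have hq := fun i => hS (ℓ i) (d i) (hg i).2.2.1
    (le_trans (Nat.mul_le_mul_right _ (Nat.le_add_left _ _)) (hg i).2.2.2.1)
  have hlen : ∀ i, (qs i).length = d i := fun i => (hq i).1
  have hPD : C.PD (fun i => 2 ^ (d i * ℓ i)) L := fun k => by
    obtain ⟨K, hK, h⟩ := h2 k
    exact hB.mono_mul K hK fun i => h _ (hn i)
  have hPD' : C.PD (fun _ => 0) fun i => 2 ^ ℓ i + b i := fun k => by
    obtain ⟨K, hK, h⟩ := h3 k
    exact hB.mono_mul K hK fun i => by simpa using h _ (hn i)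
  have hnS : SC C L n := ⟨hX.widthB.lenBin,
    (Sm.self.add (Sm.const 1)).sz_of_lt_two_pow fun i => Nat.lt_pow_succ_log_self (by norm_num) _⟩
  have hℓS : SC C L fun i => Un.mk (ℓ i) := hnS.poly hPD (f := fun n => Un.mk (pl n)) (Poly.unMk poly_pl pb_pl)
  have hdS : SC C L d := hnS.poly hPD poly_pd
  have hbS : SC C L b := hnS.poly hPD poly_pb
  have hsb : Sm (fun i => 2 ^ ℓ i + b i) b := Sm.self.mono fun i => Nat.le_add_left _ _
  have hsU : Sm (fun i => 2 ^ ℓ i + b i) fun i => 2 ^ ℓ i :=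
    Sm.self.mono fun i => Nat.le_add_right _ _
  have hub := (SC.un hPD' hbS.r hsb).r
  have hU := SC.un hPD' (hℓS.poly hPD (f := fun u => 2 ^ u.n) (by fun_prop)).r hsU
  have hdb : ∀ i, d i + 1 ≤ b i := fun i => le_trans (Nat.le_mul_of_pos_left _ (by positivity))
    (hg i).2.2.2.2.2
  have hd' : SC C (fun i => 2 ^ ℓ i + b i) d :=
    ⟨hdS.r, (hsb.mono fun i => by have := hdb i; omega).sz_of_sm⟩
  have hqS : SC C L qs := ⟨((hU.pair hd').poly hPD' hf).r,
    ((Sm.self.mul (((Sm.const 4).mul Sm.self).add (Sm.const 6))).add (Sm.const 1)).mono fun i => by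
      have h1 := sz_list_le (l := qs i) (B := 4 * (ℓ i + 1) + 1) fun q h =>
        sz_le_of_lt_two_pow (((hq i).2.2 q h).2.trans_lt (Nat.pow_lt_pow_right (by norm_num)
          (by omega)))
      rw [hlen] at h1
      have h2 := pl_le (n i)
      exact h1.trans (Nat.succ_le_succ (Nat.mul_le_mul (pd_le _) (by simp only [hℓ, hL]; omega)))⟩
  have hq2 : ∀ i, ∀ q ∈ qs i, 2 ^ ℓ i < 2 * q ∧ q ≤ 2 ^ ℓ i := fun i q h => by
    refine ⟨?_, ((hq i).2.2 q h).2⟩
    have h1 := ((hq i).2.2 q h).1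
    have h2 : 1 ≤ d i := (hg i).2.2.1
    have h3 := Nat.mul_le_mul_right (2 ^ ℓ i) (show d i ≤ 2 * d i - 1 by omega)
    exact Nat.lt_of_mul_lt_mul_left (a := d i) (by nlinarith)
  set N : ι → ℕ := fun i => (qs i).prod with hN
  have hN1 : ∀ i, 2 ^ (d i * ℓ i) ≤ 2 * N i := fun i => by
    rw [← hlen]
    exact two_pow_le_prod (hlen i ▸ (hg i).2.2.1) fun q h => hlen i ▸ ((hq i).2.2 q h).1
  have hN2 : ∀ i, N i ≤ 2 ^ (d i * ℓ i) := fun i => by
    rw [← hlen, Nat.mul_comm, pow_mul]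
    exact List.prod_le_pow_card _ _ fun q h => (hq2 i q h).2
  set m : ι → ℕ := fun i => 2 ^ (d i * ℓ i) / 4 with hm
  have hm1 : ∀ i, 2 * m i ≤ N i := fun i => by have := hN1 i; simp only [hm]; omega
  have hm2 : ∀ i, n i ≤ m i * b i := fun i => by
    have h1 : 2 ^ 2 ≤ 2 ^ (d i * ℓ i) := Nat.pow_le_pow_right (by norm_num)
      (Nat.mul_le_mul (hg i).2.2.1 (hg i).2.1)
    exact le_mul_pb (show 0 < m i by simp only [hm]; omega)
  have hm3 : ∀ i, 2 * n i ≤ N i * b i := fun i => by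
    have := Nat.mul_le_mul_right (b i) (hm1 i)
    have := hm2 i
    nlinarith
  have hD5 : C.Dom fun i => (2 : ℝ) ^ (d i * ℓ i) * (7 * b i + 1) * ((d i : ℝ) + 1) *
      ((ℓ i : ℝ) + 1) ^ tau := hB.mono_mul K₅ hK₅ fun i => h5 _ (hn i)
  have huN : R C fun i => Un.mk (N i) := (hqS.poly hPD (f := fun l => l.prod) (by fun_prop)).r.toUn
    (hPD.dom_T.mono fun i => by exact_mod_cast hN2 i)
  have huNb := huN.unMul hub (hD5.mono fun i => by
    have h1 : (1 : ℝ) ≤ ((ℓ i : ℝ) + 1) ^ tau :=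
      Real.one_le_rpow (by simp) (by unfold tau; norm_num)
    have h2 : (N i : ℝ) ≤ 2 ^ (d i * ℓ i) := by exact_mod_cast hN2 i
    have h3 : (0 : ℝ) ≤ b i := by positivity
    calc _ = (N i : ℝ) * b i * 1 * 1 := by ring
      _ ≤ _ := by gcongr; linarith; simp)
  have cut : ∀ Z : ι → ℕ, R C (fun i => bits (n i) (Z i)) → R C fun i => tab (N i) fun k =>
      bits (b i) (Z i % 2 ^ n i / 2 ^ (k * b i) % 2 ^ b i) := fun Z hZ =>
    R.cut huN hub (((hZ.congr fun i => bits_mod _ _).padBits (huNb.unSub hZ.widthB)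
      fun i => Nat.mod_lt _ (by positivity)).congr fun i => by
        rw [Nat.add_sub_cancel' (by have := hm3 i; omega)])
  have van : ∀ (Z : ι → ℕ) i k, m i ≤ k → Z i % 2 ^ n i / 2 ^ (k * b i) % 2 ^ b i = 0 :=
    fun Z i k hk => by
      rw [Nat.div_eq_of_lt ((Nat.mod_lt _ (by positivity)).trans_le (Nat.pow_le_pow_right
        (by norm_num) ((hm2 i).trans (Nat.mul_le_mul_right _ hk)))), Nat.zero_mod]
  have dig : ∀ (Z : ι → ℕ) i, (hsum (b i) (N i) fun k => Z i % 2 ^ n i / 2 ^ (k * b i) % 2 ^ b i) =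
      Z i % 2 ^ n i := fun Z i => by
    rw [hsum_digits, Nat.mod_eq_of_lt ((Nat.mod_lt _ (by positivity)).trans_le
      (Nat.pow_le_pow_right (by norm_num) (by have := hm3 i; omega)))]
  obtain ⟨hr, hlt⟩ := hC (qs := qs) (ℓ := ℓ) (b := b) (L := L) (by simpa only [hlen] using hPD)
    hPD' (hℓS.pair (hqS.pair hbS)) (fun i => by
      rw [hlen]
      exact ⟨le_trans (Nat.le_add_right _ _) (hg i).1, (hg i).2.2.1, (hg i).2.2.2.2.1,
        le_trans (by gcongr <;> exact Nat.le_add_right _ _) (hg i).2.2.2.2.2⟩)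
    (fun i => (hq i).2.1) hq2
    (fun i k => ⟨Nat.mod_lt _ (by positivity), Nat.mod_lt _ (by positivity)⟩)
    (hB.mono_mul K₄ hK₄ fun i => by
      rw [hlen]
      refine le_trans ?_ (h4 _ (hn i))
      gcongr
      exact Nat.le_add_right _ _)
    (by simpa only [hlen] using hD5) (cut X hX) (cut Y hY)
  refine (R.take (hX.widthB.unConstMul 2) (R.carryUp 6 hub hr)).congr fun i => ?_
  rw [take_bits _ (hm3 i), hsum_congr fun k hk => Nat.mod_eq_of_lt (hlt i k hk),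
    hsum_conv (hm1 i) (van X i) (van Y i), dig, dig]

theorem fastMul (hC : ConvSpec) (hS : SieveSpec) (hP : ParSpec) {ι : Type} {C : Ctx ι}
    {n X Y : ι → ℕ} (hB : C.Dom fun i => bud (n i)) (hX : R C fun i => bits (n i) (X i))
    (hY : R C fun i => bits (n i) (Y i)) :
    R C fun i => bits (2 * n i) (X i % 2 ^ n i * (Y i % 2 ^ n i)) := by
  obtain ⟨n₀, h⟩ := bigMul hC hS hP
  have := hX.isOk
  have hc : R C fun i => decide (n i ≤ n₀) :=
    (R.drop (R.const (Un.mk n₀)) hX).isEmpty.congr fun i => by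
      rw [Bool.eq_iff_iff]; simp
  refine hc.dcond (R.mulBits mulSpec (hX.comap _) (hY.comap _)
    ((Ctx.Ok.dom_const inferInstance ((n₀ + 1) * (n₀ + 1) ^ 10 : ℕ)).mono fun i => ?_))
    (h (fun i => by have := i.2; simp at this; omega) (hB.comap _) (hX.comap _) (hY.comap _))
  have h1 : n i.1 ≤ n₀ := by simpa using i.2
  have h2 := Nat.log_le_self 2 (n i.1)
  norm_cast
  gcongr
  omega

end Crest.Agent.R326
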