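import Crest.Agent.R326.NetSwap

set_option autoImplicit false
set_option linter.unusedSectionVars false

/-! The two instances of the network specification. -/

namespace Crest.Agent.R326

namespace Nw

open Finset Matrix

/-- Three-element subsets. -/
abbrev Tri (h : ℕ) : Type := {S : Finset (Fin h) // S.card = 3}

variable {h : ℕ}

/-- Indicator vector of a triple. -/
def ind (R : Type) [CommRing R] (S : Tri h) : Fin h → R := fun i => if i ∈ S.1 then 1 else 0

lemma ind_dot (R : Type) [CommRing R] (S T : Tri h) :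
    ind R S ⬝ᵥ ind R T = ((S.1 ∩ T.1).card : R) := by
  have : ∀ i, ind R S i * ind R T i = if i ∈ S.1 ∩ T.1 then 1 else 0 := fun i => by
    by_cases h1 : i ∈ S.1 <;> by_cases h2 : i ∈ T.1 <;> simp [ind, h1, h2]
  simp only [dotProduct, this]
  rw [Finset.sum_boole]
  congr 2
  ext i; simp

lemma inter_le_two {S T : Tri h} (hST : T ≠ S) : (S.1 ∩ T.1).card ≤ 2 := by
  have h1 : (S.1 ∩ T.1).card ≤ 3 := (Finset.card_le_card Finset.inter_subset_left).trans S.2.le
  have h2 : (S.1 ∩ T.1).card ≠ 3 := by
    intro h3
    apply hST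
    have e1 := Finset.eq_of_subset_of_card_le (Finset.inter_subset_left (s₁ := S.1) (s₂ := T.1))
      (by rw [h3, S.2])
    have e2 := Finset.eq_of_subset_of_card_le (Finset.inter_subset_right (s₁ := S.1) (s₂ := T.1))
      (by rw [h3, T.2])
    exact Subtype.ext (e2.symm.trans e1)
  omega

section pairs
variable {T K : Type} [Fintype T] [DecidableEq T] [CommRing K] (p : T × T → Prop)
  [DecidablePred p]

/-- side wires to second bank -/
def gA (c : T → T → K) : Matrix T {a // p a} K :=
  Matrix.of fun S a => if a.1.2 = S then c a.1.1 a.1.2 else 0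

/-- first bank to side wires -/
def gB (K : Type) [CommRing K] : Matrix {a // p a} T K :=
  Matrix.of fun a S => if a.1.1 = S then 1 else 0

lemma gA_mul_gB (c : T → T → K) (S' S : T) :
    (gA p c * gB p K) S' S = if p (S, S') then c S S' else 0 := by
  rw [mul_apply]
  split_ifs with he
  · rw [Finset.sum_eq_single ⟨(S, S'), he⟩]
    · simp [gA, gB]
    · rintro ⟨⟨a, a'⟩, h'⟩ _ hne
      simp only [gA, gB, of_apply]
      split_ifs with h1 h2
      · subst h1 h2; exact absurd rfl hne
      all_goals simp
    · simp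
  · refine Finset.sum_eq_zero ?_
    rintro ⟨⟨a, a'⟩, h'⟩ _
    simp only [gA, gB, of_apply]
    split_ifs with h1 h2
    · subst h1 h2; exact absurd h' he
    all_goals simp

lemma gA_supp (c : T → T → K) (S : T) (a : {a // p a}) (h0 : gA p c S a ≠ 0) : a.1.2 = S := by
  by_contra hc
  exact h0 (by simp [gA, hc])

lemma gB_supp (a : {a // p a}) (S : T) (h0 : gB p K a S ≠ 0) : a.1.1 = S := by
  by_contra hc
  exact h0 (by simp [gB, hc])

end pairs

/-- The data for the Walsh–Hadamard network. -/
def bdW (h : ℕ) {K : Type} [CommRing K] (hf : K) (h2 : 2 * hf = 1) :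
    BD True (ZMod 2) K (Fin h) (Tri h) {a : Tri h × Tri h // Even (a.1.1 ∩ a.2.1).card}
      (Option (Fin h)) where
  u := ind (ZMod 2)
  v := ind (ZMod 2)
  huv S := by rw [ind_dot, Finset.inter_self, S.2]; decide
  hsym _ := rfl
  a1 a := a.1.1
  a2 a := a.1.2
  h12 a := by rw [ind_dot, (ZMod.natCast_eq_zero_iff_even).2 a.2]
  h21 a := by rw [ind_dot, Finset.inter_comm, (ZMod.natCast_eq_zero_iff_even).2 a.2]
  mA := gA _ fun S T => -((((S.1 ∩ T.1).card : K) - 1) * hf)
  mB := gB _ K
  mC := Matrix.of fun T o => o.elim (-hf) fun i => ind K T i * hf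
  mD := Matrix.of fun o S => o.elim 1 fun i => ind K S i
  key := by
    ext T S
    have e : ((Matrix.of fun (T : Tri h) (o : Option (Fin h)) =>
          o.elim (-hf) fun i => ind K T i * hf) *
        (Matrix.of fun (o : Option (Fin h)) (S : Tri h) => o.elim 1 fun i => ind K S i)) T S =
        (((S.1 ∩ T.1).card : K) - 1) * hf := by
      rw [mul_apply, Fintype.sum_option, ← ind_dot, dotProduct, sub_mul, Finset.sum_mul]
      simp only [of_apply, Option.elim_none, Option.elim_some]
      rw [Finset.sum_congr rfl fun i _ =>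
        show ind K T i * hf * ind K S i = ind K S i * ind K T i * hf by ring]
      ring
    rw [Matrix.add_apply, gA_mul_gB, e]
    by_cases hST : T = S
    · subst hST
      simp only [Finset.inter_self, T.2]
      rw [if_neg (by decide), one_apply_eq]
      push_cast; linear_combination h2
    · rw [one_apply_ne hST]
      split_ifs with he
      · ring
      · have h1 := inter_le_two hST
        have h4 : (S.1 ∩ T.1).card = 1 := by
          rw [Nat.even_iff] at he
          simp only at he
          omega
        rw [h4]; simp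
  sA := gA_supp _ _
  sB := gB_supp _

lemma dot_swap (S T : Tri h) :
    (fun i => (ind ℚ S i - 1 / 3) / 2) ⬝ᵥ ind ℚ T = (((S.1 ∩ T.1).card : ℚ) - 1) / 2 := by
  have e : ∑ i, ind ℚ T i = 3 := by
    simp [ind, T.2]
  rw [← ind_dot, dotProduct, dotProduct,
    Finset.sum_congr rfl fun i _ => show (ind ℚ S i - 1 / 3) / 2 * ind ℚ T i =
      ind ℚ S i * ind ℚ T i / 2 - ind ℚ T i / 6 by ring,
    Finset.sum_sub_distrib, ← Finset.sum_div, ← Finset.sum_div, e]
  ring

/-- The data for the swap network. -/
def bdS (h : ℕ) :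
    BD False ℚ (ZMod 2) (Fin h) (Tri h) {a : Tri h × Tri h // (a.1.1 ∩ a.2.1).card = 1}
      (Fin h) where
  u := ind ℚ
  v S := fun i => (ind ℚ S i - 1 / 3) / 2
  huv S := by rw [dot_swap, Finset.inter_self, S.2]; norm_num
  hsym := False.elim
  a1 a := a.1.1
  a2 a := a.1.2
  h12 a := by rw [dot_swap, a.2]; norm_num
  h21 a := by rw [dot_swap, Finset.inter_comm, a.2]; norm_num
  mA := gA _ fun _ _ => 1
  mB := gB _ (ZMod 2)
  mC := Matrix.of fun T i => ind (ZMod 2) T i
  mD := Matrix.of fun i S => ind (ZMod 2) S i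
  key := by
    ext T S
    have e : ((Matrix.of fun (T : Tri h) (i : Fin h) => ind (ZMod 2) T i) *
        (Matrix.of fun (i : Fin h) (S : Tri h) => ind (ZMod 2) S i)) T S =
        ((S.1 ∩ T.1).card : ZMod 2) := by
      rw [Finset.inter_comm, ← ind_dot]; rfl
    rw [Matrix.add_apply, gA_mul_gB, e]
    by_cases hST : T = S
    · subst hST
      simp only [Finset.inter_self, T.2]
      rw [if_neg (by decide), one_apply_eq]
      decide
    · rw [one_apply_ne hST]
      have h1 := inter_le_two hST
      simp only
      generalize (S.1 ∩ T.1).card = c at h1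
      interval_cases c <;> decide
  sA := gA_supp _ _
  sB := gB_supp _

lemma card_tri : Fintype.card (Tri 100) = 161700 := by
  rw [Fintype.card_finset_len, Fintype.card_fin]; decide +kernel

lemma card_pairs (p : Tri 100 × Tri 100 → Prop) [DecidablePred p] :
    Fintype.card {a // p a} ≤ 161700 * 161700 := by
  refine (Fintype.card_subtype_le _).trans ?_
  rw [Fintype.card_prod, card_tri]

end Nw

theorem netSpec_wht : NetSpec True (ZMod 2) (Localization.Away (2 : ℤ)) :=
  (Nw.bdW 100 (IsLocalization.Away.invSelf (S := Localization.Away (2 : ℤ)) (2 : ℤ))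
    (by simpa using IsLocalization.Away.mul_invSelf (S := Localization.Away (2 : ℤ)) (2 : ℤ))).netSpec
    (by simp) Nw.card_tri (Nw.card_pairs _) (by simp)

theorem netSpec_swap : NetSpec False ℚ (ZMod 2) :=
  (Nw.bdS 100).netSpec (by simp) Nw.card_tri (Nw.card_pairs _) (by simp)

end Crest.Agent.R326
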