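import Crest.Agent.R326.NetCalc

set_option autoImplicit false
set_option linter.unusedSectionVars false

/-! The basic shear network, generic in the frame field and the scalars. -/

namespace Crest.Agent.R326.Nw

open Finset Matrix Kronecker

/-- Data of a basic network. -/
structure BD (sym : Prop) (𝔽 K ν T A C : Type) [Field 𝔽] [CommRing K] [Fintype ν] [Fintype T]
    [DecidableEq T] [Fintype A] [Fintype C] where
  u : T → ν → 𝔽
  v : T → ν → 𝔽
  huv : ∀ S, v S ⬝ᵥ u S = 1
  hsym : sym → u = v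
  a1 : A → T
  a2 : A → T
  h12 : ∀ a, v (a1 a) ⬝ᵥ u (a2 a) = 0
  h21 : ∀ a, v (a2 a) ⬝ᵥ u (a1 a) = 0
  mA : Matrix T A K
  mB : Matrix A T K
  mC : Matrix T C K
  mD : Matrix C T K
  key : mA * mB + mC * mD = 1
  sA : ∀ S a, mA S a ≠ 0 → a2 a = S
  sB : ∀ a S, mB a S ≠ 0 → a1 a = S

/-- Wires of the basic network. -/
abbrev W0 (T A C : Type) : Type := T ⊕ T ⊕ A ⊕ C

variable {sym : Prop} {𝔽 K ν T A C : Type} [Field 𝔽] [CommRing K] [Fintype ν] [DecidableEq ν]
  [Fintype T] [DecidableEq T] [Fintype A] [DecidableEq A] [Fintype C] [DecidableEq C]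

/-- first bank -/
def iX (A C : Type) : T → W0 T A C := Sum.inl
/-- second bank -/
def iY (A C : Type) : T → W0 T A C := fun S => Sum.inr (Sum.inl S)
/-- side wires -/
def iA (T C : Type) : A → W0 T A C := fun a => Sum.inr (Sum.inr (Sum.inl a))
/-- central wires -/
def iC (T A : Type) : C → W0 T A C := fun i => Sum.inr (Sum.inr (Sum.inr i))

/-- frames by wire class -/
def fW (C : Type) (x y : T → Matrix ν ν 𝔽) (a : A → Matrix ν ν 𝔽) (c : Matrix ν ν 𝔽) :
    W0 T A C → Matrix ν ν 𝔽 :=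
  Sum.elim x (Sum.elim y (Sum.elim a fun _ => c))

namespace BD
variable (b : BD sym 𝔽 K ν T A C)

/-- Rank one projector. -/
def pr (S : T) : Matrix ν ν 𝔽 := vecMulVec (b.u S) (b.v S)

lemma pr_mul (S S' : T) : b.pr S * b.pr S' = (b.v S ⬝ᵥ b.u S') • vecMulVec (b.u S) (b.v S') := by
  ext i j
  simp only [pr, mul_apply, vecMulVec_apply, dotProduct, Matrix.smul_apply, smul_eq_mul,
    Finset.sum_mul]
  exact Finset.sum_congr rfl fun k _ => by ring

lemma pr_isPj (S : T) : IsPj sym (b.pr S) := by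
  refine ⟨fun hs => by simp [pr, b.hsym hs], ?_⟩
  rw [pr_mul, b.huv, one_smul]; rfl

lemma pr_le (a : A) : PLe sym (b.pr (b.a1 a)) (1 - b.pr (b.a2 a)) :=
  ⟨b.pr_isPj _, pj_one_sub (b.pr_isPj _),
    by rw [mul_sub, pr_mul, b.h12, zero_smul, mul_one, sub_zero],
    by rw [sub_mul, pr_mul, b.h21, zero_smul, one_mul, sub_zero]⟩

/-- frames at step 1 -/
def P1 : W0 T A C → Matrix ν ν 𝔽 := fW C b.pr (fun _ => 0) (fun _ => 0) 0
/-- frames at step 2 -/
def P2 : W0 T A C → Matrix ν ν 𝔽 := fW C b.pr (fun _ => 0) (fun a => b.pr (b.a1 a)) 0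
/-- frames at step 3 -/
def P3 : W0 T A C → Matrix ν ν 𝔽 := fW C (fun _ => 1) (fun _ => 0) (fun a => b.pr (b.a1 a)) 1
/-- frames at step 4 -/
def P4 : W0 T A C → Matrix ν ν 𝔽 := fW C (fun _ => 1) (fun _ => 0) (fun a => b.pr (b.a1 a)) 0
/-- frames at step 5 -/
def P5 : W0 T A C → Matrix ν ν 𝔽 :=
  fW C (fun _ => 1) (fun S => 1 - b.pr S) (fun a => 1 - b.pr (b.a2 a)) 0
/-- frames at step 6 -/
def P6 : W0 T A C → Matrix ν ν 𝔽 := fW C (fun _ => 1) (fun S => 1 - b.pr S) (fun _ => 1) 1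

lemma base_generic {G1 G2 G3 G4 G5 G6 : Matrix (W0 T A C) (W0 T A C) K} (h1 : Resp G1 b.P1)
    (h2 : Resp G2 b.P2) (h3 : Resp G3 b.P3) (h4 : Resp G4 b.P4) (h5 : Resp G5 b.P5)
    (h6 : Resp G6 b.P6) :
    Net sym b.P1 b.P6 (G6 * (G5 * (G4 * (G3 * (G2 * G1))))) (Fintype.card C * (2 * Fintype.card ν)) := by
  have n1 : Net sym b.P1 b.P1 G1 0 := Net.gate h1
  have n2 : Net sym b.P1 b.P2 G2 0 := Net.upGate (by
    rintro (S | S | a | i)
    · exact Or.inl rfl
    · exact Or.inl rfl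
    · exact Or.inr (pj_zero_le (b.pr_isPj _))
    · exact Or.inl rfl) h2
  have n3 : Net sym b.P2 b.P3 G3 0 := Net.upGate (by
    rintro (S | S | a | i)
    · exact Or.inr (pj_le_one (b.pr_isPj _))
    · exact Or.inl rfl
    · exact Or.inl rfl
    · exact Or.inr (pj_zero_le pj_one)) h3
  have n4 : Net sym b.P3 b.P4 (1 : Matrix (W0 T A C) (W0 T A C) K) _ :=
    Net.edge (Sum.elim (fun _ => 0) (Sum.elim (fun _ => 0) (Sum.elim (fun _ => 0) fun _ => 2 * Fintype.card ν)))
      (by
        rintro (S | S | a | i)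
        · exact Or.inl rfl
        · exact Or.inl rfl
        · exact Or.inl rfl
        · refine Or.inr (Or.inr ⟨pj_zero_le pj_one, ?_⟩)
          exact Nat.mul_le_mul_left _ (rank_le_card_width _))
  have n4' : Net sym b.P3 b.P4 G4 (Fintype.card C * (2 * Fintype.card ν)) := by
    have := n4.comp (Net.gate h4)
    simpa [Fintype.sum_sum_type] using this
  have n5 : Net sym b.P4 b.P5 G5 0 := Net.upGate (by
    rintro (S | S | a | i)
    · exact Or.inl rfl
    · exact Or.inr (pj_zero_le (pj_one_sub (b.pr_isPj _)))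
    · exact Or.inr (b.pr_le a)
    · exact Or.inl rfl) h5
  have n6 : Net sym b.P5 b.P6 G6 0 := Net.upGate (by
    rintro (S | S | a | i)
    · exact Or.inl rfl
    · exact Or.inl rfl
    · exact Or.inr (pj_le_one (pj_one_sub (b.pr_isPj _)))
    · exact Or.inr (pj_zero_le pj_one)) h6
  simpa using ((((n1.comp n2).comp n3).comp n4').comp n5).comp n6

lemma comm_identity' {R : Type} [Ring R] (a b : R) (ha : a * a = 0) (hb : b * b = 0)
    (hab : a * b = 0) : (1 + b) * (1 - a) * (1 - b) * (1 + a) = 1 - b * a := by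
  have : (1 + b) * (1 - a) * (1 - b) * (1 + a) = 1 - b * a - a * a + a * b + a * b * a - b * b
      - b * b * a - b * (a * a) + b * (a * b) + b * (a * b) * a := by noncomm_ring
  rw [this, ha, hb, hab]
  simp

lemma base_both :
    Net sym b.P1 b.P6 (1 + lift (iY A C) (iX A C) (1 : Matrix T T K)) (Fintype.card C * (2 * Fintype.card ν)) ∧
      Net sym b.P1 b.P6 (1 - lift (iX A C) (iY A C) (1 : Matrix T T K)) (Fintype.card C * (2 * Fintype.card ν)) := by
  set α : Matrix (W0 T A C) (W0 T A C) K := lift (iY A C) (iA T C) b.mA with hα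
  set β : Matrix (W0 T A C) (W0 T A C) K := lift (iA T C) (iX A C) b.mB with hβ
  set γ : Matrix (W0 T A C) (W0 T A C) K := lift (iY A C) (iC T A) b.mC with hγ
  set δ : Matrix (W0 T A C) (W0 T A C) K := lift (iC T A) (iX A C) b.mD with hδ
  have rα1 : Resp α b.P1 := Resp.lift fun _ _ _ => rfl
  have rγ1 : Resp γ b.P1 := Resp.lift fun _ _ _ => rfl
  have rβ2 : Resp β b.P2 := Resp.lift fun a S h0 => by
    have := b.sB _ _ h0
    subst this; rfl
  have rδ3 : Resp δ b.P3 := Resp.lift fun _ _ _ => rfl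
  have rγ4 : Resp γ b.P4 := Resp.lift fun _ _ _ => rfl
  have rα5 : Resp α b.P5 := Resp.lift fun S a h0 => by
    have := b.sA _ _ h0
    subst this; rfl
  have rβ6 : Resp β b.P6 := Resp.lift fun _ _ _ => rfl
  have rδ6 : Resp δ b.P6 := Resp.lift fun _ _ _ => rfl
  have hαα : α * α = 0 := lift_mul_lift_disj _ _ (by simp [iA, iY]) _ _
  have hαγ : α * γ = 0 := lift_mul_lift_disj _ _ (by simp [iA, iY]) _ _
  have hγα : γ * α = 0 := lift_mul_lift_disj _ _ (by simp [iC, iY]) _ _
  have hγγ : γ * γ = 0 := lift_mul_lift_disj _ _ (by simp [iC, iY]) _ _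
  have hββ : β * β = 0 := lift_mul_lift_disj _ _ (by simp [iA, iX]) _ _
  have hβδ : β * δ = 0 := lift_mul_lift_disj _ _ (by simp [iC, iX]) _ _
  have hδβ : δ * β = 0 := lift_mul_lift_disj _ _ (by simp [iA, iX]) _ _
  have hδδ : δ * δ = 0 := lift_mul_lift_disj _ _ (by simp [iC, iX]) _ _
  have hβα : β * α = 0 := lift_mul_lift_disj _ _ (by simp [iY, iX]) _ _
  have hβγ : β * γ = 0 := lift_mul_lift_disj _ _ (by simp [iY, iX]) _ _
  have hδα : δ * α = 0 := lift_mul_lift_disj _ _ (by simp [iY, iX]) _ _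
  have hδγ : δ * γ = 0 := lift_mul_lift_disj _ _ (by simp [iY, iX]) _ _
  have hαδ : α * δ = 0 := lift_mul_lift_disj _ _ (by simp [iA, iC]) _ _
  have hγβ : γ * β = 0 := lift_mul_lift_disj _ _ (by simp [iA, iC]) _ _
  have hA : Function.Injective (iA (A := A) T C) := fun a a' hab => by simpa [iA] using hab
  have hC : Function.Injective (iC (C := C) T A) := fun a a' hab => by simpa [iC] using hab
  have hab : (α + γ) * (β + δ) = lift (iY A C) (iX A C) (1 : Matrix T T K) := by
    rw [add_mul, mul_add, mul_add, hαδ, hγβ, add_zero, zero_add, lift_mul_lift _ _ hA,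
      lift_mul_lift _ _ hC, ← lift_add, b.key]
  have haa : (α + γ) * (α + γ) = 0 := by simp [add_mul, mul_add, hαα, hαγ, hγα, hγγ]
  have hbb : (β + δ) * (β + δ) = 0 := by simp [add_mul, mul_add, hββ, hβδ, hδβ, hδδ]
  have hba : (β + δ) * (α + γ) = 0 := by simp [add_mul, mul_add, hβα, hβγ, hδα, hδγ]
  constructor
  · have := b.base_generic ((Resp.one _).sub (rα1.add rγ1)) ((Resp.one _).add rβ2)
      ((Resp.one _).add rδ3) ((Resp.one _).add rγ4) ((Resp.one _).add rα5)
      ((Resp.one _).sub (rβ6.add rδ6))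
    convert this using 1
    rw [← hab, ← comm_identity _ _ haa hbb hba]
    have e1 : 1 + (α + γ) = (1 + α) * (1 + γ) := by
      rw [add_mul, mul_add, mul_add, hαγ]; simp only [one_mul, mul_one]; abel
    have e2 : 1 + (β + δ) = (1 + δ) * (1 + β) := by
      rw [add_mul, mul_add, mul_add, hδβ]; simp only [one_mul, mul_one]; abel
    rw [e1, e2]
    simp only [mul_assoc]
  · have := b.base_generic ((Resp.one _).add (rα1.add rγ1).transpose) ((Resp.one _).sub rβ2.transpose)
      ((Resp.one _).sub rδ3.transpose) ((Resp.one _).sub rγ4.transpose)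
      ((Resp.one _).sub rα5.transpose) ((Resp.one _).add (rβ6.add rδ6).transpose)
    convert this using 1
    have hab' : lift (iX A C) (iY A C) (1 : Matrix T T K) = (β + δ)ᵀ * (α + γ)ᵀ := by
      rw [← transpose_mul, hab, lift_transpose, transpose_one]
    rw [hab', ← comm_identity' _ _ (by rw [← transpose_mul, haa, transpose_zero])
      (by rw [← transpose_mul, hbb, transpose_zero]) (by rw [← transpose_mul, hba, transpose_zero])]
    have e1 : 1 - (α + γ)ᵀ = (1 - αᵀ) * (1 - γᵀ) := by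
      rw [sub_mul, mul_sub, mul_sub, ← transpose_mul γ α, hγα, transpose_add]
      simp only [one_mul, mul_one, transpose_zero]; abel
    have e2 : 1 - (β + δ)ᵀ = (1 - δᵀ) * (1 - βᵀ) := by
      rw [sub_mul, mul_sub, mul_sub, ← transpose_mul β δ, hβδ, transpose_add]
      simp only [one_mul, mul_one, transpose_zero]; abel
    rw [e1, e2]
    simp only [mul_assoc]

end BD

end Crest.Agent.R326.Nw
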