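import Mathlib

set_option autoImplicit false
set_option linter.unusedSectionVars false

/-! Placing a matrix inside a bigger index set. -/

namespace Crest.Agent.R326.Nw

open Finset Matrix

variable {A B C I J K : Type} [CommRing K]

/-- The matrix of an index map. -/
def emb (K : Type) [CommRing K] [DecidableEq I] (e : A → I) : Matrix I A K := Matrix.of fun w a => if w = e a then 1 else 0

/-- Place `M` with rows along `e` and columns along `f`. -/
noncomputable def lift [DecidableEq I] [Fintype A] [Fintype B] (e : A → I) (f : B → I)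
    (M : Matrix A B K) : Matrix I I K := emb K e * M * (emb K f)ᵀ

variable [DecidableEq I] [Fintype I] [Fintype A] [Fintype B] [Fintype C]

lemma emb_tr_mul_emb_disj {e : A → I} {f : B → I} (h : ∀ a b, e a ≠ f b) :
    (emb K e)ᵀ * emb K f = 0 := by
  ext a b
  simp only [emb, mul_apply, transpose_apply, of_apply, Matrix.zero_apply]
  refine Finset.sum_eq_zero fun w _ => ?_
  split_ifs with h1 h2
  · exact absurd (h1.symm.trans h2) (h a b)
  all_goals simp

lemma emb_tr_mul_emb_self [DecidableEq A] {e : A → I} (h : Function.Injective e) :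
    (emb K e)ᵀ * emb K e = 1 := by
  ext a b
  simp only [emb, mul_apply, transpose_apply, of_apply, one_apply]
  rw [Finset.sum_eq_single (e a)]
  · simp [h.eq_iff]
  · intro w _ hw; simp [hw]
  · simp

lemma emb_comp [DecidableEq J] (g : I → J) (e : A → I) : emb K g * emb K e = emb K (g ∘ e) := by
  ext k a
  simp only [emb, mul_apply, of_apply, Function.comp]
  rw [Finset.sum_eq_single (e a)]
  · simp
  · intro w _ hw; simp [hw]
  · simp

lemma lift_mul_lift_disj {D : Type} [Fintype D] (e : A → I) {f : B → I} {g : C → I} (k : D → I)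
    (h : ∀ b c, f b ≠ g c) (M : Matrix A B K) (N : Matrix C D K) :
    lift e f M * lift g k N = 0 := by
  unfold lift
  calc emb K e * M * (emb K f)ᵀ * (emb K g * N * (emb K k)ᵀ)
      = emb K e * M * ((emb K f)ᵀ * emb K g) * N * (emb K k)ᵀ := by simp only [Matrix.mul_assoc]
    _ = 0 := by rw [emb_tr_mul_emb_disj h]; simp

lemma lift_mul_lift (e : A → I) {f : B → I} (g : C → I) (h : Function.Injective f)
    (M : Matrix A B K) (N : Matrix B C K) : lift e f M * lift f g N = lift e g (M * N) := by
  classical
  unfold lift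
  calc emb K e * M * (emb K f)ᵀ * (emb K f * N * (emb K g)ᵀ)
      = emb K e * M * ((emb K f)ᵀ * emb K f) * N * (emb K g)ᵀ := by simp only [Matrix.mul_assoc]
    _ = _ := by rw [emb_tr_mul_emb_self h]; simp only [Matrix.mul_assoc, Matrix.one_mul]

lemma lift_add (e : A → I) (f : B → I) (M N : Matrix A B K) :
    lift e f (M + N) = lift e f M + lift e f N := by
  simp [lift, Matrix.mul_add, Matrix.add_mul]

lemma lift_neg (e : A → I) (f : B → I) (M : Matrix A B K) : lift e f (-M) = -lift e f M := by
  simp [lift]

lemma lift_sub (e : A → I) (f : B → I) (M N : Matrix A B K) :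
    lift e f (M - N) = lift e f M - lift e f N := by
  simp [lift, Matrix.mul_sub, Matrix.sub_mul]

@[simp] lemma lift_zero (e : A → I) (f : B → I) : lift e f (0 : Matrix A B K) = 0 := by simp [lift]

lemma lift_sum {W : Type} (s : Finset W) (e : A → I) (f : B → I) (M : W → Matrix A B K) :
    lift e f (∑ w ∈ s, M w) = ∑ w ∈ s, lift e f (M w) := by
  simp [lift, Matrix.mul_sum, Matrix.sum_mul]

lemma lift_transpose (e : A → I) (f : B → I) (M : Matrix A B K) :
    (lift e f M)ᵀ = lift f e Mᵀ := by
  simp [lift, transpose_mul, Matrix.mul_assoc]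

lemma lift_lift [DecidableEq J] (g g' : I → J) (e : A → I) (f : B → I) (M : Matrix A B K) :
    lift g g' (lift e f M) = lift (g ∘ e) (g' ∘ f) M := by
  unfold lift
  rw [← emb_comp, ← emb_comp, transpose_mul]
  simp only [Matrix.mul_assoc]

lemma lift_apply (e : A → I) (f : B → I) (M : Matrix A B K) (w w' : I) :
    lift e f M w w' = ∑ a, ∑ b, if w = e a ∧ w' = f b then M a b else 0 := by
  simp only [lift, emb, mul_apply, transpose_apply, of_apply, Finset.sum_mul]
  rw [Finset.sum_comm]
  refine Finset.sum_congr rfl fun a _ => Finset.sum_congr rfl fun b _ => ?_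
  by_cases h1 : w = e a <;> by_cases h2 : w' = f b <;> simp [h1, h2]

lemma lift_apply_emb {e : A → I} {f : B → I} (he : Function.Injective e)
    (hf : Function.Injective f) (M : Matrix A B K) (a : A) (b : B) :
    lift e f M (e a) (f b) = M a b := by
  rw [lift_apply, Finset.sum_eq_single a, Finset.sum_eq_single b]
  · simp
  · intro b' _ hb; simp [hf.eq_iff, hb.symm]
  · simp
  · intro a' _ ha; simp [he.eq_iff, ha.symm]
  · simp

lemma lift_ne_zero {e : A → I} {f : B → I} {M : Matrix A B K} {w w' : I}
    (h : lift e f M w w' ≠ 0) : ∃ a b, w = e a ∧ w' = f b ∧ M a b ≠ 0 := by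
  rw [lift_apply] at h
  obtain ⟨a, _, h⟩ := Finset.exists_ne_zero_of_sum_ne_zero h
  obtain ⟨b, _, h⟩ := Finset.exists_ne_zero_of_sum_ne_zero h
  split_ifs at h with h1
  · exact ⟨a, b, h1.1, h1.2, h⟩
  · exact absurd rfl h

lemma lift_apply_of_row {e : A → I} (f : B → I) (M : Matrix A B K) {w : I} (w' : I)
    (h : ∀ a, w ≠ e a) : lift e f M w w' = 0 := by
  by_contra h0
  obtain ⟨a, _, h1, _⟩ := lift_ne_zero h0
  exact h a h1

lemma lift_apply_of_col (e : A → I) {f : B → I} (M : Matrix A B K) (w : I) {w' : I}
    (h : ∀ b, w' ≠ f b) : lift e f M w w' = 0 := by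
  by_contra h0
  obtain ⟨_, b, _, h1, _⟩ := lift_ne_zero h0
  exact h b h1

lemma lift_id (M : Matrix I I K) : lift id id M = M := by
  ext a b
  exact lift_apply_emb Function.injective_id Function.injective_id M a b

/-- Extend a square matrix by the identity. -/
noncomputable def extd [DecidableEq A] (e : A → I) (G : Matrix A A K) : Matrix I I K :=
  1 + lift e e (G - 1)

lemma extd_mul [DecidableEq A] {e : A → I} (he : Function.Injective e) (G G' : Matrix A A K) :
    extd e G * extd e G' = extd e (G * G') := by
  unfold extd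
  rw [add_mul, mul_add, mul_add, lift_mul_lift _ _ he]
  simp only [one_mul, mul_one]
  rw [add_assoc, ← lift_add, ← lift_add]
  congr 2
  noncomm_ring

@[simp] lemma extd_one [DecidableEq A] (e : A → I) : extd e (1 : Matrix A A K) = 1 := by
  simp [extd]

lemma comm_identity {R : Type} [Ring R] (a b : R) (ha : a * a = 0) (hb : b * b = 0)
    (hba : b * a = 0) : (1 - b) * (1 + a) * (1 + b) * (1 - a) = 1 + a * b := by
  have h1 : a * b * a = 0 := by rw [mul_assoc, hba, mul_zero]
  have h2 : b * a * b = 0 := by rw [hba, zero_mul]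
  have h3 : b * b * a = 0 := by rw [hb, zero_mul]
  have h4 : b * a * a = 0 := by rw [hba, zero_mul]
  have h5 : b * a * b * a = 0 := by rw [h2, zero_mul]
  have : (1 - b) * (1 + a) * (1 + b) * (1 - a) = 1 + a * b - a * a - b * b - b * a - b * a + b * a
      - a * b * a - b * a * b + b * b * a + b * a * a + b * a * b * a := by noncomm_ring
  rw [this, ha, hb, h1, h2, h4, hba]
  simp

end Crest.Agent.R326.Nw
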