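import Crest.Agent.R326.Spec
import Crest.Agent.R326.NetLift

set_option autoImplicit false
set_option linter.unusedSectionVars false

/-! Networks of arrays carrying frames over a generic field: a small calculus. -/

namespace Crest.Agent.R326.Nw

open Finset Matrix Kronecker

variable {μ 𝔽 K : Type} [Fintype μ] [DecidableEq μ] [Field 𝔽] [CommRing K] {sym : Prop}

lemma exists_factor {P : Matrix μ μ 𝔽} (hP : P * P = P) :
    ∃ (U : Matrix μ (Fin P.rank) 𝔽) (W : Matrix (Fin P.rank) μ 𝔽),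
      U * W = P ∧ W * U = 1 := by
  set f := Matrix.toLin' P with hf
  have hfr : Module.finrank 𝔽 (LinearMap.range f) = P.rank := by
    rw [hf, Matrix.toLin'_apply']; rfl
  let e : LinearMap.range f ≃ₗ[𝔽] (Fin P.rank → 𝔽) :=
    (Module.finBasisOfFinrankEq 𝔽 _ hfr).equivFun
  refine ⟨LinearMap.toMatrix' ((LinearMap.range f).subtype ∘ₗ e.symm.toLinearMap),
    LinearMap.toMatrix' (e.toLinearMap ∘ₗ f.rangeRestrict), ?_, ?_⟩
  · rw [← LinearMap.toMatrix'_comp]
    have : ((LinearMap.range f).subtype ∘ₗ e.symm.toLinearMap) ∘ₗ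
        (e.toLinearMap ∘ₗ f.rangeRestrict) = f := by
      ext v i; simp
    rw [this, hf, LinearMap.toMatrix'_toLin']
  · rw [← LinearMap.toMatrix'_comp, ← LinearMap.toMatrix'_id]
    congr 1
    refine LinearMap.ext fun v => ?_
    have hff : ∀ w : LinearMap.range f, f.rangeRestrict w = w := by
      rintro ⟨_, u, rfl⟩
      ext1
      change f (f u) = f u
      rw [← LinearMap.comp_apply, hf, ← Matrix.toLin'_mul, hP]
    simp [hff]

lemma rank_add_of_orth {P Q : Matrix μ μ 𝔽} (hP : P * P = P) (hQ : Q * Q = Q) (h : P * Q = 0)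
    (h' : Q * P = 0) : (P + Q).rank = P.rank + Q.rank := by
  obtain ⟨U, W, h1, h2⟩ := exists_factor hP
  obtain ⟨U', W', h1', h2'⟩ := exists_factor hQ
  have hWU : W * U' = 0 := by
    calc W * U' = (W * U) * W * (U' * (W' * U')) := by rw [h2, h2']; simp
      _ = W * ((U * W) * (U' * W')) * U' := by simp only [Matrix.mul_assoc]
      _ = 0 := by rw [h1, h1', h]; simp
  have hWU' : W' * U = 0 := by
    calc W' * U = (W' * U') * W' * (U * (W * U)) := by rw [h2, h2']; simp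
      _ = W' * ((U' * W') * (U * W)) * U := by simp only [Matrix.mul_assoc]
      _ = 0 := by rw [h1, h1', h']; simp
  have e1 : fromCols U U' * fromRows W W' = P + Q := by
    rw [fromCols_mul_fromRows, h1, h1']
  have e2 : fromRows W W' * fromCols U U' = 1 := by
    rw [fromRows_mul_fromCols, h2, h2', hWU, hWU', fromBlocks_one]
  apply le_antisymm
  · rw [← e1]
    refine (rank_mul_le_left _ _).trans ((rank_le_card_width _).trans (by simp))
  · have e3 : fromRows W W' * (P + Q) * fromCols U U' = 1 := by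
      rw [← e1, ← Matrix.mul_assoc, e2, Matrix.one_mul, e2]
    have := rank_one (n := Fin P.rank ⊕ Fin Q.rank) (R := 𝔽)
    rw [← e3] at this
    have h4 := (rank_mul_le_left (fromRows W W' * (P + Q)) (fromCols U U')).trans
      (rank_mul_le_right _ _)
    rw [this] at h4
    simpa using h4

/-- Order between idempotents. -/
def PLe (sym : Prop) (P Q : Matrix μ μ 𝔽) : Prop :=
  IsPj sym P ∧ IsPj sym Q ∧ P * Q = P ∧ Q * P = P

lemma PLe.isPj_sub {P Q : Matrix μ μ 𝔽} (h : PLe sym P Q) : IsPj sym (Q - P) := by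
  refine ⟨fun hs => by rw [transpose_sub, h.1.1 hs, h.2.1.1 hs], ?_⟩
  rw [sub_mul, mul_sub, mul_sub, h.2.1.2, h.2.2.2, h.2.2.1, h.1.2]
  simp

lemma PLe.sub_mul {P Q : Matrix μ μ 𝔽} (h : PLe sym P Q) : (Q - P) * P = 0 := by
  rw [_root_.sub_mul, h.2.2.2, h.1.2, sub_self]

lemma PLe.mul_sub {P Q : Matrix μ μ 𝔽} (h : PLe sym P Q) : P * (Q - P) = 0 := by
  rw [_root_.mul_sub, h.2.2.1, h.1.2, sub_self]

lemma PLe.rank {P Q : Matrix μ μ 𝔽} (h : PLe sym P Q) : Q.rank = (Q - P).rank + P.rank := by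
  rw [← rank_add_of_orth h.isPj_sub.2 h.1.2 h.sub_mul h.mul_sub, sub_add_cancel]

lemma pj_zero : IsPj sym (0 : Matrix μ μ 𝔽) := ⟨by simp, by simp⟩

lemma pj_one : IsPj sym (1 : Matrix μ μ 𝔽) := ⟨by simp, by simp⟩

lemma pj_le_refl {P : Matrix μ μ 𝔽} (h : IsPj sym P) : PLe sym P P := ⟨h, h, h.2, h.2⟩

lemma pj_zero_le {P : Matrix μ μ 𝔽} (h : IsPj sym P) : PLe sym 0 P :=
  ⟨pj_zero, h, by simp, by simp⟩

lemma pj_le_one {P : Matrix μ μ 𝔽} (h : IsPj sym P) : PLe sym P 1 :=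
  ⟨h, pj_one, by simp, by simp⟩

lemma pj_one_sub {P : Matrix μ μ 𝔽} (h : IsPj sym P) : IsPj sym (1 - P) := (pj_le_one h).isPj_sub

/-- A frame change with excess `e`. -/
def Edge (sym : Prop) (P Q : Matrix μ μ 𝔽) (e : ℕ) : Prop :=
  P = Q ∨ PLe sym P Q ∨ (PLe sym Q P ∧ 2 * (P - Q).rank ≤ e)

/-- A gate matrix only mixes wires with equal frames. -/
def Resp {Ω : Type} (G : Matrix Ω Ω K) (P : Ω → Matrix μ μ 𝔽) : Prop :=
  ∀ w w', G w w' ≠ 0 → P w = P w'

/-- Networks: initial frames, final frames, scalar action, excess. -/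
inductive Net (sym : Prop) {μ 𝔽 K : Type} [Fintype μ] [DecidableEq μ] [Field 𝔽] [CommRing K]
    {Ω : Type} [Fintype Ω] [DecidableEq Ω] :
    (Ω → Matrix μ μ 𝔽) → (Ω → Matrix μ μ 𝔽) → Matrix Ω Ω K → ℕ → Prop
  | gate {P : Ω → Matrix μ μ 𝔽} {G : Matrix Ω Ω K} : Resp G P → Net sym P P G 0
  | edge {P Q : Ω → Matrix μ μ 𝔽} (e : Ω → ℕ) :
      (∀ w, Edge sym (P w) (Q w) (e w)) → Net sym P Q 1 (∑ w, e w)
  | comp {P Q R : Ω → Matrix μ μ 𝔽} {G G' : Matrix Ω Ω K} {e e' : ℕ} :
      Net sym P Q G e → Net sym Q R G' e' → Net sym P R (G' * G) (e + e')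

variable {Ω : Type} [Fintype Ω] [DecidableEq Ω]

theorem Net.push {μ' : Type} [Fintype μ'] [DecidableEq μ'] {J : Type} [Fintype J] [DecidableEq J]
    (f : J → Matrix μ μ 𝔽 → Matrix μ' μ' 𝔽)
    (hle : ∀ j q q', PLe sym q q' → PLe sym (f j q) (f j q'))
    (hrk : ∀ j q q', (f j q - f j q').rank ≤ (q - q').rank)
    {P Q : Ω → Matrix μ μ 𝔽} {G : Matrix Ω Ω K} {e : ℕ} (h : Net sym P Q G e) :
    Net sym (fun p : J × Ω => f p.1 (P p.2)) (fun p : J × Ω => f p.1 (Q p.2))
      ((1 : Matrix J J K) ⊗ₖ G) (Fintype.card J * e) := by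
  induction h with
  | @gate P G hG =>
    refine Net.gate ?_
    rintro ⟨j, w⟩ ⟨j', w'⟩ h0
    rw [kroneckerMap_apply] at h0
    have h1 : j = j' := by
      by_contra hj
      exact h0 (by simp [one_apply_ne hj])
    subst h1
    simp only
    rw [hG w w' (right_ne_zero_of_mul h0)]
  | @edge P Q e he =>
    have := Net.edge (sym := sym) (K := K) (P := fun p : J × Ω => f p.1 (P p.2)) (Q := fun p : J × Ω => f p.1 (Q p.2))
      (fun p => e p.2) (by
        rintro ⟨j, w⟩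
        rcases he w with h | h | ⟨h, h'⟩
        · exact Or.inl (by simp only [h])
        · exact Or.inr (Or.inl (hle _ _ _ h))
        · exact Or.inr (Or.inr ⟨hle _ _ _ h, le_trans (Nat.mul_le_mul_left _ (hrk _ _ _)) h'⟩))
    rw [one_kronecker_one]
    convert this using 1
    simp [Fintype.sum_prod_type]
  | @comp P Q R G G' e e' _ _ ih ih' =>
    have := ih.comp ih'
    rwa [← mul_kronecker_mul, one_mul, ← mul_add] at this

theorem Net.embed {Ω' : Type} [Fintype Ω'] [DecidableEq Ω'] {ι : Ω → Ω'}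
    (hι : Function.Injective ι) {P Q : Ω → Matrix μ μ 𝔽} {G : Matrix Ω Ω K} {e : ℕ}
    (h : Net sym P Q G e) : ∀ (P' Q' : Ω' → Matrix μ μ 𝔽), (∀ w, P' (ι w) = P w) →
      (∀ w, Q' (ι w) = Q w) → (∀ w', (∀ w, w' ≠ ι w) → P' w' = Q' w') →
      Net sym P' Q' (extd ι G) e := by
  induction h with
  | @gate P G hG =>
    intro P' Q' h1 h2 h3
    have : P' = Q' := by
      funext w'
      by_cases hw : ∃ w, w' = ι w
      · obtain ⟨w, rfl⟩ := hw
        rw [h1, h2]
      · exact h3 w' (fun w hw' => hw ⟨w, hw'⟩)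
    subst this
    refine Net.gate fun a b h0 => ?_
    by_cases hab : a = b
    · rw [hab]
    · rw [extd, Matrix.add_apply, one_apply_ne hab, zero_add] at h0
      obtain ⟨w, w', rfl, rfl, h00⟩ := lift_ne_zero h0
      rw [h1, h1]
      refine hG _ _ ?_
      rwa [Matrix.sub_apply, one_apply_ne (fun h => hab (congrArg ι h)), sub_zero] at h00
  | @edge P Q e he =>
    intro P' Q' h1 h2 h3
    have := Net.edge (sym := sym) (K := K) (P := P') (Q := Q') (Function.extend ι e 0) (by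
      intro w'
      by_cases hw : ∃ w, w' = ι w
      · obtain ⟨w, rfl⟩ := hw
        rw [h1, h2, hι.extend_apply]
        exact he w
      · exact Or.inl (h3 w' (fun w hw' => hw ⟨w, hw'⟩)))
    rw [extd_one]
    convert this using 1
    refine Fintype.sum_of_injective ι hι _ _ (fun i hi => ?_) (fun i => ?_)
    · rw [Function.extend_apply' _ _ _ (by simpa using hi)]; rfl
    · rw [hι.extend_apply]
  | @comp P Q R G G' e e' _ _ ih ih' =>
    intro P' R' h1 h2 h3
    rw [← extd_mul hι]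
    refine (ih P' (Function.extend ι Q P') h1 (fun w => hι.extend_apply _ _ _) ?_).comp
      (ih' _ R' (fun w => hι.extend_apply _ _ _) h2 ?_)
    · intro w' hw
      rw [Function.extend_apply' _ _ _ (by rintro ⟨w, rfl⟩; exact hw w rfl)]
    · intro w' hw
      rw [Function.extend_apply' _ _ _ (by rintro ⟨w, rfl⟩; exact hw w rfl)]
      exact h3 w' hw

theorem Net.up {P Q : Ω → Matrix μ μ 𝔽} (h : ∀ w, P w = Q w ∨ PLe sym (P w) (Q w)) :
    Net sym P Q (1 : Matrix Ω Ω K) 0 := by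
  have := Net.edge (sym := sym) (K := K) (P := P) (Q := Q) (fun _ => 0) (fun w => by
    rcases h w with h | h
    · exact Or.inl h
    · exact Or.inr (Or.inl h))
  simpa using this

theorem Net.upGate {P Q : Ω → Matrix μ μ 𝔽} {G : Matrix Ω Ω K}
    (h : ∀ w, P w = Q w ∨ PLe sym (P w) (Q w)) (hG : Resp G Q) : Net sym P Q G 0 := by
  have := (Net.up h).comp (Net.gate hG)
  simpa using this

theorem Net.stage {Ω' : Type} [Fintype Ω'] [DecidableEq Ω'] {ι : Ω → Ω'}
    (hι : Function.Injective ι) {P Q : Ω → Matrix μ μ 𝔽} {G : Matrix Ω Ω K} {e : ℕ}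
    (h : Net sym P Q G e) (A B : Ω' → Matrix μ μ 𝔽) (hA : ∀ w, PLe sym (A (ι w)) (P w))
    (hB : ∀ w, PLe sym (Q w) (B (ι w))) (hAB : ∀ w', (∀ w, w' ≠ ι w) → A w' = B w') :
    Net sym A B (extd ι G) e := by
  have h1 : Net sym (fun w => A (ι w)) P (1 : Matrix Ω Ω K) 0 := Net.up fun w => Or.inr (hA w)
  have h2 : Net sym Q (fun w => B (ι w)) (1 : Matrix Ω Ω K) 0 := Net.up fun w => Or.inr (hB w)
  have h3 := (h1.comp h).comp h2
  simp only [mul_one, one_mul, zero_add, add_zero] at h3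
  exact h3.embed hι A B (fun _ => rfl) (fun _ => rfl) hAB

lemma Resp.one (P : Ω → Matrix μ μ 𝔽) : Resp (1 : Matrix Ω Ω K) P := fun w w' h => by
  by_cases hw : w = w'
  · rw [hw]
  · exact absurd (one_apply_ne hw) h

lemma Resp.add {P : Ω → Matrix μ μ 𝔽} {G G' : Matrix Ω Ω K} (h : Resp G P)
    (h' : Resp G' P) : Resp (G + G') P := fun w w' h0 => by
  by_cases h1 : G w w' = 0
  · refine h' w w' ?_
    rwa [Matrix.add_apply, h1, zero_add] at h0
  · exact h w w' h1

lemma Resp.neg {P : Ω → Matrix μ μ 𝔽} {G : Matrix Ω Ω K} (h : Resp G P) :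
    Resp (-G) P := fun w w' h0 => h w w' (by simpa using h0)

lemma Resp.sub {P : Ω → Matrix μ μ 𝔽} {G G' : Matrix Ω Ω K} (h : Resp G P)
    (h' : Resp G' P) : Resp (G - G') P := by
  rw [sub_eq_add_neg]; exact h.add h'.neg

lemma Resp.transpose {P : Ω → Matrix μ μ 𝔽} {G : Matrix Ω Ω K} (h : Resp G P) :
    Resp Gᵀ P := fun w w' h0 => (h w' w h0).symm

lemma Resp.lift {P : Ω → Matrix μ μ 𝔽} {A B : Type} [Fintype A] [Fintype B]
    {e : A → Ω} {f : B → Ω} {M : Matrix A B K} (h : ∀ a b, M a b ≠ 0 → P (e a) = P (f b)) :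
    Resp (lift e f M) P := fun w w' h0 => by
  obtain ⟨a, b, rfl, rfl, h1⟩ := lift_ne_zero h0
  exact h a b h1

end Crest.Agent.R326.Nw
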