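import Crest.Agent.R326.NetCalc

set_option autoImplicit false
set_option linter.unusedSectionVars false

/-! Extraction of a list of steps from a network. -/

namespace Crest.Agent.R326.Nw

open Finset Matrix Kronecker

variable {𝔽 K : Type} [Field 𝔽] [CommRing K] {sym : Prop}

theorem Net.reindex {μ μ' Ω Ω' : Type} [Fintype μ] [DecidableEq μ] [Fintype μ'] [DecidableEq μ']
    [Fintype Ω] [DecidableEq Ω] [Fintype Ω'] [DecidableEq Ω'] (f : μ' ≃ μ) (g : Ω' ≃ Ω)
    {P Q : Ω → Matrix μ μ 𝔽} {G : Matrix Ω Ω K} {e : ℕ} (h : Net sym P Q G e) :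
    Net sym (fun w => (P (g w)).submatrix f f) (fun w => (Q (g w)).submatrix f f)
      (G.submatrix g g) e := by
  have hpj : ∀ A : Matrix μ μ 𝔽, IsPj sym A → IsPj sym (A.submatrix f f) := fun A hA =>
    ⟨fun hs => by rw [transpose_submatrix, hA.1 hs], by rw [submatrix_mul_equiv, hA.2]⟩
  have hle : ∀ A B : Matrix μ μ 𝔽, PLe sym A B → PLe sym (A.submatrix f f) (B.submatrix f f) :=
    fun A B h => ⟨hpj _ h.1, hpj _ h.2.1, by rw [submatrix_mul_equiv, h.2.2.1],
      by rw [submatrix_mul_equiv, h.2.2.2]⟩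
  induction h with
  | @gate P G hG =>
    refine Net.gate fun w w' h0 => ?_
    simp only [hG _ _ h0]
  | @edge P Q e he =>
    have := Net.edge (sym := sym) (K := K) (P := fun w => (P (g w)).submatrix f f)
      (Q := fun w => (Q (g w)).submatrix f f) (fun w => e (g w)) (by
        intro w
        rcases he (g w) with h | h | ⟨h, h'⟩
        · exact Or.inl (by simp only [h])
        · exact Or.inr (Or.inl (hle _ _ h))
        · refine Or.inr (Or.inr ⟨hle _ _ h, ?_⟩)
          have e1 : (P (g w)).submatrix f f - (Q (g w)).submatrix f f =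
            (P (g w) - Q (g w)).submatrix f f := rfl
          rw [e1, rank_submatrix]
          exact h')
    rwa [submatrix_one_equiv, ← Equiv.sum_comp g]
  | @comp P Q R G G' e e' _ _ ih ih' =>
    have := ih.comp ih'
    rwa [submatrix_mul_equiv] at this

variable {W m : ℕ}

/-- The hypothesis on the operators. -/
def Hyp (sym : Prop) (S : Set (Matrix (Fin m) (Fin m) 𝔽)) {M : Type} [AddCommGroup M]
    [Module K M] (ρ ρ' : Matrix (Fin m) (Fin m) 𝔽 → M →ₗ[K] M) : Prop :=
  ∀ A ∈ S, ∀ D ∈ S, IsPj sym A → IsPj sym D → A * D = 0 → D * A = 0 →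
    (ρ D).comp (ρ A) = ρ (A + D) ∧ (ρ' D).comp (ρ (A + D)) = ρ A

lemma Hyp.mono {S S' : Set (Matrix (Fin m) (Fin m) 𝔽)} {M : Type} [AddCommGroup M]
    [Module K M] {ρ ρ' : Matrix (Fin m) (Fin m) 𝔽 → M →ₗ[K] M} (h : Hyp sym S' ρ ρ')
    (hS : S ⊆ S') : Hyp sym S ρ ρ' := fun A hA D hD => h A (hS hA) D (hS hD)

lemma ok_mono {S S' : Set (Matrix (Fin m) (Fin m) 𝔽)} (hS : S ⊆ S') {s : NStep W m 𝔽 K}
    (h : s.ok sym S) : s.ok sym S' := by
  cases s with
  | gate G => trivial
  | up w D => exact ⟨h.1, hS h.2⟩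
  | down w D => exact ⟨h.1, hS h.2⟩

/-- An extracted list of steps. -/
def Ext (sym : Prop) (P Q : Fin W → Matrix (Fin m) (Fin m) 𝔽) (G : Matrix (Fin W) (Fin W) K)
    (e : ℕ) : Prop :=
  ∃ (steps : List (NStep W m 𝔽 K)) (S : Set (Matrix (Fin m) (Fin m) 𝔽)), S.Finite ∧
    (∀ s ∈ steps, s.ok sym S) ∧
    (steps.map NStep.rk).sum + ∑ w, (P w).rank ≤ ∑ w, (Q w).rank + e ∧
    ∀ (M : Type) [AddCommGroup M] [Module K M] (ρ ρ' : Matrix (Fin m) (Fin m) 𝔽 → M →ₗ[K] M),
      Hyp sym S ρ ρ' → ∀ z : Fin W → M,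
        steps.foldl (fun y s => s.run ρ ρ' y) (fun w => ρ (P w) (z w)) =
          fun w => ρ (Q w) (∑ w', G w w' • z w')

lemma Ext.comp {P Q R : Fin W → Matrix (Fin m) (Fin m) 𝔽} {G G' : Matrix (Fin W) (Fin W) K}
    {e e' : ℕ} (h : Ext sym P Q G e) (h' : Ext sym Q R G' e') : Ext sym P R (G' * G) (e + e') := by
  obtain ⟨l, S, hS, hok, hrk, hrun⟩ := h
  obtain ⟨l', S', hS', hok', hrk', hrun'⟩ := h'
  refine ⟨l ++ l', S ∪ S', hS.union hS', fun s hs => ?_, ?_, fun M _ _ ρ ρ' hρ z => ?_⟩
  · rcases List.mem_append.1 hs with hs | hs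
    · exact ok_mono Set.subset_union_left (hok s hs)
    · exact ok_mono Set.subset_union_right (hok' s hs)
  · rw [List.map_append, List.sum_append]; omega
  · rw [List.foldl_append, hrun M ρ ρ' (hρ.mono Set.subset_union_left),
      hrun' M ρ ρ' (hρ.mono Set.subset_union_right)]
    funext w
    congr 1
    simp only [mul_apply, Finset.sum_smul, Finset.smul_sum, mul_smul]
    exact Finset.sum_comm

lemma Ext.gate {P : Fin W → Matrix (Fin m) (Fin m) 𝔽} {G : Matrix (Fin W) (Fin W) K}
    (hG : Resp G P) : Ext sym P P G 0 := by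
  refine ⟨[NStep.gate G], ∅, Set.finite_empty, by simp [NStep.ok], by simp [NStep.rk],
    fun M _ _ ρ ρ' _ z => ?_⟩
  funext w
  simp only [List.foldl_cons, List.foldl_nil, NStep.run, map_sum, map_smul]
  refine Finset.sum_congr rfl fun w' _ => ?_
  by_cases h0 : G w w' = 0
  · simp [h0]
  · rw [hG _ _ h0]

lemma sum_rank_update (P : Fin W → Matrix (Fin m) (Fin m) 𝔽) (w : Fin W)
    (Q : Matrix (Fin m) (Fin m) 𝔽) :
    ∑ v, (Function.update P w Q v).rank + (P w).rank = ∑ v, (P v).rank + Q.rank := by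
  rw [← Finset.add_sum_erase _ _ (Finset.mem_univ w),
    ← Finset.add_sum_erase _ (fun v => (P v).rank) (Finset.mem_univ w), Function.update_self,
    Finset.sum_congr rfl fun v hv => by rw [Function.update_of_ne (Finset.ne_of_mem_erase hv)]]
  omega

lemma Ext.single {P : Fin W → Matrix (Fin m) (Fin m) 𝔽} (w : Fin W)
    {Q : Matrix (Fin m) (Fin m) 𝔽} {e : ℕ} (h : Edge sym (P w) Q e) :
    Ext sym P (Function.update P w Q) (1 : Matrix (Fin W) (Fin W) K) e := by
  have hs := sum_rank_update P w Q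
  rcases h with rfl | h | ⟨h, he⟩
  · refine ⟨[], ∅, Set.finite_empty, by simp, by simp, fun M _ _ ρ ρ' _ z => ?_⟩
    simp [one_apply]
  · refine ⟨[NStep.up w (Q - P w)], {P w, Q - P w}, Set.toFinite _,
      by simp [NStep.ok, h.isPj_sub], ?_, fun M _ _ ρ ρ' hρ z => ?_⟩
    · have := h.rank
      simp only [List.map_cons, List.map_nil, List.sum_cons, List.sum_nil, NStep.rk]
      omega
    · have := (hρ (P w) (by simp) (Q - P w) (by simp) h.1 h.isPj_sub h.mul_sub h.sub_mul).1
      rw [add_sub_cancel] at this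
      funext v
      simp only [List.foldl_cons, List.foldl_nil, NStep.run, one_apply, ite_smul, one_smul,
        zero_smul, Finset.sum_ite_eq, Finset.mem_univ, if_true]
      by_cases hv : v = w
      · subst hv
        rw [Function.update_self, Function.update_self, ← this]; rfl
      · rw [Function.update_of_ne hv, Function.update_of_ne hv]
  · refine ⟨[NStep.down w (P w - Q)], {Q, P w - Q}, Set.toFinite _,
      by simp [NStep.ok, h.isPj_sub], ?_, fun M _ _ ρ ρ' hρ z => ?_⟩
    · have := h.rank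
      simp only [List.map_cons, List.map_nil, List.sum_cons, List.sum_nil, NStep.rk]
      omega
    · have := (hρ Q (by simp) (P w - Q) (by simp) h.1 h.isPj_sub h.mul_sub h.sub_mul).2
      rw [add_sub_cancel] at this
      funext v
      simp only [List.foldl_cons, List.foldl_nil, NStep.run, one_apply, ite_smul, one_smul,
        zero_smul, Finset.sum_ite_eq, Finset.mem_univ, if_true]
      by_cases hv : v = w
      · subst hv
        rw [Function.update_self, Function.update_self, ← this]; rfl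
      · rw [Function.update_of_ne hv, Function.update_of_ne hv]

lemma Ext.edge {P Q : Fin W → Matrix (Fin m) (Fin m) 𝔽} (e : Fin W → ℕ)
    (h : ∀ w, Edge sym (P w) (Q w) (e w)) :
    Ext sym P Q (1 : Matrix (Fin W) (Fin W) K) (∑ w, e w) := by
  have key : ∀ s : Finset (Fin W), Ext sym P (fun w => if w ∈ s then Q w else P w)
      (1 : Matrix (Fin W) (Fin W) K) (∑ w ∈ s, e w) := by
    intro s
    induction s using Finset.induction_on with
    | empty => simpa using Ext.gate (sym := sym) (Resp.one (K := K) P)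
    | insert a s ha ih =>
      have h1 := Ext.single (K := K) (P := fun w => if w ∈ s then Q w else P w) a (Q := Q a)
        (e := e a) (by simpa [ha] using h a)
      have h2 := ih.comp h1
      rw [one_mul, add_comm, ← Finset.sum_insert ha] at h2
      convert h2 using 1
      funext w
      by_cases hw : w = a
      · subst hw; simp
      · simp [hw]
  simpa using key Finset.univ

theorem Net.ext {P Q : Fin W → Matrix (Fin m) (Fin m) 𝔽} {G : Matrix (Fin W) (Fin W) K} {e : ℕ}
    (h : Net sym P Q G e) : Ext sym P Q G e := by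
  induction h with
  | gate hG => exact Ext.gate hG
  | edge e he => exact Ext.edge e he
  | comp _ _ ih ih' => exact ih.comp ih'

theorem Net.final {μ Ω : Type} [Fintype μ] [DecidableEq μ] [Fintype Ω] [DecidableEq Ω]
    {P Q : Ω → Matrix μ μ 𝔽} {G G' : Matrix Ω Ω K} {e : ℕ}
    (h : Net sym P Q G e) (hG : G' * G = 1) (hP : ∀ w, IsPj sym (P w)) (hQ : ∀ w, IsPj sym (Q w))
    (hPQ : ∀ w w', G w w' ≠ 0 → Q w = 1 - P w') (hμ : Fintype.card μ = 10 ^ 6)
    (hΩ : 0 < Fintype.card Ω)
    (hrk : ((∑ w, (Q w).rank + e : ℕ) : ℝ) ≤ Fintype.card Ω * (10 ^ 6 - 1 / 10 ^ 6)) :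
    NetSpec sym 𝔽 K := by
  let f : Fin (10 ^ 6) ≃ μ := (Fintype.equivFinOfCardEq hμ).symm
  let g : Fin (Fintype.card Ω) ≃ Ω := (Fintype.equivFin Ω).symm
  have hpj : ∀ A : Matrix μ μ 𝔽, IsPj sym A → IsPj sym (A.submatrix f f) := fun A hA =>
    ⟨fun hs => by rw [transpose_submatrix, hA.1 hs], by rw [submatrix_mul_equiv, hA.2]⟩
  obtain ⟨l, S, hS, hok, hrk', hrun⟩ := (h.reindex f g).ext
  set P' : Fin (Fintype.card Ω) → Matrix (Fin (10 ^ 6)) (Fin (10 ^ 6)) 𝔽 :=
    fun w => (P (g w)).submatrix f f with hP'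
  set Q' : Fin (Fintype.card Ω) → Matrix (Fin (10 ^ 6)) (Fin (10 ^ 6)) 𝔽 :=
    fun w => (Q (g w)).submatrix f f with hQ'
  refine ⟨Fintype.card Ω, l ++ [NStep.gate (G'.submatrix g g)], P',
    S ∪ (Set.range P' ∪ Set.range Q'), hΩ,
    hS.union ((Set.finite_range _).union (Set.finite_range _)),
    fun w => ⟨hpj _ (hP _), Or.inr (Or.inl ⟨w, rfl⟩)⟩, fun s hs => ?_, ?_,
    fun M _ _ ρ ρ' hρ x => ?_⟩
  · rcases List.mem_append.1 hs with hs | hs
    · exact ok_mono Set.subset_union_left (hok s hs)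
    · rw [List.mem_singleton.1 hs]; trivial
  · refine le_trans ?_ hrk
    have e1 : ∑ w, (Q' w).rank = ∑ w, (Q w).rank := by
      rw [← Equiv.sum_comp g]
      exact Finset.sum_congr rfl fun w _ => rank_submatrix _ _ _
    rw [Nat.cast_le, List.map_append, List.sum_append, ← e1]
    simpa [NStep.rk] using hrk'
  · rw [List.foldl_append, hrun M ρ ρ' (Hyp.mono hρ Set.subset_union_left)]
    have e1 : ∀ w, ρ (Q' w) (∑ w', G.submatrix g g w w' • ρ (P' w') (x w')) =
        ∑ w', G.submatrix g g w w' • ρ 1 (x w') := by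
      intro w
      rw [map_sum]
      refine Finset.sum_congr rfl fun w' _ => ?_
      by_cases h0 : G.submatrix g g w w' = 0
      · rw [h0, zero_smul, zero_smul, map_zero]
      · have h1 : Q' w = 1 - P' w' := by
          simp only [hQ', hP', hPQ _ _ h0]
          rw [← submatrix_one_equiv f]; rfl
        have hp := hpj _ (hP (g w'))
        have := (hρ (P' w') (Or.inr (Or.inl ⟨w', rfl⟩)) (Q' w) (Or.inr (Or.inr ⟨w, rfl⟩))
          hp (hpj _ (hQ _)) (by rw [h1]; exact (pj_le_one hp).mul_sub)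
          (by rw [h1]; exact (pj_le_one hp).sub_mul)).1
        rw [map_smul, ← LinearMap.comp_apply, this, h1, add_sub_cancel]
    funext w
    simp only [List.foldl_cons, List.foldl_nil, NStep.run]
    have e2 : G'.submatrix g g * G.submatrix g g = 1 := by
      rw [submatrix_mul_equiv, hG, submatrix_one_equiv]
    calc ∑ w', G'.submatrix g g w w' • ρ (Q' w') (∑ v, G.submatrix g g w' v • ρ (P' v) (x v))
        = ∑ v, (G'.submatrix g g * G.submatrix g g) w v • ρ 1 (x v) := by
          simp only [e1, mul_apply, Finset.sum_smul, Finset.smul_sum, mul_smul]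
          exact Finset.sum_comm
      _ = ρ 1 (x w) := by simp [e2, one_apply]

end Crest.Agent.R326.Nw
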