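import Crest.Agent.R326.NetBase
import Crest.Agent.R326.NetExt

set_option autoImplicit false
set_option linter.unusedSectionVars false
set_option synthInstance.maxSize 2000

/-! Three shears along the three tensor axes give a signed swap. -/

namespace Crest.Agent.R326.Nw

open Finset Matrix Kronecker

/-- coordinates of the frame space -/
abbrev Mu (ν : Type) : Type := ν × ν × ν
/-- data labels -/
abbrev Dat (T : Type) : Type := T × T × T
/-- all wires -/
abbrev Om (T A C : Type) : Type := (Dat T ⊕ Dat T) ⊕ (Fin 3 × (T × T) × (A ⊕ C))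

variable {sym : Prop} {𝔽 K ν T A C : Type} [Field 𝔽] [CommRing K] [Fintype ν] [DecidableEq ν]
  [Fintype T] [DecidableEq T] [Fintype A] [DecidableEq A] [Fintype C] [DecidableEq C]

/-- first bank -/
def gX (A C : Type) : Dat T → Om T A C := fun t => Sum.inl (Sum.inl t)
/-- second bank -/
def gY (A C : Type) : Dat T → Om T A C := fun t => Sum.inl (Sum.inr t)

/-- placement of the wires of one stage -/
def iota (A C : Type) (s : Fin 3) (cs : (T × T) × T ≃ Dat T) (p : (T × T) × W0 T A C) : Om T A C :=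
  Sum.elim (fun S => gX A C (cs (p.1, S)))
    (Sum.elim (fun S' => gY A C (cs (p.1, S'))) fun a => Sum.inr (s, p.1, a)) p.2

lemma iota_inj (s : Fin 3) (cs : (T × T) × T ≃ Dat T) :
    Function.Injective (iota A C s cs) := by
  rintro ⟨j, S | S | a⟩ ⟨j', S' | S' | a'⟩ hh <;> simp [iota, gX, gY] at hh ⊢ <;> exact hh

/-- global frames between stages -/
def FR (A C : Type) (x y : Dat T → Matrix (Mu ν) (Mu ν) 𝔽) (n : ℕ) :
    Om T A C → Matrix (Mu ν) (Mu ν) 𝔽 :=
  Sum.elim (Sum.elim x y) fun p => if p.1.val < n then 1 else 0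

lemma lift_equiv_one {A I : Type} [Fintype A] [DecidableEq A] [Fintype I] [DecidableEq I]
    (e : A ≃ I) : lift e e (1 : Matrix A A K) = 1 := by
  ext a b
  obtain ⟨a, rfl⟩ := e.surjective a
  obtain ⟨b, rfl⟩ := e.surjective b
  rw [lift_apply_emb e.injective e.injective]
  simp [one_apply]

lemma one_kron_lift {J A I : Type} [Fintype J] [DecidableEq J] [Fintype A] [DecidableEq A]
    [Fintype I] [DecidableEq I] (e f : A → I) :
    (1 : Matrix J J K) ⊗ₖ lift e f (1 : Matrix A A K) =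
      lift (Prod.map id e) (Prod.map id f) (1 : Matrix (J × A) (J × A) K) := by
  have h1 : ∀ e : A → I, emb K (Prod.map (id : J → J) e) = (1 : Matrix J J K) ⊗ₖ emb K e := by
    intro e
    ext ⟨j, w⟩ ⟨j', a⟩
    by_cases h1 : j = j' <;> by_cases h2 : w = e a <;> simp [emb, one_apply, h1, h2]
  unfold lift
  rw [h1, h1, ← kroneckerMap_transpose, ← one_kronecker_one, ← mul_kronecker_mul,
    ← mul_kronecker_mul]
  simp

lemma extd_iota (s : Fin 3) (cs : (T × T) × T ≃ Dat T) :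
    extd (iota A C s cs) ((1 : Matrix (T × T) (T × T) K) ⊗ₖ (1 + lift (iY A C) (iX A C) (1 : Matrix T T K))) =
      1 + lift (gY A C) (gX A C) (1 : Matrix (Dat T) (Dat T) K) ∧
    extd (iota A C s cs) ((1 : Matrix (T × T) (T × T) K) ⊗ₖ (1 - lift (iX A C) (iY A C) (1 : Matrix T T K))) =
      1 - lift (gX A C) (gY A C) (1 : Matrix (Dat T) (Dat T) K) := by
  have eX : iota A C s cs ∘ Prod.map id (iX A C) = gX A C ∘ cs := rfl
  have eY : iota A C s cs ∘ Prod.map id (iY A C) = gY A C ∘ cs := rfl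
  constructor
  · rw [extd, kronecker_add, one_kronecker_one, add_sub_cancel_left, one_kron_lift, lift_lift,
      eX, eY, ← lift_lift, lift_equiv_one]
  · have : (1 : Matrix (T × T) (T × T) K) ⊗ₖ (1 - lift (iX A C) (iY A C) (1 : Matrix T T K)) - 1 =
        -((1 : Matrix (T × T) (T × T) K) ⊗ₖ lift (iX A C) (iY A C) (1 : Matrix T T K)) := by
      rw [← one_kronecker_one (m := T × T) (n := W0 T A C)]
      ext ⟨a, b⟩ ⟨c, d⟩
      simp only [Matrix.sub_apply, kroneckerMap_apply, Matrix.neg_apply]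
      ring
    rw [extd, this, lift_neg, one_kron_lift, lift_lift, eX, eY, ← lift_lift, lift_equiv_one,
      sub_eq_add_neg]

lemma stage_glob (b : BD sym 𝔽 K ν T A C) (s : Fin 3) (cs : (T × T) × T ≃ Dat T)
    (D : T × T → Matrix (Mu ν) (Mu ν) 𝔽)
    (φ : T × T → Matrix ν ν 𝔽 → Matrix (Mu ν) (Mu ν) 𝔽)
    (hD : ∀ j, IsPj sym (D j)) (hmul : ∀ j q q', φ j q * φ j q' = φ j (q * q'))
    (htr : sym → ∀ j q, (φ j q)ᵀ = φ j qᵀ) (hsub : ∀ j q q', φ j q - φ j q' = φ j (q - q'))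
    (hDφ : ∀ j q, D j * φ j q = 0) (hφD : ∀ j q, φ j q * D j = 0) (hrk : ∀ j q, (φ j q).rank ≤ q.rank)
    (x y x' y' : Dat T → Matrix (Mu ν) (Mu ν) 𝔽) (hxp : ∀ t, IsPj sym (x t))
    (hyp : ∀ t, IsPj sym (y t))
    (hx : ∀ j S, x (cs (j, S)) * (D j + φ j (b.pr S)) = x (cs (j, S)) ∧
      (D j + φ j (b.pr S)) * x (cs (j, S)) = x (cs (j, S)))
    (hy : ∀ j S, y (cs (j, S)) * D j = y (cs (j, S)) ∧ D j * y (cs (j, S)) = y (cs (j, S)))
    (hx' : ∀ j S, x' (cs (j, S)) = D j + φ j 1)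
    (hy' : ∀ j S, y' (cs (j, S)) = D j + φ j (1 - b.pr S)) :
    Net sym (FR A C x y s) (FR A C x' y' (s + 1)) (1 + lift (gY A C) (gX A C) (1 : Matrix (Dat T) (Dat T) K))
        (Fintype.card (T × T) * (Fintype.card C * (2 * Fintype.card ν))) ∧
      Net sym (FR A C x y s) (FR A C x' y' (s + 1)) (1 - lift (gX A C) (gY A C) (1 : Matrix (Dat T) (Dat T) K))
        (Fintype.card (T × T) * (Fintype.card C * (2 * Fintype.card ν))) := by
  have hφ0 : ∀ j, φ j 0 = 0 := fun j => by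
    have := hsub j 0 0
    rw [sub_self, sub_self] at this
    exact this.symm
  have hprod : ∀ j q q', (D j + φ j q) * (D j + φ j q') = D j + φ j (q * q') := fun j q q' => by
    rw [add_mul, mul_add, mul_add, (hD j).2, hDφ, hφD, hmul, add_zero, zero_add]
  have hpr : ∀ j q, IsPj sym q → IsPj sym (D j + φ j q) := fun j q hq =>
    ⟨fun hs => by rw [transpose_add, (hD j).1 hs, htr hs, hq.1 hs], by rw [hprod, hq.2]⟩
  have hle : ∀ j q q', PLe sym q q' → PLe sym (D j + φ j q) (D j + φ j q') := fun j q q' hq =>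
    ⟨hpr j q hq.1, hpr j q' hq.2.1, by rw [hprod, hq.2.2.1], by rw [hprod, hq.2.2.2]⟩
  have hrk' : ∀ j q q', ((D j + φ j q) - (D j + φ j q')).rank ≤ (q - q').rank := fun j q q' => by
    rw [add_sub_add_left_eq_sub, hsub]; exact hrk _ _
  have key : ∀ (G : Matrix (W0 T A C) (W0 T A C) K) e, Net sym b.P1 b.P6 G e → Net sym (FR A C x y s) (FR A C x' y' (s + 1))
      (extd (iota A C s cs) ((1 : Matrix (T × T) (T × T) K) ⊗ₖ G))
      (Fintype.card (T × T) * e) := by
    intro G e hG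
    refine (hG.push (fun j q => D j + φ j q) hle hrk').stage (iota_inj s cs) _ _ ?_ ?_ ?_
    · rintro ⟨j, S | S | a | i⟩
      · exact ⟨hxp _, hpr _ _ (b.pr_isPj _), hx j S⟩
      · refine ⟨hyp _, hpr _ _ pj_zero, ?_⟩
        change y (cs (j, S)) * (D j + φ j 0) = y (cs (j, S)) ∧
          (D j + φ j 0) * y (cs (j, S)) = y (cs (j, S))
        rw [hφ0, add_zero]
        exact hy j S
      · have : FR A C x y s (iota A C s cs (j, Sum.inr (Sum.inr (Sum.inl a)))) = 0 := by simp [FR, iota]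
        rw [this]
        exact pj_zero_le (hpr _ _ pj_zero)
      · have : FR A C x y s (iota A C s cs (j, Sum.inr (Sum.inr (Sum.inr i)))) = 0 := by simp [FR, iota]
        rw [this]
        exact pj_zero_le (hpr _ _ pj_zero)
    · rintro ⟨j, S | S | a | i⟩
      · change PLe sym _ (x' (cs (j, S)))
        rw [hx']
        exact pj_le_refl (hpr _ _ pj_one)
      · change PLe sym _ (y' (cs (j, S)))
        rw [hy']
        exact pj_le_refl (hpr _ _ (pj_one_sub (b.pr_isPj _)))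
      · have : FR A C x' y' (s + 1) (iota A C s cs (j, Sum.inr (Sum.inr (Sum.inl a)))) = 1 := by
          simp [FR, iota]
        rw [this]
        exact pj_le_one (hpr _ _ pj_one)
      · have : FR A C x' y' (s + 1) (iota A C s cs (j, Sum.inr (Sum.inr (Sum.inr i)))) = 1 := by
          simp [FR, iota]
        rw [this]
        exact pj_le_one (hpr _ _ pj_one)
    · rintro ((t | t) | ⟨s', j, a⟩) hw
      · obtain ⟨⟨j, S⟩, rfl⟩ := cs.surjective t
        exact absurd rfl (hw (j, Sum.inl S))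
      · obtain ⟨⟨j, S⟩, rfl⟩ := cs.surjective t
        exact absurd rfl (hw (j, Sum.inr (Sum.inl S)))
      · have hs : s' ≠ s := by
          rintro rfl
          exact hw (j, Sum.inr (Sum.inr a)) rfl
        have : s'.val ≠ s.val := fun h => hs (Fin.ext h)
        simp only [FR, Sum.elim_inr]
        congr 1
        apply propext
        omega
  rw [← (extd_iota s cs).1, ← (extd_iota s cs).2]
  exact ⟨key _ _ b.base_both.1, key _ _ b.base_both.2⟩

/-- triple Kronecker product -/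
def K3 (a b c : Matrix ν ν 𝔽) : Matrix (Mu ν) (Mu ν) 𝔽 := a ⊗ₖ (b ⊗ₖ c)

lemma K3_mul (a b c a' b' c' : Matrix ν ν 𝔽) :
    K3 a b c * K3 a' b' c' = K3 (a * a') (b * b') (c * c') := by
  simp only [K3, mul_kronecker_mul]

lemma K3_tr (a b c : Matrix ν ν 𝔽) : (K3 a b c)ᵀ = K3 aᵀ bᵀ cᵀ := by
  ext ⟨i, j, k⟩ ⟨i', j', k'⟩; simp [K3]

lemma K3_sub1 (a a' b c : Matrix ν ν 𝔽) :
    K3 (a - a') b c = K3 a b c - K3 a' b c := by
  ext ⟨i, j, k⟩ ⟨i', j', k'⟩; simp [K3, sub_mul]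

lemma K3_sub2 (a b b' c : Matrix ν ν 𝔽) :
    K3 a (b - b') c = K3 a b c - K3 a b' c := by
  ext ⟨i, j, k⟩ ⟨i', j', k'⟩; simp [K3, sub_mul, mul_sub]

lemma K3_sub3 (a b c c' : Matrix ν ν 𝔽) :
    K3 a b (c - c') = K3 a b c - K3 a b c' := by
  ext ⟨i, j, k⟩ ⟨i', j', k'⟩; simp [K3, mul_sub]

lemma K3_one : K3 (1 : Matrix ν ν 𝔽) 1 1 = 1 := by simp [K3]

lemma K3_isPj {a b c : Matrix ν ν 𝔽} (ha : IsPj sym a) (hb : IsPj sym b)
    (hc : IsPj sym c) : IsPj sym (K3 a b c) :=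
  ⟨fun hs => by rw [K3_tr, ha.1 hs, hb.1 hs, hc.1 hs], by rw [K3_mul, ha.2, hb.2, hc.2]⟩

lemma rank_weighted_le {μ ν : Type} [Fintype μ] [DecidableEq μ] [Fintype ν]
    (q : Matrix ν ν 𝔽) (π : μ → ν) (w w' : μ → 𝔽) (M : Matrix μ μ 𝔽)
    (hM : ∀ i j, M i j = w i * q (π i) (π j) * w' j) : M.rank ≤ q.rank := by
  have : M = diagonal w * q.submatrix π π * diagonal w' := by
    ext i j; simp [hM, diagonal_mul, mul_diagonal]
  rw [this]
  exact (rank_mul_le_left _ _).trans ((rank_mul_le_right _ _).trans (rank_submatrix_le _ _ _))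

lemma K3_pr_rank (b : BD sym 𝔽 K ν T A C) (t : Dat T) :
    1 ≤ (K3 (b.pr t.1) (b.pr t.2.1) (b.pr t.2.2)).rank := by
  obtain ⟨a, a', c⟩ := t
  have hne : ∀ S : T, ∃ i, b.pr S i i ≠ 0 := fun S => by
    have h1 : b.v S ⬝ᵥ b.u S ≠ 0 := by rw [b.huv]; exact one_ne_zero
    obtain ⟨i, _, hi⟩ := Finset.exists_ne_zero_of_sum_ne_zero h1
    exact ⟨i, by rwa [BD.pr, vecMulVec_apply, mul_comm]⟩
  obtain ⟨i, hi⟩ := hne a
  obtain ⟨j, hj⟩ := hne a'
  obtain ⟨k, hk⟩ := hne c
  have h1 := rank_submatrix_le (K3 (b.pr a) (b.pr a') (b.pr c)) (fun _ : Unit => (i, j, k))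
    (fun _ : Unit => (i, j, k))
  rw [rank_of_isUnit _ (by
    rw [isUnit_iff_isUnit_det, det_unique]
    simp [K3, hi, hj, hk])] at h1
  simpa using h1

/-- frames -/
def x0 (b : BD sym 𝔽 K ν T A C) (t : Dat T) : Matrix (Mu ν) (Mu ν) 𝔽 := K3 (b.pr t.1) (b.pr t.2.1) (b.pr t.2.2)

/-- the signed swap -/
noncomputable def swapG (K T A C : Type) [CommRing K] [Fintype T] [DecidableEq T] [Fintype A]
    [DecidableEq A] [Fintype C] [DecidableEq C] : Matrix (Om T A C) (Om T A C) K :=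
  (1 + lift (gY A C) (gX A C) (1 : Matrix (Dat T) (Dat T) K)) * ((1 - lift (gX A C) (gY A C) (1 : Matrix (Dat T) (Dat T) K)) * (1 + lift (gY A C) (gX A C) (1 : Matrix (Dat T) (Dat T) K)))

theorem swap_net (b : BD sym 𝔽 K ν T A C) : Net sym (FR A C (x0 b) (fun _ => 0) 0) (FR A C (fun _ => 1) (fun t => 1 - x0 b t) 3)
    (swapG K T A C) (3 * (Fintype.card (T × T) * (Fintype.card C * (2 * Fintype.card ν)))) := by
  have pp : ∀ S : T, b.pr S * b.pr S = b.pr S := fun S => (b.pr_isPj S).2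
  have pt : sym → ∀ S : T, (b.pr S)ᵀ = b.pr S := fun hs S => (b.pr_isPj S).1 hs
  let c0 : (T × T) × T ≃ Dat T :=
    ⟨fun p => (p.2, p.1.1, p.1.2), fun t => ((t.2.1, t.2.2), t.1), fun _ => rfl, fun _ => rfl⟩
  let c1 : (T × T) × T ≃ Dat T :=
    ⟨fun p => (p.1.1, p.2, p.1.2), fun t => ((t.1, t.2.2), t.2.1), fun _ => rfl, fun _ => rfl⟩
  let c2 : (T × T) × T ≃ Dat T :=
    ⟨fun p => (p.1.1, p.1.2, p.2), fun t => ((t.1, t.2.1), t.2.2), fun _ => rfl, fun _ => rfl⟩
  have s0 := (stage_glob b 0 c0 (fun _ => 0) (fun j q => K3 q (b.pr j.1) (b.pr j.2))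
    (fun _ => pj_zero) (fun j q q' => by rw [K3_mul, pp, pp]) (fun hs j q => by rw [K3_tr, pt hs, pt hs])
    (fun j q q' => by rw [K3_sub1]) (fun j q => by simp) (fun j q => by simp)
    (fun j q => rank_weighted_le q (fun i => i.1) (fun i => b.u j.1 i.2.1 * b.u j.2 i.2.2)
      (fun i => b.v j.1 i.2.1 * b.v j.2 i.2.2) _
      (by rintro ⟨a, d, c⟩ ⟨a', d', c'⟩; simp [K3, BD.pr, vecMulVec_apply]; ring))
    (x0 b) (fun _ => 0) (fun t => K3 1 (b.pr t.2.1) (b.pr t.2.2))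
    (fun t => K3 (1 - b.pr t.1) (b.pr t.2.1) (b.pr t.2.2))
    (fun t => K3_isPj (b.pr_isPj _) (b.pr_isPj _) (b.pr_isPj _)) (fun _ => pj_zero)
    (fun j S => by simp [x0, c0, K3_mul, pp]) (fun j S => by simp)
    (fun j S => by simp [c0]) (fun j S => by simp [c0])).1
  have s1 := (stage_glob b 1 c1 (fun j => K3 (1 - b.pr j.1) 1 (b.pr j.2))
    (fun j q => K3 (b.pr j.1) q (b.pr j.2))
    (fun _ => K3_isPj (pj_one_sub (b.pr_isPj _)) pj_one (b.pr_isPj _))
    (fun j q q' => by rw [K3_mul, pp, pp]) (fun hs j q => by rw [K3_tr, pt hs, pt hs])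
    (fun j q q' => by rw [K3_sub2])
    (fun j q => by rw [K3_mul, sub_mul, one_mul, pp, K3_sub1, sub_self])
    (fun j q => by rw [K3_mul, mul_sub, mul_one, pp, K3_sub1, sub_self])
    (fun j q => rank_weighted_le q (fun i => i.2.1) (fun i => b.u j.1 i.1 * b.u j.2 i.2.2)
      (fun i => b.v j.1 i.1 * b.v j.2 i.2.2) _
      (by rintro ⟨a, d, c⟩ ⟨a', d', c'⟩; simp [K3, BD.pr, vecMulVec_apply]; ring))
    (fun t => K3 1 (b.pr t.2.1) (b.pr t.2.2)) (fun t => K3 (1 - b.pr t.1) (b.pr t.2.1) (b.pr t.2.2))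
    (fun t => K3 1 1 (b.pr t.2.2)) (fun t => K3 1 1 (b.pr t.2.2) - x0 b t)
    (fun t => K3_isPj pj_one (b.pr_isPj _) (b.pr_isPj _))
    (fun t => K3_isPj (pj_one_sub (b.pr_isPj _)) (b.pr_isPj _) (b.pr_isPj _))
    (fun j S => by simp [c1, mul_add, mul_sub, add_mul, sub_mul, K3_mul, pp, K3_sub1])
    (fun j S => by simp [c1, K3_mul, pp, (pj_one_sub (b.pr_isPj _)).2])
    (fun j S => by simp [c1, K3_sub1]) (fun j S => by simp [c1, x0, K3_sub1, K3_sub2])).2
  have s2 := (stage_glob b 2 c2 (fun j => 1 - K3 (b.pr j.1) (b.pr j.2) 1)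
    (fun j q => K3 (b.pr j.1) (b.pr j.2) q)
    (fun _ => pj_one_sub (K3_isPj (b.pr_isPj _) (b.pr_isPj _) pj_one))
    (fun j q q' => by rw [K3_mul, pp, pp]) (fun hs j q => by rw [K3_tr, pt hs, pt hs])
    (fun j q q' => by rw [K3_sub3])
    (fun j q => by rw [sub_mul, one_mul, K3_mul, pp, pp, one_mul, sub_self])
    (fun j q => by rw [mul_sub, mul_one, K3_mul, pp, pp, mul_one, sub_self])
    (fun j q => rank_weighted_le q (fun i => i.2.2) (fun i => b.u j.1 i.1 * b.u j.2 i.2.1)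
      (fun i => b.v j.1 i.1 * b.v j.2 i.2.1) _
      (by rintro ⟨a, d, c⟩ ⟨a', d', c'⟩; simp [K3, BD.pr, vecMulVec_apply]; ring))
    (fun t => K3 1 1 (b.pr t.2.2)) (fun t => K3 1 1 (b.pr t.2.2) - x0 b t)
    (fun _ => 1) (fun t => 1 - x0 b t)
    (fun t => K3_isPj pj_one pj_one (b.pr_isPj _))
    (fun t => PLe.isPj_sub ⟨K3_isPj (b.pr_isPj _) (b.pr_isPj _) (b.pr_isPj _),
      K3_isPj pj_one pj_one (b.pr_isPj _), by simp [x0, K3_mul, pp], by simp [x0, K3_mul, pp]⟩)
    (fun j S => by simp [c2, mul_add, mul_sub, add_mul, sub_mul, K3_mul, pp])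
    (fun j S => by simp [c2, x0, mul_sub, sub_mul, K3_mul, pp])
    (fun j S => by simp) (fun j S => by simp [c2, x0, K3_sub3])).1
  have := (s0.comp s1).comp s2
  rw [show ∀ a : ℕ, 3 * a = a + a + a from fun a => by ring]
  exact this

lemma gX_inj : Function.Injective (gX (T := T) A C) := fun a b hab => by simpa [gX] using hab
lemma gY_inj : Function.Injective (gY (T := T) A C) := fun a b hab => by simpa [gY] using hab

lemma swap_expand {R : Type} [Ring R] (a b : R) : (1 + a) * ((1 - b) * (1 + a)) =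
    1 + a - b - b * a - a * b + a + a * a - a * (b * a) := by noncomm_ring

lemma swap_inv_aux {R : Type} [Ring R] (a b : R) (ha : a * a = 0) (hb : b * b = 0) :
    ((1 - a) * (1 + b) * (1 - a)) * ((1 + a) * ((1 - b) * (1 + a))) = 1 := by
  have e1 : (1 - a) * (1 + a) = 1 := by
    rw [sub_mul, mul_add, mul_add, ha]; simp
  have e2 : (1 + b) * (1 - b) = 1 := by
    rw [add_mul, mul_sub, mul_sub, hb]; simp
  calc _ = (1 - a) * ((1 + b) * (((1 - a) * (1 + a)) * (1 - b))) * (1 + a) := by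
        simp only [mul_assoc]
    _ = 1 := by rw [e1, one_mul, e2, mul_one, e1]

lemma swapG_eq : swapG K T A C = 1 + lift (gY A C) (gX A C) (1 : Matrix (Dat T) (Dat T) K) - lift (gX A C) (gY A C) (1 : Matrix (Dat T) (Dat T) K) - lift (gX A C) (gX A C) (1 : Matrix (Dat T) (Dat T) K) - lift (gY A C) (gY A C) (1 : Matrix (Dat T) (Dat T) K) := by
  have h1 : lift (gY A C) (gX A C) (1 : Matrix (Dat T) (Dat T) K) * lift (gY A C) (gX A C) (1 : Matrix (Dat T) (Dat T) K) = 0 :=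
    lift_mul_lift_disj _ _ (by simp [gX, gY]) _ _
  have h2 : lift (gY A C) (gX A C) (1 : Matrix (Dat T) (Dat T) K) * lift (gX A C) (gY A C) (1 : Matrix (Dat T) (Dat T) K) = lift (gY A C) (gY A C) (1 : Matrix (Dat T) (Dat T) K) := by
    rw [lift_mul_lift _ _ gX_inj, Matrix.one_mul]
  have h3 : lift (gX A C) (gY A C) (1 : Matrix (Dat T) (Dat T) K) * lift (gY A C) (gX A C) (1 : Matrix (Dat T) (Dat T) K) = lift (gX A C) (gX A C) (1 : Matrix (Dat T) (Dat T) K) := by
    rw [lift_mul_lift _ _ gY_inj, Matrix.one_mul]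
  have h4 : lift (gY A C) (gX A C) (1 : Matrix (Dat T) (Dat T) K) * lift (gX A C) (gX A C) (1 : Matrix (Dat T) (Dat T) K) = lift (gY A C) (gX A C) (1 : Matrix (Dat T) (Dat T) K) := by
    rw [lift_mul_lift _ _ gX_inj, Matrix.one_mul]
  rw [swapG, swap_expand, h1, h2, h3, h4]
  abel

lemma swapG_inv : ∃ G' : Matrix (Om T A C) (Om T A C) K, G' * swapG K T A C = 1 := by
  have h1 : lift (gY A C) (gX A C) (1 : Matrix (Dat T) (Dat T) K) * lift (gY A C) (gX A C) (1 : Matrix (Dat T) (Dat T) K) = 0 :=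
    lift_mul_lift_disj _ _ (by simp [gX, gY]) _ _
  have h2 : lift (gX A C) (gY A C) (1 : Matrix (Dat T) (Dat T) K) * lift (gX A C) (gY A C) (1 : Matrix (Dat T) (Dat T) K) = 0 :=
    lift_mul_lift_disj _ _ (by simp [gX, gY]) _ _
  exact ⟨_, swap_inv_aux _ _ h1 h2⟩

lemma swapG_supp (w w' : Om T A C) (h0 : swapG K T A C w w' ≠ 0) :
    (∃ t, w = gY A C t ∧ w' = gX A C t) ∨ (∃ t, w = gX A C t ∧ w' = gY A C t) ∨
      ∃ a, w = Sum.inr a ∧ w' = Sum.inr a := by
  have hl : ∀ (e f : Dat T → Om T A C), lift e f (1 : Matrix (Dat T) (Dat T) K) w w' ≠ 0 → ∃ t, w = e t ∧ w' = f t := by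
    intro e f hh
    obtain ⟨a, b, h1, h2, h3⟩ := lift_ne_zero hh
    have : a = b := by
      by_contra hab
      exact h3 (one_apply_ne hab)
    subst this
    exact ⟨a, h1, h2⟩
  by_cases h1 : lift (gY A C) (gX A C) (1 : Matrix (Dat T) (Dat T) K) w w' ≠ 0
  · exact Or.inl (hl _ _ h1)
  by_cases h2 : lift (gX A C) (gY A C) (1 : Matrix (Dat T) (Dat T) K) w w' ≠ 0
  · exact Or.inr (Or.inl (hl _ _ h2))
  push Not at h1 h2
  rw [swapG_eq] at h0
  simp only [Matrix.sub_apply, Matrix.add_apply, h1, h2, add_zero, sub_zero] at h0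
  by_cases hw : w = w'
  · subst hw
    rcases w with (t | t) | a
    · exfalso; apply h0
      have e1 := lift_apply_emb (gX_inj (A := A) (C := C)) gX_inj (1 : Matrix (Dat T) (Dat T) K) t t
      have e2 : lift (gY A C) (gY A C) (1 : Matrix (Dat T) (Dat T) K) (gX A C t) (gX A C t) = 0 := lift_apply_of_row _ _ _ (by simp [gX, gY])
      change _ - lift (gX A C) (gX A C) (1 : Matrix (Dat T) (Dat T) K) (gX A C t) (gX A C t) - lift (gY A C) (gY A C) (1 : Matrix (Dat T) (Dat T) K) (gX A C t) (gX A C t) = 0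
      rw [e1, e2]; simp
    · exfalso; apply h0
      have e1 := lift_apply_emb (gY_inj (A := A) (C := C)) gY_inj (1 : Matrix (Dat T) (Dat T) K) t t
      have e2 : lift (gX A C) (gX A C) (1 : Matrix (Dat T) (Dat T) K) (gY A C t) (gY A C t) = 0 := lift_apply_of_row _ _ _ (by simp [gX, gY])
      change _ - lift (gX A C) (gX A C) (1 : Matrix (Dat T) (Dat T) K) (gY A C t) (gY A C t) - lift (gY A C) (gY A C) (1 : Matrix (Dat T) (Dat T) K) (gY A C t) (gY A C t) = 0
      rw [e1, e2]; simp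
    · exact Or.inr (Or.inr ⟨a, rfl, rfl⟩)
  · exfalso; apply h0
    have e1 : lift (gX A C) (gX A C) (1 : Matrix (Dat T) (Dat T) K) w w' = 0 := by
      by_contra hh
      obtain ⟨t, rfl, rfl⟩ := hl _ _ hh
      exact hw rfl
    have e2 : lift (gY A C) (gY A C) (1 : Matrix (Dat T) (Dat T) K) w w' = 0 := by
      by_contra hh
      obtain ⟨t, rfl, rfl⟩ := hl _ _ hh
      exact hw rfl
    rw [e1, e2, one_apply_ne hw]; simp

theorem BD.netSpec (b : BD sym 𝔽 K ν T A C) (hν : Fintype.card ν = 100)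
    (hT : Fintype.card T = 161700) (hA : Fintype.card A ≤ 161700 * 161700)
    (hC : Fintype.card C ≤ 101) : NetSpec sym 𝔽 K := by
  obtain ⟨G', hG'⟩ := swapG_inv (K := K) (T := T) (A := A) (C := C)
  have hx0 : ∀ t : Dat T, IsPj sym (x0 b t) := fun t =>
    K3_isPj (b.pr_isPj _) (b.pr_isPj _) (b.pr_isPj _)
  have hμ : Fintype.card (Mu ν) = 10 ^ 6 := by simp [hν]
  have hD : Fintype.card (Dat T) = 161700 ^ 3 := by simp [hT]
  have e3 : Fintype.card (Om T A C) =
      2 * 161700 ^ 3 + Fintype.card (Fin 3 × (T × T) × (A ⊕ C)) := by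
    rw [Fintype.card_sum, Fintype.card_sum, hD]; ring
  have e4 : Fintype.card (Fin 3 × (T × T) × (A ⊕ C)) ≤
      3 * (161700 * 161700 * (161700 * 161700 + 101)) := by
    rw [Fintype.card_prod, Fintype.card_prod, Fintype.card_prod, Fintype.card_sum, hT,
      Fintype.card_fin]
    gcongr
  refine (swap_net b).final hG' ?_ ?_ ?_ hμ (by omega) ?_
  · rintro ((t | t) | a)
    · exact hx0 t
    · exact pj_zero
    · simpa [FR] using pj_zero
  · rintro ((t | t) | a)
    · exact pj_one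
    · exact pj_one_sub (hx0 t)
    · simpa [FR] using pj_one
  · intro w w' h0
    rcases swapG_supp w w' h0 with ⟨t, rfl, rfl⟩ | ⟨t, rfl, rfl⟩ | ⟨a, rfl, rfl⟩
    · simp [FR, gX, gY]
    · simp [FR, gX, gY]
    · simp [FR]
  · have hone : (1 : Matrix (Mu ν) (Mu ν) 𝔽).rank = 10 ^ 6 := by rw [rank_one, hμ]
    have h2 : ∀ t : Dat T, (1 - x0 b t).rank ≤ 999999 := fun t => by
      have h3 := (pj_le_one (hx0 t)).rank
      have h1 : 1 ≤ (x0 b t).rank := K3_pr_rank b t
      omega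
    have s2 : ∑ t : Dat T, (1 - x0 b t).rank ≤ ∑ t : Dat T, 999999 :=
      Finset.sum_le_sum fun t _ => h2 t
    rw [Finset.sum_const, Finset.card_univ, smul_eq_mul, hD] at s2
    have e2 : ∑ w : Om T A C, (FR A C (fun _ => 1) (fun t : Dat T => 1 - x0 b t) 3 w).rank =
        161700 ^ 3 * 10 ^ 6 + ∑ t : Dat T, (1 - x0 b t).rank +
          Fintype.card (Fin 3 × (T × T) × (A ⊕ C)) * 10 ^ 6 := by
      simp only [FR, Fintype.sum_sum_type, Sum.elim_inl, Sum.elim_inr, Fin.is_lt, if_true, hone,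
        Finset.sum_const, Finset.card_univ, smul_eq_mul, hD]
    rw [e2, e3, Fintype.card_prod T T, hT, hν]
    generalize Fintype.card (Fin 3 × (T × T) × (A ⊕ C)) = n at e4
    generalize ∑ t : Dat T, (1 - x0 b t).rank = r at s2
    generalize Fintype.card C = c at hC
    have e4' : (n : ℝ) ≤ 3 * (161700 * 161700 * (161700 * 161700 + 101)) := by exact_mod_cast e4
    have s2' : (r : ℝ) ≤ 161700 ^ 3 * 999999 := by exact_mod_cast s2
    have hC' : (c : ℝ) ≤ 101 := by exact_mod_cast hC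
    push_cast
    linarith

end Crest.Agent.R326.Nw
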