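import Crest.Agent.R326.Spec3

/-! Asymptotics of the parameter choice (row 326). -/

set_option autoImplicit false

namespace Crest.Agent.R326

theorem par_sqrt_iter (k x : ℕ) :
    (Nat.sqrt^[k] x) ^ (2 ^ k) ≤ x ∧ x < (Nat.sqrt^[k] x + 1) ^ (2 ^ k) := by
  induction k with
  | zero => simp
  | succ k ih =>
    rw [Function.iterate_succ_apply', pow_succ' 2 k, pow_mul, pow_mul]
    constructor
    · exact le_trans (Nat.pow_le_pow_left (Nat.sqrt_le' _) _) ih.1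
    · exact lt_of_lt_of_le ih.2 (Nat.pow_le_pow_left (Nat.lt_succ_sqrt' _) _)

theorem par_poly (A k : ℕ) : ∃ m₀ : ℕ, ∀ m, m₀ ≤ m → A * (m + 1) ^ k ≤ 2 ^ m := by
  have h := (isLittleO_pow_const_const_pow_of_one_lt (R := ℝ) k (r := 2) one_lt_two).bound
    (c := 1 / (2 * (A + 1))) (by positivity)
  obtain ⟨m₀, hm₀⟩ := Filter.eventually_atTop.1 h
  refine ⟨m₀, fun m hm => ?_⟩
  have h1 := hm₀ (m + 1) (by omega)
  rw [Real.norm_of_nonneg (by positivity), Real.norm_of_nonneg (by positivity), pow_succ,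
    div_mul_eq_mul_div, le_div_iff₀ (by positivity)] at h1
  have h2 : (A : ℝ) * ((m + 1 : ℕ) : ℝ) ^ k ≤ 2 ^ m := by
    have : (0 : ℝ) ≤ ((m + 1 : ℕ) : ℝ) ^ k := by positivity
    nlinarith
  exact_mod_cast h2

theorem par_poly' (k : ℕ) : ∃ K : ℕ, ∀ m, (m + 1) ^ k ≤ K * 2 ^ m := by
  obtain ⟨m₀, h⟩ := par_poly 1 k
  refine ⟨(m₀ + 1) ^ k, fun m => ?_⟩
  rcases le_total m₀ m with hm | hm
  · have h1 := h m hm
    have h2 : 1 ≤ (m₀ + 1) ^ k := Nat.one_le_pow _ _ (by omega)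
    nlinarith [Nat.zero_le (2 ^ m)]
  · calc (m + 1) ^ k ≤ (m₀ + 1) ^ k * 1 := by rw [mul_one]; gcongr
      _ ≤ _ := by gcongr; exact Nat.one_le_two_pow

/-- The elementary relations between the parameters. -/
structure ParRel (e n Λ l d b : ℕ) : Prop where
  hl : 5 ≤ l
  hd : 1 ≤ d
  h1 : 2 ^ Λ ≤ n
  h2 : l ^ e ≤ Λ
  h3 : Λ < (l + 1) ^ e
  h4 : l ^ 2 ≤ Λ
  h5 : (d + 4) * l ≤ Λ
  h6 : 2 ^ (4 * l) ≤ b
  h7 : b ≤ 2 ^ (5 * l + 3)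
  h8 : 2 ^ (d * l) * b ≤ 5 * n

theorem par_rel (e n l : ℕ) (he : 2 ≤ e) (hl : 5 ≤ l) (h2 : l ^ e ≤ Nat.log 2 n)
    (h3 : Nat.log 2 n < (l + 1) ^ e) :
    ParRel e n (Nat.log 2 n) l (Nat.log 2 n / l - 4)
      (n / (2 ^ ((Nat.log 2 n / l - 4) * l) / 4) + 1) := by
  have h4 : l ^ 2 ≤ Nat.log 2 n := le_trans (Nat.pow_le_pow_right (by omega) he) h2
  have hn : n ≠ 0 := by
    rintro rfl
    simp at h4
    omega
  have h1 : 2 ^ Nat.log 2 n ≤ n := Nat.pow_log_le_self 2 hn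
  have h1' : n < 2 ^ (Nat.log 2 n + 1) := Nat.lt_pow_succ_log_self one_lt_two n
  generalize Nat.log 2 n = Λ at *
  have hq : l ≤ Λ / l := (Nat.le_div_iff_mul_le (by omega)).2 (by nlinarith)
  obtain ⟨d, hd⟩ : ∃ d, Λ / l = d + 4 := ⟨Λ / l - 4, by omega⟩
  have hd1 : 1 ≤ d := by omega
  have h5 : (d + 4) * l ≤ Λ := hd ▸ Nat.div_mul_le_self Λ l
  have h5' : Λ < (d + 5) * l := by
    have := Nat.lt_mul_div_succ Λ (show 0 < l by omega)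
    rw [hd] at this
    linarith
  rw [hd, Nat.add_sub_cancel]
  obtain ⟨t, ht⟩ : ∃ t, d * l = t + 2 := ⟨d * l - 2, by
    have : 1 * 5 ≤ d * l := Nat.mul_le_mul hd1 hl
    omega⟩
  have hT : 2 ^ (d * l) / 4 = 2 ^ t := by
    rw [ht, pow_add]; exact Nat.mul_div_cancel _ (by norm_num)
  have hpos : 0 < 2 ^ t := by positivity
  rw [hT]
  refine ⟨hl, hd1, h1, h2, h3, h4, h5, ?_, ?_, ?_⟩
  · refine le_trans ((Nat.le_div_iff_mul_le hpos).2 (le_trans ?_ h1)) (Nat.le_succ _)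
    rw [← pow_add]
    exact Nat.pow_le_pow_right (by norm_num) (by nlinarith)
  · refine Nat.succ_le_of_lt ((Nat.div_lt_iff_lt_mul hpos).2 (lt_of_lt_of_le h1' ?_))
    rw [← pow_add]
    exact Nat.pow_le_pow_right (by norm_num) (by nlinarith)
  · have a1 : n / 2 ^ t * 2 ^ t ≤ n := Nat.div_mul_le_self _ _
    have a2 : 2 ^ (t + 2) ≤ n :=
      le_trans (Nat.pow_le_pow_right (by norm_num) (by nlinarith)) h1
    rw [ht]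
    rw [pow_add] at a2 ⊢
    nlinarith

section

variable {e n Λ l d b : ℕ}

theorem ParRel.adm (c e : ℕ) : ∃ l₀ : ℕ, ∀ n Λ l d b, ParRel e n Λ l d b → l₀ ≤ l →
    c ≤ l ∧ 2 ≤ l ∧ 1 ≤ d ∧ c * (Nat.log 2 (d * l) + 1) ^ 2 ≤ l ∧
      (d * l + 2) ^ 4 ≤ 2 ^ (l / 4) ∧
      4 * (c * (l + 1) ^ 4 + 1) * (c * 4 ^ l + 2) * (d + 1) ≤ b := by
  obtain ⟨m₁, hm₁⟩ := par_poly (c * e ^ 2 + 1) 2
  obtain ⟨m₂, hm₂⟩ := par_poly (2 ^ 4 * 4 ^ (e * 4)) (e * 4)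
  obtain ⟨m₃, hm₃⟩ := par_poly (4 * (c + 1) * (c + 2)) (4 + e)
  refine ⟨c + 2 ^ m₁ + 4 * m₂ + m₃, fun n Λ l d b h hl => ?_⟩
  have hl5 := h.hl
  have hm0 : 0 < 2 ^ m₁ := by positivity
  have hdl : d * l < (l + 1) ^ e := by nlinarith [h.h5, h.h3]
  refine ⟨by omega, by omega, h.hd, ?_, ?_, ?_⟩
  · have a1 : m₁ ≤ Nat.log 2 (l + 1) := Nat.le_log_of_pow_le one_lt_two (by omega)
    have a2 := hm₁ _ a1
    have a3 : 2 ^ Nat.log 2 (l + 1) ≤ l + 1 := Nat.pow_log_le_self 2 (by omega)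
    have a4 : l + 1 < 2 ^ (Nat.log 2 (l + 1) + 1) := Nat.lt_pow_succ_log_self one_lt_two _
    generalize Nat.log 2 (l + 1) = L at *
    have a5 : Nat.log 2 (d * l) < (L + 1) * e := by
      refine Nat.log_lt_of_lt_pow (by nlinarith [h.hd]) ?_
      rw [pow_mul]
      exact lt_of_lt_of_le hdl (Nat.pow_le_pow_left a4.le _)
    have a6 : c * (Nat.log 2 (d * l) + 1) ^ 2 ≤ c * ((L + 1) * e) ^ 2 := by gcongr; omega
    have a7 : 1 ≤ (L + 1) ^ 2 := Nat.one_le_pow _ _ (by omega)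
    rw [mul_pow] at a6
    nlinarith
  · refine le_trans ?_ (hm₂ (l / 4) (by omega))
    have a1 : l + 1 ≤ 4 * (l / 4 + 1) := by omega
    have a2 : d * l + 2 ≤ 2 * (4 * (l / 4 + 1)) ^ e := by
      have := Nat.pow_le_pow_left a1 e
      omega
    calc (d * l + 2) ^ 4 ≤ (2 * (4 * (l / 4 + 1)) ^ e) ^ 4 := by gcongr
      _ = _ := by rw [mul_pow, mul_pow, mul_pow, ← pow_mul, ← pow_mul, mul_assoc]
  · have a1 := hm₃ l (by omega)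
    have a2 : d + 1 ≤ (l + 1) ^ e := by nlinarith [h.h5, h.h3]
    have a3 : c * (l + 1) ^ 4 + 1 ≤ (c + 1) * (l + 1) ^ 4 := by
      have : 1 ≤ (l + 1) ^ 4 := Nat.one_le_pow _ _ (by omega)
      nlinarith
    have a4 : c * 4 ^ l + 2 ≤ (c + 2) * 4 ^ l := by
      have : 1 ≤ 4 ^ l := Nat.one_le_pow _ _ (by omega)
      nlinarith
    calc 4 * (c * (l + 1) ^ 4 + 1) * (c * 4 ^ l + 2) * (d + 1)
        ≤ 4 * ((c + 1) * (l + 1) ^ 4) * ((c + 2) * 4 ^ l) * (l + 1) ^ e := by gcongr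
      _ = (4 * (c + 1) * (c + 2) * (l + 1) ^ (4 + e)) * 4 ^ l := by rw [pow_add]; ring
      _ ≤ 2 ^ l * 4 ^ l := by gcongr
      _ = 2 ^ (3 * l) := by rw [← mul_pow, pow_mul]; norm_num
      _ ≤ 2 ^ (4 * l) := Nat.pow_le_pow_right (by norm_num) (by omega)
      _ ≤ b := h.h6

theorem ParRel.two (e k : ℕ) : ∃ K : ℕ, ∀ n Λ l d b, ParRel e n Λ l d b →
    (2 ^ (d * l) + 1) * (Λ + 2) ^ k ≤ K * n := by
  obtain ⟨K, hK⟩ := par_poly' (e * k)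
  refine ⟨2 * 2 ^ k * K, fun n Λ l d b h => ?_⟩
  have a1 : Λ + 2 ≤ 2 * (l + 1) ^ e := by have := h.h3; omega
  have a2 : 2 ^ (d * l) + 1 ≤ 2 * 2 ^ (d * l) := by
    have : 1 ≤ 2 ^ (d * l) := Nat.one_le_two_pow
    omega
  have a3 : 2 ^ (d * l) * 2 ^ l ≤ n := by
    rw [← pow_add]
    exact le_trans (Nat.pow_le_pow_right (by norm_num) (by nlinarith [h.h5])) h.h1
  calc (2 ^ (d * l) + 1) * (Λ + 2) ^ k ≤ (2 * 2 ^ (d * l)) * (2 * (l + 1) ^ e) ^ k := by gcongr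
    _ = 2 * 2 ^ (d * l) * 2 ^ k * (l + 1) ^ (e * k) := by rw [mul_pow, ← pow_mul]; ring
    _ ≤ 2 * 2 ^ (d * l) * 2 ^ k * (K * 2 ^ l) := by gcongr; exact hK l
    _ = 2 * 2 ^ k * K * (2 ^ (d * l) * 2 ^ l) := by ring
    _ ≤ _ := by gcongr

theorem ParRel.three (h : ParRel e n Λ l d b) (k : ℕ) :
    (2 ^ l + b + 2) ^ k ≤ 2 ^ (25 * k ^ 2 + 5 * k) * n := by
  have a1 : 2 ^ l + b + 2 ≤ 2 ^ (5 * l + 5) := by
    have b1 : 2 ^ l ≤ 2 ^ (5 * l + 3) := Nat.pow_le_pow_right (by norm_num) (by omega)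
    have b2 : 2 ^ 1 ≤ 2 ^ (5 * l + 3) := Nat.pow_le_pow_right (by norm_num) (by omega)
    have b3 : 2 ^ (5 * l + 5) = 4 * 2 ^ (5 * l + 3) := by ring
    have := h.h7
    omega
  calc (2 ^ l + b + 2) ^ k ≤ (2 ^ (5 * l + 5)) ^ k := by gcongr
    _ = 2 ^ ((5 * l + 5) * k) := by rw [← pow_mul]
    _ ≤ 2 ^ (25 * k ^ 2 + 5 * k + Λ) := by
        refine Nat.pow_le_pow_right (by norm_num) ?_
        have := h.h4
        have b : 5 * l * k ≤ l ^ 2 + 25 * k ^ 2 := by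
          zify
          nlinarith [sq_nonneg ((l : ℤ) - 5 * k), sq_nonneg (l : ℤ), sq_nonneg (k : ℤ)]
        nlinarith
    _ ≤ _ := by rw [pow_add]; gcongr; exact h.h1

theorem ParRel.pow_le (h : ParRel e n Λ l d b) (he : 2 ≤ e) (j : ℕ) :
    ((l : ℝ) + 1) ^ j ≤ 2 ^ j * ((Λ : ℝ) + 1) ^ ((j : ℝ) / e) := by
  have a1 : (l : ℝ) ≤ ((Λ : ℝ) + 1) ^ ((e : ℝ)⁻¹) := by
    rw [Real.le_rpow_inv_iff_of_pos (by positivity) (by positivity) (by positivity),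
      Real.rpow_natCast]
    have : ((l ^ e : ℕ) : ℝ) ≤ Λ := by exact_mod_cast h.h2
    push_cast at this
    linarith
  have a2 : (5 : ℝ) ≤ l := by exact_mod_cast h.hl
  rw [div_eq_inv_mul, Real.rpow_mul (by positivity), Real.rpow_natCast, ← mul_pow]
  gcongr
  linarith

theorem ParRel.four (h : ParRel e n Λ l d b) (he : 2 ≤ e) (c : ℕ) {τ σ : ℝ} (h0 : 0 ≤ τ)
    (h1 : τ + 4 / e ≤ σ) (h2 : 14 / e ≤ σ) :
    (2 : ℝ) ^ (d * l) * (c * ((l : ℝ) + 1) ^ 4 + 1) * (17 * b) *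
        (((d : ℝ) * l + 1) ^ τ + ((Nat.log 2 (17 * b) : ℝ) + 2) ^ 10) ≤
      (85 * (c + 1) * (2 ^ 4 + 10 ^ 10 * 2 ^ 14)) * (n * ((Λ : ℝ) + 1) ^ σ) := by
  have hΛ : (1 : ℝ) ≤ (Λ : ℝ) + 1 := by linarith [Nat.cast_nonneg (α := ℝ) Λ]
  have a1 : (2 : ℝ) ^ (d * l) * b ≤ 5 * n := by exact_mod_cast h.h8
  have a2 : c * ((l : ℝ) + 1) ^ 4 + 1 ≤ (c + 1) * ((l : ℝ) + 1) ^ 4 := by
    have : (1 : ℝ) ≤ ((l : ℝ) + 1) ^ 4 :=
      one_le_pow₀ (by linarith [Nat.cast_nonneg (α := ℝ) l])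
    linarith
  have a3 : ((d : ℝ) * l + 1) ^ τ ≤ ((Λ : ℝ) + 1) ^ τ := by
    have : d * l ≤ Λ := by nlinarith [h.h5]
    have : (d : ℝ) * l ≤ Λ := by exact_mod_cast this
    gcongr
  have a4 : (Nat.log 2 (17 * b) : ℝ) + 2 ≤ 10 * ((l : ℝ) + 1) := by
    have b1 : 17 * b ≤ 2 ^ (5 * l + 8) := by
      have := h.h7
      have b3 : 2 ^ (5 * l + 8) = 32 * 2 ^ (5 * l + 3) := by ring
      omega
    have b2 : Nat.log 2 (17 * b) ≤ 5 * l + 8 := by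
      simpa [Nat.log_pow] using Nat.log_mono_right (b := 2) b1
    have b3 : (Nat.log 2 (17 * b) : ℝ) ≤ 5 * l + 8 := by exact_mod_cast b2
    linarith [Nat.cast_nonneg (α := ℝ) l]
  have a5 : ((l : ℝ) + 1) ^ 4 * ((Λ : ℝ) + 1) ^ τ ≤ 2 ^ 4 * ((Λ : ℝ) + 1) ^ σ := by
    calc ((l : ℝ) + 1) ^ 4 * ((Λ : ℝ) + 1) ^ τ
        ≤ (2 ^ 4 * ((Λ : ℝ) + 1) ^ (((4 : ℕ) : ℝ) / e)) * ((Λ : ℝ) + 1) ^ τ := by
          gcongr; exact h.pow_le he 4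
      _ = 2 ^ 4 * ((Λ : ℝ) + 1) ^ (τ + 4 / e) := by
          rw [Real.rpow_add (by positivity)]; push_cast; ring
      _ ≤ _ := by gcongr
  have a6 : ((l : ℝ) + 1) ^ 14 ≤ 2 ^ 14 * ((Λ : ℝ) + 1) ^ σ := by
    refine (h.pow_le he 14).trans ?_
    push_cast
    gcongr
  calc (2 : ℝ) ^ (d * l) * (c * ((l : ℝ) + 1) ^ 4 + 1) * (17 * b) *
        (((d : ℝ) * l + 1) ^ τ + ((Nat.log 2 (17 * b) : ℝ) + 2) ^ 10)
      ≤ (2 : ℝ) ^ (d * l) * ((c + 1) * ((l : ℝ) + 1) ^ 4) * (17 * b) *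
        (((Λ : ℝ) + 1) ^ τ + (10 * ((l : ℝ) + 1)) ^ 10) := by gcongr
    _ = 17 * (c + 1) * ((2 : ℝ) ^ (d * l) * b) *
        (((l : ℝ) + 1) ^ 4 * ((Λ : ℝ) + 1) ^ τ + 10 ^ 10 * ((l : ℝ) + 1) ^ 14) := by ring
    _ ≤ 17 * (c + 1) * (5 * n) *
        (2 ^ 4 * ((Λ : ℝ) + 1) ^ σ + 10 ^ 10 * (2 ^ 14 * ((Λ : ℝ) + 1) ^ σ)) := by gcongr
    _ = _ := by ring

theorem ParRel.five (h : ParRel e n Λ l d b) (he : 2 ≤ e) {τ σ : ℝ} (h0 : τ ≤ 1)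
    (h1 : 1 + (τ - 1) / e ≤ σ) :
    (2 : ℝ) ^ (d * l) * (7 * b + 1) * ((d : ℝ) + 1) * ((l : ℝ) + 1) ^ τ ≤
      80 * (n * ((Λ : ℝ) + 1) ^ σ) := by
  have hΛ : (1 : ℝ) ≤ (Λ : ℝ) + 1 := by linarith [Nat.cast_nonneg (α := ℝ) Λ]
  have a1 : (2 : ℝ) ^ (d * l) * b ≤ 5 * n := by exact_mod_cast h.h8
  have a0 : (1 : ℝ) ≤ b := by exact_mod_cast le_trans Nat.one_le_two_pow h.h6
  have a2 : ((d : ℝ) + 1) * ((l : ℝ) + 1) ≤ 2 * ((Λ : ℝ) + 1) := by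
    have : (d + 1) * (l + 1) ≤ 2 * (Λ + 1) := by nlinarith [h.h5, h.hl]
    exact_mod_cast this
  have a3 : ((Λ : ℝ) + 1) ^ ((e : ℝ)⁻¹) ≤ (l : ℝ) + 1 := by
    rw [Real.rpow_inv_le_iff_of_pos (by positivity) (by positivity) (by positivity),
      Real.rpow_natCast]
    exact_mod_cast h.h3
  have a4 : ((l : ℝ) + 1) ^ (τ - 1) ≤ ((Λ : ℝ) + 1) ^ ((τ - 1) / e) := by
    rw [div_eq_inv_mul, Real.rpow_mul (by positivity)]
    exact Real.rpow_le_rpow_of_nonpos (by positivity) a3 (by linarith)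
  have a5 : ((l : ℝ) + 1) ^ τ = ((l : ℝ) + 1) * ((l : ℝ) + 1) ^ (τ - 1) := by
    rw [Real.rpow_sub_one (by positivity)]; field_simp
  calc (2 : ℝ) ^ (d * l) * (7 * b + 1) * ((d : ℝ) + 1) * ((l : ℝ) + 1) ^ τ
      ≤ (2 : ℝ) ^ (d * l) * (8 * b) * ((d : ℝ) + 1) * ((l : ℝ) + 1) ^ τ := by
        gcongr; linarith
    _ = 8 * ((2 : ℝ) ^ (d * l) * b) * (((d : ℝ) + 1) * ((l : ℝ) + 1)) *
        ((l : ℝ) + 1) ^ (τ - 1) := by rw [a5]; ring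
    _ ≤ 8 * (5 * n) * (2 * ((Λ : ℝ) + 1)) * ((Λ : ℝ) + 1) ^ ((τ - 1) / e) := by gcongr
    _ = 80 * (n * ((Λ : ℝ) + 1) ^ (1 + (τ - 1) / e)) := by
        rw [Real.rpow_add (by positivity), Real.rpow_one]; ring
    _ ≤ _ := by gcongr

end

theorem par_main (e : ℕ) (he : 2 ≤ e)
    (hp : ∀ n, pl n ^ e ≤ Nat.log 2 n ∧ Nat.log 2 n < (pl n + 1) ^ e)
    (h1 : tau + 4 / e ≤ 1 - 1 / (2 : ℝ) ^ 182) (h2 : 14 / e ≤ 1 - 1 / (2 : ℝ) ^ 182)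
    (h3 : 1 + (tau - 1) / e ≤ 1 - 1 / (2 : ℝ) ^ 182) : ParSpec := by
  intro c
  obtain ⟨l₀, hl₀⟩ := ParRel.adm c e
  have hbig : ∀ n, 2 ^ ((l₀ + 5) ^ e) ≤ n → l₀ + 5 ≤ pl n := fun n hn => by
    have a1 : (l₀ + 5) ^ e ≤ Nat.log 2 n := Nat.le_log_of_pow_le one_lt_two hn
    have a2 := lt_of_le_of_lt a1 (hp n).2
    have a3 := lt_of_pow_lt_pow_left₀ e (Nat.zero_le _) a2
    omega
  have hrel : ∀ n, 2 ^ ((l₀ + 5) ^ e) ≤ n → ParRel e n (Nat.log 2 n) (pl n) (pd n) (pb n) :=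
    fun n hn => par_rel e n (pl n) he (by have := hbig n hn; omega) (hp n).1 (hp n).2
  have hσ : (0 : ℝ) ≤ 1 - 1 / (2 : ℝ) ^ 182 := le_trans (by positivity) h2
  have hb1 : ∀ n : ℕ, n * ((Nat.log 2 n : ℝ) + 1) ^ (1 - 1 / (2 : ℝ) ^ 182) ≤ bud n := fun n => by
    unfold bud; linarith
  have hb2 : ∀ n : ℕ, (n : ℝ) ≤ bud n := fun n => by
    refine le_trans ?_ (hb1 n)
    exact le_mul_of_one_le_right (Nat.cast_nonneg _)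
      (Real.one_le_rpow (by linarith [Nat.cast_nonneg (α := ℝ) (Nat.log 2 n)]) hσ)
  have ht0 : 0 ≤ tau := by unfold tau; norm_num
  have ht1 : tau ≤ 1 := by unfold tau; norm_num
  refine ⟨2 ^ ((l₀ + 5) ^ e), fun n hn => hl₀ _ _ _ _ _ (hrel n hn) (by have := hbig n hn; omega),
    fun k => ?_, fun k => ?_, ⟨85 * (c + 1) * (2 ^ 4 + 10 ^ 10 * 2 ^ 14), by positivity,
      fun n hn => ?_⟩, ⟨80, by norm_num, fun n hn => ?_⟩⟩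
  · obtain ⟨K, hK⟩ := ParRel.two e k
    refine ⟨K, Nat.cast_nonneg _, fun n hn => ?_⟩
    have := hK _ _ _ _ _ (hrel n hn)
    calc _ ≤ ((K * n : ℕ) : ℝ) := Nat.cast_le.2 this
      _ = K * (n : ℝ) := Nat.cast_mul _ _
      _ ≤ _ := by gcongr; exact hb2 n
  · refine ⟨((2 ^ (25 * k ^ 2 + 5 * k) : ℕ) : ℝ), Nat.cast_nonneg _, fun n hn => ?_⟩
    have := (hrel n hn).three k
    calc _ ≤ ((2 ^ (25 * k ^ 2 + 5 * k) * n : ℕ) : ℝ) := Nat.cast_le.2 this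
      _ = ((2 ^ (25 * k ^ 2 + 5 * k) : ℕ) : ℝ) * (n : ℝ) := Nat.cast_mul _ _
      _ ≤ _ := by gcongr; exact hb2 n
  · refine ((hrel n hn).four he c ht0 h1 h2).trans ?_
    gcongr; exact hb1 n
  · refine ((hrel n hn).five he ht1 h3).trans ?_
    gcongr; exact hb1 n

theorem parSpec : ParSpec :=
  par_main (2 ^ 53) (by norm_num) (fun n => par_sqrt_iter 53 (Nat.log 2 n))
    (by unfold tau; norm_num) (by norm_num) (by unfold tau; norm_num)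

end Crest.Agent.R326
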