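import Crest.Agent.R326.Spec2

/-!
# Linear-time rearrangements of arrays (`PermSpec`)
-/

set_option linter.unusedVariables false

namespace Crest.Agent.R326

open Function
open Crest.Agent.Lib.PolyTime

namespace Perm

variable {ι : Type} {C : Ctx ι} {α β γ : Type} [PEnc α] [PEnc β] [PEnc γ]

/-! ### Pure lemmas -/

theorem filter_map_eq {T T' : ℕ} {q p : ℕ → Bool} {π : ℕ → ℕ}
    (h1 : ∀ j, j < T → q j = true → π j < T' ∧ p (π j) = true)
    (h2 : ∀ k, k < T' → p k = true → ∃ j, j < T ∧ q j = true ∧ π j = k)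
    (h3 : ∀ j j', j < j' → j' < T → q j = true → q j' = true → π j < π j') :
    ((List.range T).filter q).map π = (List.range T').filter p := by
  refine List.Pairwise.eq_of_mem_iff (r := (· < ·)) ?_ (List.pairwise_lt_range.filter _) fun k => ?_
  · rw [List.pairwise_map]
    refine List.Pairwise.imp_of_mem ?_ (List.pairwise_lt_range.filter q)
    intro a b ha hb hab
    simp only [List.mem_filter, List.mem_range] at ha hb
    exact h3 a b hab hb.1 ha.2 hb.2
  · simp only [List.mem_map, List.mem_filter, List.mem_range]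
    constructor
    · rintro ⟨j, ⟨hj, hq⟩, rfl⟩
      exact h1 j hj hq
    · rintro ⟨hk, hp⟩
      obtain ⟨j, hj, hq, e⟩ := h2 k hk hp
      exact ⟨j, ⟨hj, hq⟩, e⟩

theorem surj_of_inj {T : ℕ} {π : ℕ → ℕ} (h1 : ∀ j, j < T → π j < T)
    (h2 : ∀ j j', j < T → j' < T → π j = π j' → j = j') (k : ℕ) (hk : k < T) :
    ∃ j, j < T ∧ π j = k := by
  have : Injective fun j : Fin T => (⟨π j, h1 j j.2⟩ : Fin T) := fun a b h =>
    Fin.ext (h2 _ _ a.2 b.2 (congrArg Fin.val h))
  obtain ⟨j, hj⟩ := Finite.injective_iff_surjective.1 this ⟨k, hk⟩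
  exact ⟨j, j.2, congrArg Fin.val hj⟩

/-- The index with parts `h`, `y`, `s`. -/
def mk3 (S Q h y s : ℕ) : ℕ := (h * Q + y) * S + s

section mk3
variable {S Q H h y s h' y' s' j j' : ℕ}

theorem mk3_parts : mk3 S Q (j / (S * Q)) (fld S Q j) (j % S) = j := setF_fld

theorem mk3_mod (hs : s < S) : mk3 S Q h y s % S = s := by
  rw [mk3, Nat.add_comm, Nat.add_mul_mod_self_right, Nat.mod_eq_of_lt hs]

theorem mk3_div (hs : s < S) : mk3 S Q h y s / S = h * Q + y := by
  rw [mk3, Nat.add_comm, Nat.add_mul_div_right _ _ (by omega), Nat.div_eq_of_lt hs, Nat.zero_add]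

theorem mk3_fld (hs : s < S) (hy : y < Q) : fld S Q (mk3 S Q h y s) = y := by
  rw [fld, mk3_div hs, Nat.add_comm, Nat.add_mul_mod_self_right, Nat.mod_eq_of_lt hy]

theorem mk3_high (hs : s < S) (hy : y < Q) : mk3 S Q h y s / (S * Q) = h := by
  rw [← Nat.div_div_eq_div_mul, mk3_div hs, Nat.add_comm,
    Nat.add_mul_div_right _ _ (by omega), Nat.div_eq_of_lt hy, Nat.zero_add]

theorem mk3_lt (hs : s < S) (hy : y < Q) (hh : h < H) : mk3 S Q h y s < H * Q * S := by
  have h3 : h * Q + y + 1 ≤ H * Q := by nlinarith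
  unfold mk3
  nlinarith

theorem mk3_lt_mk3 (hs : s < S) (hy : y < Q)
    (hl : h < h' ∨ h = h' ∧ (y < y' ∨ y = y' ∧ s < s')) : mk3 S Q h y s < mk3 S Q h' y' s' := by
  have key : ∀ a b : ℕ, a < b → a * S + s < b * S + s' := fun a b hab => by nlinarith
  rcases hl with hl | ⟨rfl, hl | ⟨rfl, hl⟩⟩
  · exact key _ _ (by nlinarith)
  · exact key _ _ (by omega)
  · unfold mk3; omega

theorem lex_of_lt (hS : 0 < S) (hQ : 0 < Q) (hj : j < j') :
    j / (S * Q) < j' / (S * Q) ∨ j / (S * Q) = j' / (S * Q) ∧
      (fld S Q j < fld S Q j' ∨ fld S Q j = fld S Q j' ∧ j % S < j' % S) := by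
  by_contra hc
  by_cases he : j / (S * Q) = j' / (S * Q) ∧ fld S Q j = fld S Q j' ∧ j % S = j' % S
  · exact hj.ne (idx_ext he.2.2 he.2.1 he.1)
  · have := mk3_lt_mk3 (h := j' / (S * Q)) (h' := j / (S * Q)) (y' := fld S Q j) (s' := j % S)
      (Nat.mod_lt j' hS) (fld_lt (S := S) (j := j') hQ) (by omega)
    rw [mk3_parts, mk3_parts] at this
    omega

theorem pos_of_lt (hj : j < H * Q * S) : 0 < S ∧ 0 < Q := by
  constructor
  · exact Nat.pos_of_ne_zero fun h => by simp [h] at hj
  · exact Nat.pos_of_ne_zero fun h => by simp [h] at hj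

theorem high_lt (hj : j < H * Q * S) : j / (S * Q) < H := Nat.div_lt_of_lt_mul (by nlinarith)

end mk3

theorem pad_eq {H Q Q' S : ℕ} (hQ : Q ≤ Q') :
    (List.range (H * Q * S)).map (padI S Q Q') =
      (List.range (H * Q' * S)).filter fun j => decide (fld S Q' j < Q) := by
  rw [← filter_map_eq (T := H * Q * S) (q := fun _ => true) (π := padI S Q Q'), List.filter_true]
  · intro j hj _
    obtain ⟨hS, hQ0⟩ := pos_of_lt hj
    have hy := fld_lt (S := S) (j := j) hQ0
    refine ⟨mk3_lt (Nat.mod_lt _ hS) (by omega) (high_lt hj), ?_⟩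
    rw [decide_eq_true_eq]
    exact (mk3_fld (Nat.mod_lt _ hS) (by omega)).trans_lt hy
  · intro k hk hp
    obtain ⟨hS, hQ0⟩ := pos_of_lt hk
    rw [decide_eq_true_eq] at hp
    have hs := Nat.mod_lt k hS
    refine ⟨mk3 S Q (k / (S * Q')) (fld S Q' k) (k % S), mk3_lt hs hp (high_lt hk), rfl, ?_⟩
    rw [padI, mk3_high hs hp, mk3_fld hs hp, mk3_mod hs]
    exact mk3_parts
  · intro j j' hj hj' _ _
    obtain ⟨hS, hQ0⟩ := pos_of_lt hj'
    exact mk3_lt_mk3 (Nat.mod_lt _ hS) ((fld_lt hQ0).trans_le hQ) (lex_of_lt hS hQ0 hj)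

theorem padI_padI {H Q Q' S j : ℕ} (hQ : Q ≤ Q') (hj : j < H * Q * S) :
    padI S Q' Q (padI S Q Q' j) = j := by
  obtain ⟨hS, hQ0⟩ := pos_of_lt hj
  have hy := (fld_lt (S := S) (j := j) hQ0).trans_le hQ
  have hs := Nat.mod_lt j hS
  change padI S Q' Q (mk3 S Q' _ _ _) = j
  rw [padI, mk3_high hs hy, mk3_fld hs hy, mk3_mod hs]
  exact mk3_parts

/-! ### `select` and `overlay` -/

theorem filter {f : α → Bool} {l : ι → List α} (hf : Lin f) (hl : R C l) :
    R C fun i => (l i).filter f :=
  (R.flatMap (f := fun x => cond (f x) [x] []) (by rp) hl).congr fun i => by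
    induction l i with
    | nil => rfl
    | cons x xs ih => cases h : f x <;> simp [h, ih]

theorem select {T : ι → ℕ} {m : ι → ℕ → Bool} {a : ι → ℕ → α}
    (hm : R C fun i => tab (T i) (m i)) (ha : R C fun i => tab (T i) (a i)) :
    R C fun i => ((List.range (T i)).filter (m i)).map (a i) :=
  (R.map (f := fun p : Bool × α => p.2) (by rp)
    (filter (f := fun p : Bool × α => p.1) (by rp) (hm.zipTab ha))).congr fun i => by
      simp [tab, List.filter_map, Function.comp_def]

/-- The selected records from position `k` on. -/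
def rest (T : ℕ) (m : ℕ → Bool) (g : ℕ → α) (k : ℕ) : List α :=
  ((List.range' k (T - k)).filter m).map g

omit [PEnc α] in
theorem rest_step {T k : ℕ} (m : ℕ → Bool) (g : ℕ → α) (h : k < T) :
    rest T m g k = bif m k then g k :: rest T m g (k + 1) else rest T m g (k + 1) := by
  unfold rest
  rw [show T - k = T - (k + 1) + 1 by omega, List.range'_succ]
  cases h : m k <;> simp [h]

theorem sum_sz_le (T : ℕ) (m : ℕ → Bool) (g : ℕ → α) :
    ∑ k ∈ Finset.range T, (bif m k then sz (g k) else 0) ≤ sz (((List.range T).filter m).map g) := by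
  induction T with
  | zero => simp
  | succ T ih =>
    rw [Finset.sum_range_succ, List.range_succ, List.filter_append, List.map_append]
    have := sz_append (((List.range T).filter m).map g) (([T].filter m).map g)
    cases h : m T
    · simpa [h] using ih
    · simp only [List.filter_cons, h, if_true, List.filter_nil, List.map_cons, List.map_nil,
        sz_cons, sz_nil, cond_true] at this ⊢
      omega

theorem overlay {T : ι → ℕ} {m : ι → ℕ → Bool} {g b : ι → ℕ → α}
    (hm : R C fun i => tab (T i) (m i))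
    (hg : R C fun i => ((List.range (T i)).filter (m i)).map (g i))
    (hb : R C fun i => tab (T i) (b i)) :
    R C fun i => tab (T i) fun j => bif m i j then g i j else b i j := by
  have := hm.isOk
  have hz := hm.zipTab hb
  have hok := Ctx.pos_ok₂ (s := fun _ _ => ()) (Ctx.dom_sum_unif (β := fun _ => 1)
    (hz.dom_length.mono fun i => by simp) (by simp)) hz.dom_sz
  have hin := (R.posInp hok).snd
  have hG : (C.pos T fun i k => ((), (m i k, b i k))).Dom
      fun p => ((bif m p.1 p.2 then sz (g p.1 p.2) else 0 : ℕ) : ℝ) :=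
    Ctx.dom_pos (fun _ => by positivity) (hg.dom_sz.mono fun i => by
      have := sum_sz_le (T i) (m i) (g i)
      rw [Finset.sum_range] at this
      exact_mod_cast this)
  have h2 := JS.accum (ok := fun _ _ _ => False) (s := fun _ _ => ())
    (b := fun i k => bif m i k then g i k else b i k)
    (t := fun i k => [enc (rest (T i) (m i) (g i) k)]) (cn := fun _ => 0) (by rp) hz
    (JS.pair_l (by rp) (JS.cond hin.fst
      (((JS.uncons (pre := fun _ => []) (u := fun _ => ())
        (x := fun p : {p : Σ i, Fin (T i) // m p.1 p.2 = true} => g p.1.1 p.1.2)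
        (t := fun p => rest (T p.1.1) (m p.1.1) (g p.1.1) (p.1.2 + 1)) (by rp)
        ((hG.comap _).mono fun p => by simp [p.2])).congr_str
          (fun p => by rw [rest_step _ _ p.1.2.2, p.2]; rfl) fun p => rfl).congr
        fun p => by simp [p.2])
      ((((hin.snd.comap (Subtype.val : {p : Σ i, Fin (T i) // m p.1 p.2 = false} → _)).js _
        fun p => [enc (rest (T p.1.1) (m p.1.1) (g p.1.1) (p.1.2 + 1))]).congr_str
          (fun p => by rw [rest_step _ _ p.1.2.2, p.2]; rfl) fun p => rfl).congr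
        fun p => by simp [p.2])))
  have h3 := ((JS.push (ok := fun _ _ _ => False) (pre := fun _ => []) hg).andThen
    (h2.congr_str (fun i => by simp [rest, List.range_eq_range']) fun _ => rfl)).pair
    (JS.pop (post := fun _ => []) (x := fun _ => ())
      (t := fun i => rest (T i) (m i) (g i) (T i)) (by rp)
      (this.dom_one.mono fun i => by simp [rest]))
  exact (R.of_js h3).fst.snd

theorem unT {T : ι → ℕ} {a : ι → ℕ → α} (ha : R C fun i => tab (T i) (a i)) :
    R C fun i => Un.mk (T i) := ha.lenUn.congr fun i => by simp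

/-! ### Piecewise monotone permutations -/

theorem mp {T L : ι → ℕ} {par : ι → γ} {a : ι → ℕ → α} (K : ℕ) {π cls : γ × ℕ → ℕ}
    (hπ : Poly π) (hc : Poly cls) (hP : C.PD T L) (hT : Sm L fun i => sz (T i))
    (hp : SC C L par) (h1 : ∀ i j, j < T i → π (par i, j) < T i)
    (h2 : ∀ i j, j < T i → cls (par i, j) < K)
    (h3 : ∀ i j j', j < j' → j' < T i → cls (par i, π (par i, j)) = cls (par i, π (par i, j')) →
      π (par i, j) < π (par i, j')) :
    R C (fun i => tab (T i) (a i)) ↔ R C fun i => tab (T i) fun j => a i (π (par i, j)) := by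
  have key : ∀ κ i, ((List.range (T i)).filter fun j => decide (cls (par i, π (par i, j)) = κ)).map
      (fun j => a i (π (par i, j))) =
      ((List.range (T i)).filter fun k => decide (cls (par i, k) = κ)).map (a i) := by
    intro κ i
    rw [← filter_map_eq (T := T i) (T' := T i) (π := fun j => π (par i, j))
      (q := fun j => decide (cls (par i, π (par i, j)) = κ))
      (p := fun k => decide (cls (par i, k) = κ)), List.map_map]
    · rfl
    · exact fun j hj hq => ⟨h1 i j hj, hq⟩
    · intro k hk hq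
      obtain ⟨j, hj, e⟩ := surj_of_inj (π := fun j => π (par i, j)) (h1 i) (fun j j' hj hj' e => by
        rcases lt_trichotomy j j' with h | h | h
        · exact absurd e (h3 i j j' h hj' (by rw [e])).ne
        · exact h
        · exact absurd e (h3 i j' j h hj (by rw [e])).ne') k hk
      exact ⟨j, hj, by rwa [e], e⟩
    · intro j j' hj hj' hq hq'
      rw [decide_eq_true_eq] at hq hq'
      exact h3 i j j' hj hj' (hq.trans hq'.symm)
  have m1 : ∀ κ, (R C fun i => Un.mk (T i)) →
      R C fun i => tab (T i) fun j => decide (cls (par i, π (par i, j)) = κ) := fun κ h =>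
    R.tabPoly hP h hT hp (f := fun q => decide (cls (q.1, π q) = κ)) (by fun_prop)
  have m2 : ∀ κ, (R C fun i => Un.mk (T i)) →
      R C fun i => tab (T i) fun j => decide (cls (par i, j) = κ) := fun κ h =>
    R.tabPoly hP h hT hp (f := fun q => decide (cls q = κ)) (by fun_prop)
  constructor
  · intro ha
    have : ∀ κ, R C fun i => tab (T i) fun j =>
        if cls (par i, π (par i, j)) < κ then a i (π (par i, j)) else a i j := by
      intro κ
      induction κ with
      | zero => simpa using ha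
      | succ κ ih =>
        refine (overlay (m1 κ (unT ha)) ((select (m2 κ (unT ha)) ha).congr (key κ)) ih).congr
          fun i => tab_congr fun j _ => ?_
        rcases lt_trichotomy (cls (par i, π (par i, j))) κ with h | h | h
        · simp [h, h.ne, Nat.lt_succ_of_lt h]
        · simp [h]
        · simp [h.ne', h.not_gt, h]
    exact (this K).congr fun i => tab_congr fun j hj => by rw [if_pos (h2 i _ (h1 i j hj))]
  · intro ha
    have : ∀ κ, R C fun i => tab (T i) fun j =>
        if cls (par i, j) < κ then a i j else a i (π (par i, j)) := by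
      intro κ
      induction κ with
      | zero => simpa using ha
      | succ κ ih =>
        refine (overlay (m2 κ (unT ha)) ((select (m1 κ (unT ha)) ha).congr
          fun i => (key κ i).symm) ih).congr fun i => tab_congr fun j _ => ?_
        rcases lt_trichotomy (cls (par i, j)) κ with h | h | h
        · simp [h, h.ne, Nat.lt_succ_of_lt h]
        · simp [h]
        · simp [h.ne', h.not_gt, h]
    exact (this K).congr fun i => tab_congr fun j hj => by rw [if_pos (h2 i _ hj)]

/-- A piecewise monotone permutation of one field. -/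
theorem fieldMap {H Q S L : ι → ℕ} {par : ι → γ} {a : ι → ℕ → α} (K : ℕ)
    {φ cls : γ × ℕ × ℕ → ℕ} (hφ : Poly φ) (hc : Poly cls)
    (hP : C.PD (fun i => H i * Q i * S i) L) (hs : SC C L fun i => (H i, Q i, S i))
    (hp : SC C L par) (h1 : ∀ i h y, y < Q i → φ (par i, h, y) < Q i)
    (h2 : ∀ i h y, cls (par i, h, y) < K)
    (h3 : ∀ i h y y', y < y' → y' < Q i →
      cls (par i, h, φ (par i, h, y)) = cls (par i, h, φ (par i, h, y')) →
      φ (par i, h, y) < φ (par i, h, y')) :
    R C (fun i => tab (H i * Q i * S i) (a i)) ↔ R C fun i => tab (H i * Q i * S i) fun j =>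
      a i (setF (S i) (Q i) j (φ (par i, j / (S i * Q i), fld (S i) (Q i) j))) := by
  refine mp (par := fun i => ((H i, Q i, S i), par i)) K
    (π := fun q => setF q.1.1.2.2 q.1.1.2.1 q.2
      (φ (q.1.2, q.2 / (q.1.1.2.2 * q.1.1.2.1), fld q.1.1.2.2 q.1.1.2.1 q.2)))
    (cls := fun q => cls (q.1.2, q.2 / (q.1.1.2.2 * q.1.1.2.1), fld q.1.1.2.2 q.1.1.2.1 q.2))
    (by fun_prop) (by fun_prop) hP
    (hs.poly hP (f := fun q => q.1 * q.2.1 * q.2.2) (by fun_prop)).sm (hs.pair hp)
    (fun i j hj => ?_) (fun i j _ => h2 _ _ _) fun i j j' hj hj' hcl => ?_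
  · obtain ⟨hS, hQ⟩ := pos_of_lt hj
    exact setF_lt hS (h1 _ _ _ (fld_lt hQ)) hj
  · obtain ⟨hS, hQ⟩ := pos_of_lt hj'
    have e1 := fun j => h1 i (j / (S i * Q i)) _ (fld_lt (S := S i) (j := j) hQ)
    simp only [setF_div_mul hS (e1 _), fld_setF hS (e1 _)] at hcl
    refine mk3_lt_mk3 (Nat.mod_lt _ hS) (e1 j) ?_
    rcases lex_of_lt hS hQ hj with h | ⟨h, h' | ⟨h', h''⟩⟩
    · exact Or.inl h
    · rw [h] at hcl ⊢
      exact Or.inr ⟨rfl, Or.inl (h3 _ _ _ _ h' (fld_lt hQ) hcl)⟩
    · rw [h, h']
      exact Or.inr ⟨rfl, Or.inr ⟨rfl, h''⟩⟩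

theorem add_mod_cases {q y f : ℕ} (hy : y < q) :
    (y + f) % q = if y + f % q < q then y + f % q else y + f % q - q := by
  have hf := Nat.mod_lt f (show 0 < q by omega)
  rw [← Nat.add_mod_mod]
  split_ifs with h
  · exact Nat.mod_eq_of_lt h
  · rw [Nat.mod_eq_sub_mod (by omega), Nat.mod_eq_of_lt (by omega)]

theorem rot {H Q S q L : ι → ℕ} {par : ι → γ} {a : ι → ℕ → α} {F : γ × ℕ → ℕ} (hF : Poly F)
    (hP : C.PD (fun i => H i * Q i * S i) L) (hs : SC C L fun i => (H i, Q i, S i, q i))
    (hp : SC C L par) (hq : ∀ i, q i ≤ Q i) (ha : R C fun i => tab (H i * Q i * S i) (a i)) :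
    R C fun i => tab (H i * Q i * S i) fun j =>
      a i (rotI (S i) (Q i) (q i) (F (par i, j / (S i * Q i))) j) := by
  refine ((fieldMap (par := fun i => (q i, par i)) 3
    (φ := fun z => if z.2.2 < z.1.1 then (z.2.2 + F (z.1.2, z.2.1)) % z.1.1 else z.2.2)
    (cls := fun z => if z.2.2 < z.1.1 then (if z.2.2 < F (z.1.2, z.2.1) % z.1.1 then 2 else 1)
      else 0) (by fun_prop) (by fun_prop) hP (hs.fst.pair (hs.snd.fst.pair hs.snd.snd.fst))
    (hs.snd.snd.snd.pair hp) (fun i h y hy => ?_) (fun i h y => ?_)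
    fun i h y y' hy hy' hcl => ?_).1 ha).congr fun i => tab_congr fun j _ => ?_
  · simp only
    split_ifs with h
    · exact (Nat.mod_lt _ (by omega)).trans_le (hq i)
    · exact hy
  · simp only
    split_ifs <;> omega
  · simp only at hcl ⊢
    generalize F (par i, h) = f at hcl ⊢
    generalize q i = r at hcl ⊢
    by_cases h1 : y < r
    · have hf := Nat.mod_lt f (show 0 < r by omega)
      by_cases h2 : y' < r
      · simp only [h1, h2, if_true, add_mod_cases] at hcl ⊢
        split_ifs at hcl ⊢ <;> omega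
      · simp only [h1, h2, if_true, if_false, add_mod_cases] at hcl ⊢
        split_ifs at hcl ⊢ <;> omega
    · rw [if_neg h1, if_neg (by omega)]; exact hy
  · unfold rotI
    simp only
    split_ifs with h
    · rfl
    · rw [setF_fld]

theorem mul_mono {c Q y y' : ℕ} (hc : 0 < c) (hcQ : c.Coprime Q) (hy : y < y') (hy' : y' < Q)
    (h : c * y % Q % c = c * y' % Q % c) : c * y % Q < c * y' % Q := by
  have e1 := Nat.div_add_mod (c * y) Q
  have e2 := Nat.div_add_mod (c * y') Q
  have t1 : c * y / Q < c := Nat.div_lt_of_lt_mul (by nlinarith)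
  have t2 : c * y' / Q < c := Nat.div_lt_of_lt_mul (by nlinarith)
  have m1 : Q * (c * y / Q) + c * y % Q ≡ Q * (c * y' / Q) + c * y' % Q [MOD c] := by
    rw [e1, e2]
    exact (Nat.modEq_zero_iff_dvd.2 (dvd_mul_right _ _)).trans
      (Nat.modEq_zero_iff_dvd.2 (dvd_mul_right _ _)).symm
  have m2 := Nat.ModEq.add_right_cancel h m1
  have m3 := Nat.ModEq.cancel_left_of_coprime hcQ m2
  have m4 := Nat.ModEq.eq_of_lt_of_lt m3 t1 t2
  rw [m4] at e1
  have := Nat.mul_lt_mul_of_pos_left hy hc
  omega

theorem mul {H Q S L : ι → ℕ} {a : ι → ℕ → α} (c : ℕ) (hc : 0 < c)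
    (hP : C.PD (fun i => H i * Q i * S i) L) (hs : SC C L fun i => (H i, Q i, S i))
    (hq : ∀ i, c.Coprime (Q i)) :
    R C (fun i => tab (H i * Q i * S i) (a i)) ↔ R C fun i => tab (H i * Q i * S i) fun j =>
      a i (setF (S i) (Q i) j (c * fld (S i) (Q i) j % Q i)) :=
  fieldMap (par := Q) c (φ := fun z => c * z.2.2 % z.1) (cls := fun z => z.2.2 % c)
    (by fun_prop) (by fun_prop) hP hs hs.snd.fst (fun i h y hy => Nat.mod_lt _ (by omega))
    (fun i h y => Nat.mod_lt _ hc) fun i h y y' hy hy' hcl => mul_mono hc (hq i) hy hy' hcl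

/-! ### Negation -/

theorem revChunks {n k : ι → ℕ} {a : ι → ℕ → α} (hn : R C fun i => Un.mk (n i))
    (hk : R C fun i => Un.mk (k i)) (ha : R C fun i => tab (n i * k i) (a i)) :
    R C fun i => tab (n i * k i) fun j => a i (j / k i * k i + (k i - 1 - j % k i)) :=
  R.unchunks (a := fun i c t => a i (c * k i + (k i - 1 - t)))
    ((R.map (f := List.reverse) (by rp) (R.chunks hn hk ha)).congr fun i => by
      simp only [map_tab, reverse_tab])

theorem neg_pos {H Q S L : ι → ℕ} {a : ι → ℕ → α} (hP : C.PD (fun i => H i * Q i * S i) L)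
    (hs : SC C L fun i => (H i, Q i, S i)) (h0 : ∀ i, 0 < H i * Q i * S i)
    (ha : R C fun i => tab (H i * Q i * S i) (a i)) :
    R C fun i => tab (H i * Q i * S i) fun j =>
      a i (setF (S i) (Q i) j ((Q i - fld (S i) (Q i) j) % Q i)) := by
  have hS := fun i => (pos_of_lt (h0 i)).1
  have hQ := fun i => (pos_of_lt (h0 i)).2
  have hH : ∀ i, 0 < H i := fun i => Nat.pos_of_ne_zero fun h => by simpa [h] using h0 i
  have un : ∀ {n : ι → ℕ}, R C n → (∀ i, n i ≤ H i * Q i * S i) → R C fun i => Un.mk (n i) :=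
    fun hn h => hn.toUn (hP.dom_T.mono fun i => by exact_mod_cast h i)
  have u1 := un hs.fst.r fun i => by
    rw [Nat.mul_assoc]; exact Nat.le_mul_of_pos_right _ (Nat.mul_pos (hQ i) (hS i))
  have u2 := un (hs.poly hP (f := fun q => q.2.1 * q.2.2) (by fun_prop)).r fun i => by
    rw [Nat.mul_assoc]; exact Nat.le_mul_of_pos_left _ (hH i)
  have u3 := un (hs.poly hP (f := fun q => q.1 * q.2.1) (by fun_prop)).r fun i =>
    Nat.le_mul_of_pos_right _ (hS i)
  have u4 := un hs.snd.snd.r fun i => Nat.le_mul_of_pos_left _ (Nat.mul_pos (hH i) (hQ i))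
  have a1 := revChunks u1 u2 (ha.congr fun i => by rw [Nat.mul_assoc])
  have a2 := revChunks u3 u4 (a1.congr fun i => by rw [Nat.mul_assoc])
  have a3 : R C fun i => tab (H i * Q i * S i) fun j =>
      a i (setF (S i) (Q i) j (Q i - 1 - fld (S i) (Q i) j)) := a2.congr fun i =>
    tab_congr fun j hj => by
      congr 1
      have hs := Nat.mod_lt j (hS i)
      have hy := fld_lt (S := S i) (j := j) (hQ i)
      have hs' : S i - 1 - j % S i < S i := by omega
      have e : j / S i * S i + (S i - 1 - j % S i) =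
          mk3 (S i) (Q i) (j / (S i * Q i)) (fld (S i) (Q i) j) (S i - 1 - j % S i) := by
        rw [mk3, fld, ← Nat.div_div_eq_div_mul, Nat.mul_comm (j / S i / Q i), Nat.div_add_mod]
      rw [e, Nat.mul_comm (Q i) (S i), mk3_high hs' hy]
      have e2 : mk3 (S i) (Q i) (j / (S i * Q i)) (fld (S i) (Q i) j) (S i - 1 - j % S i) %
          (S i * Q i) = fld (S i) (Q i) j * S i + (S i - 1 - j % S i) := by
        have := Nat.div_add_mod (mk3 (S i) (Q i) (j / (S i * Q i)) (fld (S i) (Q i) j)
          (S i - 1 - j % S i)) (S i * Q i)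
        rw [mk3_high hs' hy] at this
        unfold mk3 at this ⊢
        nlinarith
      rw [e2, setF]
      generalize fld (S i) (Q i) j = y at hy
      generalize j % S i = s at hs
      generalize j / (S i * Q i) = h
      obtain ⟨u, hu⟩ : ∃ u, Q i = y + 1 + u := ⟨Q i - (y + 1), by omega⟩
      obtain ⟨v, hv⟩ : ∃ v, S i = s + 1 + v := ⟨S i - (s + 1), by omega⟩
      have f1 : Q i - 1 - y = u := by omega
      have f2 : S i - 1 - s = v := by omega
      have f3 : S i * Q i - 1 - (y * S i + v) = u * S i + s := by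
        have : S i * Q i = y * S i + S i + u * S i := by rw [hu]; ring
        omega
      rw [f1, f2, f3]; ring
  refine (rot (par := Q) (q := Q) (F := fun z => z.1 - 1) (by fun_prop) hP
    (hs.fst.pair (hs.snd.fst.pair (hs.snd.snd.pair hs.snd.fst))) hs.snd.fst (fun _ => le_rfl)
    a3).congr fun i => tab_congr fun j hj => ?_
  have hy := fld_lt (S := S i) (j := j) (hQ i)
  have hm := Nat.mod_lt (fld (S i) (Q i) j + (Q i - 1)) (hQ i)
  rw [rotI, if_pos hy, fld_setF (hS i) hm, setF_setF (hS i) hm]
  congr 2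
  rcases Nat.eq_zero_or_pos (fld (S i) (Q i) j) with h | h
  · rw [h, Nat.zero_add, Nat.mod_eq_of_lt (show Q i - 1 < Q i by omega)]; simp
  · rw [Nat.mod_eq_of_lt (by omega), Nat.mod_eq_sub_mod (by omega), Nat.mod_eq_of_lt (by omega)]
    omega

theorem neg {H Q S L : ι → ℕ} {a : ι → ℕ → α} (hP : C.PD (fun i => H i * Q i * S i) L)
    (hs : SC C L fun i => (H i, Q i, S i)) (ha : R C fun i => tab (H i * Q i * S i) (a i)) :
    R C fun i => tab (H i * Q i * S i) fun j =>
      a i (setF (S i) (Q i) j ((Q i - fld (S i) (Q i) j) % Q i)) := by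
  have := ha.isOk
  refine ha.isEmpty.dcond ((R.const ([] : List α)).congr fun i => ?_)
    (neg_pos (hP.comap _) (hs.comap _) (fun i => ?_) (ha.comap _))
  · have h := i.2
    rw [List.isEmpty_iff, ← List.length_eq_zero_iff, length_tab] at h
    rw [h]; rfl
  · refine Nat.pos_of_ne_zero fun h => ?_
    have h' := i.2
    simp [h] at h'

/-! ### Padding -/

theorem pad {H Q Q' S L : ι → ℕ} {a : ι → ℕ → α} {d : ι → α}
    (hP : C.PD (fun i => H i * Q' i * S i) L) (hs : SC C L fun i => (H i, Q i, Q' i, S i))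
    (hq : ∀ i, Q i ≤ Q' i) (hd : R C d)
    (hD : C.Dom fun i => ((H i * Q' i * S i : ℕ) : ℝ) * sz (d i))
    (ha : R C fun i => tab (H i * Q i * S i) (a i)) :
    R C fun i => tab (H i * Q' i * S i) fun j =>
      if fld (S i) (Q' i) j < Q i then a i (padI (S i) (Q' i) (Q i) j) else d i := by
  have hT := hs.poly hP (f := fun q => q.1 * q.2.2.1 * q.2.2.2) (by fun_prop)
  have hU := hT.r.toUn hP.dom_T
  refine (overlay (g := fun i j => a i (padI (S i) (Q' i) (Q i) j)) (b := fun i _ => d i)
    (R.tabPoly hP hU hT.sm hs (f := fun q => decide (fld q.1.2.2.2 q.1.2.2.1 q.2 < q.1.2.1))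
      (by fun_prop)) (ha.congr fun i => ?_)
    ((R.replicate hU hd hD).congr fun i => by simp [tab])).congr
    fun i => tab_congr fun j _ => by by_cases h : fld (S i) (Q' i) j < Q i <;> simp [h]
  simp only
  rw [← pad_eq (hq i), List.map_map]
  exact tab_congr fun j hj => by simp only [comp_apply, padI_padI (hq i) hj]

theorem unpad {H Q Q' S L : ι → ℕ} {a : ι → ℕ → α}
    (hP : C.PD (fun i => H i * Q' i * S i) L) (hs : SC C L fun i => (H i, Q i, Q' i, S i))
    (hq : ∀ i, Q i ≤ Q' i) (ha : R C fun i => tab (H i * Q' i * S i) (a i)) :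
    R C fun i => tab (H i * Q i * S i) fun j => a i (padI (S i) (Q i) (Q' i) j) := by
  have hT := hs.poly hP (f := fun q => q.1 * q.2.2.1 * q.2.2.2) (by fun_prop)
  refine (select (R.tabPoly hP (unT ha) hT.sm hs
    (f := fun q => decide (fld q.1.2.2.2 q.1.2.2.1 q.2 < q.1.2.1)) (by fun_prop)) ha).congr
    fun i => ?_
  simp only
  rw [← pad_eq (hq i), List.map_map]
  rfl

/-! ### Radix sort -/

/-- The order after `s` passes. -/
def ord (l : List ℕ) : ℕ → List ℕ
  | 0 => l
  | s + 1 => (ord l s).filter (fun k => !k.testBit s) ++ (ord l s).filter fun k => k.testBit s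

theorem ord_perm (l : List ℕ) (s : ℕ) : (ord l s).Perm l := by
  induction s with
  | zero => exact List.Perm.refl _
  | succ s ih => exact (List.perm_append_comm.trans (List.filter_append_perm _ _)).trans ih

theorem mod_succ (k s : ℕ) : k % 2 ^ (s + 1) = k % 2 ^ s + 2 ^ s * (k.testBit s).toNat := by
  rw [Nat.mod_pow_succ, Nat.toNat_testBit]

theorem ord_sorted (l : List ℕ) (s : ℕ) :
    (ord l s).Pairwise fun x y => x % 2 ^ s ≤ y % 2 ^ s := by
  induction s with
  | zero => simp [Nat.mod_one, List.pairwise_iff_forall_sublist]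
  | succ s ih =>
    rw [ord, List.pairwise_append]
    refine ⟨(ih.filter _).imp_of_mem ?_, (ih.filter _).imp_of_mem ?_, ?_⟩
    · intro x y hx hy h
      simp only [List.mem_filter, Bool.not_eq_eq_eq_not, Bool.not_true] at hx hy
      simpa [mod_succ, hx.2, hy.2] using h
    · intro x y hx hy h
      simp only [List.mem_filter] at hx hy
      simpa [mod_succ, hx.2, hy.2] using h
    · intro x hx y hy
      simp only [List.mem_filter, Bool.not_eq_eq_eq_not, Bool.not_true] at hx hy
      have := Nat.mod_lt x (show 0 < 2 ^ s by positivity)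
      simp [mod_succ, hx.2, hy.2]; omega

theorem ord_eq {l l' : List ℕ} {w : ℕ} (hp : l.Perm l') (hs : l'.Pairwise (· < ·))
    (hw : ∀ k ∈ l, k < 2 ^ w) : ord l w = l' := by
  refine List.Perm.eq_of_pairwise' (r := (· ≤ ·)) ((ord_sorted l w).imp_of_mem ?_)
    (hs.imp le_of_lt) ((ord_perm l w).trans hp)
  intro x y hx hy h
  rwa [Nat.mod_eq_of_lt (hw x ((ord_perm l w).subset hx)),
    Nat.mod_eq_of_lt (hw y ((ord_perm l w).subset hy))] at h

/-- One pass of the sort. -/
def pass (st : List (List Bool × α)) : List (List Bool × α) :=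
  (st.filter (fun p => !p.1.headD false) ++ st.filter fun p => p.1.headD false).map
    fun p => (p.1.tail, p.2)

theorem lin_pass : Lin (pass : List (List Bool × α) → _) :=
  R.map (f := fun p : List Bool × α => (p.1.tail, p.2)) (by rp)
    ((filter (by rp) Lin.id).hAppend (filter (by rp) Lin.id))

omit [PEnc α] in
theorem pass_eq (l : List ℕ) (a : ℕ → α) {w s : ℕ} (hs : s < w) :
    pass ((ord l s).map fun k => ((bits w k).drop s, a k)) =
      (ord l (s + 1)).map fun k => ((bits w k).drop (s + 1), a k) := by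
  have h : ∀ k, ((bits w k).drop s).headD false = k.testBit s := fun k => by
    rw [bits, drop_tab _ _ _ hs]; rfl
  simp only [pass, ord, List.filter_map, List.map_append, List.map_map, Function.comp_def, h,
    List.tail_drop]

theorem repair {T L ρ : ι → ℕ} {par : ι → γ} {a : ι → ℕ → α} {π : γ × ℕ → ℕ} (hπ : Poly π)
    (hP : C.PD T L) (hT : Sm L fun i => sz (T i)) (hp : SC C L par)
    (h1 : ∀ i j, j < T i → π (par i, j) < T i)
    (h2 : ∀ i j j', j < T i → j' < T i → π (par i, j) = π (par i, j') → j = j')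
    (h3 : ∀ i, ((Finset.range (T i)).filter fun j => π (par i, j) ≠ j).card * (T i).size ≤ T i)
    (h4 : ∀ i j, j < T i → sz (a i j) ≤ ρ i) (hD : C.Dom fun i => (T i : ℝ) * ρ i)
    (ha : R C fun i => tab (T i) fun j => a i (π (par i, j))) : R C fun i => tab (T i) (a i) := by
  have hU := unT ha
  have hB : SC C L T := ⟨hU.lenBin, hT⟩
  have hw : Sm L fun i => (T i).size := hT.mono fun i => (size_lt_sz _).le
  have hm := R.tabPoly hP hU hT hp (f := fun q => decide (π q ≠ q.2)) (by fun_prop)
  have hk := R.tabPoly hP hU hT (hp.pair hB) (f := fun q => bits q.1.2.size (π (q.1.1, q.2)))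
    (by unfold bits tab; fun_prop)
  set M : ι → List ℕ := fun i => (List.range (T i)).filter fun j => decide (π (par i, j) ≠ j)
    with hM
  have hMl : ∀ i, (M i).length * (T i).size ≤ T i := fun i => h3 i
  have hMm : ∀ i j, j ∈ M i ↔ j < T i ∧ π (par i, j) ≠ j := fun i j => by simp [hM]
  have hperm : ∀ i, ((M i).map fun j => π (par i, j)).Perm (M i) := fun i => by
    have hn : (M i).Nodup := List.nodup_range.filter _
    refine (List.perm_ext_iff_of_nodup (hn.map_on fun x hx y hy e =>
      h2 i x y ((hMm i x).1 hx).1 ((hMm i y).1 hy).1 e) hn).2 fun k => ?_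
    simp only [List.mem_map, hMm]
    constructor
    · rintro ⟨j, ⟨hj, hne⟩, rfl⟩
      exact ⟨h1 i j hj, fun e => hne (h2 i _ _ (h1 i j hj) hj e)⟩
    · rintro ⟨hk, hne⟩
      obtain ⟨j, hj, e⟩ := surj_of_inj (π := fun j => π (par i, j)) (h1 i) (h2 i) k hk
      exact ⟨j, ⟨hj, fun e' => hne (by rw [← e, e', e'])⟩, e⟩
  have hlt : ∀ i, ∀ k ∈ (M i).map fun j => π (par i, j), k < T i := fun i k hk =>
    ((hMm i k).1 ((hperm i).subset hk)).1
  have hs := R.iter (s := fun i s => (ord ((M i).map fun j => π (par i, j)) s).map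
      fun k => ((bits (T i).size k).drop s, a i k))
    ((select hm (hk.zipTab ha)).congr fun i => by simp [ord, hM, Function.comp_def])
    (SC.un hP (hB.poly hP (f := Nat.size) (by fun_prop)).r hw).r.unTab
    (Ctx.dom_sum_unif (β := fun i => (((M i).length * (4 * (T i).size + ρ i + 3) + 1 : ℕ) : ℝ))
      (((hD.add (hP.dom' (((Sm.const 4).mul hw).add (Sm.const 3)))).add (hP.dom₁ hw)).mono
        fun i => by
          have := Nat.mul_le_mul_right (4 * (T i).size + ρ i + 3) (hMl i)
          norm_cast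
          nlinarith)
      fun i s _ => by
        norm_cast
        refine (sz_list_le (B := 4 * (T i).size + ρ i + 2) fun x hx => ?_).trans ?_
        · obtain ⟨k, hk, rfl⟩ := List.mem_map.1 hx
          have e1 := sz_le_of_sublist (List.drop_sublist s (bits (T i).size k))
          have e2 := sz_bits_le (T i).size k
          have e3 := h4 i k (hlt i k ((ord_perm _ _).subset hk))
          rw [sz_pair]; omega
        · rw [List.length_map, (ord_perm _ _).length_eq, List.length_map])
    fun h _ => (lin_pass.r h).congr fun p => (pass_eq _ _ p.2.2).symm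
  refine (overlay (g := a) hm ((R.map (f := fun p : List Bool × α => p.2) (by rp) hs).congr
    fun i => ?_) ha).congr fun i => tab_congr fun j _ => ?_
  · rw [ord_eq (hperm i) (List.pairwise_lt_range.filter _)
      fun k hk => (hlt i k hk).trans (Nat.lt_size_self _), List.map_map]
    rfl
  · by_cases h : π (par i, j) = j <;> simp [h]

end Perm

theorem permSpec : PermSpec where
  select := Perm.select
  overlay := Perm.overlay
  mp := Perm.mp
  rot := Perm.rot
  mul := Perm.mul
  neg := Perm.neg
  repair := Perm.repair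
  pad := Perm.pad
  unpad := Perm.unpad

end Crest.Agent.R326
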