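import Crest.Agent.R326.Spec

/-!
# The swap program from the abstract network (row 326)
-/

set_option autoImplicit false

namespace Crest.Agent.R326

open Matrix Function

namespace SP

attribute [-simp] Fin.natAdd_eq_addNat

/-- maps of wire families, for all moduli and coefficient modules -/
abbrev WMap (W n : ℕ) : Type 1 :=
  ∀ (Q : ℕ) (N : Type) [AddCommGroup N] [Module (ZMod 2) N],
    (Fin W → (Fin n → ZMod Q) → N) → Fin W → (Fin n → ZMod Q) → N

/-- maps of digit vectors, for all moduli -/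
abbrev DMap (n : ℕ) : Type := ∀ Q : ℕ, (Fin n → ZMod Q) → Fin n → ZMod Q

/-- `F` is computed by a program with at most `k` swaps -/
def SReal {W n : ℕ} (k : ℕ) (F : WMap W n) : Prop :=
  ∃ (N₀ : ℕ) (prog : List (SInstr W n)), 0 < N₀ ∧ (∀ s ∈ prog, s.ok N₀) ∧
    (prog.map SInstr.cnt).sum ≤ k ∧
    ∀ Q : ℕ, Q.Coprime N₀ → ∀ (N : Type) [AddCommGroup N] [Module (ZMod 2) N]
      (x : Fin W → (Fin n → ZMod Q) → N), prog.foldl (fun y s => s.run Q y) x = F Q N x

theorem ok_mono {W n N₀ N₁ : ℕ} (h : N₀ ∣ N₁) {s : SInstr W n} (hs : s.ok N₀) : s.ok N₁ := by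
  cases s with
  | gate G => trivial
  | lin w t a c => exact ⟨hs.1.trans (Int.natCast_dvd_natCast.2 h), hs.2⟩
  | linInv w t a c => exact ⟨hs.1.trans (Int.natCast_dvd_natCast.2 h), hs.2⟩
  | swap w s t => exact hs

variable {W n : ℕ}

theorem SReal.id : SReal 0 (fun _ _ _ _ x => x : WMap W n) :=
  ⟨1, [], one_pos, by simp, by simp, fun _ _ _ _ _ _ => rfl⟩

theorem SReal.comp {k l : ℕ} {F G : WMap W n} (hF : SReal k F) (hG : SReal l G) :
    SReal (k + l) (fun Q N _ _ x => G Q N (F Q N x)) := by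
  obtain ⟨N₀, p, h0, h1, h2, h3⟩ := hF
  obtain ⟨N₁, q, g0, g1, g2, g3⟩ := hG
  refine ⟨N₀ * N₁, p ++ q, Nat.mul_pos h0 g0, ?_, ?_, ?_⟩
  · intro s hs
    rcases List.mem_append.1 hs with hs | hs
    · exact ok_mono (Dvd.intro _ rfl) (h1 s hs)
    · exact ok_mono (Dvd.intro_left _ rfl) (g1 s hs)
  · rw [List.map_append, List.sum_append]
    exact add_le_add h2 g2
  · intro Q hQ N _ _ x
    rw [List.foldl_append, h3 Q (Nat.Coprime.coprime_mul_right_right hQ),
      g3 Q (Nat.Coprime.coprime_mul_left_right hQ)]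

theorem SReal.congr {k l : ℕ} {F G : WMap W n} (hF : SReal k F) (hkl : k ≤ l) {N₁ : ℕ}
    (h1 : 0 < N₁) (h : ∀ Q : ℕ, Q.Coprime N₁ → ∀ (N : Type) [AddCommGroup N] [Module (ZMod 2) N]
      (x : Fin W → (Fin n → ZMod Q) → N), F Q N x = G Q N x) : SReal l G := by
  obtain ⟨N₀, p, h0, h2, h3, h4⟩ := hF
  refine ⟨N₀ * N₁, p, Nat.mul_pos h0 h1, fun s hs => ok_mono (Dvd.intro _ rfl) (h2 s hs),
    h3.trans hkl, fun Q hQ N _ _ x => ?_⟩
  rw [h4 Q (Nat.Coprime.coprime_mul_right_right hQ), h Q (Nat.Coprime.coprime_mul_left_right hQ)]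

theorem SReal.single (s : SInstr W n) {N₀ : ℕ} (h0 : 0 < N₀) (hs : s.ok N₀) :
    SReal s.cnt (fun Q _ _ _ x => s.run Q x) :=
  ⟨N₀, [s], h0, by simpa using hs, by simp, fun _ _ _ _ _ _ => rfl⟩

/-- the gather along `f` on a single wire is computed with at most `k` swaps -/
def Real (k : ℕ) (f : DMap n) : Prop :=
  ∀ (W : ℕ) (w : Fin W), SReal k (fun Q _ _ _ x => update x w fun y => x w (f Q y) : WMap W n)

theorem Real.id : Real 0 (fun _ y => y : DMap n) := fun _ _ =>
  SReal.id.congr le_rfl one_pos fun _ _ _ _ _ x => by simp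

theorem Real.comp {k l : ℕ} {f g : DMap n} (hf : Real k f) (hg : Real l g) :
    Real (k + l) (fun Q y => f Q (g Q y)) := fun W w =>
  ((hf W w).comp (hg W w)).congr le_rfl one_pos fun _ _ _ _ _ x => by simp

theorem Real.congr {k l : ℕ} {f g : DMap n} (hf : Real k f) (hkl : k ≤ l) {N₁ : ℕ}
    (h1 : 0 < N₁) (h : ∀ Q : ℕ, Q.Coprime N₁ → ∀ y, f Q y = g Q y) : Real l g := fun W w =>
  (hf W w).congr hkl h1 fun Q hQ _ _ _ x => by simp [h Q hQ]

/-- a gather on every wire -/
theorem sreal_all {k : Fin W → ℕ} {f : Fin W → DMap n} (h : ∀ w, Real (k w) (f w)) :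
    SReal (∑ w, k w) (fun Q _ _ _ x => fun w y => x w (f w Q y) : WMap W n) := by
  classical
  have key : ∀ s : Finset (Fin W), SReal (∑ w ∈ s, k w)
      (fun Q _ _ _ x => fun w => if w ∈ s then fun y => x w (f w Q y) else x w : WMap W n) := by
    intro s
    induction s using Finset.induction_on with
    | empty => exact SReal.id.congr (by simp) one_pos fun _ _ _ _ _ x => by simp
    | insert a s ha ih =>
      refine (ih.comp (h a W a)).congr (by rw [Finset.sum_insert ha]; omega) one_pos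
        fun Q _ N _ _ x => ?_
      funext w
      by_cases e : w = a
      · subst e; simp [ha]
      · simp [e]
  exact (key Finset.univ).congr le_rfl one_pos fun _ _ _ _ _ x => by simp

/-! ### elementary maps -/

def linF (t : Fin n) (a : ℤ) (c : Fin n → ℤ) : DMap n :=
  fun _ y => update y t (a * y t + ∑ s, c s * y s)

def invF (t : Fin n) (a : ℤ) (c : Fin n → ℤ) : DMap n :=
  fun Q y => update y t ((a : ZMod Q)⁻¹ * (y t - ∑ s, c s * y s))

theorem real_lin (t : Fin n) {a : ℤ} (ha : a ≠ 0) {c : Fin n → ℤ} (hc : ∀ s, s ≤ t → c s = 0) :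
    Real 0 (linF t a c) := fun _ w =>
  SReal.single (.lin w t a c) (Int.natAbs_pos.2 ha) ⟨by simp, hc⟩

theorem real_inv (t : Fin n) {a : ℤ} (ha : a ≠ 0) {c : Fin n → ℤ} (hc : ∀ s, s ≤ t → c s = 0) :
    Real 0 (invF t a c) := fun _ w =>
  SReal.single (.linInv w t a c) (Int.natAbs_pos.2 ha) ⟨by simp, hc⟩

theorem real_swap {s t : Fin n} (h : s < t) :
    Real 1 (fun _ y => y ∘ Equiv.swap s t : DMap n) := fun _ w =>
  SReal.single (.swap w s t) one_pos h

theorem isUnit_of_coprime {Q : ℕ} {a : ℤ} (h : Q.Coprime a.natAbs) : IsUnit (a : ZMod Q) := by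
  have := (ZMod.isUnit_iff_coprime a.natAbs Q).2 h.symm
  rcases Int.natAbs_eq a with e | e
  · rw [e]; simpa using this
  · rw [e]; simpa using this

theorem sum_update {R : Type} [CommRing R] (y : Fin n → R) (t : Fin n) (z : R) {c : Fin n → ℤ}
    (hc : c t = 0) : ∑ s, (c s : R) * update y t z s = ∑ s, (c s : R) * y s := by
  refine Finset.sum_congr rfl fun s _ => ?_
  by_cases e : s = t
  · subst e; simp [hc]
  · simp [e]

theorem sum_single {R : Type} [CommRing R] (y : Fin n → R) (t : Fin n) (b : ℤ) :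
    ∑ s, ((Pi.single t b : Fin n → ℤ) s : R) * y s = b * y t := by
  rw [Finset.sum_eq_single t] <;> simp +contextual

theorem lin_inv {Q : ℕ} (t : Fin n) {a : ℤ} (ha : IsUnit (a : ZMod Q)) {c : Fin n → ℤ}
    (hc : c t = 0) (y : Fin n → ZMod Q) : linF t a c Q (invF t a c Q y) = y := by
  simp only [linF, invF, sum_update _ _ _ hc, update_idem, update_self]
  rw [← mul_assoc, ZMod.mul_inv_of_unit _ ha]
  simp

theorem inv_lin {Q : ℕ} (t : Fin n) {a : ℤ} (ha : IsUnit (a : ZMod Q)) {c : Fin n → ℤ}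
    (hc : c t = 0) (y : Fin n → ZMod Q) : invF t a c Q (linF t a c Q y) = y := by
  simp only [linF, invF, sum_update _ _ _ hc, update_idem, update_self]
  rw [add_sub_cancel_right, ← mul_assoc, ZMod.inv_mul_of_unit _ ha]
  simp

theorem lin_add {Q : ℕ} (t : Fin n) (a : ℤ) (c : Fin n → ℤ) (y z : Fin n → ZMod Q) (r : ZMod Q) :
    linF t a c Q (y + r • z) = linF t a c Q y + r • linF t a c Q z := by
  funext k
  by_cases e : k = t
  · subst e
    simp only [linF, update_self, Pi.add_apply, Pi.smul_apply, smul_eq_mul, mul_add,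
      Finset.sum_add_distrib, Finset.mul_sum]
    simp only [mul_left_comm r]
    ring
  · simp [linF, e]

theorem inv_add {Q : ℕ} (t : Fin n) (a : ℤ) (c : Fin n → ℤ) (y z : Fin n → ZMod Q) (r : ZMod Q) :
    invF t a c Q (y + r • z) = invF t a c Q y + r • invF t a c Q z := by
  funext k
  by_cases e : k = t
  · subst e
    simp only [invF, update_self, Pi.add_apply, Pi.smul_apply, smul_eq_mul, mul_add,
      Finset.sum_add_distrib]
    simp only [mul_left_comm _ r, ← Finset.mul_sum]
    ring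
  · simp [invF, e]

/-- simultaneous shears -/
def multiF (α : ℤ) (β : Fin n → ℤ) (g : Fin n → Fin n) (s : Finset (Fin n)) : DMap n :=
  fun _ y k => if k ∈ s then α * y k + β k * y (g k) else y k

theorem real_multi {α : ℤ} (hα : α ≠ 0) (β : Fin n → ℤ) (g : Fin n → Fin n) (s : Finset (Fin n))
    (h : ∀ t ∈ s, t < g t ∧ g t ∉ s) : Real 0 (multiF α β g s) := by
  induction s using Finset.induction_on with
  | empty => exact Real.id.congr le_rfl one_pos fun _ _ y => by funext k; simp [multiF]
  | insert t s ht ih =>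
    have h1 := h t (by simp)
    have h2 : g t ∉ s := fun e => h1.2 (by simp [e])
    have ih' := ih fun u hu => ⟨(h u (by simp [hu])).1, fun e => (h u (by simp [hu])).2 (by simp [e])⟩
    have h3 : ∀ u, u ≤ t → (Pi.single (g t) (β t) : Fin n → ℤ) u = 0 := fun u hu =>
      Pi.single_eq_of_ne (ne_of_lt (lt_of_le_of_lt hu h1.1)) _
    refine ((real_lin t hα h3).comp ih').congr le_rfl one_pos fun Q _ y => ?_
    funext k
    by_cases e : k = t
    · subst e
      simp only [linF, sum_single, update_self]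
      simp [multiF, ht, h2]
    · simp [linF, multiF, e]

theorem multi_add {Q : ℕ} (α : ℤ) (β : Fin n → ℤ) (g : Fin n → Fin n) (s : Finset (Fin n))
    (y z : Fin n → ZMod Q) (r : ZMod Q) :
    multiF α β g s Q (y + r • z) = multiF α β g s Q y + r • multiF α β g s Q z := by
  funext k
  by_cases e : k ∈ s
  · simp only [multiF, e, if_true, Pi.add_apply, Pi.smul_apply, smul_eq_mul]
    ring
  · simp [multiF, e]

theorem multi_inv {Q : ℕ} (β : Fin n → ℤ) (g : Fin n → Fin n) (s : Finset (Fin n))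
    (h : ∀ t ∈ s, g t ∉ s) (y : Fin n → ZMod Q) :
    multiF 1 β g s Q (multiF 1 (-β) g s Q y) = y := by
  funext k
  by_cases e : k ∈ s
  · simp [multiF, e, h k e]
  · simp [multiF, e]

/-- conjugation of a transvection by cheap maps -/
theorem Real.conj {k : ℕ} {φ : ∀ Q : ℕ, (Fin n → ZMod Q) → ZMod Q} {z : ∀ Q : ℕ, Fin n → ZMod Q}
    (h : Real k (fun Q y => y + φ Q y • z Q)) {g g' : DMap n} (hg : Real 0 g) (hg' : Real 0 g')
    {N₁ : ℕ} (h1 : 0 < N₁) (hinv : ∀ Q : ℕ, Q.Coprime N₁ → ∀ y, g Q (g' Q y) = y)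
    (hadd : ∀ (Q : ℕ) (y z : Fin n → ZMod Q) (r : ZMod Q), g Q (y + r • z) = g Q y + r • g Q z) :
    Real k (fun Q y => y + φ Q (g' Q y) • g Q (z Q)) :=
  ((hg.comp h).comp hg').congr (by omega) h1 fun Q hQ y => by rw [hadd, hinv Q hQ]

/-- adding a less significant digit to a more significant one costs one swap -/
theorem real_elem {t s : Fin n} (h : t < s) :
    Real 1 (fun Q y => y + y t • (Pi.single s 1 : Fin n → ZMod Q)) := by
  have h3 : ∀ u, u ≤ t → (Pi.single s (1 : ℤ) : Fin n → ℤ) u = 0 := fun u hu =>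
    Pi.single_eq_of_ne (ne_of_lt (lt_of_le_of_lt hu h)) _
  refine (((real_lin t (a := -1) (by norm_num) h3).comp (real_swap h)).comp
    (real_lin t (a := 1) one_ne_zero h3)).congr le_rfl one_pos fun Q _ y => ?_
  funext k
  have hts : t ≠ s := ne_of_lt h
  by_cases e : k = t
  · subst e
    simp [linF, sum_single, hts, hts.symm]
  · by_cases e' : k = s
    · subst e'
      simp [linF, sum_single, hts.symm, add_comm]
    · simp [linF, e, e', Equiv.swap_apply_of_ne_of_ne]

/-! ### rank one matrices -/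

variable {m : ℕ}

/-- a vector placed in the high half -/
def hiV {R : Type} [Zero R] (u : Fin m → R) : Fin (m + m) → R :=
  fun k => Fin.addCases (fun _ => 0) u k

/-- a vector placed in the low half -/
def loV {R : Type} [Zero R] (v : Fin m → R) : Fin (m + m) → R :=
  fun k => Fin.addCases v (fun _ => 0) k

@[simp] theorem hiV_lo {R : Type} [Zero R] (u : Fin m → R) (j : Fin m) :
    hiV u (Fin.castAdd m j) = 0 := by simp [hiV]
@[simp] theorem hiV_hi {R : Type} [Zero R] (u : Fin m → R) (i : Fin m) :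
    hiV u (Fin.natAdd m i) = u i := by simp [hiV]
@[simp] theorem loV_lo {R : Type} [Zero R] (u : Fin m → R) (j : Fin m) :
    loV u (Fin.castAdd m j) = u j := by simp [loV]
@[simp] theorem loV_hi {R : Type} [Zero R] (u : Fin m → R) (i : Fin m) :
    loV u (Fin.natAdd m i) = 0 := by simp [loV]

theorem lo_lt_hi (j i : Fin m) : Fin.castAdd m j < Fin.natAdd m i := by
  rw [Fin.lt_def]
  simp only [Fin.val_castAdd, Fin.val_natAdd]
  omega

theorem lo_ne_hi (j i : Fin m) : Fin.castAdd m j ≠ Fin.natAdd m i := ne_of_lt (lo_lt_hi j i)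

theorem hi_inj {i i' : Fin m} : Fin.natAdd m i = Fin.natAdd m i' ↔ i = i' := by
  simp [Fin.ext_iff]

theorem lo_inj {i i' : Fin m} : Fin.castAdd m i = Fin.castAdd m i' ↔ i = i' := by
  simp [Fin.ext_iff]

theorem real_row (v : Fin m → ℤ) (hv : v ≠ 0) (a : Fin m) :
    Real 1 (fun Q y => y + (∑ j, (v j : ZMod Q) * y (Fin.castAdd m j)) •
      (Pi.single (Fin.natAdd m a) 1 : Fin (m + m) → ZMod Q)) := by
  classical
  obtain ⟨b, hb, hmin⟩ := (Finset.univ.filter fun j => v j ≠ 0).exists_min_image (fun j => j)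
    (by
      obtain ⟨j, hj⟩ := Function.ne_iff.1 hv
      exact ⟨j, by simpa using hj⟩)
  have hb' : v b ≠ 0 := by simpa using hb
  have hc : ∀ s, s ≤ Fin.castAdd m b → loV (update v b 0) s = 0 := by
    intro s hs
    induction s using Fin.addCases with
    | left j =>
      rw [loV_lo]
      by_cases e : j = b
      · subst e; simp
      · rw [update_of_ne e]
        by_contra h
        have h1 : b ≤ j := hmin j (by simpa using h)
        have h2 : j ≤ b := Fin.le_def.2 (Fin.le_def.1 hs)
        exact e (le_antisymm h2 h1)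
    | right i => simp
  refine ((real_elem (lo_lt_hi b a)).conj (real_inv _ hb' hc) (real_lin _ hb' hc)
    (Int.natAbs_pos.2 hb') (fun Q hQ y => inv_lin _ (isUnit_of_coprime hQ) (hc _ le_rfl) y)
    (fun Q y z r => inv_add _ _ _ y z r)).congr le_rfl one_pos fun Q _ y => ?_
  have e1 : linF (Fin.castAdd m b) (v b) (loV (update v b 0)) Q y (Fin.castAdd m b) =
      ∑ j, (v j : ZMod Q) * y (Fin.castAdd m j) := by
    simp only [linF, update_self, Fin.sum_univ_add, loV_lo, loV_hi, Int.cast_zero, zero_mul,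
      Finset.sum_const_zero, add_zero]
    rw [← Finset.add_sum_erase _ _ (Finset.mem_univ b),
      ← Finset.add_sum_erase _ (fun j => (v j : ZMod Q) * y (Fin.castAdd m j)) (Finset.mem_univ b)]
    simp only [update_self, Int.cast_zero, zero_mul, zero_add, add_right_inj]
    exact Finset.sum_congr rfl fun j hj => by rw [update_of_ne (Finset.ne_of_mem_erase hj)]
  have e2 : invF (Fin.castAdd m b) (v b) (loV (update v b 0)) Q (Pi.single (Fin.natAdd m a) 1) =
      Pi.single (Fin.natAdd m a) 1 := by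
    have : ∑ s, ((loV (update v b 0) s : ℤ) : ZMod Q) *
        (Pi.single (Fin.natAdd m a) 1 : Fin (m + m) → ZMod Q) s = 0 := by
      refine Finset.sum_eq_zero fun s _ => ?_
      induction s using Fin.addCases with
      | left j => simp [lo_ne_hi]
      | right i => simp
    simp only [invF, this, Pi.single_eq_of_ne (lo_ne_hi b a), sub_zero, mul_zero]
    exact update_eq_self_iff.2 (by simp [lo_ne_hi])
  rw [e1, e2]

theorem real_rankOne_int (u v : Fin m → ℤ) {d : ℤ} (hd : d ≠ 0) :
    Real 1 (fun Q y => y + (∑ j, (v j : ZMod Q) * y (Fin.castAdd m j)) •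
      hiV fun i => (u i : ZMod Q) * (d : ZMod Q)⁻¹) := by
  classical
  by_cases hv : v = 0
  · exact Real.id.congr zero_le_one one_pos fun Q _ y => by simp [hv]
  by_cases hu : u = 0
  · refine Real.id.congr zero_le_one one_pos fun Q _ y => ?_
    funext k
    induction k using Fin.addCases <;> simp [hu]
  obtain ⟨a, ha, hmax⟩ := (Finset.univ.filter fun j => u j ≠ 0).exists_max_image (fun j => j)
    (by
      obtain ⟨j, hj⟩ := Function.ne_iff.1 hu
      exact ⟨j, by simpa using hj⟩)
  have ha' : u a ≠ 0 := by simpa using ha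
  have hz : ∀ s, s ≤ Fin.natAdd m a → (0 : Fin (m + m) → ℤ) s = 0 := fun _ _ => rfl
  let s : Finset (Fin (m + m)) := (Finset.univ.filter fun i => i < a).image (Fin.natAdd m)
  have hs1 : ∀ i, Fin.natAdd m i ∈ s ↔ i < a := fun i => by simp [s]
  have hs2 : ∀ j, Fin.castAdd m j ∉ s := fun j => by
    simp only [s, Finset.mem_image, not_exists, not_and]
    exact fun i _ e => lo_ne_hi j i e.symm
  have hs3 : ∀ t ∈ s, t < Fin.natAdd m a ∧ Fin.natAdd m a ∉ s := by
    intro t ht
    refine ⟨?_, by simp [hs1]⟩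
    induction t using Fin.addCases with
    | left j => exact lo_lt_hi _ _
    | right i =>
      have := (hs1 i).1 ht
      rw [Fin.lt_def] at this ⊢
      simp only [Fin.val_natAdd]
      omega
  have r1 := (real_row v hv a).conj (real_inv _ hd hz) (real_lin _ hd hz) (Int.natAbs_pos.2 hd)
    (fun Q hQ y => inv_lin _ (isUnit_of_coprime hQ) rfl y) (fun Q y z r => inv_add _ _ _ y z r)
  have r2 := r1.conj (real_multi one_ne_zero (hiV u) (fun _ => Fin.natAdd m a) s hs3)
    (real_multi one_ne_zero (-hiV u) (fun _ => Fin.natAdd m a) s hs3) one_pos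
    (fun Q _ y => multi_inv _ _ _ (fun t ht => (hs3 t ht).2) y)
    (fun Q y z r => multi_add _ _ _ _ y z r)
  have r3 := r2.conj (real_lin _ ha' hz) (real_inv _ ha' hz) (Int.natAbs_pos.2 ha')
    (fun Q hQ y => lin_inv _ (isUnit_of_coprime hQ) rfl y) (fun Q y z r => lin_add _ _ _ y z r)
  refine r3.congr le_rfl one_pos fun Q _ y => ?_
  congr 2
  · refine Finset.sum_congr rfl fun j _ => ?_
    simp [linF, invF, multiF, hs2, lo_ne_hi]
  · funext k
    induction k using Fin.addCases with
    | left j => simp [linF, invF, multiF, hs2, lo_ne_hi]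
    | right i =>
      by_cases e : i = a
      · subst e
        simp [linF, invF, multiF, hs1]
      · have e' : Fin.natAdd m i ≠ Fin.natAdd m a := fun h => e (hi_inj.1 h)
        by_cases h : i < a
        · simp [linF, invF, multiF, hs1, h, e']
        · have : u i = 0 := by
            by_contra h'
            exact e (le_antisymm (hmax i (by simpa using h')) (not_lt.1 h))
          simp [linF, invF, multiF, hs1, h, e', this]

/-! ### reduction of rationals -/

/-- reduction of a rational number modulo `Q` -/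
def red (Q : ℕ) (q : ℚ) : ZMod Q := q.num * (q.den : ZMod Q)⁻¹

theorem red_eq {Q : ℕ} {q : ℚ} {d k : ℤ} (hd0 : d ≠ 0) (hd : IsUnit (d : ZMod Q))
    (h : q * d = k) : red Q q = k * (d : ZMod Q)⁻¹ := by
  have h1 : (q.den : ℤ) ∣ d := by
    have : q = Rat.divInt k d := by
      rw [Rat.divInt_eq_div, eq_div_iff (by exact_mod_cast hd0), h]
    rw [this]
    exact Rat.den_dvd k d
  obtain ⟨e, rfl⟩ := h1
  have h2 : k = q.num * e := by
    have : (k : ℚ) = q.num * e := by
      rw [← h]
      push_cast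
      rw [← mul_assoc, Rat.mul_den_eq_num]
    exact_mod_cast this
  have hu : IsUnit ((q.den : ZMod Q) * (e : ZMod Q)) := by simpa using hd
  have h3 := ZMod.mul_inv_of_unit _ hu
  have h4 := ZMod.inv_mul_of_unit _ (isUnit_of_mul_isUnit_left hu)
  rw [h2, red]
  push_cast
  linear_combination (q.num : ZMod Q) * (e : ZMod Q) * ((q.den : ZMod Q) * (e : ZMod Q))⁻¹ * h4 -
    (q.num : ZMod Q) * (q.den : ZMod Q)⁻¹ * h3

/-- a common denominator -/
theorem exists_den {ι : Type} [Finite ι] (f : ι → ℚ) :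
    ∃ d : ℤ, d ≠ 0 ∧ ∃ g : ι → ℤ, ∀ i, f i * d = g i := by
  classical
  have := Fintype.ofFinite ι
  refine ⟨∏ i, ((f i).den : ℤ), Finset.prod_ne_zero_iff.2 fun i _ => by simp,
    fun i => (f i).num * ∏ j ∈ Finset.univ.erase i, ((f j).den : ℤ), fun i => ?_⟩
  rw [← Finset.mul_prod_erase _ _ (Finset.mem_univ i)]
  push_cast
  rw [← mul_assoc, Rat.mul_den_eq_num]

/-- the shear by the matrix `D` -/
def U (D : Matrix (Fin m) (Fin m) ℚ) : DMap (m + m) :=
  fun Q y => y + hiV fun i => ∑ j, red Q (D i j) * y (Fin.castAdd m j)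

theorem U_add {Q : ℕ} {A D : Matrix (Fin m) (Fin m) ℚ} {d : ℤ} (hd0 : d ≠ 0)
    (hd : IsUnit (d : ZMod Q)) (hA : ∀ i j, ∃ k : ℤ, A i j * d = k)
    (hD : ∀ i j, ∃ k : ℤ, D i j * d = k) (y : Fin (m + m) → ZMod Q) :
    U A Q (U D Q y) = U (A + D) Q y := by
  funext k
  induction k using Fin.addCases with
  | left j => simp [U]
  | right i =>
    simp only [U, Pi.add_apply, hiV_hi, hiV_lo, add_zero, Matrix.add_apply]
    rw [add_assoc, ← Finset.sum_add_distrib]
    congr 1
    refine Finset.sum_congr rfl fun j _ => ?_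
    obtain ⟨k, hk⟩ := hA i j
    obtain ⟨l, hl⟩ := hD i j
    rw [red_eq hd0 hd hk, red_eq hd0 hd hl,
      red_eq (k := k + l) hd0 hd (by rw [add_mul, hk, hl]; push_cast; rfl)]
    push_cast
    ring

theorem Real.U_add {k l : ℕ} {A D : Matrix (Fin m) (Fin m) ℚ} (hA : Real k (U A))
    (hD : Real l (U D)) : Real (k + l) (U (A + D)) := by
  obtain ⟨d, hd, g, hg⟩ := exists_den fun p : Bool × Fin m × Fin m =>
    if p.1 then A p.2.1 p.2.2 else D p.2.1 p.2.2
  exact (hA.comp hD).congr le_rfl (Int.natAbs_pos.2 hd) fun Q hQ y =>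
    SP.U_add hd (isUnit_of_coprime hQ) (fun i j => ⟨_, hg (true, i, j)⟩)
      (fun i j => ⟨_, hg (false, i, j)⟩) y

theorem real_U_zero : Real 0 (U (0 : Matrix (Fin m) (Fin m) ℚ)) := by
  refine Real.id.congr le_rfl one_pos fun Q _ y => ?_
  funext k
  induction k using Fin.addCases <;> simp [U, red]

theorem real_U_rankOne (u v : Fin m → ℚ) : Real 1 (U (Matrix.of fun i j => u i * v j)) := by
  obtain ⟨d, hd, u', hu⟩ := exists_den u
  obtain ⟨e, he, v', hv⟩ := exists_den v
  have hde : d * e ≠ 0 := mul_ne_zero hd he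
  refine (real_rankOne_int u' v' hde).congr le_rfl (Int.natAbs_pos.2 hde) fun Q hQ y => ?_
  funext k
  induction k using Fin.addCases with
  | left j => simp [U]
  | right i =>
    simp only [U, Pi.add_apply, Pi.smul_apply, hiV_hi, smul_eq_mul, Matrix.of_apply,
      add_right_inj, Finset.sum_mul]
    refine Finset.sum_congr rfl fun j _ => ?_
    rw [red_eq (k := u' i * v' j) hde (isUnit_of_coprime hQ)
      (by push_cast; rw [← hu, ← hv]; ring)]
    push_cast
    ring

theorem real_U (D : Matrix (Fin m) (Fin m) ℚ) : Real D.rank (U D) := by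
  classical
  let b := Module.finBasisOfFinrankEq ℚ (Submodule.span ℚ (Set.range D.col))
    (D.rank_eq_finrank_span_cols).symm
  let c : Fin m → Submodule.span ℚ (Set.range D.col) := fun j =>
    ⟨D.col j, Submodule.subset_span ⟨j, rfl⟩⟩
  have hD : D = ∑ s, Matrix.of fun i j => (b s : Fin m → ℚ) i * b.repr (c j) s := by
    ext i j
    have := congrArg (fun z : Submodule.span ℚ (Set.range D.col) => (z : Fin m → ℚ) i)
      (b.sum_repr (c j))
    simp only [c, AddSubmonoidClass.coe_finsetSum, SetLike.val_smul, Finset.sum_apply,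
      Pi.smul_apply, smul_eq_mul, Matrix.col_apply] at this
    rw [← this, Matrix.sum_apply]
    exact Finset.sum_congr rfl fun s _ => by simp [c, mul_comm]
  have key : ∀ t : Finset (Fin D.rank), Real t.card
      (U (∑ s ∈ t, Matrix.of fun i j => (b s : Fin m → ℚ) i * b.repr (c j) s)) := by
    intro t
    induction t using Finset.induction_on with
    | empty => simpa using real_U_zero
    | insert a t ha ih =>
      rw [Finset.sum_insert ha, Finset.card_insert_of_notMem ha, add_comm t.card]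
      exact (real_U_rankOne _ _).U_add ih
  have := key Finset.univ
  rwa [← hD, Finset.card_univ, Fintype.card_fin] at this

theorem rank_smul_le (c : ℚ) (D : Matrix (Fin m) (Fin m) ℚ) : (c • D).rank ≤ D.rank := by
  rw [show c • D = (c • (1 : Matrix (Fin m) (Fin m) ℚ)) * D by simp]
  exact Matrix.rank_mul_le_right _ _

/-- the operator of the network -/
def rho (Q : ℕ) (N : Type) [AddCommGroup N] [Module (ZMod 2) N] (D : Matrix (Fin m) (Fin m) ℚ) :
    ((Fin (m + m) → ZMod Q) → N) →ₗ[ZMod 2] ((Fin (m + m) → ZMod Q) → N) :=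
  LinearMap.funLeft (ZMod 2) N (U D Q)

theorem sreal_steps (steps : List (NStep W m ℚ (ZMod 2))) :
    SReal (steps.map NStep.rk).sum (fun Q N _ _ x =>
      steps.foldl (fun y s => s.run (rho Q N) (fun D => rho Q N (-D)) y) x : WMap W (m + m)) := by
  induction steps with
  | nil => exact SReal.id
  | cons s l ih =>
    have hs : SReal s.rk (fun Q N _ _ x =>
        s.run (rho Q N) (fun D => rho Q N (-D)) x : WMap W (m + m)) := by
      cases s with
      | gate G =>
        refine (SReal.single (.gate G) one_pos trivial).congr le_rfl one_pos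
          fun Q _ N _ _ x => ?_
        funext w y
        simp [SInstr.run, NStep.run, Finset.sum_apply]
      | up w D => exact real_U D W w
      | down w D =>
        exact (real_U (-D) W w).congr (by simpa [NStep.rk] using rank_smul_le (-1) D) one_pos
          fun _ _ _ _ _ _ => rfl
    exact hs.comp ih

/-- the low half -/
def loS (m : ℕ) : Finset (Fin (m + m)) := Finset.univ.image (Fin.castAdd m)

theorem lo_mem (j : Fin m) : Fin.castAdd m j ∈ loS m := Finset.mem_image_of_mem _ (by simp)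

theorem hi_not_mem (i : Fin m) : Fin.natAdd m i ∉ loS m := by
  simp only [loS, Finset.mem_image, not_exists, not_and]
  exact fun j _ e => lo_ne_hi j i e

theorem halfSwap_lo (j : Fin m) : halfSwap m (Fin.castAdd m j) = Fin.natAdd m j := by
  simp [halfSwap, Fin.ext_iff, add_comm]

theorem halfSwap_hi (j : Fin m) : halfSwap m (Fin.natAdd m j) = Fin.castAdd m j := by
  simp [halfSwap, Fin.ext_iff]

theorem real_lo {α : ℤ} (hα : α ≠ 0) (β : ℤ) :
    Real 0 (multiF α (fun _ => β) (halfSwap m) (loS m)) := by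
  refine real_multi hα _ _ _ fun t ht => ?_
  induction t using Fin.addCases with
  | left j =>
    rw [halfSwap_lo]
    exact ⟨lo_lt_hi _ _, hi_not_mem _⟩
  | right i => exact absurd ht (hi_not_mem i)

theorem half_eq (Q : ℕ) (y : Fin (m + m) → ZMod Q) :
    multiF (-1) (fun _ => 1) (halfSwap m) (loS m) Q
      (U 1 Q (multiF 1 (fun _ => -1) (halfSwap m) (loS m) Q y)) = y ∘ halfSwap m := by
  have h1 : ∀ (z : Fin (m + m) → ZMod Q) (i : Fin m),
      U 1 Q z (Fin.natAdd m i) = z (Fin.natAdd m i) + z (Fin.castAdd m i) := by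
    intro z i
    simp only [U, Pi.add_apply, hiV_hi, add_right_inj]
    rw [Finset.sum_eq_single i]
    · simp [red]
    · intro j _ hj
      simp [red, Matrix.one_apply_ne hj.symm]
    · simp
  have h2 : ∀ (z : Fin (m + m) → ZMod Q) (i : Fin m),
      U 1 Q z (Fin.castAdd m i) = z (Fin.castAdd m i) := fun z i => by simp [U]
  funext k
  induction k using Fin.addCases with
  | left j => simp [multiF, lo_mem, hi_not_mem, halfSwap_lo, h1, h2]
  | right i => simp [multiF, lo_mem, hi_not_mem, halfSwap_lo, halfSwap_hi, h1]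

theorem main {W m : ℕ} (steps : List (NStep W m ℚ (ZMod 2)))
    (P : Fin W → Matrix (Fin m) (Fin m) ℚ) (S : Set (Matrix (Fin m) (Fin m) ℚ)) (hS : S.Finite)
    (h : ∀ (M : Type) [AddCommGroup M] [Module (ZMod 2) M]
      (ρ ρ' : Matrix (Fin m) (Fin m) ℚ → M →ₗ[ZMod 2] M),
      (∀ A ∈ S, ∀ D ∈ S, IsPj False A → IsPj False D → A * D = 0 → D * A = 0 →
        (ρ D).comp (ρ A) = ρ (A + D) ∧ (ρ' D).comp (ρ (A + D)) = ρ A) →
      ∀ x : Fin W → M,
        steps.foldl (fun y s => s.run ρ ρ' y) (fun w => ρ (P w) (ρ (P w) (x w))) =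
          fun w => ρ 1 (x w)) :
    SReal ((steps.map NStep.rk).sum + ∑ w, (P w).rank)
      (fun _ _ _ _ x => fun w y => x w (y ∘ halfSwap m) : WMap W (m + m)) := by
  have := hS.to_subtype
  obtain ⟨d, hd, g, hg⟩ := exists_den fun p : S × Fin m × Fin m => p.1.1 p.2.1 p.2.2
  obtain ⟨e, he, f, hf⟩ := exists_den fun p : Fin W × Fin m × Fin m => P p.1 p.2.1 p.2.2
  have r1 := sreal_all (W := W) fun _ => real_lo (m := m) (α := -1) (by norm_num) 1
  have r2 := sreal_all (W := W) fun w => (real_U (P w + P w)).congr (l := (P w).rank)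
    (by simpa [two_smul] using rank_smul_le 2 (P w)) one_pos fun _ _ _ => rfl
  have r3 := sreal_steps steps
  have r4 := sreal_all (W := W) fun _ => real_lo (m := m) (α := 1) one_ne_zero (-1)
  refine (((r1.comp r2).comp r3).comp r4).congr (by simp [add_comm])
    (Nat.mul_pos (Int.natAbs_pos.2 hd) (Int.natAbs_pos.2 he)) fun Q hQ N _ _ x => ?_
  have hd' := isUnit_of_coprime (Nat.Coprime.coprime_mul_right_right hQ)
  have he' := isUnit_of_coprime (Nat.Coprime.coprime_mul_left_right hQ)
  have key := h _ (rho Q N) (fun D => rho Q N (-D)) (by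
    intro A hA D hD _ _ _ _
    have h1 : ∀ i j, ∃ k : ℤ, A i j * d = k := fun i j => ⟨_, hg (⟨A, hA⟩, i, j)⟩
    have h2 : ∀ i j, ∃ k : ℤ, D i j * d = k := fun i j => ⟨_, hg (⟨D, hD⟩, i, j)⟩
    constructor
    · refine LinearMap.ext fun a => funext fun y => ?_
      exact congrArg a (U_add hd hd' h1 h2 y)
    · refine LinearMap.ext fun a => funext fun y => ?_
      have := U_add (A := A + D) (D := -D) hd hd' (fun i j => by
        obtain ⟨k, hk⟩ := h1 i j
        obtain ⟨l, hl⟩ := h2 i j
        exact ⟨k + l, by rw [Matrix.add_apply, add_mul, hk, hl]; push_cast; rfl⟩)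
        (fun i j => by
          obtain ⟨l, hl⟩ := h2 i j
          exact ⟨-l, by rw [Matrix.neg_apply, neg_mul, hl]; push_cast; rfl⟩) y
      rw [add_neg_cancel_right] at this
      exact congrArg a this)
    fun w y => x w (multiF (-1) (fun _ => 1) (halfSwap m) (loS m) Q y)
  have e1 : (fun w y => x w (multiF (-1) (fun _ => 1) (halfSwap m) (loS m) Q
      (U (P w + P w) Q y))) = fun w => rho Q N (P w) (rho Q N (P w)
        fun y => x w (multiF (-1) (fun _ => 1) (halfSwap m) (loS m) Q y)) := by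
    funext w y
    rw [← U_add he he' (fun i j => ⟨_, hf (w, i, j)⟩) (fun i j => ⟨_, hf (w, i, j)⟩) y]
    rfl
  simp only [e1, key]
  funext w y
  rw [← half_eq]
  rfl

end SP

theorem sProg_of_net (h : NetSpec False ℚ (ZMod 2)) : SProgSpec := by
  obtain ⟨W, steps, P, S, hW, hS, -, -, hle, h⟩ := h
  obtain ⟨N₀, prog, h0, h1, h2, h3⟩ := SP.main steps P S hS h
  exact ⟨W, N₀, prog, hW, h0, h1, le_trans (by exact_mod_cast h2) hle,
    fun Q _ hQ N _ _ x => h3 Q hQ N x⟩

end Crest.Agent.R326
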