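import Crest.Agent.R326.Spec

/-!
# Pairwise coprime numbers just below a power of two (row 326)

A pure-sieve bound for the longest run of integers each divisible by one of `r` given primes, and
the greedy search.
-/

namespace Crest.Agent.R326

open Finset Crest.Agent.Lib.PolyTime

namespace Sieve

/-- The numbers in `(X, Y]` divisible by no element of `P`. -/
noncomputable def cnt (P : Finset ℕ) (X Y : ℝ) : ℕ :=
  ((Ioc ⌊X⌋₊ ⌊Y⌋₊).filter (fun n => ∀ p ∈ P, ¬ p ∣ n)).card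

theorem card_Ioc_bounds {X Y : ℝ} (hX : 0 ≤ X) (hXY : X ≤ Y) :
    |((Ioc ⌊X⌋₊ ⌊Y⌋₊).card : ℝ) - (Y - X)| ≤ 1 := by
  rw [Nat.card_Ioc, Nat.cast_sub (Nat.floor_le_floor hXY), abs_le]
  have h1 := Nat.floor_le hX
  have h2 := Nat.floor_le (hX.trans hXY)
  have h3 := Nat.lt_floor_add_one X
  have h4 := Nat.lt_floor_add_one Y
  constructor <;> linarith

theorem cnt_insert {P : Finset ℕ} {p : ℕ} (hp : 0 < p) (hc : ∀ q ∈ P, Nat.Coprime q p) (X Y : ℝ) :
    cnt (insert p P) X Y + cnt P (X / p) (Y / p) = cnt P X Y := by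
  unfold cnt
  rw [← card_filter_add_card_filter_not (s := (Ioc ⌊X⌋₊ ⌊Y⌋₊).filter (fun n => ∀ p ∈ P, ¬ p ∣ n))
    (fun n => ¬ p ∣ n)]
  congr 1
  · congr 1
    ext n
    simp only [mem_filter, forall_mem_insert]
    tauto
  · rw [Nat.floor_div_natCast, Nat.floor_div_natCast]
    refine card_nbij (fun m => m * p) ?_ ?_ ?_
    · intro m hm
      simp only [coe_filter, mem_Ioc, Set.mem_ofPred_eq, mem_filter, not_not] at hm ⊢
      obtain ⟨⟨h1, h2⟩, h3⟩ := hm
      refine ⟨⟨⟨(Nat.div_lt_iff_lt_mul hp).1 h1, (Nat.le_div_iff_mul_le hp).1 h2⟩, ?_⟩,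
        Dvd.intro_left m rfl⟩
      exact fun q hq h => h3 q hq ((hc q hq).dvd_of_dvd_mul_right h)
    · intro a _ b _ h
      exact Nat.eq_of_mul_eq_mul_right hp h
    · intro n hn
      simp only [coe_filter, mem_Ioc, Set.mem_ofPred_eq, mem_filter, not_not] at hn
      obtain ⟨⟨⟨h1, h2⟩, h3⟩, m, rfl⟩ := hn
      refine ⟨m, ?_, mul_comm _ _⟩
      simp only [coe_filter, mem_Ioc, Set.mem_ofPred_eq]
      rw [mul_comm] at h1 h2
      exact ⟨⟨(Nat.div_lt_iff_lt_mul hp).2 h1, (Nat.le_div_iff_mul_le hp).2 h2⟩,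
        fun q hq h => h3 q hq (h.mul_left p)⟩

theorem factor_bounds {p : ℕ} (hp : p.Prime) : 0 < (p : ℝ)⁻¹ ∧ (p : ℝ)⁻¹ ≤ 1 / 2 := by
  have h2 : (2 : ℝ) ≤ p := by exact_mod_cast hp.two_le
  refine ⟨by positivity, ?_⟩
  rw [one_div]
  exact inv_anti₀ (by norm_num) h2

theorem V_bounds {P : Finset ℕ} (hP : ∀ p ∈ P, p.Prime) :
    0 ≤ ∏ p ∈ P, (1 - (p : ℝ)⁻¹) ∧ ∏ p ∈ P, (1 - (p : ℝ)⁻¹) ≤ 1 :=
  ⟨prod_nonneg fun p hp => by linarith [(factor_bounds (hP p hp)).2],
    prod_le_one (fun p hp => by linarith [(factor_bounds (hP p hp)).2])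
      fun p hp => by linarith [(factor_bounds (hP p hp)).1]⟩

theorem F_ge {P : Finset ℕ} : 1 ≤ ∏ p ∈ P, (1 + 2 * (p : ℝ)⁻¹) :=
  one_le_prod fun p _ => by
    have : 0 ≤ (p : ℝ)⁻¹ := by positivity
    linarith

/-- The pure sieve. -/
theorem cnt_bound (P : Finset ℕ) (hP : ∀ p ∈ P, p.Prime) (J : ℕ) {X Y : ℝ} (hX : 0 ≤ X)
    (hXY : X ≤ Y) :
    |(cnt P X Y : ℝ) - (Y - X) * ∏ p ∈ P, (1 - (p : ℝ)⁻¹)| ≤
      (Y - X) * ((∏ p ∈ P, (1 + 2 * (p : ℝ)⁻¹)) / 2 ^ J) + ((P.card : ℝ) + 1) ^ J := by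
  induction P using Finset.induction_on generalizing J X Y with
  | empty =>
    have h := card_Ioc_bounds hX hXY
    have h2 : 0 ≤ (Y - X) * (1 / 2 ^ J) := mul_nonneg (by linarith) (by positivity)
    simp only [cnt, notMem_empty, IsEmpty.forall_iff, implies_true, filter_true, prod_empty,
      mul_one, card_empty, Nat.cast_zero, zero_add, one_pow]
    linarith
  | insert p P hpP ih =>
    have hy : 0 ≤ Y - X := by linarith
    rcases J with _ | J
    · have h := abs_le.1 (card_Ioc_bounds hX hXY)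
      have h1 : (cnt (insert p P) X Y : ℝ) ≤ (Ioc ⌊X⌋₊ ⌊Y⌋₊).card := by
        exact_mod_cast card_filter_le _ _
      have h2 : (0 : ℝ) ≤ cnt (insert p P) X Y := Nat.cast_nonneg _
      have h3 := V_bounds hP
      have h4 := F_ge (P := insert p P)
      simp only [pow_zero, div_one]
      rw [abs_le]
      constructor <;> nlinarith [h3.1, h3.2]
    · have hp := hP p (mem_insert_self _ _)
      have hP' : ∀ q ∈ P, q.Prime := fun q hq => hP q (mem_insert_of_mem hq)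
      have hp0 : (0 : ℝ) < p := by exact_mod_cast hp.pos
      have h1 := ih hP' (J + 1) hX hXY
      have h2 := ih hP' J (X := X / p) (Y := Y / p) (by positivity) (by gcongr)
      have h3 : (cnt (insert p P) X Y : ℝ) = cnt P X Y - cnt P (X / p) (Y / p) := by
        rw [← cnt_insert hp.pos (fun q hq => (Nat.coprime_primes (hP' q hq) hp).2
          (fun e => hpP (e ▸ hq))) X Y]
        push_cast
        ring
      rw [h3, prod_insert hpP, prod_insert hpP, card_insert_of_notMem hpP]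
      set V := ∏ p ∈ P, (1 - (p : ℝ)⁻¹)
      set F := ∏ p ∈ P, (1 + 2 * (p : ℝ)⁻¹)
      have e1 : (cnt P X Y : ℝ) - cnt P (X / p) (Y / p) - (Y - X) * ((1 - (p : ℝ)⁻¹) * V) =
          (cnt P X Y - (Y - X) * V) - (cnt P (X / p) (Y / p) - (Y / p - X / p) * V) := by
        ring
      have e2 : (Y - X) * ((1 + 2 * (p : ℝ)⁻¹) * F / 2 ^ (J + 1)) =
          (Y - X) * (F / 2 ^ (J + 1)) + (Y / p - X / p) * (F / 2 ^ J) := by
        field_simp
        ring
      have h4 : ((P.card : ℝ) + 1) ^ (J + 1) + ((P.card : ℝ) + 1) ^ J ≤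
          (((P.card + 1 : ℕ) : ℝ) + 1) ^ (J + 1) := by
        push_cast
        have h5 : ((P.card : ℝ) + 1) ^ J ≤ ((P.card : ℝ) + 1 + 1) ^ J :=
          pow_le_pow_left₀ (by positivity) (by linarith) J
        have h6 : (0 : ℝ) ≤ P.card := Nat.cast_nonneg _
        rw [pow_succ, pow_succ]
        nlinarith
      rw [e1, e2]
      refine (abs_sub _ _).trans ?_
      linarith

theorem V_ge (P : Finset ℕ) (hP : ∀ p ∈ P, p.Prime) :
    1 ≤ ((P.card : ℝ) + 1) * ∏ p ∈ P, (1 - (p : ℝ)⁻¹) := by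
  induction P using Finset.induction_on_max with
  | empty => simp
  | insert p P hlt ih =>
    have hpP : p ∉ P := fun h => lt_irrefl _ (hlt p h)
    have hp := hP p (mem_insert_self _ _)
    have hP' : ∀ q ∈ P, q.Prime := fun q hq => hP q (mem_insert_of_mem hq)
    have h1 := ih hP'
    have h2 : P.card + 2 ≤ p := by
      have : P ⊆ Ico 2 p := fun q hq => mem_Ico.2 ⟨(hP' q hq).two_le, hlt q hq⟩
      have h3 := card_le_card this
      have h4 := hp.two_le
      rw [Nat.card_Ico] at h3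
      omega
    have h2' : (P.card : ℝ) + 2 ≤ p := by exact_mod_cast h2
    have h6 : (0 : ℝ) ≤ P.card := Nat.cast_nonneg _
    have h3 : ((P.card : ℝ) + 2) * (p : ℝ)⁻¹ ≤ 1 := by
      rw [← div_eq_mul_inv, div_le_one (by linarith)]
      exact h2'
    have h4 := (V_bounds hP').1
    rw [prod_insert hpP, card_insert_of_notMem hpP]
    push_cast
    nlinarith

theorem F_le {P : Finset ℕ} (hP : ∀ p ∈ P, p.Prime) :
    (∏ p ∈ P, (1 + 2 * (p : ℝ)⁻¹)) * (∏ p ∈ P, (1 - (p : ℝ)⁻¹)) ^ 2 ≤ 1 := by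
  rw [← prod_pow, ← prod_mul_distrib]
  refine prod_le_one (fun p _ => by positivity) fun p hp => ?_
  obtain ⟨h1, h2⟩ := factor_bounds (hP p hp)
  nlinarith [mul_pos h1 h1]

/-- A long enough interval contains a number divisible by no prime of `P`. -/
theorem exists_free (P : Finset ℕ) (hP : ∀ p ∈ P, p.Prime) (L : ℕ) (hL : P.card < 2 ^ L)
    {X Y : ℝ} (hX : 0 ≤ X) (hY : X + 2 ^ (L * (3 * L + 1) + L + 1) < Y) :
    ∃ n : ℕ, X < n ∧ (n : ℝ) ≤ Y ∧ ∀ p ∈ P, ¬ p ∣ n := by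
  have hpos : (0 : ℝ) < 2 ^ (L * (3 * L + 1) + L + 1) := by positivity
  have h := (abs_le.1 (cnt_bound P hP (3 * L + 1) hX (Y := Y) (by linarith))).1
  have hc : (P.card : ℝ) + 1 ≤ 2 ^ L := by exact_mod_cast hL
  have h1 := V_ge P hP
  have h2 := F_le hP
  have h3 := V_bounds hP
  have h4 := F_ge (P := P)
  set V := ∏ p ∈ P, (1 - (p : ℝ)⁻¹)
  set F := ∏ p ∈ P, (1 + 2 * (p : ℝ)⁻¹)
  set T : ℝ := 2 ^ L with hT
  have hT0 : 0 < T := by positivity
  have h5 : 1 ≤ T * V := h1.trans (mul_le_mul_of_nonneg_right hc h3.1)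
  have h6 : F ≤ T ^ 2 := by
    have : 1 ≤ (T * V) ^ 2 := one_le_pow₀ h5
    nlinarith
  have e1 : (2 : ℝ) ^ (3 * L + 1) = 2 * T ^ 3 := by rw [hT]; ring
  have h7 : F / 2 ^ (3 * L + 1) ≤ 1 / (2 * T) := by
    rw [e1, div_le_div_iff₀ (by positivity) (by positivity)]
    nlinarith
  have h8 : 1 / T ≤ V := by rw [div_le_iff₀ hT0]; linarith
  have h9 : ((P.card : ℝ) + 1) ^ (3 * L + 1) ≤ T ^ (3 * L + 1) :=
    pow_le_pow_left₀ (by positivity) hc _
  have e2 : (2 : ℝ) ^ (L * (3 * L + 1) + L + 1) = T ^ (3 * L + 1) * (2 * T) := by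
    rw [hT, ← pow_mul]; ring
  have h10 : T ^ (3 * L + 1) < (Y - X) * (1 / (2 * T)) := by
    rw [mul_one_div, lt_div_iff₀ (by positivity)]
    linarith
  have e3 : 1 / T = 1 / (2 * T) + 1 / (2 * T) := by field_simp; ring
  have hy : 0 ≤ Y - X := by linarith
  have h11 : (0 : ℝ) < cnt P X Y := by
    nlinarith [mul_le_mul_of_nonneg_left h7 hy, mul_le_mul_of_nonneg_left h8 hy]
  obtain ⟨n, hn⟩ := card_pos.1 (show 0 < cnt P X Y by exact_mod_cast h11)
  simp only [mem_filter, mem_Ioc] at hn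
  exact ⟨n, (Nat.floor_lt hX).1 hn.1.1, (Nat.le_floor_iff (by linarith)).1 hn.1.2, hn.2⟩

/-- One step of the greedy search. -/
def step (U d : ℕ) (acc : List ℕ) (q : ℕ) : List ℕ :=
  if (2 * d - 1) * U < 2 * d * q ∧ acc.length < d ∧ ¬ ∃ a ∈ acc, ¬ Nat.Coprime a q then acc ++ [q]
  else acc

/-- The greedy search. -/
def greedy (U d n : ℕ) : List ℕ := (List.range n).foldl (step U d) []

theorem foldl_sublist (U d : ℕ) (l acc : List ℕ) : (l.foldl (step U d) acc).Sublist (acc ++ l) := by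
  induction l generalizing acc with
  | nil => simp
  | cons q l ih =>
    rw [List.foldl_cons]
    refine (ih _).trans ?_
    unfold step
    split_ifs
    · simp
    · simp

theorem poly_greedy : Poly (fun a : Un × ℕ => greedy a.1.n a.2 (a.1.n + 1)) := by
  have hl : Poly (fun a : Un × ℕ => List.range (a.1.n + 1)) := by fun_prop
  refine Poly.foldl (h := fun a : Un × ℕ => step a.1.n a.2) hl (by fun_prop) ?_ hl.pb_sz ?_
  · unfold step
    fun_prop
  · intro a l₁ h₁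
    exact sz_le_of_sublist ((foldl_sublist _ _ _ _).trans h₁.sublist)

theorem greedy_inv (U d n : ℕ) :
    (greedy U d n).length ≤ d ∧ (greedy U d n).Pairwise Nat.Coprime ∧
      (∀ q ∈ greedy U d n, (2 * d - 1) * U < 2 * d * q ∧ q < n) ∧
      ((greedy U d n).length < d → ∀ q < n, (2 * d - 1) * U < 2 * d * q →
        q ∈ greedy U d n ∨ ∃ a ∈ greedy U d n, ¬ Nat.Coprime a q) := by
  induction n with
  | zero => simp [greedy]
  | succ n ih =>
    have e : greedy U d (n + 1) = step U d (greedy U d n) n := by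
      simp [greedy, List.range_succ]
    obtain ⟨h1, h2, h3, h4⟩ := ih
    rw [e]
    unfold step
    split_ifs with h
    · obtain ⟨h5, h6, h7⟩ := h
      refine ⟨by simpa using h6, ?_, ?_, ?_⟩
      · rw [List.pairwise_append]
        refine ⟨h2, by simp, fun a ha b hb => ?_⟩
        rw [List.mem_singleton.1 hb]
        by_contra hc
        exact h7 ⟨a, ha, hc⟩
      · intro q hq
        rcases List.mem_append.1 hq with hq | hq
        · exact ⟨(h3 q hq).1, (h3 q hq).2.trans (Nat.lt_succ_self n)⟩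
        · rw [List.mem_singleton.1 hq]
          exact ⟨h5, Nat.lt_succ_self n⟩
      · intro _ q hq hw
        rcases (Nat.lt_succ_iff.1 hq).eq_or_lt with rfl | hq
        · exact Or.inl (by simp)
        · rcases h4 h6 q hq hw with h8 | ⟨a, ha, h8⟩
          · exact Or.inl (List.mem_append_left _ h8)
          · exact Or.inr ⟨a, List.mem_append_left _ ha, h8⟩
    · refine ⟨h1, h2, fun q hq => ⟨(h3 q hq).1, (h3 q hq).2.trans (Nat.lt_succ_self n)⟩, ?_⟩
      intro h6 q hq hw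
      rcases (Nat.lt_succ_iff.1 hq).eq_or_lt with rfl | hq
      · by_contra hc
        exact h ⟨hw, h6, fun h8 => hc (Or.inr h8)⟩
      · exact h4 h6 q hq hw

theorem card_primeFactors_le {N k : ℕ} (h0 : N ≠ 0) (h : N ≤ 2 ^ k) : N.primeFactors.card ≤ k := by
  have h1 : 2 ^ N.primeFactors.card ≤ ∏ p ∈ N.primeFactors, p :=
    pow_card_le_prod _ _ _ fun p hp => (Nat.prime_of_mem_primeFactors hp).two_le
  have h2 := Nat.le_of_dvd (Nat.pos_of_ne_zero h0) (Nat.prod_primeFactors_dvd N)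
  exact (Nat.pow_le_pow_iff_right (by norm_num)).1 (h1.trans (h2.trans h))

end Sieve

open Sieve in
theorem sieveSpec : SieveSpec := by
  refine ⟨fun a => greedy a.1.n a.2 (a.1.n + 1), 9, poly_greedy, fun ℓ d hd hℓ => ?_⟩
  simp only
  obtain ⟨h1, h2, h3, h4⟩ := greedy_inv (2 ^ ℓ) d (2 ^ ℓ + 1)
  refine ⟨?_, h2, fun q hq => ⟨(h3 q hq).1, Nat.lt_succ_iff.1 (h3 q hq).2⟩⟩
  by_contra hne
  have hlt := lt_of_le_of_ne h1 hne
  set G := greedy (2 ^ ℓ) d (2 ^ ℓ + 1)
  set L := Nat.log 2 (d * ℓ) + 1 with hL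
  have hL1 : 1 ≤ L := by omega
  have hℓ1 : 1 ≤ ℓ := by nlinarith
  have hdL : d * ℓ < 2 ^ L := Nat.lt_pow_succ_log_self (by norm_num) _
  have hG0 : G.prod ≠ 0 := List.prod_ne_zero fun h => by simpa using (h3 0 h).1
  have hG : G.prod ≤ 2 ^ (d * ℓ) := by
    refine (List.prod_le_pow_card G (2 ^ ℓ) fun q hq => Nat.lt_succ_iff.1 (h3 q hq).2).trans ?_
    rw [← pow_mul]
    exact Nat.pow_le_pow_right (by norm_num) (by nlinarith)
  have hd' : (1 : ℝ) ≤ d := by exact_mod_cast hd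
  have hdT : (d : ℝ) < 2 ^ L := by
    have : d < 2 ^ L := lt_of_le_of_lt (Nat.le_mul_of_pos_right d hℓ1) hdL
    exact_mod_cast this
  have hexp : (2 : ℝ) ^ (L * (3 * L + 1) + L + 1) * (2 * 2 ^ L) ≤ 2 ^ ℓ := by
    rw [← pow_succ', ← pow_add]
    exact pow_le_pow_right₀ (by norm_num) (by nlinarith)
  obtain ⟨q, hq1, hq2, hq3⟩ := exists_free G.prod.primeFactors
    (fun p hp => Nat.prime_of_mem_primeFactors hp) L
    ((card_primeFactors_le hG0 hG).trans_lt hdL)
    (X := (2 * d - 1) * 2 ^ ℓ / (2 * d)) (Y := 2 ^ ℓ)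
    (div_nonneg (mul_nonneg (by linarith) (by positivity)) (by linarith)) (by
      rw [← lt_sub_iff_add_lt, div_lt_iff₀ (by linarith)]
      have : (0 : ℝ) < 2 ^ (L * (3 * L + 1) + L + 1) := by positivity
      nlinarith)
  have hq2' : q ≤ 2 ^ ℓ := by exact_mod_cast hq2
  have hq1' : (2 * d - 1) * 2 ^ ℓ < 2 * d * q := by
    rw [div_lt_iff₀ (by linarith)] at hq1
    have : (((2 * d - 1) * 2 ^ ℓ : ℕ) : ℝ) < ((2 * d * q : ℕ) : ℝ) := by
      rw [Nat.cast_mul, Nat.cast_sub (by omega)]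
      push_cast
      linarith
    exact_mod_cast this
  have hco : ∀ a ∈ G, Nat.Coprime a q := by
    intro a ha
    refine Nat.coprime_of_dvd fun p hp hpa => hq3 p ?_
    exact Nat.mem_primeFactors.2 ⟨hp, hpa.trans (List.dvd_prod ha), hG0⟩
  rcases h4 hlt q (Nat.lt_succ_iff.2 hq2') hq1' with h5 | ⟨a, ha, h5⟩
  · have h6 : q = 1 := (Nat.coprime_self q).1 (hco q h5)
    have h7 : 2 ≤ 2 ^ ℓ := by
      calc 2 = 2 ^ 1 := rfl
        _ ≤ 2 ^ ℓ := Nat.pow_le_pow_right (by norm_num) hℓ1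
    rw [h6] at hq1'
    have h8 := Nat.mul_le_mul_left (2 * d - 1) h7
    omega
  · exact h5 (hco a ha)

end Crest.Agent.R326
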