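import Crest.Agent.Lib.PolyTime.Enc

/-!
# Interfaces of the pure-mathematics parts of the multiplication algorithm (row 326)

Only definitions: each `…Spec` is a proposition to be proved in its own file.
-/

namespace Crest.Agent.R326

open Matrix Function
open Crest.Agent.Lib.PolyTime

/-! ### Abstract networks -/

/-- Idempotent matrices, symmetric if `sym` holds. -/
def IsPj (sym : Prop) {μ 𝔽 : Type} [Fintype μ] [Field 𝔽] (P : Matrix μ μ 𝔽) : Prop :=
  (sym → Pᵀ = P) ∧ P * P = P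

/-- One step of a network on `W` wires with frames in `m × m` matrices over `𝔽` and scalars `K`. -/
inductive NStep (W m : ℕ) (𝔽 K : Type) : Type
  | gate (G : Matrix (Fin W) (Fin W) K)
  | up (w : Fin W) (D : Matrix (Fin m) (Fin m) 𝔽)
  | down (w : Fin W) (D : Matrix (Fin m) (Fin m) 𝔽)

namespace NStep
variable {W m : ℕ} {𝔽 K : Type} [Field 𝔽] [CommRing K]

/-- Action of a step, given the operators `ρ D` (up) and `ρ' D` (down). -/
def run {M : Type} [AddCommGroup M] [Module K M]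
    (ρ ρ' : Matrix (Fin m) (Fin m) 𝔽 → M →ₗ[K] M) :
    NStep W m 𝔽 K → (Fin W → M) → Fin W → M
  | gate G, x => fun w => ∑ w', G w w' • x w'
  | up w D, x => update x w (ρ D (x w))
  | down w D, x => update x w (ρ' D (x w))

/-- Cost of a step: the rank of the frame change. -/
noncomputable def rk : NStep W m 𝔽 K → ℕ
  | gate _ => 0
  | up _ D => D.rank
  | down _ D => D.rank

/-- The frame change is an admissible idempotent from the set `S`. -/
def ok (sym : Prop) (S : Set (Matrix (Fin m) (Fin m) 𝔽)) : NStep W m 𝔽 K → Prop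
  | gate _ => True
  | up _ D => IsPj sym D ∧ D ∈ S
  | down _ D => IsPj sym D ∧ D ∈ S

end NStep

/-- There is a network applying `ρ 1` to all of `W` wires at total rank below
`W * (10 ^ 6 - 10 ^ (-6))`, counting one unit per rank of the preliminary frames `P w`. -/
def NetSpec (sym : Prop) (𝔽 K : Type) [Field 𝔽] [CommRing K] : Prop :=
  ∃ (W : ℕ) (steps : List (NStep W (10 ^ 6) 𝔽 K))
    (P : Fin W → Matrix (Fin (10 ^ 6)) (Fin (10 ^ 6)) 𝔽)
    (S : Set (Matrix (Fin (10 ^ 6)) (Fin (10 ^ 6)) 𝔽)),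
    0 < W ∧ S.Finite ∧ (∀ w, IsPj sym (P w) ∧ P w ∈ S) ∧ (∀ s ∈ steps, s.ok sym S) ∧
    (((steps.map NStep.rk).sum + ∑ w, (P w).rank : ℕ) : ℝ) ≤ W * (10 ^ 6 - 1 / 10 ^ 6) ∧
    ∀ (M : Type) [AddCommGroup M] [Module K M]
      (ρ ρ' : Matrix (Fin (10 ^ 6)) (Fin (10 ^ 6)) 𝔽 → M →ₗ[K] M),
      (∀ A ∈ S, ∀ D ∈ S, IsPj sym A → IsPj sym D → A * D = 0 → D * A = 0 →
        (ρ D).comp (ρ A) = ρ (A + D) ∧ (ρ' D).comp (ρ (A + D)) = ρ A) →
      ∀ x : Fin W → M,
        steps.foldl (fun y s => s.run ρ ρ' y) (fun w => ρ (P w) (ρ (P w) (x w))) =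
          fun w => ρ 1 (x w)

/-! ### The swap program -/

/-- Instructions on `W` wires; each wire is a function of `n` digits modulo `Q`, digit `s` being
more significant than digit `t` when `t < s`. -/
inductive SInstr (W n : ℕ) : Type
  | gate (G : Matrix (Fin W) (Fin W) (ZMod 2))
  | lin (w : Fin W) (t : Fin n) (a : ℤ) (c : Fin n → ℤ)
  | linInv (w : Fin W) (t : Fin n) (a : ℤ) (c : Fin n → ℤ)
  | swap (w : Fin W) (s t : Fin n)

namespace SInstr
variable {W n : ℕ}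

/-- Action of an instruction. -/
def run (Q : ℕ) {N : Type} [AddCommGroup N] [Module (ZMod 2) N] :
    SInstr W n → (Fin W → (Fin n → ZMod Q) → N) → Fin W → (Fin n → ZMod Q) → N
  | gate G, x => fun w y => ∑ w', G w w' • x w' y
  | lin w t a c, x => update x w fun y => x w (update y t (a * y t + ∑ s, c s * y s))
  | linInv w t a c, x =>
      update x w fun y => x w (update y t ((a : ZMod Q)⁻¹ * (y t - ∑ s, c s * y s)))
  | swap w s t, x => update x w fun y => x w (y ∘ Equiv.swap s t)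

/-- Multipliers divide `N₀`, shifts only use more significant digits, swaps are ordered. -/
def ok (N₀ : ℕ) : SInstr W n → Prop
  | gate _ => True
  | lin _ t a c => a ∣ (N₀ : ℤ) ∧ ∀ s, s ≤ t → c s = 0
  | linInv _ t a c => a ∣ (N₀ : ℤ) ∧ ∀ s, s ≤ t → c s = 0
  | swap _ s t => s < t

/-- Number of swaps. -/
def cnt : SInstr W n → ℕ
  | swap _ _ _ => 1
  | _ => 0

end SInstr

/-- Exchange of the two halves of `Fin (m + m)`. -/
def halfSwap (m : ℕ) (i : Fin (m + m)) : Fin (m + m) :=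
  if h : i.val < m then ⟨i.val + m, by omega⟩ else ⟨i.val - m, by omega⟩

/-- The two blocks of `10 ^ 6` digits of all wires are exchanged using fewer than
`10 ^ 6 - 10 ^ (-6)` swaps of single digits per wire. -/
def SProgSpec : Prop :=
  ∃ (W N₀ : ℕ) (prog : List (SInstr W (10 ^ 6 + 10 ^ 6))), 0 < W ∧ 0 < N₀ ∧
    (∀ s ∈ prog, s.ok N₀) ∧ ((prog.map SInstr.cnt).sum : ℝ) ≤ W * (10 ^ 6 - 1 / 10 ^ 6) ∧
    ∀ (Q : ℕ) [NeZero Q], Q.Coprime N₀ → ∀ (N : Type) [AddCommGroup N] [Module (ZMod 2) N]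
      (x : Fin W → (Fin (10 ^ 6 + 10 ^ 6) → ZMod Q) → N),
      prog.foldl (fun y s => s.run Q y) x = fun w y => x w (y ∘ halfSwap (10 ^ 6))

/-! ### The Walsh–Hadamard program -/

/-- The sign character of `ZMod 2`. -/
def sg (z : ZMod 2) : ℤ := if z = 0 then 1 else -1

/-- Instructions on `W` wires; each wire is a function of `m` fields of `u` bits. -/
inductive WInstr (W m : ℕ) : Type
  | gate (G : Matrix (Fin W) (Fin W) ℤ)
  | up2 (w : Fin W) (a b : ℕ)
  | dn2 (w : Fin W) (a b : ℕ)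
  | xor (w : Fin W) (i j : Fin m)
  | had (w : Fin W) (i : Fin m)

namespace WInstr
variable {W m : ℕ}

/-- Action of an instruction; `hf` is the inverse of `2`. -/
def run (u : ℕ) {K : Type} [CommRing K] (hf : K) {N : Type} [AddCommGroup N] [Module K N] :
    WInstr W m → (Fin W → (Fin m → Fin u → ZMod 2) → N) → Fin W → (Fin m → Fin u → ZMod 2) → N
  | gate G, x => fun w y => ∑ w', G w w' • x w' y
  | up2 w a b, x => update x w fun y => (2 : K) ^ (a * u + b) • x w y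
  | dn2 w a b, x => update x w fun y => hf ^ (a * u + b) • x w y
  | xor w i j, x => update x w fun y => x w (update y i (y i + y j))
  | had w i, x => update x w fun y => ∑ z : Fin u → ZMod 2, sg (y i ⬝ᵥ z) • x w (update y i z)

/-- A field is never added to itself. -/
def ok : WInstr W m → Prop
  | xor _ i j => i ≠ j
  | _ => True

/-- Number of single-field transforms. -/
def cnt : WInstr W m → ℕ
  | had _ _ => 1
  | _ => 0

end WInstr

/-- The full transform on `10 ^ 6` fields is applied to all wires using fewer than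
`10 ^ 6 - 10 ^ (-6)` single-field transforms per wire. -/
def WProgSpec : Prop :=
  ∃ (W : ℕ) (prog : List (WInstr W (10 ^ 6))), 0 < W ∧ (∀ s ∈ prog, s.ok) ∧
    ((prog.map WInstr.cnt).sum : ℝ) ≤ W * (10 ^ 6 - 1 / 10 ^ 6) ∧
    ∀ (u : ℕ) (K : Type) [CommRing K] (hf : K), 2 * hf = 1 →
      ∀ (N : Type) [AddCommGroup N] [Module K N]
        (x : Fin W → (Fin (10 ^ 6) → Fin u → ZMod 2) → N),
        prog.foldl (fun y s => s.run u hf y) x =
          fun w y => ∑ z : Fin (10 ^ 6) → Fin u → ZMod 2, sg (∑ i, y i ⬝ᵥ z i) • x w z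

/-! ### Polynomial-time approximable complex numbers -/

/-- `f a` can be approximated to precision `2 ^ (-p)` in time polynomial in `a` and `p`. -/
def Apx {α : Type} [PEnc α] (f : α → ℂ) : Prop :=
  ∃ g : α × Un → ℚ × ℚ, Poly g ∧
    ∀ a p, ‖((g (a, p)).1 : ℂ) + ((g (a, p)).2 : ℂ) * Complex.I - f a‖ ≤ 1 / 2 ^ p.n

/-! ### The discrete Fourier transform as a sequence of bit layers -/

open Classical in
/-- The Hadamard butterfly on bit `j` of the position. -/
noncomputable def hadM (ℓ j : ℕ) : Matrix (Fin (2 ^ ℓ)) (Fin (2 ^ ℓ)) ℂ :=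
  Matrix.of fun x y =>
    if ∀ i, i ≠ j → x.val.testBit i = y.val.testBit i then
      (if x.val.testBit j ∧ y.val.testBit j then -1 else 1) else 0

/-- A layer: a butterfly on bit `j`, or the diagonal matrix with entries `t`. -/
noncomputable def layerM (ℓ : ℕ) (o : Option ℕ) (t : ℕ → ℂ) :
    Matrix (Fin (2 ^ ℓ)) (Fin (2 ^ ℓ)) ℂ :=
  match o with
  | some j => hadM ℓ j
  | none => Matrix.diagonal fun x => t x.val

/-- The product of the first `L` layers (layer `0` acts first). -/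
noncomputable def layersM (ℓ : ℕ) (sc : ℕ → Option ℕ) (tb : ℕ → ℕ → ℂ) :
    ℕ → Matrix (Fin (2 ^ ℓ)) (Fin (2 ^ ℓ)) ℂ
  | 0 => 1
  | L + 1 => layerM ℓ (sc L) (tb L) * layersM ℓ sc tb L

/-- The transform of length `q` (inverse transform, with its factor `1 / q`, if `inv`), on the
first `q` of `2 ^ ℓ` positions and zero elsewhere. -/
noncomputable def dftM (ℓ q : ℕ) (inv : Bool) : Matrix (Fin (2 ^ ℓ)) (Fin (2 ^ ℓ)) ℂ :=
  Matrix.of fun x y =>
    if x.val < q ∧ y.val < q then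
      (if inv then (q : ℂ)⁻¹ * Complex.exp (-(2 * Real.pi * Complex.I * (x.val * y.val) / q))
        else Complex.exp (2 * Real.pi * Complex.I * (x.val * y.val) / q))
    else 0

/-- Parameters of a table entry: `2 ^ ℓ` in unary, `ℓ`, `q`, direction, layer, position. -/
abbrev TbIx : Type :=
  {a : Un × ℕ × ℕ × Bool × ℕ × ℕ // a.1.n = 2 ^ a.2.1 ∧ 2 ^ a.2.1 < 2 * a.2.2.1 ∧
    a.2.2.1 ≤ 2 ^ a.2.1 ∧ a.2.2.2.2.2 < 2 ^ a.2.1}

/-- The transform of length `q ∈ (2 ^ (ℓ - 1), 2 ^ ℓ]` is a product of `O(ℓ ^ 4)` layers whose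
schedule `sc ℓ` does not depend on `q` and whose diagonal entries are bounded and approximable. -/
def DftSpec : Prop :=
  ∃ (c : ℕ) (len : ℕ → ℕ) (sc : ℕ → ℕ → Option ℕ) (tb : ℕ → ℕ → Bool → ℕ → ℕ → ℂ),
    (∀ ℓ, len ℓ ≤ c * (ℓ + 1) ^ 4) ∧ (∀ ℓ l j, c ≤ ℓ → sc ℓ l = some j → j < ℓ) ∧
    Poly (fun a : Un => len a.n) ∧ Poly (fun a : Un × ℕ => sc a.1.n a.2) ∧
    Apx (fun a : TbIx => tb a.1.2.1 a.1.2.2.1 a.1.2.2.2.1 a.1.2.2.2.2.1 a.1.2.2.2.2.2) ∧
    ∀ ℓ q inv, c ≤ ℓ → 2 ^ ℓ < 2 * q → q ≤ 2 ^ ℓ →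
      (∀ l x, x < 2 ^ ℓ → ‖tb ℓ q inv l x‖ ≤ 2 ^ (c * 4 ^ ℓ)) ∧
      layersM ℓ (sc ℓ) (tb ℓ q inv) (len ℓ) = dftM ℓ q inv

/-! ### Pairwise coprime lengths -/

/-- A polynomial-time search finds `d` pairwise coprime numbers just below `2 ^ ℓ`. -/
def SieveSpec : Prop :=
  ∃ (f : Un × ℕ → List ℕ) (c : ℕ), Poly f ∧ ∀ (ℓ d : ℕ), 1 ≤ d →
    c * (Nat.log 2 (d * ℓ) + 1) ^ 2 ≤ ℓ →
      (f (⟨2 ^ ℓ⟩, d)).length = d ∧ (f (⟨2 ^ ℓ⟩, d)).Pairwise Nat.Coprime ∧
        ∀ q ∈ f (⟨2 ^ ℓ⟩, d), (2 * d - 1) * 2 ^ ℓ < 2 * d * q ∧ q ≤ 2 ^ ℓ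

end Crest.Agent.R326
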