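import Crest.Agent.R326.Arr
import Crest.Agent.R326.Spec

/-!
# Interfaces of the machine-level routines of the multiplication algorithm (row 326)

Only definitions: each `…Spec` is a proposition to be proved in its own file.
Arrays are lists `tab T a` of `T` records; "gather by `π`" produces `tab T (a ∘ π)`.
-/

namespace Crest.Agent.R326

open Crest.Agent.Lib.PolyTime

/-- The exponent of the fast routines. -/
noncomputable def tau : ℝ := 1 - 1 / 2 ^ 50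

/-! ### Linear-time rearrangements -/

/-- Rotate the digit of weight `S` and radix `Q` by `f` modulo `q`, if it is below `q`. -/
def rotI (S Q q f j : ℕ) : ℕ := if fld S Q j < q then setF S Q j ((fld S Q j + f) % q) else j

/-- Re-read an index with middle radix `Q` as an index with middle radix `Q'`. -/
def padI (S Q Q' j : ℕ) : ℕ := (j / (S * Q) * Q' + fld S Q j) * S + j % S

/-- Rearrangements of arrays costing `O(size + T * poly)`. -/
structure PermSpec : Prop where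
  select : ∀ {ι α : Type} [PEnc α] {C : Ctx ι} {T : ι → ℕ} {m : ι → ℕ → Bool} {a : ι → ℕ → α},
    R C (fun i => tab (T i) (m i)) → R C (fun i => tab (T i) (a i)) →
      R C fun i => ((List.range (T i)).filter (m i)).map (a i)
  overlay : ∀ {ι α : Type} [PEnc α] {C : Ctx ι} {T : ι → ℕ} {m : ι → ℕ → Bool}
    {g b : ι → ℕ → α}, R C (fun i => tab (T i) (m i)) →
    R C (fun i => ((List.range (T i)).filter (m i)).map (g i)) → R C (fun i => tab (T i) (b i)) →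
      R C fun i => tab (T i) fun j => bif m i j then g i j else b i j
  /-- a permutation of `range T` that is increasing on each of `K` classes, and its inverse -/
  mp : ∀ {ι α γ : Type} [PEnc α] [PEnc γ] {C : Ctx ι} {T L : ι → ℕ} {par : ι → γ}
    {a : ι → ℕ → α} (K : ℕ) {π cls : γ × ℕ → ℕ}, Poly π → Poly cls → C.PD T L →
    Sm L (fun i => sz (T i)) → SC C L par → (∀ i j, j < T i → π (par i, j) < T i) →
    (∀ i j, j < T i → cls (par i, j) < K) →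
    (∀ i j j', j < j' → j' < T i → cls (par i, π (par i, j)) = cls (par i, π (par i, j')) →
      π (par i, j) < π (par i, j')) →
    (R C (fun i => tab (T i) (a i)) ↔ R C fun i => tab (T i) fun j => a i (π (par i, j)))
  /-- rotation of a field by an amount depending on the more significant part of the index -/
  rot : ∀ {ι α γ : Type} [PEnc α] [PEnc γ] {C : Ctx ι} {H Q S q L : ι → ℕ} {par : ι → γ}
    {a : ι → ℕ → α} {F : γ × ℕ → ℕ}, Poly F → C.PD (fun i => H i * Q i * S i) L →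
    SC C L (fun i => (H i, Q i, S i, q i)) → SC C L par → (∀ i, q i ≤ Q i) →
    R C (fun i => tab (H i * Q i * S i) (a i)) →
      R C fun i => tab (H i * Q i * S i) fun j =>
        a i (rotI (S i) (Q i) (q i) (F (par i, j / (S i * Q i))) j)
  /-- multiplication of a field by a constant unit, and its inverse -/
  mul : ∀ {ι α : Type} [PEnc α] {C : Ctx ι} {H Q S L : ι → ℕ} {a : ι → ℕ → α} (c : ℕ), 0 < c →
    C.PD (fun i => H i * Q i * S i) L → SC C L (fun i => (H i, Q i, S i)) →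
    (∀ i, c.Coprime (Q i)) →
    (R C (fun i => tab (H i * Q i * S i) (a i)) ↔
      R C fun i => tab (H i * Q i * S i) fun j =>
        a i (setF (S i) (Q i) j (c * fld (S i) (Q i) j % Q i)))
  /-- negation of a field -/
  neg : ∀ {ι α : Type} [PEnc α] {C : Ctx ι} {H Q S L : ι → ℕ} {a : ι → ℕ → α},
    C.PD (fun i => H i * Q i * S i) L → SC C L (fun i => (H i, Q i, S i)) →
    R C (fun i => tab (H i * Q i * S i) (a i)) →
      R C fun i => tab (H i * Q i * S i) fun j =>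
        a i (setF (S i) (Q i) j ((Q i - fld (S i) (Q i) j) % Q i))
  /-- undoing a permutation with few non-fixed points -/
  repair : ∀ {ι α γ : Type} [PEnc α] [PEnc γ] {C : Ctx ι} {T L ρ : ι → ℕ} {par : ι → γ}
    {a : ι → ℕ → α} {π : γ × ℕ → ℕ}, Poly π → C.PD T L → Sm L (fun i => sz (T i)) →
    SC C L par → (∀ i j, j < T i → π (par i, j) < T i) →
    (∀ i j j', j < T i → j' < T i → π (par i, j) = π (par i, j') → j = j') →
    (∀ i, ((Finset.range (T i)).filter fun j => π (par i, j) ≠ j).card * (T i).size ≤ T i) →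
    (∀ i j, j < T i → sz (a i j) ≤ ρ i) → C.Dom (fun i => (T i : ℝ) * ρ i) →
    R C (fun i => tab (T i) fun j => a i (π (par i, j))) → R C fun i => tab (T i) (a i)
  /-- enlarging the radix of a field, filling with the record `d` -/
  pad : ∀ {ι α : Type} [PEnc α] {C : Ctx ι} {H Q Q' S L : ι → ℕ} {a : ι → ℕ → α} {d : ι → α},
    C.PD (fun i => H i * Q' i * S i) L → SC C L (fun i => (H i, Q i, Q' i, S i)) →
    (∀ i, Q i ≤ Q' i) → R C d → C.Dom (fun i => ((H i * Q' i * S i : ℕ) : ℝ) * sz (d i)) →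
    R C (fun i => tab (H i * Q i * S i) (a i)) →
      R C fun i => tab (H i * Q' i * S i) fun j =>
        if fld (S i) (Q' i) j < Q i then a i (padI (S i) (Q' i) (Q i) j) else d i
  /-- the reverse operation -/
  unpad : ∀ {ι α : Type} [PEnc α] {C : Ctx ι} {H Q Q' S L : ι → ℕ} {a : ι → ℕ → α},
    C.PD (fun i => H i * Q' i * S i) L → SC C L (fun i => (H i, Q i, Q' i, S i)) →
    (∀ i, Q i ≤ Q' i) → R C (fun i => tab (H i * Q' i * S i) (a i)) →
      R C fun i => tab (H i * Q i * S i) fun j => a i (padI (S i) (Q i) (Q' i) j)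

/-! ### Exchanging two fields -/

/-- Exchange the digits of radix `Q` and weights `S₁` and `S₁ * Q * S₂`. -/
def swI (S₁ S₂ Q j : ℕ) : ℕ :=
  setF (S₁ * Q * S₂) Q (setF S₁ Q j (fld (S₁ * Q * S₂) Q j)) (fld S₁ Q j)

/-- Two fields of `u` bits are exchanged at cost `O(volume * u ^ tau)`. -/
def SwapSpec : Prop :=
  ∀ {ι : Type} {C : Ctx ι} {S₁ S₂ S₃ u ρ L : ι → ℕ} {a : ι → ℕ → List Bool},
    C.PD (fun i => S₃ i * 2 ^ u i * S₂ i * 2 ^ u i * S₁ i) L →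
    SC C L (fun i => (S₁ i, S₂ i, S₃ i, ρ i, Un.mk (u i))) →
    (∀ i j, j < S₃ i * 2 ^ u i * S₂ i * 2 ^ u i * S₁ i → (a i j).length = ρ i) →
    C.Dom (fun i => ((S₃ i * 2 ^ u i * S₂ i * 2 ^ u i * S₁ i : ℕ) : ℝ) * ρ i *
      ((u i : ℝ) + 1) ^ tau) →
    R C (fun i => tab (S₃ i * 2 ^ u i * S₂ i * 2 ^ u i * S₁ i) (a i)) →
      R C fun i => tab (S₃ i * 2 ^ u i * S₂ i * 2 ^ u i * S₁ i) fun j =>
        a i (swI (S₁ i) (S₂ i) (2 ^ u i) j)

/-! ### Adding selected bits of one field to those of another -/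

/-- Flip bit `oy + s * ℓ + jb` of `n` if bit `ox + s * ℓ + jb` is set, for all `s < u`. -/
def xshI (ox oy ℓ jb u n : ℕ) : ℕ :=
  n ^^^ ∑ s ∈ Finset.range u, (n.testBit (ox + s * ℓ + jb)).toNat * 2 ^ (oy + s * ℓ + jb)

/-- The bit ranges of length `len` starting at `a` and `b` are disjoint. -/
def Apart (len a b : ℕ) : Prop := a + len ≤ b ∨ b + len ≤ a

/-- The shear `xshI`, using a third field at offset `ot` as dirty workspace. -/
def XorSpec : Prop :=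
  ∀ {ι : Type} {C : Ctx ι} {n ℓ jb u ox oy ot ρ L : ι → ℕ} {a : ι → ℕ → List Bool},
    C.PD (fun i => 2 ^ n i) L →
    SC C L (fun i => (Un.mk (n i), ℓ i, jb i, u i, ox i, oy i, ot i, ρ i)) →
    (∀ i, jb i < ℓ i) → (∀ i, (n i + 2) ^ 4 ≤ 2 ^ (ℓ i / 4)) →
    (∀ i, ox i + u i * ℓ i ≤ n i ∧ oy i + u i * ℓ i ≤ n i ∧ ot i + u i * ℓ i ≤ n i) →
    (∀ i, Apart (u i * ℓ i) (ox i) (oy i) ∧ Apart (u i * ℓ i) (ox i) (ot i) ∧
      Apart (u i * ℓ i) (oy i) (ot i)) →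
    (∀ i j, j < 2 ^ n i → (a i j).length = ρ i) →
    C.Dom (fun i => (2 : ℝ) ^ n i * ρ i * ((u i : ℝ) * ℓ i + 1) ^ tau) →
    R C (fun i => tab (2 ^ n i) (a i)) →
      R C fun i => tab (2 ^ n i) fun j => a i (xshI (ox i) (oy i) (ℓ i) (jb i) (u i) j)

/-! ### A Walsh–Hadamard layer -/

/-- The butterfly on bit `p` of the index. -/
def hbit (p : ℕ) (a : ℕ → ℤ) (n : ℕ) : ℤ :=
  if n.testBit p then a (n ^^^ 2 ^ p) - a n else a n + a (n ^^^ 2 ^ p)

/-- Butterflies on the bits `s * ℓ + jb`, `s < k`. -/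
def wht (ℓ jb : ℕ) : ℕ → (ℕ → ℤ) → ℕ → ℤ
  | 0, a => a
  | k + 1, a => hbit (k * ℓ + jb) (wht ℓ jb k a)

/-- The layer costs `O(volume * (k * ℓ) ^ tau)`. -/
def WhtSpec : Prop :=
  ∀ {ι : Type} {C : Ctx ι} {n ℓ jb k w L : ι → ℕ} {a : ι → ℕ → ℤ},
    C.PD (fun i => 2 ^ n i) L → SC C L (fun i => (Un.mk (n i), ℓ i, jb i, k i, w i)) →
    (∀ i, jb i < ℓ i) → (∀ i, (n i + 2) ^ 4 ≤ 2 ^ (ℓ i / 4)) → (∀ i, k i * ℓ i ≤ n i) →
    C.Dom (fun i => (2 : ℝ) ^ n i * w i * ((k i : ℝ) * ℓ i + 1) ^ tau) →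
    R C (fun i => tab (2 ^ n i) fun j => ibits (w i) (a i j)) →
      R C fun i => tab (2 ^ n i) fun j => ibits (w i) (wht (ℓ i) (jb i) (k i) (a i) j)

/-! ### Fixed-point evaluation of the layers on all axes -/

/-- Product of complex fixed-point numbers with `P` fractional bits. -/
def cm (P : ℕ) (u v : ℤ × ℤ) : ℤ × ℤ :=
  ((u.1 * v.1 - u.2 * v.2) / 2 ^ P, (u.1 * v.2 + u.2 * v.1) / 2 ^ P)

/-- The coordinate of the index `j` on axis `i`. -/
def dg (ℓ j i : ℕ) : ℕ := j / 2 ^ (i * ℓ) % 2 ^ ℓ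

/-- The product over the first axes of the table entries `t axis position`. -/
def kd (P ℓ : ℕ) (t : ℕ → ℕ → ℤ × ℤ) : ℕ → ℕ → ℤ × ℤ
  | 0, _ => (2 ^ P, 0)
  | i + 1, j => cm P (t i (dg ℓ j i)) (kd P ℓ t i j)

/-- One layer on all `d` axes. -/
def fxStep (P ℓ d : ℕ) (o : Option ℕ) (t : ℕ → ℕ → ℤ × ℤ) (a : ℕ → ℤ × ℤ) (j : ℕ) : ℤ × ℤ :=
  match o with
  | some jb => (wht ℓ jb d (fun n => (a n).1) j, wht ℓ jb d (fun n => (a n).2) j)
  | none => cm P (kd P ℓ t d j) (a j)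

/-- The first layers; `tb layer axis position`. -/
def fxRun (P ℓ d : ℕ) (sc : ℕ → Option ℕ) (tb : ℕ → ℕ → ℕ → ℤ × ℤ) (a : ℕ → ℤ × ℤ) :
    ℕ → ℕ → ℤ × ℤ
  | 0 => a
  | l + 1 => fxStep P ℓ d (sc l) (tb l) (fxRun P ℓ d sc tb a l)

/-- The record of a complex fixed-point number. -/
def crec (w : ℕ) (z : ℤ × ℤ) : List Bool × List Bool := (ibits w z.1, ibits w z.2)

/-- Both parts are below `2 ^ w` in absolute value. -/
def Fits (w : ℕ) (z : ℤ × ℤ) : Prop := |z.1| < 2 ^ w ∧ |z.2| < 2 ^ w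

/-- No overflow occurs during a run of `len` layers. -/
def RunFits (w P ℓ d len : ℕ) (sc : ℕ → Option ℕ) (tb : ℕ → ℕ → ℕ → ℤ × ℤ) (a : ℕ → ℤ × ℤ) :
    Prop :=
  (∀ l i x, l < len → i < d → x < 2 ^ ℓ → Fits w (tb l i x)) ∧
  (∀ l i j, l < len → i ≤ d → Fits w (kd P ℓ (tb l) i j)) ∧
  ∀ l j, l ≤ len → j < 2 ^ (d * ℓ) → Fits w (fxRun P ℓ d sc tb a l j)

/-- The machine evaluates pointwise products and runs of layers. -/
structure FxTapeSpec : Prop where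
  mul : ∀ {ι : Type} {C : Ctx ι} {T P w : ι → ℕ} {u v : ι → ℕ → ℤ × ℤ},
    R C (fun i => Un.mk (P i)) → (∀ i, P i ≤ w i) →
    (∀ i j, j < T i → Fits (w i) (u i j) ∧ Fits (w i) (v i j)) →
    C.Dom (fun i => ((T i : ℝ) + 1) * (w i + 1) * (Nat.log 2 (w i) + 2) ^ 10) →
    R C (fun i => tab (T i) fun j => crec (w i + 1) (u i j)) →
    R C (fun i => tab (T i) fun j => crec (w i + 1) (v i j)) →
      R C fun i => tab (T i) fun j => crec (w i + 1) (cm (P i) (u i j) (v i j))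
  run : ∀ {ι : Type} {C : Ctx ι} {P ℓ d len w L : ι → ℕ} {sc : ι → ℕ → Option ℕ}
    {tb : ι → ℕ → ℕ → ℕ → ℤ × ℤ} {a : ι → ℕ → ℤ × ℤ},
    C.PD (fun i => 2 ^ (d i * ℓ i)) L →
    SC C L (fun i => (Un.mk (d i * ℓ i), ℓ i, d i, P i, w i, Un.mk (len i))) →
    (∀ i, 1 ≤ d i) → (∀ i, (d i * ℓ i + 2) ^ 4 ≤ 2 ^ (ℓ i / 4)) → (∀ i, P i ≤ w i) →
    (∀ i l jb, sc i l = some jb → jb < ℓ i) →
    (∀ i, RunFits (w i) (P i) (ℓ i) (d i) (len i) (sc i) (tb i) (a i)) →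
    C.Dom (fun i => (2 : ℝ) ^ (d i * ℓ i) * (len i + 1) * (w i + 1) *
      (((d i : ℝ) * ℓ i + 1) ^ tau + (Nat.log 2 (w i) + 2) ^ 10)) →
    R C (fun i => tab (len i) fun l => (sc i l, tab (d i) fun ax => tab (2 ^ ℓ i) fun x =>
      crec (w i + 1) (tb i l ax x))) →
    R C (fun i => tab (2 ^ (d i * ℓ i)) fun j => crec (w i + 1) (a i j)) →
      R C fun i => tab (2 ^ (d i * ℓ i)) fun j =>
        crec (w i + 1) (fxRun (P i) (ℓ i) (d i) (sc i) (tb i) (a i) (len i) j)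

/-- All coordinates of `j` are below the lengths `q`. -/
def Valid (ℓ d : ℕ) (q : ℕ → ℕ) (j : ℕ) : Prop := ∀ i, i < d → dg ℓ j i < q i

open Classical in
/-- The cyclic convolution over the product of the groups `ZMod (q i)`. -/
noncomputable def cconv (ℓ d : ℕ) (q : ℕ → ℕ) (x y : ℕ → ℕ) (j : ℕ) : ℕ :=
  if Valid ℓ d q j then
    ∑ j₁ ∈ Finset.range (2 ^ (d * ℓ)), ∑ j₂ ∈ Finset.range (2 ^ (d * ℓ)),
      if Valid ℓ d q j₁ ∧ Valid ℓ d q j₂ ∧
        ∀ i, i < d → (dg ℓ j₁ i + dg ℓ j₂ i) % q i = dg ℓ j i then x j₁ * y j₂ else 0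
  else 0

/-- Error analysis: transform both arrays, multiply, transform back, round. -/
def FxMathSpec : Prop :=
  ∀ (ℓ d b B len g P w : ℕ) (q : ℕ → ℕ) (sc : ℕ → Option ℕ) (tb : Bool → ℕ → ℕ → ℕ → ℂ)
    (Tb : Bool → ℕ → ℕ → ℕ → ℤ × ℤ) (x y : ℕ → ℕ),
    (∀ i, i < d → 0 < q i ∧ q i ≤ 2 ^ ℓ) → (∀ l jb, sc l = some jb → jb < ℓ) →
    (∀ inv i, i < d → layersM ℓ sc (fun l => tb inv l i) len = dftM ℓ (q i) inv) →
    (∀ inv l i p, l < len → i < d → p < 2 ^ ℓ → ‖tb inv l i p‖ ≤ 2 ^ B ∧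
      ‖((Tb inv l i p).1 : ℂ) + ((Tb inv l i p).2 : ℂ) * Complex.I - 2 ^ P * tb inv l i p‖ ≤ 2) →
    (∀ j, x j < 2 ^ b ∧ y j < 2 ^ b) →
    4 * (len + 1) * (B + 2) * (d + 1) ≤ g → 2 * b + 8 * g ≤ P → P + 2 * b + 4 * g ≤ w →
    let x₀ : ℕ → ℤ × ℤ := fun j => (2 ^ P * x j, 0)
    let y₀ : ℕ → ℤ × ℤ := fun j => (2 ^ P * y j, 0)
    let z₀ : ℕ → ℤ × ℤ := fun j =>
      cm P (fxRun P ℓ d sc (Tb false) x₀ len j) (fxRun P ℓ d sc (Tb false) y₀ len j)
    RunFits w P ℓ d len sc (Tb false) x₀ ∧ RunFits w P ℓ d len sc (Tb false) y₀ ∧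
      RunFits w P ℓ d len sc (Tb true) z₀ ∧
      ∀ j, j < 2 ^ (d * ℓ) →
        ((fxRun P ℓ d sc (Tb true) z₀ len j).1 + 2 ^ (P - 1)) / 2 ^ P = cconv ℓ d q x y j

/-! ### Chinese remainder coordinates -/

/-- An additive bijection `ix` from `ZMod (∏ q)` to the valid positions, realised by the machine
at cost `O(volume * d * ℓ ^ tau)`. -/
def CrtSpec : Prop :=
  ∃ ix : ℕ → List ℕ → ℕ → ℕ,
    (∀ ℓ (qs : List ℕ), qs.Pairwise Nat.Coprime → (∀ q ∈ qs, 0 < q ∧ q ≤ 2 ^ ℓ) →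
      (∀ k, k < qs.prod → ix ℓ qs k < 2 ^ (qs.length * ℓ) ∧
        Valid ℓ qs.length (qs.getD · 1) (ix ℓ qs k)) ∧
      (∀ k k', k < qs.prod → k' < qs.prod → ix ℓ qs k = ix ℓ qs k' → k = k') ∧
      (∀ j, j < 2 ^ (qs.length * ℓ) → Valid ℓ qs.length (qs.getD · 1) j →
        ∃ k, k < qs.prod ∧ ix ℓ qs k = j) ∧
      ∀ k k' i, k < qs.prod → k' < qs.prod → i < qs.length →
        dg ℓ (ix ℓ qs ((k + k') % qs.prod)) i =
          (dg ℓ (ix ℓ qs k) i + dg ℓ (ix ℓ qs k') i) % qs.getD i 1) ∧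
    ∀ {ι : Type} {C : Ctx ι} {ℓ ρ L : ι → ℕ} {qs : ι → List ℕ} {a : ι → ℕ → List Bool},
      C.PD (fun i => 2 ^ ((qs i).length * ℓ i)) L →
      SC C L (fun i => (Un.mk (ℓ i), qs i, ρ i)) →
      (∀ i, (qs i).Pairwise Nat.Coprime) → (∀ i, ∀ q ∈ qs i, 0 < q ∧ q ≤ 2 ^ ℓ i) →
      (∀ i j, j < 2 ^ ((qs i).length * ℓ i) → (a i j).length = ρ i) →
      C.Dom (fun i => (2 : ℝ) ^ ((qs i).length * ℓ i) * (ρ i + 1) * ((qs i).length + 1) *
        ((ℓ i : ℝ) + 1) ^ tau) →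
      ((R C (fun i => tab (2 ^ ((qs i).length * ℓ i)) (a i)) →
        R C fun i => tab (qs i).prod fun k => a i (ix (ℓ i) (qs i) k)) ∧
      ((∀ i j, j < 2 ^ ((qs i).length * ℓ i) →
          ¬ Valid (ℓ i) (qs i).length ((qs i).getD · 1) j → a i j = List.replicate (ρ i) false) →
        R C (fun i => tab (qs i).prod fun k => a i (ix (ℓ i) (qs i) k)) →
          R C fun i => tab (2 ^ ((qs i).length * ℓ i)) (a i)))

end Crest.Agent.R326
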