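import Crest.Agent.R326.SwapStep

/-!
# The recursive exchange of two fields
-/

set_option linter.unusedVariables false
set_option linter.unusedSectionVars false

namespace Crest.Agent.R326.Swap

open Function
open Crest.Agent.Lib.PolyTime

variable {ι : Type} {C : Ctx ι} {q m W : ℕ} [NeZero q]

/-- The program exchanges the two halves. -/
def Sem (N₀ : ℕ) (prog : List (SInstr W (m + m))) : Prop :=
  ∀ (Q : ℕ) [NeZero Q], Q.Coprime N₀ → ∀ (N : Type) [AddCommGroup N] [Module (ZMod 2) N]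
    (x : Fin W → (Fin (m + m) → ZMod Q) → N),
    prog.foldl (fun y s => s.run Q y) x = fun w y => x w (y ∘ halfSwap m)

/-- A piece of a record. -/
def piece (ρ w : ℕ) (r : List Bool) : List Bool := tab ρ fun k => r.getD (w * ρ + k) false

theorem piece_eq {ρ w : ℕ} {r : List Bool} (h : (w + 1) * ρ ≤ r.length + W) :
    piece ρ w r = ((r ++ List.replicate W false).drop (w * ρ)).take ρ := by
  rw [Nat.succ_mul] at h
  apply List.ext_getElem
  · simp [piece]; omega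
  · intro k h1 h2
    simp only [piece, getElem_tab, List.getElem_take, List.getElem_drop, List.getElem_append]
    split_ifs with hk
    · simp [hk]
    · simp [List.getD_eq_getElem?_getD, List.getElem?_eq_none (not_lt.1 hk)]

theorem take_flatten_piece {ρ : ℕ} {r : List Bool} (h : r.length ≤ W * ρ) :
    (List.ofFn fun w : Fin W => piece ρ w r).flatten.take r.length = r := by
  rw [ofFn_eq_map_range W fun w => piece ρ w r]
  have := flatten_tab W ρ fun w k => r.getD (w * ρ + k) false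
  simp only [Nat.div_add_mod'] at this
  rw [show (List.range W).map (fun w => piece ρ w r) =
    tab W fun c => tab ρ fun k => r.getD (c * ρ + k) false from rfl, this]
  apply List.ext_getElem
  · simp; omega
  · intro k h1 h2
    simp [h2]

open Classical in
/-- The wires given by an array of records. -/
noncomputable def wire₀ (q m W : ℕ) (p : Par) (b : ℕ → List Bool) : Fin W → Wire q m p :=
  fun w y z k =>
    if h : ∃ j, dig m p.1 p.2.1 (pQ q p) j = y ∧ spc m p.1 p.2.1 (pQ q p) j = z then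
      ofB ((b h.choose).getD (w * p.2.2.2.1 + k) false) else 0

theorem code_wire₀ (p : Par) (b : ℕ → List Bool) (w : Fin W) (j : ℕ) :
    code p.2.2.2.1 (wire₀ q m W p b w (dig m p.1 p.2.1 (pQ q p) j) (spc m p.1 p.2.1 (pQ q p) j)) =
      piece p.2.2.2.1 w (b j) := by
  refine tab_congr fun k _ => ?_
  have h : ∃ j', dig m p.1 p.2.1 (pQ q p) j' = dig m p.1 p.2.1 (pQ q p) j ∧
    spc m p.1 p.2.1 (pQ q p) j' = spc m p.1 p.2.1 (pQ q p) j := ⟨j, rfl, rfl⟩
  rw [wire₀, dif_pos h, toB_ofB, dig_spc_inj (pQ_pos p) h.choose_spec.1 h.choose_spec.2]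

/-- Exchange of two fields of `m` digits, using exchanges of single digits of shorter records. -/
theorem halves (hp : PermSpec) {par : ι → Par} {L : ι → ℕ} {ok : ι → V → V → Prop}
    (hg : Good q m C par L) (hok : Calls q m par ok) {N₀ : ℕ} (hN : 0 < N₀) (hq : N₀.Coprime q)
    {prog : List (SInstr W (m + m))} (hi : ∀ s ∈ prog, s.ok N₀) (hsem : Sem N₀ prog) (hW : 0 < W)
    {ρ : ι → ℕ} {b : ι → ℕ → List Bool} (hρ : R C fun i => Un.mk (ρ i))
    (hρ' : R C fun i => Un.mk (par i).2.2.2.1) (h₁ : ∀ i, ρ i ≤ W * (par i).2.2.2.1)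
    (h₂ : ∀ i, W * (par i).2.2.2.1 ≤ ρ i + W) (hb : ∀ i j, (b i j).length = ρ i)
    (h : R C fun i => tab (pT q m (par i)) (b i)) :
    J C ok (fun _ => ((prog.map SInstr.cnt).sum : ℕ)) fun i => tab (pT q m (par i)) fun j =>
      b i (swI (par i).1 (par i).2.1 (pQ q (par i) ^ m) j) := by
  have := h.isOk
  have hv : ∀ (K : ℕ) {n : ι → ℕ}, (∀ i, n i ≤ K * (par i).2.2.2.1) →
      C.Dom fun i => (pT q m (par i) : ℝ) * sz (Un.mk (n i)) := fun K n hn =>
    ((hg.vol.smul (K := 2 * K) (by positivity)).add hg.pd.dom_T).mono fun i => by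
      have : (n i : ℝ) ≤ K * (par i).2.2.2.1 := by exact_mod_cast hn i
      have := mul_le_mul_of_nonneg_left this (show (0 : ℝ) ≤ pT q m (par i) by positivity)
      rw [sz_un]; push_cast
      linarith
  have h0 : R C fun i => st q m (par i) (wire₀ q m W (par i) (b i)) := by
    refine hg.sc.r.pair (R.ofFn fun w => ?_)
    refine (R.tabMap (b := fun i j => piece (par i).2.2.2.1 w (b i j)) hρ' h
      (hv 1 fun i => by simp) fun hu ha => ?_).congr fun i => tab_congr fun j _ => code_wire₀ ..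
    have := hu.isOk
    refine (R.take hu (R.drop (R.unConstMul w hu) (ha.hAppend
      (R.const (List.replicate W false))))).congr fun p => piece_eq ?_
    rw [hb]
    exact (Nat.mul_le_mul_right _ w.2).trans (h₂ _)
  have h1 := runProg hp hok hN hq prog hi hg h0
  refine (JS.pair_l hρ h1).post_r fun h2 => ?_
  have h3 : ∀ w : Fin W, R (C.re fun i => (Un.mk (ρ i), st q m (par i) (prog.foldl
      (fun y s => s.run (pQ q (par i)) y) (wire₀ q m W (par i) (b i))))) fun i =>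
      tab (pT q m (par i)) fun j => piece (par i).2.2.2.1 w
        (b i (swI (par i).1 (par i).2.1 (pQ q (par i) ^ m) j)) := fun w => by
    refine (h2.snd.snd.ofFn_get w).congr fun i => tab_congr fun j _ => ?_
    rw [hsem (pQ q (par i)) (hq.symm.pow_left _), ent]
    beta_reduce
    rw [← dig_swI (hg.p₁ i) (hg.p₂ i) (pQ_pos _), ← spc_swI (hg.p₁ i) (hg.p₂ i) (pQ_pos _), code_wire₀]
  have h4 := tabOfFn (h3 ⟨0, hW⟩) h3
  refine R.tabMap h2.fst h4 (hv W h₁) fun hu ha => (R.take hu ha.flatten).congr fun p => ?_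
  rw [← hb p.1]
  exact (take_flatten_piece (by rw [hb]; exact h₁ _)).symm

/-! ### The recursion -/

/-- Instances of the recursive routine. -/
structure Ix (q : ℕ) where
  S₁ : ℕ
  S₂ : ℕ
  S₃ : ℕ
  ρ : ℕ
  e : ℕ
  L : ℕ
  T : ℕ
  a : ℕ → List Bool
  hT : S₃ * q ^ e * S₂ * q ^ e * S₁ = T
  T_pos : 0 < T
  T_lt : T < 2 ^ L
  ρ_lt : ρ < 2 ^ L
  e_le : e ≤ L
  len : ∀ j, (a j).length = ρ

namespace Ix

/-- The parameters. -/
def par (i : Ix q) : Par := (i.S₁, i.S₂, i.S₃, i.ρ, ⟨i.e⟩)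

/-- The input. -/
def inp (i : Ix q) : Par × List (List Bool) := (i.par, tab i.T i.a)

/-- The output. -/
def out (i : Ix q) : List (List Bool) := tab i.T fun j => i.a (swI i.S₁ i.S₂ (q ^ i.e) j)

theorem pos (i : Ix q) : 0 < i.S₁ ∧ 0 < i.S₂ ∧ 0 < i.S₃ ∧ 0 < q ^ i.e :=
  five_pos (i.hT ▸ i.T_pos)

theorem sm_T : Sm Ix.L fun i : Ix q => sz i.T := Sm.self.sz_of_lt_two_pow T_lt

theorem sm_par : Sm Ix.L fun i : Ix q => sz i.par := by
  have h : ∀ {g : Ix q → ℕ}, (∀ i, g i ∣ i.T) → Sm Ix.L fun i => sz (g i) := fun hg =>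
    sm_T.sz_of_le fun i => Nat.le_of_dvd i.T_pos (hg i)
  refine (h fun i => ?_).pair ((h fun i => ?_).pair ((h fun i => ?_).pair
    ((Sm.self.sz_of_lt_two_pow ρ_lt).pair (Sm.self.mono e_le).sz_un)))
  · exact ⟨i.S₃ * q ^ i.e * i.S₂ * q ^ i.e, by rw [← i.hT]; ring⟩
  · exact ⟨i.S₃ * q ^ i.e * q ^ i.e * i.S₁, by rw [← i.hT]; ring⟩
  · exact ⟨q ^ i.e * i.S₂ * q ^ i.e * i.S₁, by rw [← i.hT]; ring⟩

/-- The recursive calls. -/
def sub (m W : ℕ) (i j : Ix q) : Prop :=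
  m ≤ i.e ∧ j.T = i.T ∧ j.L = i.L ∧ j.e = i.e / m ∧ j.ρ = (i.ρ + (W - 1)) / W

/-- The context of the body. -/
noncomputable def ctx (q : ℕ) : Ctx (Ix q) :=
  Ctx.of Ix.inp fun c i => (i.T + 1) * (i.ρ + (i.L + 2) ^ c)

theorem pd : (ctx q).PD Ix.T Ix.L := fun c => (Ctx.dom_of _ c).mono fun i => by
  push_cast
  have : (0 : ℝ) ≤ (i.T + 1) * i.ρ := by positivity
  linarith

theorem vol : (ctx q).Dom fun i => (i.T : ℝ) * i.ρ := (Ctx.dom_of _ 0).mono fun i => by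
  have : (0 : ℝ) ≤ i.T := by positivity
  have : (0 : ℝ) ≤ i.ρ := by positivity
  simp only [pow_zero]
  linarith

theorem r_inp : R (ctx q) Ix.inp := by
  refine (R.inp ⟨?_⟩).of_enc fun _ => rfl
  refine (((pd.dom₁ sm_par).add (vol.smul (K := 4) (by norm_num))).add
    (pd.dom (Sm.const 2))).mono fun i => ?_
  have := sz_tab_le (T := i.T) (a := i.a) (B := 4 * i.ρ + 1) fun k _ => by
    rw [← i.len k]; exact sz_listBool_le _
  have : (sz (tab i.T i.a) : ℝ) ≤ i.T * (4 * i.ρ + 1 + 1) + 1 := by exact_mod_cast this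
  change ((sz i.par + sz (tab i.T i.a) + 1 : ℕ) : ℝ) ≤ _
  push_cast
  linarith

end Ix

theorem ceil_le {ρ : ℕ} (hW : 0 < W) : (ρ + (W - 1)) / W ≤ ρ := by
  rw [Nat.div_le_iff_le_mul_add_pred hW]
  have : ρ ≤ W * ρ := Nat.le_mul_of_pos_left _ hW
  omega

theorem le_mul_ceil {ρ : ℕ} (hW : 0 < W) : ρ ≤ W * ((ρ + (W - 1)) / W) := by
  have := Nat.div_add_mod (ρ + (W - 1)) W
  have := Nat.mod_lt (ρ + (W - 1)) hW
  omega

theorem mul_ceil_le {ρ : ℕ} : W * ((ρ + (W - 1)) / W) ≤ ρ + W := by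
  have := Nat.mul_div_le (ρ + (W - 1)) W
  omega

theorem body (hp : PermSpec) {N₀ : ℕ} (hN : 0 < N₀) (hq : N₀.Coprime q)
    {prog : List (SInstr W (m + m))} (hi : ∀ s ∈ prog, s.ok N₀) (hsem : Sem N₀ prog) (hW : 0 < W)
    (hm : 0 < m) :
    J (Ix.ctx q) (fun i v w => ∃ j, Ix.sub m W i j ∧ v = (Ix.ctx q).inp j ∧ w = enc j.out)
      (fun i => if i.e < m then 0 else ((prog.map SInstr.cnt).sum : ℕ)) Ix.out := by
  have h0 := Ix.r_inp (q := q)
  have hq0 : 0 < q := Nat.pos_of_neZero q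
  have hpar : SC (Ix.ctx q) Ix.L Ix.par := ⟨h0.fst, Ix.sm_par⟩
  have hE : ∀ i : Ix q, q ^ i.e = (q ^ (i.e / m)) ^ m * q ^ (i.e % m) := fun i => by
    rw [← pow_mul, ← pow_add, Nat.div_add_mod']
  have h1 := swapBdd hp (a := Ix.a) (S₁ := fun i => i.S₁ * (q ^ (i.e / m)) ^ m)
    (S₂ := fun i => i.S₂ * (q ^ (i.e / m)) ^ m) (S₃ := Ix.S₃) (B := fun i => q ^ (i.e % m))
    (q ^ m) (fun i => by rw [← i.hT, hE]; ring) Ix.pd Ix.sm_T
    (hpar.poly Ix.pd (f := fun p => (p.1 * (q ^ (p.2.2.2.2.n / m)) ^ m,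
      p.2.1 * (q ^ (p.2.2.2.2.n / m)) ^ m, q ^ (p.2.2.2.2.n % m))) (by fun_prop))
    (fun i => Nat.pow_le_pow_right hq0 (Nat.mod_lt _ hm).le) h0.snd
  refine JS.cond (c := fun i => decide (i.e < m))
    (hpar.poly Ix.pd (f := fun p => decide (p.2.2.2.2.n < m)) (by fun_prop)).r ?_ ?_
  · refine (((h1.comap _).congr fun i => ?_).js _ _).mono (fun _ _ _ h => h) fun i => ?_
    · have he : i.1.e < m := by simpa using i.2
      simp [Ix.out, Nat.div_eq_of_lt he, Nat.mod_eq_of_lt he]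
    · split_ifs <;> positivity
  · set φ := (Subtype.val : {i : Ix q // decide (i.e < m) = false} → Ix q) with hφ
    have he : ∀ i, m ≤ (φ i).e := fun i => by simpa using i.2
    set par : {i : Ix q // decide (i.e < m) = false} → Par := fun i => ((φ i).S₁,
      q ^ ((φ i).e % m) * (φ i).S₂, q ^ ((φ i).e % m) * (φ i).S₃, ((φ i).ρ + (W - 1)) / W,
      ⟨(φ i).e / m⟩) with hpar'
    have hT : ∀ i, pT q m (par i) = (φ i).T := fun i => by
      rw [← (φ i).hT, hE]; simp only [hpar', pT, pQ]; ring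
    have hpd := Ix.pd.comap φ
    have hvol := Ix.vol.comap φ
    have hρ : ∀ {n : {i : Ix q // decide (i.e < m) = false} → ℕ}, (∀ i, n i ≤ (φ i).ρ) →
        ((Ix.ctx q).comap φ).Dom fun i => n i := fun hn => hvol.mono fun i => by
      have : (1 : ℝ) ≤ (φ i).T := by exact_mod_cast (φ i).T_pos
      have h' : (_ : ℝ) ≤ (φ i).ρ := Nat.cast_le.2 (hn i)
      nlinarith [(by positivity : (0 : ℝ) ≤ (φ i).ρ)]
    have hg : Good q m ((Ix.ctx q).comap φ) par fun i => (φ i).L :=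
      ⟨by simpa only [hT] using hpd, (hpar.comap φ).poly hpd (f := fun p => ((p.1,
        q ^ (p.2.2.2.2.n % m) * p.2.1, q ^ (p.2.2.2.2.n % m) * p.2.2.1, (p.2.2.2.1 + (W - 1)) / W,
        ⟨p.2.2.2.2.n / m⟩) : Par)) (by fun_prop), fun i => (φ i).pos.1,
        fun i => Nat.mul_pos (by positivity) (φ i).pos.2.1, hvol.mono fun i => by
          rw [hT]
          exact mul_le_mul_of_nonneg_left (Nat.cast_le.2 (ceil_le hW)) (by positivity)⟩
    have h2 := halves hp hg (ok := fun i v w => ∃ j, Ix.sub m W (φ i) j ∧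
        v = (Ix.ctx q).inp j ∧ w = enc j.out) (fun i S₁ S₂ S₃ b hS hb =>
      ⟨⟨S₁, S₂, S₃, _, (φ i).e / m, (φ i).L, pT q m (par i), b, hS, hT i ▸ (φ i).T_pos,
        hT i ▸ (φ i).T_lt, (ceil_le hW).trans_lt (φ i).ρ_lt,
        (Nat.div_le_self _ _).trans (φ i).e_le, hb⟩, ⟨he i, hT i, rfl, rfl, rfl⟩, rfl, rfl⟩)
      hN hq hi hsem hW (ρ := fun i => (φ i).ρ)
      (((hpar.comap φ).r.snd.snd.snd.fst).toUn (hρ fun _ => le_rfl))
      (hg.sc.r.snd.snd.snd.fst.toUn (hρ fun _ => ceil_le hW)) (fun _ => le_mul_ceil hW)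
      (fun _ => mul_ceil_le) (fun i j => (φ i).len _) (by simpa only [hT] using h1.comap φ)
    refine (h2.congr fun i => ?_).mono (fun _ _ _ h => h) fun i => by rw [if_neg (he i).not_gt]
    rw [hT]
    refine tab_congr fun j _ => ?_
    rw [hE, swI_mul (φ i).pos.1 (φ i).pos.2.1 (by positivity) (by positivity)]
    rfl

/-- The potential of the recursion. -/
theorem potential {τ δ K Λ Rc ρ ρ' : ℝ} {d e : ℕ} (hτ : 0 ≤ τ) (hτ' : τ ≤ 1) (hδ : 0 < δ)
    (hK : 0 ≤ K) (hΛ : 1 ≤ Λ) (hR : 0 ≤ Rc) (hW : 0 < W) (hR' : Rc ≤ W * ((m : ℝ) ^ τ - δ))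
    (hd : Rc + 1 ≤ (m : ℝ) ^ d) (hd' : 1 ≤ d) (hρ : 0 ≤ ρ) (hρ' : W * ρ' ≤ ρ + W)
    (hm : 0 < m) (he : m ≤ e) :
    K * (ρ + Λ) + Rc * ((K / δ + K) * ρ' * ((max (e / m) 1 : ℕ) : ℝ) ^ τ +
      (K + (K / δ + K) * Rc) * Λ * ((max (e / m) 1 : ℕ) : ℝ) ^ d) ≤
      (K / δ + K) * ρ * ((max e 1 : ℕ) : ℝ) ^ τ +
        (K + (K / δ + K) * Rc) * Λ * ((max e 1 : ℕ) : ℝ) ^ d := by
  have h1 : 1 ≤ e / m := Nat.div_pos he hm
  rw [max_eq_left h1, max_eq_left (by omega : 1 ≤ e)]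
  have h2 : (m : ℝ) * (e / m : ℕ) ≤ e := by exact_mod_cast Nat.mul_div_le e m
  have h3 : (1 : ℝ) ≤ (e / m : ℕ) := by exact_mod_cast h1
  generalize ((e / m : ℕ) : ℝ) = u at *
  have hW' : (0 : ℝ) < W := by exact_mod_cast hW
  have a1 : (m : ℝ) ^ τ * u ^ τ ≤ (e : ℝ) ^ τ := by
    rw [← Real.mul_rpow (by positivity) (by positivity)]
    exact Real.rpow_le_rpow (by positivity) h2 hτ
  have a2 : (m : ℝ) ^ d * u ^ d ≤ (e : ℝ) ^ d := by
    rw [← mul_pow]; exact pow_le_pow_left₀ (by positivity) h2 d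
  have a3 : 1 ≤ u ^ τ := Real.one_le_rpow h3 hτ
  have a4 : u ^ τ ≤ u ^ d := by
    rw [← Real.rpow_natCast]
    exact Real.rpow_le_rpow_of_exponent_le h3 (hτ'.trans (by exact_mod_cast hd'))
  set A := K / δ + K with hA
  have hA0 : 0 ≤ A := by positivity
  have hAδ : K ≤ A * δ := by
    rw [hA, add_mul, div_mul_cancel₀ _ hδ.ne']; nlinarith
  have b1 : Rc * ρ' ≤ ((m : ℝ) ^ τ - δ) * ρ + Rc := by
    have : W * (Rc * ρ') ≤ W * (((m : ℝ) ^ τ - δ) * ρ + Rc) := by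
      have := mul_le_mul_of_nonneg_left hρ' hR
      have := mul_le_mul_of_nonneg_right hR' hρ
      linarith
    exact le_of_mul_le_mul_left this hW'
  generalize u ^ τ = x at *
  generalize u ^ d = y at *
  generalize (m : ℝ) ^ τ = M at *
  generalize (m : ℝ) ^ d = M' at *
  have c1 := mul_le_mul_of_nonneg_left b1 (show 0 ≤ A * x by positivity)
  have c2 := mul_le_mul_of_nonneg_left a1 (show 0 ≤ A * ρ by positivity)
  have c3 : K * ρ ≤ A * δ * x * ρ := mul_le_mul_of_nonneg_right (by nlinarith) hρ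
  have c4 : (Rc + 1) * y ≤ (e : ℝ) ^ d :=
    (mul_le_mul_of_nonneg_right hd (by linarith)).trans a2
  have c5 := mul_le_mul_of_nonneg_left c4 (show 0 ≤ (K + A * Rc) * Λ by positivity)
  have c6 : K * Λ * 1 ≤ K * Λ * y := mul_le_mul_of_nonneg_left (by linarith) (by positivity)
  have c7 : A * Rc * x ≤ A * Rc * (Λ * y) :=
    mul_le_mul_of_nonneg_left (by nlinarith) (by positivity)
  linarith

theorem key (hp : PermSpec) {N₀ : ℕ} (hN : 0 < N₀) (hq : N₀.Coprime q)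
    {prog : List (SInstr W (m + m))} (hi : ∀ s ∈ prog, s.ok N₀) (hsem : Sem N₀ prog) (hW : 0 < W)
    (hm : 2 ≤ m) {τ δ : ℝ} (hτ : 0 ≤ τ) (hτ' : τ ≤ 1) (hδ : 0 < δ)
    (hR : (((prog.map SInstr.cnt).sum : ℕ) : ℝ) ≤ W * ((m : ℝ) ^ τ - δ)) :
    R (Ctx.of (Ix.inp (q := q)) fun c i => (i.T + 1) * (i.ρ * ((i.e : ℝ) + 1) ^ τ + (i.L + 2) ^ c))
      Ix.out := by
  refine J.knot Ix.e (fun i j h => by
    rw [h.2.2.2.1]; exact Nat.div_lt_self (by have := h.1; omega) hm)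
    (body hp hN hq hi hsem hW (by omega)) _ (fun _ => rfl) fun G hG => ?_
  obtain ⟨c, K, hK, hG⟩ := Ctx.dom_of_elim (fun _ _ => by positivity) (fun c i => by
    have : ((i.L : ℝ) + 2) ^ c ≤ (i.L + 2) ^ (c + 1) :=
      pow_le_pow_right₀ (by linarith [(by positivity : (0 : ℝ) ≤ i.L)]) (by omega)
    gcongr) hG
  generalize (prog.map SInstr.cnt).sum = Rc at *
  have hd : (Rc : ℝ) + 1 ≤ (m : ℝ) ^ (Rc + 1) := by
    exact_mod_cast (Nat.lt_pow_self hm).le
  set Φ : ℕ → ℕ → ℕ → ℕ → ℝ := fun T L e ρ => (T + 1) * ((K / δ + K) * ρ *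
    ((max e 1 : ℕ) : ℝ) ^ τ + (K + (K / δ + K) * Rc) * (L + 2) ^ c *
      ((max e 1 : ℕ) : ℝ) ^ (Rc + 1)) with hΦ
  refine ⟨fun i => Φ i.T i.L i.e i.ρ, fun i => Φ i.T i.L (i.e / m) ((i.ρ + (W - 1)) / W),
    (Ctx.dom_of _ (c + (Rc + 1))).mono_mul (K / δ + K + (K + (K / δ + K) * Rc)) (by positivity)
      fun i => ?_, fun i => by positivity, fun i j h => ?_, fun i => ?_⟩
  · have h1 : ((max i.e 1 : ℕ) : ℝ) ^ τ ≤ ((i.e : ℝ) + 1) ^ τ :=
      Real.rpow_le_rpow (by positivity) (by exact_mod_cast (by omega)) hτ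
    have h2 : ((max i.e 1 : ℕ) : ℝ) ^ (Rc + 1) ≤ ((i.L : ℝ) + 2) ^ (Rc + 1) :=
      pow_le_pow_left₀ (by positivity) (by exact_mod_cast (by have := i.e_le; omega)) _
    simp only [hΦ]
    rw [mul_left_comm, pow_add _ c]
    refine mul_le_mul_of_nonneg_left ?_ (by positivity)
    have h3 := mul_le_mul_of_nonneg_left h1 (show 0 ≤ (K / δ + K) * i.ρ by positivity)
    have h4 := mul_le_mul_of_nonneg_left h2
      (show 0 ≤ (K + (K / δ + K) * Rc) * ((i.L : ℝ) + 2) ^ c by positivity)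
    have h5 : 0 ≤ (K / δ + K) * (((i.L : ℝ) + 2) ^ c * (i.L + 2) ^ (Rc + 1)) := by positivity
    have h6 : 0 ≤ (K + (K / δ + K) * Rc) * (i.ρ * ((i.e : ℝ) + 1) ^ τ) := by positivity
    linarith
  · obtain ⟨-, a1, a2, a3, a4⟩ := h
    simp only [a1, a2, a3, a4, le_refl]
  · have hΛ : (1 : ℝ) ≤ (i.L + 2) ^ c :=
      one_le_pow₀ (by linarith [(by positivity : (0 : ℝ) ≤ i.L)])
    have := hG i
    simp only [hΦ]
    split_ifs with he
    · have h0 : (1 : ℝ) ≤ (max i.e 1 : ℕ) := by exact_mod_cast le_max_right _ _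
      have h1 := Real.one_le_rpow h0 hτ
      have h2 := one_le_pow₀ h0 (n := Rc + 1)
      rw [zero_mul, add_zero]
      refine this.trans ?_
      rw [mul_left_comm]
      refine mul_le_mul_of_nonneg_left ?_ (by positivity)
      have h3 := mul_le_mul_of_nonneg_left h1 (show 0 ≤ (K / δ + K) * i.ρ by positivity)
      have h4 := mul_le_mul_of_nonneg_left h2
        (show 0 ≤ (K + (K / δ + K) * Rc) * ((i.L : ℝ) + 2) ^ c by positivity)
      have h5 : 0 ≤ K / δ * i.ρ := by positivity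
      have h6 : 0 ≤ (K / δ + K) * Rc * ((i.L : ℝ) + 2) ^ c := by positivity
      linarith
    · have h1 := mul_le_mul_of_nonneg_left (potential (ρ := i.ρ)
        (ρ' := ((i.ρ + (W - 1)) / W : ℕ)) hτ hτ' hδ hK hΛ (by positivity) hW hR hd (by omega)
        (by positivity) (by exact_mod_cast mul_ceil_le) (by omega) (not_lt.1 he))
        (show (0 : ℝ) ≤ i.T + 1 by positivity)
      linarith

theorem tau_bound : ((10 ^ 6 : ℕ) : ℝ) - 1 / 10 ^ 7 ≤ ((10 ^ 6 : ℕ) : ℝ) ^ tau := by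
  have h0 : (0 : ℝ) < ((10 ^ 6 : ℕ) : ℝ) := by positivity
  have h1 : Real.log ((10 ^ 6 : ℕ) : ℝ) ≤ 54 := by
    have := Real.log_le_sub_one_of_pos (show (0 : ℝ) < 10 by norm_num)
    rw [Nat.cast_pow, Real.log_pow]
    push_cast
    linarith
  have h2 := Real.add_one_le_exp (Real.log ((10 ^ 6 : ℕ) : ℝ) * -(1 / 2 ^ 50))
  rw [tau, sub_eq_add_neg 1, Real.rpow_add h0, Real.rpow_one, Real.rpow_def_of_pos h0]
  generalize Real.log _ = l at *
  generalize Real.exp _ = E at *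
  norm_num at *
  linarith

theorem padT (hp : PermSpec) {T T' H Q Q' S L : ι → ℕ} {a : ι → ℕ → List Bool}
    {d : ι → List Bool} (hT : ∀ i, T i = H i * Q i * S i) (hT' : ∀ i, T' i = H i * Q' i * S i)
    (hP : C.PD T' L) (hs : SC C L fun i => (H i, Q i, Q' i, S i)) (hQ : ∀ i, Q i ≤ Q' i)
    (hd : R C d) (hD : C.Dom fun i => (T' i : ℝ) * sz (d i)) (h : R C fun i => tab (T i) (a i)) :
    R C fun i => tab (T' i) fun j =>
      if fld (S i) (Q' i) j < Q i then a i (padI (S i) (Q' i) (Q i) j) else d i := by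
  obtain rfl : T = _ := funext hT
  obtain rfl : T' = _ := funext hT'
  exact hp.pad hP hs hQ hd hD h

theorem unpadT (hp : PermSpec) {T T' H Q Q' S L : ι → ℕ} {a : ι → ℕ → List Bool}
    (hT : ∀ i, T i = H i * Q i * S i) (hT' : ∀ i, T' i = H i * Q' i * S i)
    (hP : C.PD T' L) (hs : SC C L fun i => (H i, Q i, Q' i, S i)) (hQ : ∀ i, Q i ≤ Q' i)
    (h : R C fun i => tab (T' i) (a i)) :
    R C fun i => tab (T i) fun j => a i (padI (S i) (Q i) (Q' i) j) := by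
  obtain rfl : T = _ := funext hT
  obtain rfl : T' = _ := funext hT'
  exact hp.unpad hP hs hQ h

/-- The exchange for nonempty arrays all of whose records have the right length. -/
theorem swap_pos (hp : PermSpec) (hq : 2 ≤ q) {τ : ℝ} (hτ : 0 ≤ τ)
    (hkey : R (Ctx.of (Ix.inp (q := q))
      fun c i => (i.T + 1) * (i.ρ * ((i.e : ℝ) + 1) ^ τ + (i.L + 2) ^ c)) Ix.out)
    {S₁ S₂ S₃ u ρ L : ι → ℕ} {a : ι → ℕ → List Bool}
    (hP : C.PD (fun i => S₃ i * 2 ^ u i * S₂ i * 2 ^ u i * S₁ i) L)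
    (hs : SC C L fun i => (S₁ i, S₂ i, S₃ i, ρ i, Un.mk (u i)))
    (h0 : ∀ i, 0 < S₃ i * 2 ^ u i * S₂ i * 2 ^ u i * S₁ i) (ha : ∀ i j, (a i j).length = ρ i)
    (hD : C.Dom fun i => ((S₃ i * 2 ^ u i * S₂ i * 2 ^ u i * S₁ i : ℕ) : ℝ) * ρ i *
      ((u i : ℝ) + 1) ^ τ)
    (h : R C fun i => tab (S₃ i * 2 ^ u i * S₂ i * 2 ^ u i * S₁ i) (a i)) :
    R C fun i => tab (S₃ i * 2 ^ u i * S₂ i * 2 ^ u i * S₁ i) fun j =>
      a i (swI (S₁ i) (S₂ i) (2 ^ u i) j) := by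
  have := h.isOk
  set e : ι → ℕ := fun i => Nat.clog q (2 ^ u i) with he
  have e1 : ∀ i, 2 ^ u i ≤ q ^ e i := fun i => Nat.le_pow_clog hq _
  have e2 : ∀ i, q ^ e i ≤ q * 2 ^ u i := fun i => by
    rcases Nat.eq_zero_or_pos (u i) with h | h
    · simp [he, h]; omega
    · have h1 : 1 < 2 ^ u i := Nat.one_lt_two_pow h.ne'
      have h2 := Nat.pow_pred_clog_lt_self hq h1
      have h3 := Nat.clog_pos hq h1
      obtain ⟨k, hk⟩ : ∃ k, e i = k + 1 := ⟨e i - 1, by simp only [he]; omega⟩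
      change q ^ (e i).pred < _ at h2
      rw [hk] at h2 ⊢
      rw [pow_succ']
      exact Nat.mul_le_mul_left _ h2.le
  have e3 : ∀ i, e i ≤ u i := fun i => (Nat.clog_le_iff_le_pow hq).2 (Nat.pow_le_pow_left hq _)
  set T₀ : ι → ℕ := fun i => S₃ i * 2 ^ u i * S₂ i * 2 ^ u i * S₁ i with hT₀
  set T₁ : ι → ℕ := fun i => S₃ i * 2 ^ u i * S₂ i * q ^ e i * S₁ i with hT₁
  set T₂ : ι → ℕ := fun i => S₃ i * q ^ e i * S₂ i * q ^ e i * S₁ i with hT₂
  have t1 : ∀ i, T₁ i ≤ T₂ i := fun i => by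
    have := e1 i
    simp only [hT₁, hT₂]
    generalize q ^ e i = Q at *
    gcongr
  have t2 : ∀ i, T₂ i ≤ q * q * T₀ i := fun i => by
    calc _ ≤ S₃ i * (q * 2 ^ u i) * S₂ i * (q * 2 ^ u i) * S₁ i := by
          have := e2 i
          simp only [hT₂]
          generalize q ^ e i = Q at *
          gcongr
      _ = _ := by simp only [hT₀]; ring
  have hP₂ : C.PD T₂ L := hP.mono (Sm.const (q * q)) (fun i => (t2 i).trans (by nlinarith)) Sm.self
  have hP₁ := hP₂.of_le t1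
  have hs' : SC C L fun i => ((S₁ i, S₂ i, S₃ i, ρ i, Un.mk (e i)) : Par) :=
    hs.poly hP (f := fun p => ((p.1, p.2.1, p.2.2.1, p.2.2.2.1,
      ⟨Nat.clog q (2 ^ p.2.2.2.2.n)⟩) : Par)) (by fun_prop)
  have hs₁ : SC C L fun i => (S₃ i * 2 ^ u i * S₂ i, 2 ^ u i, q ^ e i, S₁ i) :=
    (hs.pair hs').poly hP (f := fun p => (p.1.2.2.1 * 2 ^ p.1.2.2.2.2.n * p.1.2.1,
      2 ^ p.1.2.2.2.2.n, q ^ p.2.2.2.2.2.n, p.1.1)) (by fun_prop)
  have hs₂ : SC C L fun i => (S₃ i, 2 ^ u i, q ^ e i, S₁ i * q ^ e i * S₂ i) :=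
    (hs.pair hs').poly hP (f := fun p => (p.1.2.2.1, 2 ^ p.1.2.2.2.2.n, q ^ p.2.2.2.2.2.n,
      p.1.1 * q ^ p.2.2.2.2.2.n * p.1.2.1)) (by fun_prop)
  have hsT : Sm L fun i => sz (T₂ i) := (hs'.poly hP (f := fun p => p.2.2.1 * q ^ p.2.2.2.2.n *
    p.2.1 * q ^ p.2.2.2.2.n * p.1) (by fun_prop)).sm
  have hV : C.Dom fun i => ((T₂ i : ℝ) + 1) * (ρ i * ((u i : ℝ) + 1) ^ τ) :=
    hD.mono_mul (q * q + 1) (by positivity) fun i => by
      have h1 : (T₂ i : ℝ) ≤ q * q * T₀ i := by exact_mod_cast t2 i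
      have h2 : (1 : ℝ) ≤ T₀ i := by exact_mod_cast h0 i
      rw [mul_assoc, ← mul_assoc _ (T₀ i : ℝ)]
      exact mul_le_mul_of_nonneg_right (by linarith) (by positivity)
  have hV' : C.Dom fun i => ((T₂ i : ℝ) + 1) * ρ i := hV.mono fun i => by
    have := Real.one_le_rpow (show (1 : ℝ) ≤ u i + 1 by simp) hτ
    refine mul_le_mul_of_nonneg_left ?_ (by positivity)
    nlinarith [(by positivity : (0 : ℝ) ≤ ρ i)]
  have hρ : R C fun i => Un.mk (ρ i) := hs.r.snd.snd.snd.fst.toUn (hV'.mono fun i => by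
    nlinarith [(by positivity : (0 : ℝ) ≤ ρ i), (by positivity : (0 : ℝ) ≤ T₂ i)])
  have hd : R C fun i => List.replicate (ρ i) false :=
    R.replicate hρ (R.const false) (hρ.dom_un.mono fun i => by simp)
  have hd₂ : C.Dom fun i => (T₂ i : ℝ) * sz (List.replicate (ρ i) false) :=
    ((hV'.smul (K := 4) (by norm_num)).add hP₂.dom_T).mono fun i => by
      have h1 := sz_listBool_le (List.replicate (ρ i) false)
      rw [List.length_replicate] at h1
      have h1 : (sz (List.replicate (ρ i) false) : ℝ) ≤ 4 * ρ i + 1 := by exact_mod_cast h1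
      have := mul_le_mul_of_nonneg_left h1 (show (0 : ℝ) ≤ T₂ i by positivity)
      nlinarith [(by positivity : (0 : ℝ) ≤ ρ i)]
  have f₁ : ∀ i, T₁ i = S₃ i * 2 ^ u i * (S₁ i * q ^ e i * S₂ i) := fun i => by
    simp only [hT₁]; ring
  have f₂ : ∀ i, T₂ i = S₃ i * q ^ e i * (S₁ i * q ^ e i * S₂ i) := fun i => by
    simp only [hT₂]; ring
  have a1 := padT hp (T := T₀) (T' := T₁) (fun _ => rfl) (fun _ => rfl) hP₁ hs₁ e1 hd
    (hd₂.mono fun i => mul_le_mul_of_nonneg_right (Nat.cast_le.2 (t1 i)) (by positivity)) h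
  have a2 := padT hp f₁ f₂ hP₂ hs₂ e1 hd hd₂ a1
  have a3 := hkey.use (fun i => ⟨S₁ i, S₂ i, S₃ i, ρ i, e i, sz (T₂ i) + sz (ρ i) + u i, T₂ i,
    fun j => if fld (S₁ i * q ^ e i * S₂ i) (q ^ e i) j < 2 ^ u i then
      (fun j => if fld (S₁ i) (q ^ e i) j < 2 ^ u i then a i (padI (S₁ i) (q ^ e i) (2 ^ u i) j)
        else List.replicate (ρ i) false) (padI (S₁ i * q ^ e i * S₂ i) (q ^ e i) (2 ^ u i) j)
      else List.replicate (ρ i) false, rfl, ?_, ?_, ?_, ?_, ?_⟩) (hs'.r.pair a2) fun c => ?_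
  · have a4 := unpadT hp f₁ f₂ hP₂ hs₂ e1 a3
    have a5 := unpadT hp (T := T₀) (T' := T₁) (fun _ => rfl) (fun _ => rfl) hP₁ hs₁ e1 a4
    refine a5.congr fun i => tab_congr fun j _ => ?_
    obtain ⟨h₁, h₂, h₃, h₄⟩ := five_pos (h0 i)
    exact (swI_pad (a i) _ h₁ h₂ h₄ (e1 i) j).symm
  · obtain ⟨h₁, h₂, h₃, h₄⟩ := five_pos (h0 i)
    simp only [hT₂]
    positivity
  · exact (lt_two_pow_sz _).trans_le (Nat.pow_le_pow_right (by norm_num) (by omega))
  · exact (lt_two_pow_sz _).trans_le (Nat.pow_le_pow_right (by norm_num) (by omega))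
  · have := e3 i; omega
  · intro j
    simp only
    split_ifs <;> simp [ha]
  · have hL : Sm L fun i => (sz (T₂ i) + sz (ρ i) + u i + 2) ^ c :=
      (((hsT.add hs.snd.snd.snd.fst.sm).add hs.snd.snd.snd.snd.sm.of_un).add (Sm.const 2)).pow c
    refine (hV.add (hP₂.dom hL)).mono fun i => ?_
    have h1 : ((e i : ℝ) + 1) ^ τ ≤ ((u i : ℝ) + 1) ^ τ :=
      Real.rpow_le_rpow (by positivity) (by exact_mod_cast Nat.succ_le_succ (e3 i)) hτ
    have h2 := mul_le_mul_of_nonneg_left h1 (show (0 : ℝ) ≤ (T₂ i + 1) * ρ i by positivity)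
    push_cast
    linarith

end Swap

open Swap Crest.Agent.Lib.PolyTime in
/-- The exchange of two fields of `u` bits at cost `O(volume * u ^ tau)`. -/
theorem swapSpec_of (hp : PermSpec) (hS : SProgSpec) : SwapSpec := by
  obtain ⟨W, N₀, prog, hW, hN, hi, hR, hsem⟩ := hS
  have hτ : 0 ≤ tau := by unfold tau; norm_num
  have hkey := key (q := N₀ + 1) (τ := tau) (δ := 9 / 10 ^ 7) hp hN (by simp) hi hsem hW
    (by norm_num) hτ (by unfold tau; norm_num) (by norm_num) (by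
      refine hR.trans (mul_le_mul_of_nonneg_left ?_ (by positivity))
      have := tau_bound
      generalize ((10 ^ 6 : ℕ) : ℝ) ^ tau = x at *
      norm_num at *
      linarith)
  intro ι C S₁ S₂ S₃ u ρ L a hP hs ha hD h
  refine R.dcond h.isEmpty ((h.comap _).congr fun i => ?_) ?_
  · have : S₃ i * 2 ^ u i * S₂ i * 2 ^ u i * S₁ i = 0 := by
      simpa [← List.length_eq_zero_iff] using i.2
    rw [this]; rfl
  · refine (swap_pos hp (by omega) hτ hkey
      (a := fun i j => if j < S₃ i.1 * 2 ^ u i.1 * S₂ i.1 * 2 ^ u i.1 * S₁ i.1 then a i.1 j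
        else List.replicate (ρ i.1) false) (hP.comap _) (hs.comap _) (fun i => ?_)
      (fun i j => ?_) (hD.comap _) ((h.comap _).congr fun i => tab_congr fun j hj =>
        if_pos hj)).congr fun i => tab_congr fun j hj => (if_pos (swI_lt hj)).symm
    · refine Nat.pos_of_ne_zero fun h0 => ?_
      have := i.2
      rw [h0] at this
      simp at this
    · split_ifs with hj
      · exact ha _ _ hj
      · simp

end Crest.Agent.R326
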