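import Crest.Agent.R326.Spec2

/-!
# Index arithmetic for the exchange of two fields
-/

set_option linter.unusedVariables false

namespace Crest.Agent.R326.Swap

open Function

section shape
variable {S Q H lo x y h : ℕ}

theorem div_sh (hlo : lo < S) : (lo + S * h) / S = h := by
  rw [Nat.add_mul_div_left _ _ (by omega), Nat.div_eq_of_lt hlo, Nat.zero_add]

theorem mod_sh (hlo : lo < S) : (lo + S * h) % S = lo := by
  rw [Nat.add_mul_mod_self_left, Nat.mod_eq_of_lt hlo]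

theorem lt_sh (hlo : lo < S) (hh : h < H) : lo + S * h < S * H := by
  have : S * (h + 1) ≤ S * H := Nat.mul_le_mul_left _ hh
  rw [Nat.mul_add] at this
  omega

theorem fld_sh (hlo : lo < S) (hx : x < Q) : fld S Q (lo + S * (x + Q * h)) = x := by
  rw [fld, div_sh hlo, mod_sh hx]

theorem hi_sh (hlo : lo < S) (hx : x < Q) : (lo + S * (x + Q * h)) / (S * Q) = h := by
  rw [← Nat.div_div_eq_div_mul, div_sh hlo, div_sh hx]

theorem setF_sh (hlo : lo < S) (hx : x < Q) :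
    setF S Q (lo + S * (x + Q * h)) y = lo + S * (y + Q * h) := by
  rw [setF, hi_sh hlo hx, mod_sh hlo]; ring

theorem padI_sh {Q' : ℕ} (hlo : lo < S) (hx : x < Q) :
    padI S Q Q' (lo + S * (x + Q * h)) = lo + S * (x + Q' * h) := by
  rw [padI, hi_sh hlo hx, mod_sh hlo, fld_sh hlo hx]; ring

theorem exists_div (hS : 0 < S) (j : ℕ) : ∃ lo h, lo < S ∧ j = lo + S * h :=
  ⟨j % S, j / S, Nat.mod_lt _ hS, (Nat.mod_add_div _ _).symm⟩

end shape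

section five
variable {S₁ S₂ S₃ Q lo x mid y hi : ℕ}

theorem exists_five (h₁ : 0 < S₁) (h₂ : 0 < S₂) (hQ : 0 < Q) (j : ℕ) :
    ∃ lo x mid y hi, lo < S₁ ∧ x < Q ∧ mid < S₂ ∧ y < Q ∧
      j = lo + S₁ * (x + Q * (mid + S₂ * (y + Q * hi))) := by
  obtain ⟨lo, j, hlo, rfl⟩ := exists_div h₁ j
  obtain ⟨x, j, hx, rfl⟩ := exists_div hQ j
  obtain ⟨mid, j, hmid, rfl⟩ := exists_div h₂ j
  obtain ⟨y, j, hy, rfl⟩ := exists_div hQ j
  exact ⟨lo, x, mid, y, j, hlo, hx, hmid, hy, rfl⟩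

theorem five_eq {Q' : ℕ} : lo + S₁ * (x + Q * (mid + S₂ * (y + Q' * hi))) =
    (lo + S₁ * (x + Q * mid)) + S₁ * Q * S₂ * (y + Q' * hi) := by ring

theorem five_lt (hlo : lo < S₁) (hx : x < Q) (hmid : mid < S₂) :
    lo + S₁ * (x + Q * mid) < S₁ * Q * S₂ := by
  rw [Nat.mul_assoc]; exact lt_sh hlo (lt_sh hx hmid)

theorem swI_sh (hlo : lo < S₁) (hx : x < Q) (hmid : mid < S₂) (hy : y < Q) :
    swI S₁ S₂ Q (lo + S₁ * (x + Q * (mid + S₂ * (y + Q * hi)))) =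
      lo + S₁ * (y + Q * (mid + S₂ * (x + Q * hi))) := by
  rw [swI, fld_sh hlo hx, setF_sh hlo hx, five_eq (x := x), fld_sh (five_lt hlo hx hmid) hy,
    five_eq, setF_sh (five_lt hlo hy hmid) hy, five_eq]

theorem five_pos {Q' : ℕ} (h : 0 < S₃ * Q' * S₂ * Q * S₁) : 0 < S₁ ∧ 0 < S₂ ∧ 0 < S₃ ∧ 0 < Q := by
  have h0 := h.ne'
  simp only [ne_eq, Nat.mul_eq_zero, not_or] at h0
  omega

theorem swI_lt {j : ℕ} (hj : j < S₃ * Q * S₂ * Q * S₁) :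
    swI S₁ S₂ Q j < S₃ * Q * S₂ * Q * S₁ := by
  obtain ⟨h₁, h₂, h₃, hQ⟩ := five_pos (Nat.zero_lt_of_lt hj)
  have h := setF_lt (H := S₃ * Q * S₂) h₁ (fld_lt (S := S₁ * Q * S₂) (j := j) hQ) hj
  have e : S₃ * Q * S₂ * Q * S₁ = S₃ * Q * (S₁ * Q * S₂) := by ring
  rw [e] at h ⊢
  exact setF_lt (by positivity) (fld_lt hQ) h

/-- Splitting both fields into a low part of radix `A` and a high part of radix `B`. -/
theorem swI_mul {A B : ℕ} (h₁ : 0 < S₁) (h₂ : 0 < S₂) (hA : 0 < A) (hB : 0 < B) (j : ℕ) :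
    swI S₁ S₂ (A * B) j = swI (S₁ * A) (S₂ * A) B (swI S₁ (B * S₂) A j) := by
  obtain ⟨lo, j, hlo, rfl⟩ := exists_div h₁ j
  obtain ⟨x₀, j, hx₀, rfl⟩ := exists_div hA j
  obtain ⟨x₁, j, hx₁, rfl⟩ := exists_div hB j
  obtain ⟨mid, j, hmid, rfl⟩ := exists_div h₂ j
  obtain ⟨y₀, j, hy₀, rfl⟩ := exists_div hA j
  obtain ⟨y₁, hi, hy₁, rfl⟩ := exists_div hB j
  have e1 : lo + S₁ * (x₀ + A * (x₁ + B * (mid + S₂ * (y₀ + A * (y₁ + B * hi))))) =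
      lo + S₁ * ((x₀ + A * x₁) + A * B * (mid + S₂ * ((y₀ + A * y₁) + A * B * hi))) := by ring
  have e2 : lo + S₁ * (x₀ + A * (x₁ + B * (mid + S₂ * (y₀ + A * (y₁ + B * hi))))) =
      lo + S₁ * (x₀ + A * ((x₁ + B * mid) + B * S₂ * (y₀ + A * (y₁ + B * hi)))) := by ring
  have e3 : lo + S₁ * (y₀ + A * ((x₁ + B * mid) + B * S₂ * (x₀ + A * (y₁ + B * hi)))) =
      (lo + S₁ * y₀) + S₁ * A * (x₁ + B * ((mid + S₂ * x₀) + S₂ * A * (y₁ + B * hi))) := by ring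
  conv_lhs => rw [e1, swI_sh hlo (lt_sh hx₀ hx₁) hmid (lt_sh hy₀ hy₁)]
  rw [e2, swI_sh hlo hx₀ (lt_sh hx₁ hmid) hy₀, e3,
    swI_sh (lt_sh hlo hy₀) hx₁ (lt_sh hmid hx₀) hy₁]
  ring

theorem setF_add (S Q j y : ℕ) : setF S Q j y + fld S Q j * S = j + y * S := by
  conv_rhs => rw [← setF_fld (S := S) (Q := Q) (j := j)]
  unfold setF
  ring

theorem fld_swI₁ {j : ℕ} (h₁ : 0 < S₁) (h₂ : 0 < S₂) (hQ : 0 < Q) :
    fld S₁ Q (swI S₁ S₂ Q j) = fld (S₁ * Q * S₂) Q j := by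
  rw [swI, fld_setF_low (by positivity) (dvd_mul_right _ _), fld_setF h₁ (fld_lt hQ)]

theorem fld_swI₂ {j : ℕ} (h₁ : 0 < S₁) (h₂ : 0 < S₂) (hQ : 0 < Q) :
    fld (S₁ * Q * S₂) Q (swI S₁ S₂ Q j) = fld S₁ Q j := by
  rw [swI, fld_setF (by positivity) (fld_lt hQ)]

theorem swI_add {j : ℕ} (h₁ : 0 < S₁) (hQ : 0 < Q) :
    swI S₁ S₂ Q j + fld (S₁ * Q * S₂) Q j * (S₁ * Q * S₂) + fld S₁ Q j * S₁ =
      j + fld (S₁ * Q * S₂) Q j * S₁ + fld S₁ Q j * (S₁ * Q * S₂) := by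
  have e1 := setF_add S₁ Q j (fld (S₁ * Q * S₂) Q j)
  have e2 := setF_add (S₁ * Q * S₂) Q (setF S₁ Q j (fld (S₁ * Q * S₂) Q j)) (fld S₁ Q j)
  rw [fld_setF_high h₁ (fld_lt hQ) (dvd_mul_right _ _)] at e2
  unfold swI
  omega

/-- The exchange is increasing on indices with given digits. -/
theorem swI_mono {j j' : ℕ} (h₁ : 0 < S₁) (h₂ : 0 < S₂) (hQ : 0 < Q) (hj : j < j')
    (h : fld S₁ Q (swI S₁ S₂ Q j) + Q * fld (S₁ * Q * S₂) Q (swI S₁ S₂ Q j) =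
      fld S₁ Q (swI S₁ S₂ Q j') + Q * fld (S₁ * Q * S₂) Q (swI S₁ S₂ Q j')) :
    swI S₁ S₂ Q j < swI S₁ S₂ Q j' := by
  have a1 := congrArg (· % Q) h
  have a2 := congrArg (· / Q) h
  simp only [mod_sh (fld_lt hQ), div_sh (fld_lt hQ)] at a1 a2
  rw [fld_swI₁ h₁ h₂ hQ, fld_swI₁ h₁ h₂ hQ] at a1
  rw [fld_swI₂ h₁ h₂ hQ, fld_swI₂ h₁ h₂ hQ] at a2
  have e1 := swI_add (S₂ := S₂) (j := j) h₁ hQ
  have e2 := swI_add (S₂ := S₂) (j := j') h₁ hQ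
  rw [a1, a2] at e1
  omega

/-- Padding both fields, exchanging them and unpadding. -/
theorem swI_pad {α : Type} {P : ℕ} (a : ℕ → α) (d : α) (h₁ : 0 < S₁) (h₂ : 0 < S₂) (hP : 0 < P)
    (hPQ : P ≤ Q) (j : ℕ) :
    (fun j => if fld (S₁ * Q * S₂) Q j < P then
        (fun j => if fld S₁ Q j < P then a (padI S₁ Q P j) else d) (padI (S₁ * Q * S₂) Q P j)
      else d) (swI S₁ S₂ Q (padI (S₁ * Q * S₂) P Q (padI S₁ P Q j))) = a (swI S₁ S₂ P j) := by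
  obtain ⟨lo, x, mid, y, hi, hlo, hx, hmid, hy, rfl⟩ := exists_five h₁ h₂ hP j
  have hx' : x < Q := by omega
  have hy' : y < Q := by omega
  rw [padI_sh hlo hx, five_eq, padI_sh (five_lt hlo hx' hmid) hy, ← five_eq,
    swI_sh hlo hx' hmid hy', swI_sh hlo hx hmid hy]
  simp only
  rw [five_eq, fld_sh (five_lt hlo hy' hmid) hx', if_pos hx, padI_sh (five_lt hlo hy' hmid) hx',
    ← five_eq, fld_sh hlo hy', if_pos hy, padI_sh hlo hy']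

end five

/-! ### Two fields of `m` digits -/

/-- The weight of digit `s`. -/
def wt (m S₁ S₂ Q s : ℕ) : ℕ := if s < m then S₁ * Q ^ s else S₁ * Q ^ m * S₂ * Q ^ (s - m)

/-- The digits of an index. -/
def dig (m S₁ S₂ Q j : ℕ) : Fin (m + m) → ZMod Q := fun s => (fld (wt m S₁ S₂ Q s) Q j : ℕ)

/-- The rest of an index. -/
def spc (m S₁ S₂ Q j : ℕ) : ℕ × ℕ × ℕ :=
  (j % S₁, fld (S₁ * Q ^ m) S₂ j, j / (S₁ * Q ^ m * S₂ * Q ^ m))

section digits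
variable {m S₁ S₂ Q j j' v : ℕ}

theorem wt_pos (h₁ : 0 < S₁) (h₂ : 0 < S₂) (hQ : 0 < Q) (s : ℕ) : 0 < wt m S₁ S₂ Q s := by
  unfold wt; split_ifs <;> positivity

theorem low_dvd {s : ℕ} (hs : s < m) : S₁ * Q ^ s * Q ∣ S₁ * Q ^ m := by
  rw [Nat.mul_assoc, ← pow_succ]
  exact Nat.mul_dvd_mul_left _ (pow_dvd_pow _ hs)

theorem wt_dvd {s t : ℕ} (h : s < t) : wt m S₁ S₂ Q s * Q ∣ wt m S₁ S₂ Q t := by
  unfold wt
  split_ifs with hs ht ht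
  · exact low_dvd h
  · exact (low_dvd hs).trans ((dvd_mul_right _ _).trans (dvd_mul_right _ _))
  · omega
  · exact low_dvd (by omega)

theorem wt_top {s : ℕ} (h : s < m + m) : wt m S₁ S₂ Q s * Q ∣ S₁ * Q ^ m * S₂ * Q ^ m := by
  have := wt_dvd (m := m) (S₁ := S₁) (S₂ := S₂) (Q := Q) h
  rwa [wt.eq_def m S₁ S₂ Q (m + m), if_neg (by omega), Nat.add_sub_cancel] at this

theorem dig_setF (h₁ : 0 < S₁) (h₂ : 0 < S₂) (hv : v < Q) (t : Fin (m + m)) :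
    dig m S₁ S₂ Q (setF (wt m S₁ S₂ Q t) Q j v) = update (dig m S₁ S₂ Q j) t (v : ZMod Q) := by
  have hw := wt_pos (m := m) h₁ h₂ (show 0 < Q by omega) t
  funext s
  rcases lt_trichotomy s t with h | h | h
  · rw [update_of_ne h.ne, dig, dig, fld_setF_low hw (wt_dvd h)]
  · subst h
    rw [update_self, dig, fld_setF hw hv]
  · rw [update_of_ne h.ne', dig, dig, fld_setF_high hw hv (wt_dvd h)]

theorem spc_setF (h₁ : 0 < S₁) (h₂ : 0 < S₂) (hv : v < Q) {t : ℕ} (ht : t < m + m) :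
    spc m S₁ S₂ Q (setF (wt m S₁ S₂ Q t) Q j v) = spc m S₁ S₂ Q j := by
  have hw := wt_pos (m := m) h₁ h₂ (show 0 < Q by omega) t
  have hd : S₁ ∣ wt m S₁ S₂ Q t := by
    unfold wt; split_ifs
    · exact dvd_mul_right _ _
    · exact (dvd_mul_right _ _).trans ((dvd_mul_right _ _).trans (dvd_mul_right _ _))
  unfold spc
  congr 1
  · rw [← Nat.mod_mod_of_dvd _ hd, setF_mod hw, Nat.mod_mod_of_dvd _ hd]
  congr 1
  · by_cases h : t < m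
    · refine fld_setF_high hw hv ?_
      rw [wt, if_pos h]; exact low_dvd h
    · refine fld_setF_low hw ?_
      rw [wt, if_neg h]; exact dvd_mul_right _ _
  · obtain ⟨c, hc⟩ := wt_top (S₁ := S₁) (S₂ := S₂) (Q := Q) ht
    rw [hc, ← Nat.div_div_eq_div_mul, setF_div_mul hw hv, Nat.div_div_eq_div_mul]

theorem fld_pow_ext {S : ℕ} (k : ℕ)
    (h : ∀ s, s < k → fld (S * Q ^ s) Q j = fld (S * Q ^ s) Q j') :
    fld S (Q ^ k) j = fld S (Q ^ k) j' := by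
  induction k with
  | zero => simp [fld, Nat.mod_one]
  | succ k ih =>
    have h1 := ih fun s hs => h s (by omega)
    have h2 := h k (by omega)
    unfold fld at *
    rw [Nat.mod_pow_succ, Nat.mod_pow_succ, h1, Nat.div_div_eq_div_mul, Nat.div_div_eq_div_mul, h2]

theorem dig_spc_inj (hQ : 0 < Q) (hd : dig m S₁ S₂ Q j = dig m S₁ S₂ Q j')
    (hs : spc m S₁ S₂ Q j = spc m S₁ S₂ Q j') : j = j' := by
  have hd' : ∀ s, s < m + m → fld (wt m S₁ S₂ Q s) Q j = fld (wt m S₁ S₂ Q s) Q j' :=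
    fun s hs => by
      have := congrFun hd ⟨s, hs⟩
      simp only [dig] at this
      rw [ZMod.natCast_eq_natCast_iff', Nat.mod_eq_of_lt (fld_lt hQ),
        Nat.mod_eq_of_lt (fld_lt hQ)] at this
      exact this
  simp only [spc, Prod.mk.injEq] at hs
  obtain ⟨a1, a2, a3⟩ := hs
  have b1 : fld S₁ (Q ^ m) j = fld S₁ (Q ^ m) j' := fld_pow_ext m fun s hs => by
    have := hd' s (by omega)
    rwa [wt, if_pos hs] at this
  have b2 : fld (S₁ * Q ^ m * S₂) (Q ^ m) j = fld (S₁ * Q ^ m * S₂) (Q ^ m) j' :=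
    fld_pow_ext m fun s hs => by
      have := hd' (s + m) (by omega)
      rwa [wt, if_neg (by omega), Nat.add_sub_cancel] at this
  refine idx_ext a1 b1 ?_
  have b3 : j / (S₁ * Q ^ m * S₂) = j' / (S₁ * Q ^ m * S₂) := by
    rw [← Nat.div_div_eq_div_mul, ← Nat.div_div_eq_div_mul j'] at a3
    unfold fld at b2
    rw [← Nat.div_add_mod (j / (S₁ * Q ^ m * S₂)) (Q ^ m), a3, b2, Nat.div_add_mod]
  rw [← Nat.div_div_eq_div_mul, ← Nat.div_div_eq_div_mul j'] at b3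
  unfold fld at a2
  rw [← Nat.div_add_mod (j / (S₁ * Q ^ m)) S₂, b3, a2, Nat.div_add_mod]

theorem dig_swI (h₁ : 0 < S₁) (h₂ : 0 < S₂) (hQ : 0 < Q) :
    dig m S₁ S₂ Q (swI S₁ S₂ (Q ^ m) j) = dig m S₁ S₂ Q j ∘ halfSwap m := by
  have hQm : 0 < Q ^ m := by positivity
  have hd : ∀ s, s < m → Q ^ s * Q ∣ Q ^ m := fun s hs => by
    rw [← pow_succ]; exact pow_dvd_pow _ hs
  funext s
  simp only [dig, comp, halfSwap]
  congr 1
  split_ifs with h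
  · rw [wt, wt, if_pos h, if_neg (by simp), ← fld_fld (hd s h), fld_swI₁ h₁ h₂ hQm,
      fld_fld (hd s h)]
    simp
  · have h' : s.val - m < m := by omega
    rw [wt, wt, if_neg h, if_pos h', ← fld_fld (hd _ h'), fld_swI₂ h₁ h₂ hQm, fld_fld (hd _ h')]

theorem spc_swI (h₁ : 0 < S₁) (h₂ : 0 < S₂) (hQ : 0 < Q) :
    spc m S₁ S₂ Q (swI S₁ S₂ (Q ^ m) j) = spc m S₁ S₂ Q j := by
  have hQm : 0 < Q ^ m := by positivity
  unfold spc
  generalize Q ^ m = A at *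
  obtain ⟨lo, x, mid, y, hi, hlo, hx, hmid, hy, rfl⟩ := exists_five h₁ h₂ hQm j
  rw [swI_sh hlo hx hmid hy, mod_sh hlo, mod_sh hlo]
  have e : ∀ x y, lo + S₁ * (x + A * (mid + S₂ * (y + A * hi))) =
      (lo + S₁ * x) + S₁ * A * (mid + S₂ * (y + A * hi)) := fun x y => by ring
  congr 2
  · rw [e, e, fld_sh (lt_sh hlo hx) hmid, fld_sh (lt_sh hlo hy) hmid]
  · rw [five_eq, five_eq, hi_sh (five_lt hlo hx hmid) hy, hi_sh (five_lt hlo hy hmid) hx]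

theorem swI_wt {s t : ℕ} (h : s < t) :
    swI (wt m S₁ S₂ Q s) (wt m S₁ S₂ Q t / (wt m S₁ S₂ Q s * Q)) Q j =
      setF (wt m S₁ S₂ Q t) Q (setF (wt m S₁ S₂ Q s) Q j (fld (wt m S₁ S₂ Q t) Q j))
        (fld (wt m S₁ S₂ Q s) Q j) := by
  rw [swI, Nat.mul_div_cancel' (wt_dvd h)]

theorem dig_swI_wt (h₁ : 0 < S₁) (h₂ : 0 < S₂) (hQ : 0 < Q) {s t : Fin (m + m)} (h : s < t) :
    dig m S₁ S₂ Q (swI (wt m S₁ S₂ Q s) (wt m S₁ S₂ Q t / (wt m S₁ S₂ Q s * Q)) Q j) =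
      dig m S₁ S₂ Q j ∘ Equiv.swap s t := by
  rw [swI_wt h, dig_setF h₁ h₂ (fld_lt hQ), dig_setF h₁ h₂ (fld_lt hQ),
    Equiv.comp_swap_eq_update, update_comm h.ne]
  rfl

theorem spc_swI_wt (h₁ : 0 < S₁) (h₂ : 0 < S₂) (hQ : 0 < Q) {s t : Fin (m + m)} (h : s < t) :
    spc m S₁ S₂ Q (swI (wt m S₁ S₂ Q s) (wt m S₁ S₂ Q t / (wt m S₁ S₂ Q s * Q)) Q j) =
      spc m S₁ S₂ Q j := by
  rw [swI_wt h, spc_setF h₁ h₂ (fld_lt hQ) t.2, spc_setF h₁ h₂ (fld_lt hQ) s.2]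

/-- A more significant digit only depends on the more significant part of the index. -/
theorem fld_hi {s t : ℕ} (h₁ : 0 < S₁) (h₂ : 0 < S₂) (hQ : 0 < Q) (h : t < s) :
    fld (wt m S₁ S₂ Q s) Q (j / (wt m S₁ S₂ Q t * Q) * (wt m S₁ S₂ Q t * Q)) =
      fld (wt m S₁ S₂ Q s) Q j := by
  have hw := wt_pos (m := m) h₁ h₂ hQ t
  obtain ⟨c, hc⟩ := wt_dvd (m := m) (S₁ := S₁) (S₂ := S₂) (Q := Q) h
  rw [hc, fld, fld, ← Nat.div_div_eq_div_mul, Nat.mul_div_cancel _ (by positivity),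
    Nat.div_div_eq_div_mul]

end digits

end Crest.Agent.R326.Swap
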