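import Crest.Agent.R326.SwapIdx

/-!
# Interpretation of the swap program on arrays
-/

set_option linter.unusedVariables false
set_option linter.unusedSectionVars false

namespace Crest.Agent.R326.Swap

open Function
open Crest.Agent.Lib.PolyTime

variable {ι : Type} {C : Ctx ι} {α β γ : Type} [PEnc α] [PEnc β] [PEnc γ]

/-! ### The permutation routines for arrays of a given length -/

theorem rotT (hp : PermSpec) {T H Q S q L : ι → ℕ} {par : ι → γ} {a : ι → ℕ → α}
    {F : γ × ℕ → ℕ} (hT : ∀ i, T i = H i * Q i * S i) (hF : Poly F) (hP : C.PD T L)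
    (hs : SC C L fun i => (H i, Q i, S i, q i)) (hpar : SC C L par) (hq : ∀ i, q i ≤ Q i)
    (h : R C fun i => tab (T i) (a i)) :
    R C fun i => tab (T i) fun j => a i (rotI (S i) (Q i) (q i) (F (par i, j / (S i * Q i))) j) := by
  obtain rfl : T = _ := funext hT
  exact hp.rot hF hP hs hpar hq h

theorem mulT (hp : PermSpec) {T H Q S L : ι → ℕ} {a : ι → ℕ → α}
    (hT : ∀ i, T i = H i * Q i * S i) (c : ℕ) (hc : 0 < c) (hP : C.PD T L)
    (hs : SC C L fun i => (H i, Q i, S i)) (hq : ∀ i, c.Coprime (Q i)) :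
    (R C (fun i => tab (T i) (a i)) ↔
      R C fun i => tab (T i) fun j => a i (setF (S i) (Q i) j (c * fld (S i) (Q i) j % Q i))) := by
  obtain rfl : T = _ := funext hT
  exact hp.mul c hc hP hs hq

theorem negT (hp : PermSpec) {T H Q S L : ι → ℕ} {a : ι → ℕ → α}
    (hT : ∀ i, T i = H i * Q i * S i) (hP : C.PD T L)
    (hs : SC C L fun i => (H i, Q i, S i)) (h : R C fun i => tab (T i) (a i)) :
    R C fun i => tab (T i) fun j =>
      a i (setF (S i) (Q i) j ((Q i - fld (S i) (Q i) j) % Q i)) := by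
  obtain rfl : T = _ := funext hT
  exact hp.neg hP hs h

@[fun_prop] theorem poly_swI {S₁ S₂ Q j : α → ℕ} (h₁ : Poly S₁) (h₂ : Poly S₂) (hQ : Poly Q)
    (hj : Poly j) : Poly fun a => swI (S₁ a) (S₂ a) (Q a) (j a) := by unfold swI; fun_prop

/-- Exchange of two digits of bounded radix. -/
theorem swapBdd (hp : PermSpec) {T S₁ S₂ S₃ B L : ι → ℕ} {a : ι → ℕ → α} (K : ℕ)
    (hT : ∀ i, T i = S₃ i * B i * S₂ i * B i * S₁ i) (hP : C.PD T L)
    (hsT : Sm L fun i => sz (T i)) (hs : SC C L fun i => (S₁ i, S₂ i, B i)) (hK : ∀ i, B i ≤ K)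
    (h : R C fun i => tab (T i) (a i)) :
    R C fun i => tab (T i) fun j => a i (swI (S₁ i) (S₂ i) (B i) j) := by
  refine (hp.mp (K * K) (π := fun x : (ℕ × ℕ × ℕ) × ℕ => swI x.1.1 x.1.2.1 x.1.2.2 x.2)
    (cls := fun x : (ℕ × ℕ × ℕ) × ℕ =>
      fld x.1.1 x.1.2.2 x.2 + x.1.2.2 * fld (x.1.1 * x.1.2.2 * x.1.2.1) x.1.2.2 x.2)
    (by fun_prop) (by fun_prop) hP hsT hs (fun i j hj => ?_) (fun i j hj => ?_)
    fun i j j' hj hj' e => ?_).1 h
  · rw [hT] at hj ⊢; exact swI_lt hj
  · rw [hT] at hj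
    obtain ⟨h₁, h₂, h₃, hQ⟩ := five_pos (Nat.zero_lt_of_lt hj)
    exact (lt_sh (fld_lt hQ) (fld_lt hQ)).trans_le (Nat.mul_le_mul (hK i) (hK i))
  · rw [hT] at hj'
    obtain ⟨h₁, h₂, h₃, hQ⟩ := five_pos (Nat.zero_lt_of_lt hj')
    exact swI_mono h₁ h₂ hQ hj e

/-! ### Records -/

/-- A bit. -/
def toB (z : ZMod 2) : Bool := decide (z = 1)

/-- A bit. -/
def ofB (b : Bool) : ZMod 2 := bif b then 1 else 0

theorem toB_ofB (b : Bool) : toB (ofB b) = b := by revert b; decide

theorem toB_add (x y : ZMod 2) : toB (x + y) = xor (toB x) (toB y) := by revert x y; decide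

/-- The record of a bit vector. -/
def code (ρ : ℕ) (f : ℕ → ZMod 2) : List Bool := tab ρ fun k => toB (f k)

@[simp] theorem length_code (ρ : ℕ) (f : ℕ → ZMod 2) : (code ρ f).length = ρ := length_tab _ _

theorem code_add (ρ : ℕ) (f g : ℕ → ZMod 2) :
    code ρ (f + g) = List.zipWith xor (code ρ f) (code ρ g) := by
  apply List.ext_getElem <;> simp [code, toB_add]

theorem xorArr {T ρ : ι → ℕ} {f g : ι → ℕ → ℕ → ZMod 2}
    (hf : R C fun i => tab (T i) fun j => code (ρ i) (f i j))
    (hg : R C fun i => tab (T i) fun j => code (ρ i) (g i j)) :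
    R C fun i => tab (T i) fun j => code (ρ i) (f i j + g i j) :=
  R.tabMap₀ (hf.zipTab hg) fun h =>
    (R.zipWith (f := xor) (by rp) h.fst h.snd fun p => by simp).congr fun p => code_add _ _ _

theorem sumArr {W : ℕ} {T ρ : ι → ℕ} {f : ι → Fin W → ℕ → ℕ → ZMod 2} (g : Fin W → ZMod 2)
    (w₀ : Fin W) (hf : ∀ w, R C fun i => tab (T i) fun j => code (ρ i) (f i w j)) :
    R C fun i => tab (T i) fun j => code (ρ i) (∑ w, g w • f i w j) := by
  suffices h : ∀ s : Finset (Fin W),
      R C fun i => tab (T i) fun j => code (ρ i) (∑ w ∈ s, g w • f i w j) from h _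
  intro s
  induction s using Finset.induction_on with
  | empty =>
    refine (xorArr (hf w₀) (hf w₀)).congr fun i => tab_congr fun j _ => ?_
    congr 1
    funext k
    simp [CharTwo.add_self_eq_zero]
  | insert w s hw ih =>
    simp only [Finset.sum_insert hw]
    rcases (by decide : ∀ z : ZMod 2, z = 0 ∨ z = 1) (g w) with h | h
    · simpa only [h, zero_smul, zero_add] using ih
    · simpa only [h, one_smul] using xorArr (hf w) ih

theorem tabOfFn {W : ℕ} {T : ι → ℕ} {a : ι → Fin W → ℕ → α} {b : ι → ℕ → β}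
    (h0 : R C fun i => tab (T i) (b i)) (h : ∀ w, R C fun i => tab (T i) (a i w)) :
    R C fun i => tab (T i) fun j => List.ofFn fun w => a i w j := by
  induction W with
  | zero => exact R.tabMap₀ h0 fun h => by simpa using R.const (h := h.isOk) ([] : List α)
  | succ W ih =>
    refine R.tabMap₀ ((h 0).zipTab (ih fun w => h w.succ)) fun h' => ?_
    simpa [List.ofFn_succ] using h'.fst.cons h'.snd

/-! ### Parameters -/

/-- `S₁, S₂, S₃`, the record length and the exponent. -/
abbrev Par : Type := ℕ × ℕ × ℕ × ℕ × Un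

/-- The radix. -/
def pQ (q : ℕ) (p : Par) : ℕ := q ^ p.2.2.2.2.n

/-- The number of records. -/
def pT (q m : ℕ) (p : Par) : ℕ := p.2.2.1 * pQ q p ^ m * p.2.1 * pQ q p ^ m * p.1

/-- The weights of the digits. -/
def pw (q m s : ℕ) (p : Par) : ℕ := wt m p.1 p.2.1 (pQ q p) s

variable {q m : ℕ}

@[fun_prop] theorem poly_pQ {p : α → Par} (hp : Poly p) : Poly fun a => pQ q (p a) := by
  unfold pQ; fun_prop

@[fun_prop] theorem poly_pT {p : α → Par} (hp : Poly p) : Poly fun a => pT q m (p a) := by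
  unfold pT; fun_prop

@[fun_prop] theorem poly_pw {s : ℕ} {p : α → Par} (hp : Poly p) :
    Poly fun a => pw q m s (p a) := by
  unfold pw wt; split_ifs <;> fun_prop

instance [NeZero q] (p : Par) : NeZero (pQ q p) := ⟨pow_ne_zero _ (NeZero.ne q)⟩

theorem pQ_pos [NeZero q] (p : Par) : 0 < pQ q p := Nat.pos_of_neZero _

theorem pT_eq {t : ℕ} (ht : t < m + m) (p : Par) :
    pT q m p = pT q m p / (pw q m t p * pQ q p) * pQ q p * pw q m t p := by
  have h : pw q m t p * pQ q p ∣ pT q m p := (wt_top ht).trans ⟨p.2.2.1, by unfold pT; ring⟩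
  rw [Nat.mul_assoc, Nat.mul_comm (pQ q p), Nat.div_mul_cancel h]

/-- The state of a wire. -/
abbrev Wire (q m : ℕ) (p : Par) : Type := (Fin (m + m) → ZMod (pQ q p)) → ℕ × ℕ × ℕ → ℕ → ZMod 2

/-- The record at index `j`. -/
def ent (q m : ℕ) (p : Par) (x : Wire q m p) (j : ℕ) : List Bool :=
  code p.2.2.2.1 (x (dig m p.1 p.2.1 (pQ q p) j) (spc m p.1 p.2.1 (pQ q p) j))

/-- The array of a wire. -/
def arr (q m : ℕ) (p : Par) (x : Wire q m p) : List (List Bool) := tab (pT q m p) (ent q m p x)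

theorem ent_setF {p : Par} (h₁ : 0 < p.1) (h₂ : 0 < p.2.1) (x : Wire q m p) (t : Fin (m + m))
    (φ : (Fin (m + m) → ZMod (pQ q p)) → ZMod (pQ q p)) {j v : ℕ} (hv : v < pQ q p)
    (e : (v : ZMod (pQ q p)) = φ (dig m p.1 p.2.1 (pQ q p) j)) :
    ent q m p (fun y => x (update y t (φ y))) j = ent q m p x (setF (pw q m t p) (pQ q p) j v) := by
  rw [ent, ent, pw, dig_setF h₁ h₂ hv, spc_setF h₁ h₂ hv t.2, e]

/-- Standing assumptions on a context. -/
structure Good (q m : ℕ) (C : Ctx ι) (par : ι → Par) (L : ι → ℕ) : Prop where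
  pd : C.PD (fun i => pT q m (par i)) L
  sc : SC C L par
  p₁ : ∀ i, 0 < (par i).1
  p₂ : ∀ i, 0 < (par i).2.1
  vol : C.Dom fun i => (pT q m (par i) : ℝ) * (par i).2.2.2.1

variable {par : ι → Par} {L : ι → ℕ}

theorem Good.re (hg : Good q m C par L) {z : ι → γ} (h : R (C.re z) par) :
    Good q m (C.re z) par L := ⟨hg.pd, ⟨h, hg.sc.sm⟩, hg.p₁, hg.p₂, hg.vol⟩

theorem Good.sc3 (hg : Good q m C par L) (t : ℕ) : SC C L fun i =>
    (pT q m (par i) / (pw q m t (par i) * pQ q (par i)), pQ q (par i), pw q m t (par i)) :=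
  hg.sc.poly hg.pd (f := fun p => (pT q m p / (pw q m t p * pQ q p), pQ q p, pw q m t p))
    (by fun_prop)

theorem Good.dom_tab (hg : Good q m C par L) {b : ι → ℕ → List Bool}
    (hb : ∀ i j, (b i j).length = (par i).2.2.2.1) :
    C.Dom fun i => sz (tab (pT q m (par i)) (b i)) :=
  ((hg.vol.smul (K := 4) (by norm_num)).add (hg.pd.dom (Sm.const 2))).mono fun i => by
    have := sz_tab_le (T := pT q m (par i)) (a := b i) (B := 4 * (par i).2.2.2.1 + 1) fun k _ => by
      rw [← hb i k]; exact sz_listBool_le _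
    have : (sz (tab (pT q m (par i)) (b i)) : ℝ) ≤
        pT q m (par i) * (4 * (par i).2.2.2.1 + 1 + 1) + 1 := by exact_mod_cast this
    push_cast
    linarith

variable [NeZero q] {x : ∀ i, Wire q m (par i)}

theorem mulArr (hp : PermSpec) (hg : Good q m C par L) (t : Fin (m + m)) (c : ℕ) (hc : 0 < c)
    (hq : c.Coprime q) : (R C fun i => arr q m (par i) (x i)) ↔
      R C fun i => arr q m (par i) fun y => x i (update y t (c * y t)) := by
  have := mulT hp (a := fun i => ent q m (par i) (x i)) (fun i => pT_eq t.2 (par i)) c hc hg.pd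
    (hg.sc3 t) fun i => hq.pow_right _
  refine this.trans (iff_of_eq ?_)
  congr 1
  funext i
  refine tab_congr fun j _ => (ent_setF (hg.p₁ i) (hg.p₂ i) (x i) t (fun y => c * y t)
    (Nat.mod_lt _ (pQ_pos _)) ?_).symm
  rw [ZMod.natCast_mod, Nat.cast_mul]; rfl

theorem negArr (hp : PermSpec) (hg : Good q m C par L) (t : Fin (m + m))
    (h : R C fun i => arr q m (par i) (x i)) :
    R C fun i => arr q m (par i) fun y => x i (update y t (-y t)) := by
  refine (negT hp (a := fun i => ent q m (par i) (x i)) (fun i => pT_eq t.2 (par i)) hg.pd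
    (hg.sc3 t) h).congr fun i => tab_congr fun j _ => ent_setF (hg.p₁ i) (hg.p₂ i) (x i) t
      (fun y => -y t) (Nat.mod_lt _ (pQ_pos _)) ?_
  rw [ZMod.natCast_mod, Nat.cast_sub (fld_lt (pQ_pos _)).le, ZMod.natCast_self, zero_sub]; rfl

theorem mulZ (hp : PermSpec) (hg : Good q m C par L) (t : Fin (m + m)) (a : ℤ) (ha : a ≠ 0)
    (hq : a.natAbs.Coprime q) : (R C fun i => arr q m (par i) (x i)) ↔
      R C fun i => arr q m (par i) fun y => x i (update y t (a * y t)) := by
  have h1 := mulArr (x := x) hp hg t a.natAbs (Int.natAbs_pos.2 ha) hq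
  rcases Int.natAbs_eq a with h | h
  · rw [h]; simpa only [Int.cast_natCast] using h1
  · rw [h1, h]
    constructor
    · intro h2
      simpa using negArr hp hg t h2
    · intro h2
      simpa using negArr hp hg t h2

theorem poly_finsum {κ : Type} (s : Finset κ) {f : κ → α → ℤ} (hf : ∀ k, Poly (f k)) :
    Poly fun a => ∑ k ∈ s, f k a := by
  classical
  induction s using Finset.induction_on with
  | empty => simpa using Lib.PolyTime.Poly.const (α := α) (0 : ℤ)
  | insert k s hk ih => simpa only [Finset.sum_insert hk] using (hf k).intAdd ih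

theorem rotArr (hp : PermSpec) (hg : Good q m C par L) (t : Fin (m + m)) (c : Fin (m + m) → ℤ)
    (hc : ∀ s, s ≤ t → c s = 0) (h : R C fun i => arr q m (par i) (x i)) :
    R C fun i => arr q m (par i) fun y => x i (update y t (y t + ∑ s, c s * y s)) := by
  have hF : Poly fun z : Par × ℕ => ((∑ s : Fin (m + m), c s *
      (fld (pw q m s z.1) (pQ q z.1) (z.2 * (pw q m t z.1 * pQ q z.1)) : ℕ)) % pQ q z.1).toNat :=
    Poly.toNat (Poly.intMod (poly_finsum _ fun s => by fun_prop) (by fun_prop))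
  refine (rotT hp (a := fun i => ent q m (par i) (x i)) (q := fun i => pQ q (par i))
    (fun i => pT_eq t.2 (par i)) hF hg.pd (hg.sc.poly hg.pd
      (f := fun p => (pT q m p / (pw q m t p * pQ q p), pQ q p, pw q m t p, pQ q p))
      (by fun_prop)) hg.sc (fun _ => le_rfl) h).congr fun i => tab_congr fun j _ => ?_
  have hQ := pQ_pos (q := q) (par i)
  rw [rotI, if_pos (fld_lt hQ)]
  refine ent_setF (hg.p₁ i) (hg.p₂ i) (x i) t (fun y => y t + ∑ s, c s * y s) (Nat.mod_lt _ hQ) ?_
  rw [ZMod.natCast_mod, Nat.cast_add]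
  congr 1
  rw [← Int.cast_natCast, Int.toNat_of_nonneg (Int.emod_nonneg _ (by exact_mod_cast hQ.ne')),
    ZMod.intCast_mod, Int.cast_sum]
  refine Finset.sum_congr rfl fun s _ => ?_
  rcases le_or_gt s t with hs | hs
  · simp [hc s hs]
  · rw [Int.cast_mul, Int.cast_natCast, pw, pw, fld_hi (hg.p₁ i) (hg.p₂ i) hQ hs]; rfl

theorem linArr (hp : PermSpec) (hg : Good q m C par L) (t : Fin (m + m)) (a : ℤ) (ha : a ≠ 0)
    (hq : a.natAbs.Coprime q) (c : Fin (m + m) → ℤ) (hc : ∀ s, s ≤ t → c s = 0)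
    (h : R C fun i => arr q m (par i) (x i)) :
    R C fun i => arr q m (par i) fun y => x i (update y t (a * y t + ∑ s, c s * y s)) := by
  refine ((mulZ hp hg t a ha hq).1 (rotArr hp hg t c hc h)).congr fun i => ?_
  congr 1
  funext y
  rw [update_idem, update_self]
  congr 3
  refine Finset.sum_congr rfl fun s _ => ?_
  rcases eq_or_ne s t with rfl | hs
  · simp [hc s le_rfl]
  · rw [update_of_ne hs]

theorem linInvArr (hp : PermSpec) (hg : Good q m C par L) (t : Fin (m + m)) (a : ℤ) (ha : a ≠ 0)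
    (hq : a.natAbs.Coprime q) (c : Fin (m + m) → ℤ) (hc : ∀ s, s ≤ t → c s = 0)
    (h : R C fun i => arr q m (par i) (x i)) :
    R C fun i => arr q m (par i) fun y =>
      x i (update y t ((a : ZMod (pQ q (par i)))⁻¹ * (y t - ∑ s, c s * y s))) := by
  have h1 : R C fun i => arr q m (par i) fun y =>
      x i (update y t ((a : ZMod (pQ q (par i)))⁻¹ * y t)) := by
    refine (mulZ hp hg t a ha hq).2 (h.congr fun i => ?_)
    congr 1
    funext y
    have hu : IsUnit (a : ZMod (pQ q (par i))) := by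
      rw [ZMod.coe_int_isUnit_iff_isCoprime, Int.isCoprime_iff_gcd_eq_one]
      simpa [Int.gcd, pQ] using (hq.pow_right (par i).2.2.2.2.n).symm.gcd_eq_one
    rw [update_idem, update_self, ← mul_assoc, ZMod.inv_mul_of_unit _ hu, one_mul, update_eq_self]
  refine (rotArr hp hg t (fun s => -c s) (fun s hs => by simp [hc s hs]) h1).congr fun i => ?_
  congr 1
  funext y
  rw [update_idem, update_self]
  simp [sub_eq_add_neg]

/-- The environment exchanges single digits. -/
def Calls (q m : ℕ) (par : ι → Par) (ok : ι → V → V → Prop) : Prop :=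
  ∀ i (S₁ S₂ S₃ : ℕ) (b : ℕ → List Bool),
    S₃ * pQ q (par i) * S₂ * pQ q (par i) * S₁ = pT q m (par i) →
    (∀ j, (b j).length = (par i).2.2.2.1) →
    ok i (enc (((S₁, S₂, S₃, (par i).2.2.2) : Par), tab (pT q m (par i)) b))
      (enc (tab (pT q m (par i)) fun j => b (swI S₁ S₂ (pQ q (par i)) j)))

variable {ok : ι → V → V → Prop}

theorem swapArr (hg : Good q m C par L) (hok : Calls q m par ok) {s t : Fin (m + m)} (hst : s < t)
    (h : R C fun i => arr q m (par i) (x i)) :
    J C ok (fun _ => 1) fun i => arr q m (par i) fun y => x i (y ∘ Equiv.swap s t) := by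
  have h1 := hg.sc.poly hg.pd (f := fun p => ((pw q m s p, pw q m t p / (pw q m s p * pQ q p),
    pT q m p / (pw q m t p * pQ q p), p.2.2.2) : Par)) (by fun_prop)
  refine (JS.call (h1.r.pair h) (hg.dom_tab fun i j => length_code _ _) fun i =>
    hok i _ _ _ (ent q m (par i) (x i)) ?_ fun j => length_code _ _).congr fun i =>
      tab_congr fun j _ => ?_
  · have e := pT_eq (q := q) t.2 (par i)
    have e' : pw q m s (par i) * pQ q (par i) * (pw q m t (par i) /
      (pw q m s (par i) * pQ q (par i))) = pw q m t (par i) := Nat.mul_div_cancel' (wt_dvd hst)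
    generalize pT q m (par i) / _ = H at e ⊢
    generalize pw q m t (par i) / _ = H' at e' ⊢
    rw [e, ← e']
    ring
  · simp only [ent, pw]
    rw [dig_swI_wt (hg.p₁ i) (hg.p₂ i) (pQ_pos _) hst,
      spc_swI_wt (hg.p₁ i) (hg.p₂ i) (pQ_pos _) hst]

variable {W : ℕ}

/-- The state of the interpreter. -/
def st (q m : ℕ) (p : Par) (x : Fin W → Wire q m p) : Par × List (List (List Bool)) :=
  (p, List.ofFn fun w => arr q m p (x w))

theorem st_update {x : ∀ i, Fin W → Wire q m (par i)} {z : ∀ i, Wire q m (par i)} (w : Fin W)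
    (hpar : R C par) (h : ∀ w, R C fun i => arr q m (par i) (x i w))
    (hz : R C fun i => arr q m (par i) (z i)) :
    R C fun i => st q m (par i) (update (x i) w (z i)) := by
  have := hpar.isOk
  refine hpar.pair (R.ofFn fun w' => ?_)
  rcases eq_or_ne w' w with rfl | hw
  · simpa only [update_self] using hz
  · simpa only [update_of_ne hw] using h w'

theorem step (hp : PermSpec) (hg : Good q m C par L) (hok : Calls q m par ok) {N₀ : ℕ}
    (hN : 0 < N₀) (hq : N₀.Coprime q) (ins : SInstr W (m + m)) (hi : ins.ok N₀)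
    {x : ∀ i, Fin W → Wire q m (par i)} (h : R C fun i => st q m (par i) (x i)) :
    J C ok (fun _ => ins.cnt) fun i => st q m (par i) (ins.run (pQ q (par i)) (x i)) := by
  have := h.isOk
  have hw : ∀ w, R C fun i => arr q m (par i) (x i w) := fun w => h.snd.ofFn_get w
  have hd : ∀ a : ℤ, a ∣ N₀ → a ≠ 0 ∧ a.natAbs.Coprime q := fun a ha =>
    ⟨by rintro rfl; simp at ha; omega, hq.coprime_dvd_left (Int.natAbs_dvd_natAbs.2 ha)⟩
  cases ins with
  | gate G =>
    refine ((hg.sc.r.pair (R.ofFn fun w => ?_)).j ok).mono (fun _ _ _ h => h)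
      fun _ => by simp [SInstr.cnt]
    refine (sumArr (G w) w hw).congr fun i => tab_congr fun j _ => ?_
    simp only [ent, SInstr.run, Finset.sum_apply, Pi.smul_apply]
  | lin w t a c =>
    exact ((st_update w hg.sc.r hw (linArr hp hg t a (hd a hi.1).1 (hd a hi.1).2 c hi.2
      (hw w))).j ok).mono (fun _ _ _ h => h) fun _ => by simp [SInstr.cnt]
  | linInv w t a c =>
    exact ((st_update w hg.sc.r hw (linInvArr hp hg t a (hd a hi.1).1 (hd a hi.1).2 c hi.2
      (hw w))).j ok).mono (fun _ _ _ h => h) fun _ => by simp [SInstr.cnt]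
  | swap w s t =>
    exact ((JS.pair_l h (swapArr hg hok hi (hw w))).post_r fun h' =>
      st_update w h'.fst.fst (fun w => h'.fst.snd.ofFn_get w) h'.snd).mono (fun _ _ _ h => h)
        fun _ => by simp [SInstr.cnt]

theorem runProg (hp : PermSpec) (hok : Calls q m par ok) {N₀ : ℕ} (hN : 0 < N₀)
    (hq : N₀.Coprime q) (prog : List (SInstr W (m + m))) (hi : ∀ s ∈ prog, s.ok N₀) :
    ∀ {C : Ctx ι} (hg : Good q m C par L) {x : ∀ i, Fin W → Wire q m (par i)}
      (h : R C fun i => st q m (par i) (x i)),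
      J C ok (fun _ => ((prog.map SInstr.cnt).sum : ℕ)) fun i =>
        st q m (par i) (prog.foldl (fun y s => s.run (pQ q (par i)) y) (x i)) := by
  induction prog with
  | nil => intro C hg x h; simpa using h.j ok
  | cons ins prog ih =>
    intro C hg x h
    have h1 := step hp hg hok hN hq ins (hi ins (by simp)) h
    have h2 := R.self h1.dom_sz
    have h3 := h1.comp (ih (fun s hs => hi s (by simp [hs])) (hg.re h2.fst) h2)
    exact h3.mono (fun _ _ _ h => h) fun _ => by simp

end Crest.Agent.R326.Swap
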