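import Crest.Agent.R326.Spec2
import Crest.Agent.R326.Apx

/-!
# The integer tables of the transform are computable in polynomial time
-/

set_option linter.unusedVariables false

namespace Crest.Agent.R326

open Crest.Agent.Lib.PolyTime

section
variable {α β : Type} [PEnc α] [PEnc β]

@[fun_prop] theorem Poly.tab' {n : α → ℕ} {f : α → ℕ → β} (hn : Poly n) (hb : PB n)
    (hf : Poly fun p : α × ℕ => f p.1 p.2) : Poly fun a => tab (n a) (f a) :=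
  Lib.PolyTime.Poly.map (Poly.range hn hb) hf

@[fun_prop] theorem Poly.bits' {w n : α → ℕ} (hw : Poly w) (hb : PB w) (hn : Poly n) :
    Poly fun a => bits (w a) (n a) := by unfold bits; fun_prop

@[fun_prop] theorem Poly.ibits' {w : α → ℕ} {z : α → ℤ} (hw : Poly w) (hb : PB w) (hz : Poly z) :
    Poly fun a => ibits (w a) (z a) := by unfold ibits; fun_prop

@[fun_prop] theorem Poly.crec' {w : α → ℕ} {z : α → ℤ × ℤ} (hw : Poly w) (hb : PB w)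
    (hz : Poly z) : Poly fun a => crec (w a) (z a) := by unfold crec; fun_prop

end

/-- The schedule with the tables for all axes. -/
def sched (len : ℕ) (sc : ℕ → Option ℕ) (d U w : ℕ) (Tb : ℕ → ℕ → ℕ → ℤ × ℤ) :
    List (Option ℕ × List (List (List Bool × List Bool))) :=
  tab len fun l => (sc l, tab d fun ax => tab U fun x => crec w (Tb l ax x))

/-- The digital form of `DftSpec`. -/
def TabSpec : Prop :=
  ∃ (c : ℕ) (len : ℕ → ℕ) (sc : ℕ → ℕ → Option ℕ) (tb : ℕ → ℕ → Bool → ℕ → ℕ → ℂ)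
    (G : ℕ → ℕ → ℕ → ℕ → Bool → ℕ → ℕ → ℤ × ℤ),
    (∀ ℓ, len ℓ ≤ c * (ℓ + 1) ^ 4) ∧ (∀ ℓ l j, c ≤ ℓ → sc ℓ l = some j → j < ℓ) ∧
    Poly (fun a : Un => Un.mk (len a.n)) ∧
    Poly (fun a : (Un × Un × Un × Un) × List ℕ × Bool =>
      sched (len a.1.2.1.n) (sc a.1.2.1.n) a.2.1.length a.1.1.n a.1.2.2.2.n fun l ax x =>
        G a.1.1.n a.1.2.2.1.n a.1.2.1.n (a.2.1.getD ax 1) a.2.2 l x) ∧
    ∀ ℓ q inv, c ≤ ℓ → 2 ^ ℓ < 2 * q → q ≤ 2 ^ ℓ →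
      (∀ P l x, x < 2 ^ ℓ → ‖tb ℓ q inv l x‖ ≤ 2 ^ (c * 4 ^ ℓ) ∧
        ‖((G (2 ^ ℓ) P ℓ q inv l x).1 : ℂ) + ((G (2 ^ ℓ) P ℓ q inv l x).2 : ℂ) * Complex.I -
          2 ^ P * tb ℓ q inv l x‖ ≤ 2) ∧
      layersM ℓ (sc ℓ) (tb ℓ q inv) (len ℓ) = dftM ℓ q inv

theorem tabSpec_of (h : DftSpec) : TabSpec := by
  obtain ⟨c, len, sc, tb, h1, h2, h3, h4, h5, h6⟩ := h
  obtain ⟨g, hg, hg'⟩ := h5.round
  have hlen : PB fun a : Un => len a.n :=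
    PB.mono (h := fun a : Un => c * (a.n + 1) ^ 4) (by fun_prop) fun a => h1 _
  let p : (Un × ℕ × ℕ × Bool × ℕ × ℕ) × Un → Prop := fun a =>
    a.1.1.n = 2 ^ (min a.1.2.1 a.1.1.n) ∧ a.1.2.1 ≤ a.1.1.n ∧ a.1.1.n < 2 * a.1.2.2.1 ∧
      a.1.2.2.1 ≤ a.1.1.n ∧ a.1.2.2.2.2.2 < a.1.1.n
  have hp : ∀ a, p a → a.1.1.n = 2 ^ a.1.2.1 ∧ 2 ^ a.1.2.1 < 2 * a.1.2.2.1 ∧
      a.1.2.2.1 ≤ 2 ^ a.1.2.1 ∧ a.1.2.2.2.2.2 < 2 ^ a.1.2.1 := fun a ⟨e, a1, a2, a3, a4⟩ => by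
    rw [min_eq_left a1] at e
    exact ⟨e, e ▸ a2, e ▸ a3, e ▸ a4⟩
  let G₀ : (Un × ℕ × ℕ × Bool × ℕ × ℕ) × Un → ℤ × ℤ := fun a =>
    if h : p a then g (⟨a.1, hp a h⟩, a.2) else (0, 0)
  have hG₀ : Poly G₀ := Poly.dite (by simp only [p]; fun_prop)
    (hg.comp (g := fun a : {a // p a} => ((⟨a.1.1, hp a.1 a.2⟩ : TbIx), a.1.2))
      (Poly.pair (Poly.subtype_mk (by fun_prop) _) (by fun_prop))) (by fun_prop)
  refine ⟨c, len, sc, tb, fun U P ℓ q inv l x => G₀ ((⟨U⟩, ℓ, q, inv, l, x), ⟨P⟩), h1, h2,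
    Poly.unMk h3 hlen, ?_, fun ℓ q inv hc hq hq' => ⟨fun P l x hx => ⟨(h6 ℓ q inv hc hq hq').1 l x hx,
      ?_⟩, (h6 ℓ q inv hc hq hq').2⟩⟩
  · unfold sched
    refine Poly.tab' (h3.comp (by fun_prop)) (hlen.comp (by fun_prop)) (Poly.pair
      (h4.comp (g := fun p : ((Un × Un × Un × Un) × List ℕ × Bool) × ℕ => (p.1.1.2.1, p.2))
        (by fun_prop)) ?_)
    refine Poly.tab' (by fun_prop) (by fun_prop) (Poly.tab' (by fun_prop) (by fun_prop)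
      (Poly.crec' (by fun_prop) (by fun_prop) (hG₀.comp ?_)))
    fun_prop
  · have hl : ℓ ≤ 2 ^ ℓ := Nat.lt_two_pow_self.le
    have h0 : p ((⟨2 ^ ℓ⟩, ℓ, q, inv, l, x), ⟨P⟩) := ⟨by simp [hl], hl, hq, hq', hx⟩
    simp only [G₀, dif_pos h0]
    exact hg' ⟨_, hp _ h0⟩ ⟨P⟩

end Crest.Agent.R326
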