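import Crest.Agent.R326.Accum

/-!
# The tactic `rp`

`rp` proves goals `R C (fun i => e)` by recursion on `e`: it first tries the hypotheses, then the
rule `R.foo` (or `R.foo'`, `R.Bar_foo`) for the head constant `Bar.foo` of `e`.  Side conditions
that are not hypotheses are left as goals.  It only builds proof terms.
-/

namespace Crest.Agent.R326

open Crest.Agent.Lib.PolyTime

/-- The context of linear-time functions. -/
def lctx (α : Type) [PEnc α] : Ctx α := Ctx.of id fun _ a => sz a

/-- Linear-time functions. -/
abbrev Lin {α β : Type} [PEnc α] [PEnc β] (f : α → β) : Prop := R (lctx α) f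

theorem Lin.id {α : Type} [PEnc α] : R (lctx α) fun a => a := R.of_self 0 1 zero_le_one (by simp)

instance {α : Type} [PEnc α] : (lctx α).Ok := Lin.id.isOk

theorem Lin.r {ι α β : Type} [PEnc α] [PEnc β] {f : α → β} (hf : Lin f) {C : Ctx ι} {x : ι → α}
    (hx : R C x) : R C fun i => f (x i) :=
  R.use (x := _root_.id) hf x hx fun _ => hx.dom_sz

/-- Candidate rule names for a head constant. -/
def rpNames (c : Lean.Name) : List Lean.Name :=
  let base := `Crest.Agent.R326.R
  if c == ``Prod.mk then [base ++ `pair] else
  match c with
  | .str p s =>
    let q := match p with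
      | .str _ t => [base.str (t ++ "_" ++ s)]
      | _ => []
    q ++ [base.str s, base.str (s ++ "'"), base.str (s ++ "''")]
  | _ => []

/-- The recursive search. -/
partial def rpCore (g : Lean.MVarId) : Lean.Meta.MetaM (List Lean.MVarId) := g.withContext do
  if ← g.isAssigned then return []
  let t ← Lean.Meta.whnfR (← Lean.instantiateMVars (← g.getType))
  if ← Lean.Meta.withReducible g.assumptionCore then return []
  unless t.isAppOfArity ``R 5 do return [g]
  let y ← Lean.Meta.etaExpand t.appArg!
  let .lam nm ty b bi := y | return [g]
  let b := b.headBeta
  let b := match b with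
    | .mdata _ b => b
    | .letE _ _ v e _ => e.instantiate1 v
    | b => b
  let names : List Lean.Name :=
    if !b.hasLooseBVars then [``R.const] else
    match b.getAppFn with
    | .const c _ => rpNames c
    | .proj ``Prod 0 _ => [``R.fst]
    | .proj ``Prod 1 _ => [``R.snd]
    | .proj ``Subtype 0 _ => [``R.val]
    | .bvar _ => [``Lin.id]
    | _ => []
  let g ← g.change (Lean.mkApp t.appFn! (.lam nm ty b bi))
  for n in names do
    if (← Lean.getEnv).contains n then
      let s ← Lean.Meta.saveState
      try
        let gs ← Lean.Meta.withTransparency .instances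
          (g.apply (← Lean.Meta.mkConstWithFreshMVarLevels n))
        let mut res := []
        for g' in gs do
          res := res ++ (← rpCore g')
        return res
      catch _ => s.restore
  return [g]

/-- Prove `R C (fun i => e)` by recursion on `e`. -/
elab "rp" : tactic => Lean.Elab.Tactic.liftMetaTactic rpCore

end Crest.Agent.R326
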