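import Crest.Agent.R326.Spec
import Crest.Agent.R324.Frame

/-! # The Walsh–Hadamard program from the abstract network -/

set_option autoImplicit false

namespace Crest.Agent.R326

open Matrix Function Finset
open Crest.Agent.R324 (IsPr bil fr fr_mul fr_zero fr_sq exists_factor rank_add_of_orth chi
  zmod2_cases bil_comm bil_mul_left card_matrix_z2)

namespace WProg

/-- The partial transform along the image of `P`, with integer entries. -/
def frz {m : ℕ} (u : ℕ) (P : Matrix (Fin m) (Fin m) (ZMod 2)) :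
    Matrix (Matrix (Fin m) (Fin u) (ZMod 2)) (Matrix (Fin m) (Fin u) (ZMod 2)) ℤ :=
  Matrix.of fun x y => if x - P * x = y - P * y then sg (bil (P * x) (P * y)) else 0

variable {m W : ℕ}

lemma cast_sg (z : ZMod 2) : ((sg z : ℤ) : ℂ) = chi z := by
  unfold sg chi; split_ifs <;> simp

lemma map_frz (u : ℕ) (P : Matrix (Fin m) (Fin m) (ZMod 2)) :
    (frz u P).map (Int.castRingHom ℂ) = fr (Fin u) P := by
  ext x y
  simp only [frz, fr, map_apply, of_apply, eq_intCast]
  split_ifs
  · exact cast_sg _
  · simp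

lemma map_inj {α : Type} {A B : Matrix α α ℤ}
    (h : A.map (Int.castRingHom ℂ) = B.map (Int.castRingHom ℂ)) : A = B := by
  ext x y
  have := congrFun (congrFun h x) y
  simpa using this

lemma frz_mul (u : ℕ) {P Q : Matrix (Fin m) (Fin m) (ZMod 2)} (hP : IsPr P) (hQ : IsPr Q)
    (h : P * Q = 0) : frz u P * frz u Q = frz u (P + Q) := by
  apply map_inj
  rw [Matrix.map_mul, map_frz, map_frz, map_frz, fr_mul hP hQ h]

lemma frz_zero (u : ℕ) : frz u (0 : Matrix (Fin m) (Fin m) (ZMod 2)) = 1 := by
  apply map_inj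
  rw [map_frz, fr_zero, Matrix.map_one _ (by simp) (by simp)]

lemma sg_mul_self (z : ZMod 2) : sg z * sg z = 1 := by
  unfold sg; split_ifs <;> simp

lemma frz_sq (u : ℕ) {P : Matrix (Fin m) (Fin m) (ZMod 2)} (hP : IsPr P) :
    frz u P * frz u P = (2 ^ (P.rank * u) : ℤ) • (1 : Matrix _ _ ℤ) := by
  ext x z
  by_cases hxz : x = z
  · subst hxz
    obtain ⟨U, W, h1, h2⟩ := exists_factor hP.2
    have hPP : ∀ y : Matrix (Fin m) (Fin u) (ZMod 2), P * (P * y) = P * y := fun y => by
      rw [← Matrix.mul_assoc, hP.2]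
    have hWU : ∀ b : Matrix (Fin P.rank) (Fin u) (ZMod 2), W * (U * b) = b := fun b => by
      rw [← Matrix.mul_assoc, h2, Matrix.one_mul]
    have hUW : ∀ y : Matrix (Fin m) (Fin u) (ZMod 2), U * (W * y) = P * y := fun y => by
      rw [← Matrix.mul_assoc, h1]
    have hPU : ∀ b : Matrix (Fin P.rank) (Fin u) (ZMod 2), P * (U * b) = U * b := fun b => by
      rw [← hUW, hWU]
    have hWP : ∀ y : Matrix (Fin m) (Fin u) (ZMod 2), W * (P * y) = W * y := fun y => by
      rw [← hUW, hWU]
    have hc : (univ.filter fun y : Matrix (Fin m) (Fin u) (ZMod 2) =>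
        x - P * x = y - P * y).card = 2 ^ (P.rank * u) := by
      have := card_matrix_z2 (Fin P.rank) (Fin u)
      rw [Fintype.card_fin, Fintype.card_fin] at this
      rw [← this, ← Finset.card_univ]
      refine Finset.card_bij' (fun y _ => W * y) (fun b _ => x - P * x + U * b) (by simp) ?_ ?_ ?_
      · intro b _
        simp [Matrix.mul_add, Matrix.mul_sub, hPP, hPU]
      · intro y hy
        rw [hUW, (Finset.mem_filter.1 hy).2]; abel
      · intro b _
        simp [Matrix.mul_add, Matrix.mul_sub, hWP, hWU]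
    rw [mul_apply, Matrix.smul_apply, one_apply_eq, smul_eq_mul, mul_one]
    have : (2 ^ (P.rank * u) : ℤ) = ((univ.filter fun y : Matrix (Fin m) (Fin u) (ZMod 2) =>
        x - P * x = y - P * y).card : ℤ) := by rw [hc]; simp
    rw [this, Finset.card_filter]
    push_cast
    refine Finset.sum_congr rfl fun y _ => ?_
    simp only [frz, of_apply]
    by_cases hc : x - P * x = y - P * y
    · rw [if_pos hc, if_pos hc.symm, if_pos hc, bil_comm (P * y), sg_mul_self]
    · simp [hc]
  · obtain ⟨d, -, hd⟩ := fr_sq (κ := Fin u) hP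
    rw [← map_frz, ← Matrix.map_mul] at hd
    have := congrFun (congrFun hd x) z
    rw [diagonal_apply_ne _ hxz] at this
    rw [Matrix.smul_apply, one_apply_ne hxz, smul_zero]
    simpa using this

/-- action of an integer matrix on functions with values in an abelian group -/
def act {α N : Type} [Fintype α] [AddCommGroup N] (A : Matrix α α ℤ) (a : α → N) : α → N :=
  fun y => ∑ z, A y z • a z

section act
variable {α N : Type} [Fintype α] [AddCommGroup N]

lemma act_mul (A B : Matrix α α ℤ) (a : α → N) : act (A * B) a = act A (act B a) := by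
  funext y
  simp only [act, mul_apply, Finset.sum_smul, Finset.smul_sum, mul_smul]
  exact Finset.sum_comm

lemma act_one [DecidableEq α] (a : α → N) : act 1 a = a := by
  funext y
  simp [act, one_apply, ite_smul]

lemma act_smul_one [DecidableEq α] (c : ℤ) (a : α → N) :
    act (c • (1 : Matrix α α ℤ)) a = c • a := by
  funext y
  simp [act, one_apply, ite_smul]

lemma act_add (A : Matrix α α ℤ) (a b : α → N) : act A (a + b) = act A a + act A b := by
  funext y
  simp [act, Finset.sum_add_distrib]

lemma act_smul {R : Type} [CommRing R] [Module R N] (A : Matrix α α ℤ) (c : R) (a : α → N) :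
    act A (c • a) = c • act A a := by
  funext y
  simp only [act, Pi.smul_apply, Finset.smul_sum]
  exact Finset.sum_congr rfl fun z _ => smul_comm _ _ _

end act

/-- `prog` is an admissible program with `c` single-field transforms computing `F`. -/
def Impl (c : ℕ)
    (F : ∀ (u : ℕ) (K : Type) [CommRing K] (hf : K) (_ : 2 * hf = 1) (N : Type) [AddCommGroup N]
      [Module K N], (Fin W → Matrix (Fin m) (Fin u) (ZMod 2) → N) →
        Fin W → Matrix (Fin m) (Fin u) (ZMod 2) → N) : Prop :=
  ∃ prog : List (WInstr W m), (∀ s ∈ prog, s.ok) ∧ (prog.map WInstr.cnt).sum = c ∧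
    ∀ (u : ℕ) (K : Type) [CommRing K] (hf : K) (h : 2 * hf = 1) (N : Type) [AddCommGroup N]
      [Module K N] (x : Fin W → Matrix (Fin m) (Fin u) (ZMod 2) → N),
      prog.foldl (fun y s => WInstr.run u hf s y) x = F u K hf h N x

lemma Impl.comp {c c' : ℕ} {F G} (h : Impl (W := W) (m := m) c F) (h' : Impl c' G) :
    Impl (c + c') (fun u K _ hf h N _ _ x => G u K hf h N (F u K hf h N x)) := by
  obtain ⟨p, h1, h2, h3⟩ := h
  obtain ⟨q, g1, g2, g3⟩ := h'
  refine ⟨p ++ q, fun s hs => (List.mem_append.1 hs).elim (h1 s) (g1 s), by simp [h2, g2], ?_⟩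
  intro u K _ hf h N _ _ x
  rw [List.foldl_append, h3 u K hf h, g3 u K hf h]

lemma Impl.congr {c c' : ℕ} {F G} (h : Impl (W := W) (m := m) c F) (hc : c = c')
    (hFG : ∀ (u : ℕ) (K : Type) [CommRing K] (hf : K) (h : 2 * hf = 1) (N : Type) [AddCommGroup N]
      [Module K N] (x : Fin W → Matrix (Fin m) (Fin u) (ZMod 2) → N),
      F u K hf h N x = G u K hf h N x) : Impl c' G := by
  obtain ⟨p, h1, h2, h3⟩ := h
  refine ⟨p, h1, h2.trans hc, ?_⟩
  intro u K _ hf h N _ _ x
  rw [h3 u K hf h, hFG]

lemma Impl.id : Impl (W := W) (m := m) 0 (fun _ _ _ _ _ _ _ _ x => x) :=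
  ⟨[], by simp, by simp, fun _ _ _ _ _ _ _ _ _ => rfl⟩

lemma Impl.single (s : WInstr W m) (hs : s.ok) :
    Impl s.cnt (fun u _ _ hf _ _ _ _ x => WInstr.run u hf s x) :=
  ⟨[s], by simpa using hs, by simp, fun _ _ _ _ _ _ _ _ _ => rfl⟩

/-- precomposition with an invertible matrix -/
lemma impl_pre (w : Fin W) (A : Matrix (Fin m) (Fin m) (ZMod 2)) (hA : A.det ≠ 0) :
    Impl 0 (fun _ _ _ _ _ _ _ _ x => update x w fun y => x w (A * y)) := by
  refine Matrix.diagonal_transvection_induction_of_det_ne_zero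
    (fun A => Impl (W := W) (m := m) 0
      (fun _ _ _ _ _ _ _ _ x => update x w fun y => x w (A * y))) A hA ?_ ?_ ?_
  · intro D hD
    have : diagonal D = 1 := by
      rw [det_diagonal, Finset.prod_ne_zero_iff] at hD
      rw [← diagonal_one]
      congr 1
      funext i
      exact (zmod2_cases _).resolve_left (hD i (mem_univ _))
    rw [this]
    refine Impl.id.congr rfl ?_
    intro u K _ hf h N _ _ x
    simp
  · rintro ⟨i, j, hij, c⟩
    rcases zmod2_cases c with rfl | rfl
    · refine Impl.id.congr rfl ?_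
      intro u K _ hf h N _ _ x
      simp [TransvectionStruct.toMatrix, transvection_zero]
    · refine (Impl.single (.xor w i j) hij).congr rfl ?_
      intro u K _ hf h N _ _ x
      simp only [WInstr.run]
      congr 1
      funext y
      congr 1
      funext a b
      by_cases ha : a = i
      · subst ha
        simp [TransvectionStruct.toMatrix]
      · rw [update_of_ne ha]
        simp [TransvectionStruct.toMatrix, ha]
  · intro A B _ _ hA hB
    refine (hA.comp hB).congr rfl ?_
    intro u K _ hf h N _ _ x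
    simp [Matrix.mul_assoc]

/-- the coordinate projection onto the fields in `s` -/
def Es (s : Finset (Fin m)) : Matrix (Fin m) (Fin m) (ZMod 2) :=
  diagonal fun i => if i ∈ s then 1 else 0

lemma Es_mul_apply {u : ℕ} (s : Finset (Fin m)) (y : Matrix (Fin m) (Fin u) (ZMod 2)) (i : Fin m)
    (b : Fin u) : (Es s * y) i b = if i ∈ s then y i b else 0 := by
  simp [Es, diagonal_mul]

lemma Es_isPr (s : Finset (Fin m)) : IsPr (Es s) := by
  refine ⟨diagonal_transpose _, ?_⟩
  rw [Es, diagonal_mul_diagonal]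
  congr 1
  funext i
  split_ifs <;> simp

lemma act_single {u : ℕ} {N : Type} [AddCommGroup N] (i : Fin m)
    (a : Matrix (Fin m) (Fin u) (ZMod 2) → N) (y : Matrix (Fin m) (Fin u) (ZMod 2)) :
    act (frz u (Es {i})) a y = ∑ z : Fin u → ZMod 2, sg (y i ⬝ᵥ z) • a (update y i z) := by
  symm
  unfold act
  refine Finset.sum_bij_ne_zero (fun z _ _ => (update y i z : Matrix (Fin m) (Fin u) (ZMod 2)))
    (fun _ _ _ => mem_univ _) ?_ ?_ ?_
  · intro z _ _ z' _ _ h
    have := congrFun h i
    simpa using this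
  · intro z _ hz
    have hc : y - Es {i} * y = z - Es {i} * z := by
      by_contra hc
      simp [frz, hc] at hz
    have e : update y i (z i) = z := by
      funext a b
      by_cases ha : a = i
      · subst ha; simp
      · rw [update_of_ne ha]
        have := congrFun (congrFun hc a) b
        simpa [Es_mul_apply, ha] using this
    have e2 : sg (y i ⬝ᵥ z i) = frz u (Es {i}) y z := by
      simp only [frz, of_apply, if_pos hc]
      congr 1
      simp only [bil, trace, Matrix.diag, mul_apply (M := (Es {i} * y)ᵀ), transpose_apply,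
        Es_mul_apply, dotProduct]
      refine Finset.sum_congr rfl fun b _ => ?_
      simp
    refine ⟨z i, mem_univ _, ?_, e⟩
    rw [e2]
    change frz u (Es {i}) y z • a (update y i (z i)) ≠ 0
    rwa [e]
  · intro z _ _
    congr 1
    have key : ∀ y' : Matrix (Fin m) (Fin u) (ZMod 2), (∀ a, a ≠ i → y' a = y a) → y' i = z →
        sg (y i ⬝ᵥ z) = frz u (Es {i}) y y' := by
      intro y' h1 h2
      have hc : y - Es {i} * y = y' - Es {i} * y' := by
        funext a b
        simp only [Matrix.sub_apply, Es_mul_apply, mem_singleton]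
        by_cases ha : a = i
        · simp [ha]
        · simp [ha, h1 a ha]
      simp only [frz, of_apply]
      rw [if_pos hc]
      congr 1
      simp only [bil, trace, Matrix.diag, mul_apply (M := (Es {i} * y)ᵀ), transpose_apply,
        Es_mul_apply, dotProduct]
      refine Finset.sum_congr rfl fun b _ => ?_
      simp [h2]
    exact key _ (fun a ha => update_of_ne ha _ _) (update_self _ _ _)

lemma impl_had (w : Fin W) (s : Finset (Fin m)) :
    Impl s.card (fun u _ _ _ _ _ _ _ x => update x w (act (frz u (Es s)) (x w))) := by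
  induction s using Finset.induction_on with
  | empty =>
    refine Impl.id.congr rfl ?_
    intro u K _ hf h N _ _ x
    have : Es (∅ : Finset (Fin m)) = 0 := by simp [Es]
    rw [this, frz_zero, act_one, update_eq_self]
  | insert i s hi ih =>
    refine (ih.comp (Impl.single (.had w i) trivial)).congr
      (by rw [Finset.card_insert_of_notMem hi]; rfl) ?_
    intro u K _ hf h N _ _ x
    have h1 : Es {i} * Es s = 0 := by
      rw [Es, Es, diagonal_mul_diagonal, ← diagonal_zero]
      congr 1
      funext j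
      by_cases hj : j = i
      · subst hj; simp [hi]
      · simp [hj]
    have h2 : Es (insert i s) = Es {i} + Es s := by
      rw [Es, Es, Es, diagonal_add]
      congr 1
      funext j
      by_cases hj : j = i
      · subst hj; simp [hi]
      · simp [hj]
    rw [h2, ← frz_mul u (Es_isPr _) (Es_isPr _) h1, act_mul]
    simp only [WInstr.run, update_self]
    refine (update_idem _ _ _).trans ?_
    congr 1
    funext y
    exact (act_single i _ y).symm

lemma exists_conj {D : Matrix (Fin m) (Fin m) (ZMod 2)} (hD : IsPr D) :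
    ∃ (N1 N1' : Matrix (Fin m) (Fin m) (ZMod 2)) (s : Finset (Fin m)), s.card = D.rank ∧
      N1 * N1' = 1 ∧ N1' * N1 = 1 ∧ D * N1 = N1 * Es s := by
  have hD' : IsPr (1 - D) := ⟨by rw [transpose_sub, transpose_one, hD.1], by
    rw [Matrix.sub_mul, Matrix.mul_sub, Matrix.mul_sub, hD.2]; simp⟩
  have hDD : D * (1 - D) = 0 := by rw [Matrix.mul_sub, hD.2]; simp
  have hr : D.rank + (1 - D).rank = m := by
    rw [← rank_add_of_orth hD hD' hDD]; simp
  obtain ⟨U, W0, h1, h2⟩ := exists_factor hD.2
  obtain ⟨K0, Z, g1, g2⟩ := exists_factor hD'.2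
  let ε : Fin D.rank ⊕ Fin (1 - D).rank ≃ Fin m := finSumFinEquiv.trans (finCongr hr)
  have e1 : (fromCols U K0).submatrix id ε.symm * (fromRows W0 Z).submatrix ε.symm id = 1 := by
    rw [submatrix_mul_equiv, fromCols_mul_fromRows, h1, g1]; simp
  refine ⟨(fromCols U K0).submatrix id ε.symm, (fromRows W0 Z).submatrix ε.symm id,
    univ.map ⟨fun i => ε (.inl i), fun i j h => by simpa using h⟩, by simp, e1,
    mul_eq_one_comm.1 e1, ?_⟩
  have hDU : D * U = U := by
    calc D * U = (U * W0) * U := by rw [h1]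
      _ = U := by rw [Matrix.mul_assoc, h2, Matrix.mul_one]
  have hDK : D * K0 = 0 := by
    have : (1 - D) * K0 = K0 := by
      calc (1 - D) * K0 = (K0 * Z) * K0 := by rw [g1]
        _ = K0 := by rw [Matrix.mul_assoc, g2, Matrix.mul_one]
    calc D * K0 = D * ((1 - D) * K0) := by rw [this]
      _ = 0 := by rw [← Matrix.mul_assoc, hDD, Matrix.zero_mul]
  ext a b
  obtain ⟨b, rfl⟩ := ε.surjective b
  rw [Es, mul_diagonal]
  rcases b with b | b
  · have := congrFun (congrFun hDU a) b
    simpa [mul_apply] using this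
  · have := congrFun (congrFun hDK a) b
    simpa [mul_apply] using this

lemma det_ne_zero_of_mul_eq_one {A B : Matrix (Fin m) (Fin m) (ZMod 2)} (h : A * B = 1) :
    A.det ≠ 0 := by
  intro h0
  have := congrArg det h
  rw [det_mul, h0, zero_mul, det_one] at this
  exact zero_ne_one this

lemma impl_up (w : Fin W) {D : Matrix (Fin m) (Fin m) (ZMod 2)} (hD : IsPr D) :
    Impl D.rank (fun u _ _ _ _ _ _ _ x => update x w (act (frz u D) (x w))) := by
  obtain ⟨N1, N1', s, hs, h1, h1', h2⟩ := exists_conj hD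
  set E := Es s with hE
  have hEE : E * E = E := (Es_isPr s).2
  have hET : Eᵀ = E := (Es_isPr s).1
  have h3 : E * N1ᵀ = N1ᵀ * D := by
    have := congrArg transpose h2
    rw [transpose_mul, transpose_mul, hD.1, hET] at this
    exact this.symm
  have h4 : N1'ᵀ * N1ᵀ = 1 := by rw [← transpose_mul, h1, transpose_one]
  have h4' : N1ᵀ * N1'ᵀ = 1 := by rw [← transpose_mul, h1', transpose_one]
  have h5 : E * N1' = N1' * D := by
    calc E * N1' = N1' * N1 * E * N1' := by rw [h1', Matrix.one_mul]
      _ = N1' * (N1 * E) * N1' := by simp only [Matrix.mul_assoc]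
      _ = N1' * D := by rw [← h2, Matrix.mul_assoc, Matrix.mul_assoc, h1, Matrix.mul_one]
  set N2 := N1ᵀ * D + N1' * (1 - D) with hN2
  have hEN2 : E * N2 = N1ᵀ * D := by
    rw [hN2, Matrix.mul_add, ← Matrix.mul_assoc, ← Matrix.mul_assoc, h3, h5, Matrix.mul_assoc,
      Matrix.mul_assoc, hD.2, Matrix.mul_sub, hD.2]
    simp
  have hinv : (D * N1'ᵀ * E + N1 * (1 - E)) * N2 = 1 := by
    have a1 : D * N1'ᵀ * E * N2 = D := by
      rw [Matrix.mul_assoc, hEN2, Matrix.mul_assoc, ← Matrix.mul_assoc N1'ᵀ, h4, Matrix.one_mul,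
        hD.2]
    have a2 : N1 * (1 - E) * N2 = 1 - D := by
      rw [Matrix.mul_assoc, Matrix.sub_mul, Matrix.one_mul, hEN2, hN2, add_sub_cancel_left,
        ← Matrix.mul_assoc, h1, Matrix.one_mul]
    rw [Matrix.add_mul, a1, a2]; simp
  have hd2 : N2.det ≠ 0 := det_ne_zero_of_mul_eq_one (mul_eq_one_comm.1 hinv)
  refine (((impl_pre w N1 (det_ne_zero_of_mul_eq_one h1)).comp (impl_had w s)).comp
    (impl_pre w N2 hd2)).congr (by simp [hs]) ?_
  intro u K _ hf h N _ _ x
  simp only [update_self, update_idem]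
  congr 1
  funext y
  let e : Matrix (Fin m) (Fin u) (ZMod 2) ≃ Matrix (Fin m) (Fin u) (ZMod 2) :=
    { toFun := fun z => N1 * z
      invFun := fun z => N1' * z
      left_inv := fun z => by simp only [← Matrix.mul_assoc, h1', Matrix.one_mul]
      right_inv := fun z => by simp only [← Matrix.mul_assoc, h1, Matrix.one_mul] }
  unfold act
  rw [← e.sum_comp (fun z => frz u D y z • x w z)]
  refine Finset.sum_congr rfl fun z _ => ?_
  change frz u E (N2 * y) z • x w (N1 * z) = frz u D y (N1 * z) • x w (N1 * z)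
  congr 1
  have c1 : N2 * y - E * (N2 * y) = N1' * (y - D * y) := by
    rw [← Matrix.mul_assoc, hEN2, hN2, Matrix.add_mul, add_sub_cancel_left, Matrix.mul_assoc,
      Matrix.sub_mul, Matrix.one_mul]
  have c2 : z - E * z = N1' * (N1 * z - D * (N1 * z)) := by
    rw [Matrix.mul_sub, ← Matrix.mul_assoc, h1', Matrix.one_mul, ← Matrix.mul_assoc D, h2,
      ← Matrix.mul_assoc, ← Matrix.mul_assoc, h1', Matrix.one_mul]
  have c3 : (N2 * y - E * (N2 * y) = z - E * z) ↔ (y - D * y = N1 * z - D * (N1 * z)) := by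
    rw [c1, c2]
    refine ⟨fun h => ?_, fun h => by rw [h]⟩
    have := congrArg (N1 * ·) h
    simpa only [← Matrix.mul_assoc N1 N1', h1, Matrix.one_mul] using this
  have c4 : bil (E * (N2 * y)) (E * z) = bil (D * y) (D * (N1 * z)) := by
    rw [← Matrix.mul_assoc, hEN2, Matrix.mul_assoc, bil_mul_left, transpose_transpose,
      ← Matrix.mul_assoc, ← h2, Matrix.mul_assoc]
  simp only [frz, of_apply, c3, c4]

/-- one scalar instruction on every wire -/
lemma impl_all (f : Fin W → WInstr W m) (hok : ∀ w, (f w).ok) (hc : ∀ w, (f w).cnt = 0)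
    (c : ∀ (_ : ℕ) (K : Type) [CommRing K] (_ : K), Fin W → K)
    (hf : ∀ (w : Fin W) (u : ℕ) (K : Type) [CommRing K] (hf : K) (N : Type) [AddCommGroup N]
      [Module K N] (x : Fin W → Matrix (Fin m) (Fin u) (ZMod 2) → N),
      WInstr.run u hf (f w) x = update x w fun y => c u K hf w • x w y) :
    Impl (W := W) (m := m) 0 (fun u K _ hf _ _ _ _ x w y => c u K hf w • x w y) := by
  have key : ∀ s : Finset (Fin W), Impl (W := W) (m := m) 0
      (fun u K _ hf _ _ _ _ x w y => if w ∈ s then c u K hf w • x w y else x w y) := by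
    intro s
    induction s using Finset.induction_on with
    | empty => exact Impl.id.congr rfl fun _ _ _ _ _ _ _ _ _ => by simp
    | insert i s hi ih =>
      refine (ih.comp (Impl.single (f i) (hok i))).congr (by simp [hc]) ?_
      intro u K _ hf' h N _ _ x
      rw [hf]
      funext w y
      by_cases hw : w = i
      · subst hw; simp [hi]
      · simp [hw]
  exact (key univ).congr rfl fun _ _ _ _ _ _ _ _ _ => by simp

/-- The map from `ℤ[1/2]` to a ring in which `2` is invertible. -/
noncomputable def phi {K : Type} [CommRing K] {hf : K} (h : 2 * hf = 1) :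
    Localization.Away (2 : ℤ) →+* K :=
  IsLocalization.Away.lift (2 : ℤ) (g := Int.castRingHom K)
    (IsUnit.of_mul_eq_one hf (by simpa using h))

lemma phi_int {K : Type} [CommRing K] {hf : K} (h : 2 * hf = 1) (a : ℤ) :
    phi h (algebraMap ℤ _ a) = a := IsLocalization.Away.lift_eq _ _ _

lemma phi_inv {K : Type} [CommRing K] {hf : K} (h : 2 * hf = 1) :
    phi h (IsLocalization.Away.invSelf (2 : ℤ)) = hf := by
  have h1 := congrArg (phi h)
    (IsLocalization.Away.mul_invSelf (S := Localization.Away (2 : ℤ)) (2 : ℤ))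
  rw [map_mul, phi_int, map_one] at h1
  push_cast at h1
  linear_combination hf * h1 - phi h (IsLocalization.Away.invSelf (2 : ℤ)) * h

/-- The meaning of a network step. -/
noncomputable def sem (s : NStep W m (ZMod 2) (Localization.Away (2 : ℤ))) (u : ℕ) (K : Type)
    [CommRing K] (hf : K) (h : 2 * hf = 1) (N : Type) [AddCommGroup N] [Module K N]
    (x : Fin W → Matrix (Fin m) (Fin u) (ZMod 2) → N) :
    Fin W → Matrix (Fin m) (Fin u) (ZMod 2) → N :=
  match s with
  | .gate G => fun w => ∑ w', phi h (G w w') • x w'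
  | .up w D => update x w (act (frz u D) (x w))
  | .down w D => update x w (hf ^ (D.rank * u) • act (frz u D) (x w))

lemma impl_step (s : NStep W m (ZMod 2) (Localization.Away (2 : ℤ)))
    {S : Set (Matrix (Fin m) (Fin m) (ZMod 2))} (hs : s.ok True S) :
    Impl s.rk (fun u K _ hf h N _ _ x => sem s u K hf h N x) := by
  cases s with
  | gate G =>
    obtain ⟨⟨_, k, rfl⟩, hb⟩ := IsLocalization.exist_integer_multiples_of_finite
      (Submonoid.powers (2 : ℤ)) (fun p : Fin W × Fin W => G p.1 p.2)
    choose G0 hG0 using hb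
    refine ((Impl.single (.gate (Matrix.of fun a b => G0 (a, b))) trivial).comp
      (impl_all (fun w => .dn2 w 0 k) (fun _ => trivial) (fun _ => rfl)
        (fun u K _ hf _ => hf ^ (0 * u + k)) (fun _ _ _ _ _ _ _ _ _ => rfl))).congr rfl ?_
    intro u K _ hf h N _ _ x
    funext w y
    simp only [WInstr.run, sem, of_apply, Finset.smul_sum, Finset.sum_apply, Pi.smul_apply,
      zero_mul, zero_add]
    refine Finset.sum_congr rfl fun w' _ => ?_
    have h1 := congrArg (phi h) (hG0 (w, w'))
    rw [phi_int, Algebra.smul_def, map_mul, phi_int] at h1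
    rw [← Int.cast_smul_eq_zsmul K, h1, smul_smul]
    congr 1
    push_cast
    rw [← mul_assoc, ← mul_pow, mul_comm hf, h, one_pow, one_mul]
  | up w D => exact impl_up w ⟨hs.1.1 trivial, hs.1.2⟩
  | down w D =>
    refine ((impl_up w ⟨hs.1.1 trivial, hs.1.2⟩).comp
      (Impl.single (.dn2 w D.rank 0) trivial)).congr rfl ?_
    intro u K _ hf h N _ _ x
    simp only [WInstr.run, sem, update_self, add_zero]
    exact update_idem _ _ _

lemma impl_steps (l : List (NStep W m (ZMod 2) (Localization.Away (2 : ℤ))))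
    {S : Set (Matrix (Fin m) (Fin m) (ZMod 2))} (hl : ∀ s ∈ l, s.ok True S) :
    Impl (l.map NStep.rk).sum
      (fun u K _ hf h N _ _ x => l.foldl (fun y s => sem s u K hf h N y) x) := by
  induction l with
  | nil => exact Impl.id
  | cons s l ih =>
    refine ((impl_step s (hl s (by simp))).comp (ih fun t ht => hl t (by simp [ht]))).congr
      (by simp) ?_
    intro u K _ hf h N _ _ x
    rfl

theorem gen (steps : List (NStep W m (ZMod 2) (Localization.Away (2 : ℤ))))
    (P : Fin W → Matrix (Fin m) (Fin m) (ZMod 2)) (S : Set (Matrix (Fin m) (Fin m) (ZMod 2)))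
    (hP : ∀ w, IsPj True (P w) ∧ P w ∈ S) (hsteps : ∀ s ∈ steps, s.ok True S)
    (hrun : ∀ (M : Type) [AddCommGroup M] [Module (Localization.Away (2 : ℤ)) M]
      (ρ ρ' : Matrix (Fin m) (Fin m) (ZMod 2) → M →ₗ[Localization.Away (2 : ℤ)] M),
      (∀ A ∈ S, ∀ D ∈ S, IsPj True A → IsPj True D → A * D = 0 → D * A = 0 →
        (ρ D).comp (ρ A) = ρ (A + D) ∧ (ρ' D).comp (ρ (A + D)) = ρ A) →
      ∀ x : Fin W → M,
        steps.foldl (fun y s => s.run ρ ρ' y) (fun w => ρ (P w) (ρ (P w) (x w))) =
          fun w => ρ 1 (x w)) :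
    Impl (W := W) (m := m) (steps.map NStep.rk).sum
      (fun u _ _ _ _ _ _ _ x w => act (frz u 1) (x w)) := by
  refine ((impl_all (fun w => .up2 w (P w).rank 0) (fun _ => trivial) (fun _ => rfl)
    (fun u K _ _ w => (2 : K) ^ ((P w).rank * u + 0)) (fun _ _ _ _ _ _ _ _ _ => rfl)).comp
    (impl_steps steps hsteps)).congr (by simp) ?_
  intro u K _ hf h N _ _ x
  let : Module (Localization.Away (2 : ℤ)) (Matrix (Fin m) (Fin u) (ZMod 2) → N) :=
    Module.compHom _ (phi h)
  have hsm : ∀ (r : Localization.Away (2 : ℤ)) (a : Matrix (Fin m) (Fin u) (ZMod 2) → N),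
      r • a = phi h r • a := fun _ _ => rfl
  let ρ : Matrix (Fin m) (Fin m) (ZMod 2) → (Matrix (Fin m) (Fin u) (ZMod 2) → N)
      →ₗ[Localization.Away (2 : ℤ)] (Matrix (Fin m) (Fin u) (ZMod 2) → N) := fun D =>
    { toFun := act (frz u D)
      map_add' := act_add _
      map_smul' := fun r a => act_smul _ (phi h r) a }
  let ρ' : Matrix (Fin m) (Fin m) (ZMod 2) → (Matrix (Fin m) (Fin u) (ZMod 2) → N)
      →ₗ[Localization.Away (2 : ℤ)] (Matrix (Fin m) (Fin u) (ZMod 2) → N) := fun D =>
    { toFun := fun a => hf ^ (D.rank * u) • act (frz u D) a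
      map_add' := fun a b => by rw [act_add, smul_add]
      map_smul' := fun r a => by
        simp only [RingHom.id_apply, hsm]
        rw [act_smul, smul_comm] }
  have hsq : ∀ {D : Matrix (Fin m) (Fin m) (ZMod 2)}, IsPr D →
      ∀ a : Matrix (Fin m) (Fin u) (ZMod 2) → N,
      act (frz u D) (act (frz u D) a) = (2 : K) ^ (D.rank * u) • a := by
    intro D hD a
    rw [← act_mul, frz_sq u hD, act_smul_one, ← Int.cast_smul_eq_zsmul K]
    push_cast
    rfl
  have key := hrun _ ρ ρ' (by
    intro A _ D _ hA hD _ hDA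
    have hA' : IsPr A := ⟨hA.1 trivial, hA.2⟩
    have hD' : IsPr D := ⟨hD.1 trivial, hD.2⟩
    have e : ∀ a : Matrix (Fin m) (Fin u) (ZMod 2) → N,
        act (frz u (A + D)) a = act (frz u D) (act (frz u A) a) := fun a => by
      rw [← act_mul, frz_mul u hD' hA' hDA, add_comm]
    refine ⟨LinearMap.ext fun a => (e a).symm, LinearMap.ext fun a => ?_⟩
    change hf ^ (D.rank * u) • act (frz u D) (act (frz u (A + D)) a) = act (frz u A) a
    rw [e, hsq hD', smul_smul, ← mul_pow, mul_comm hf, h, one_pow, one_smul]) x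
  have e0 : (fun w => ρ (P w) (ρ (P w) (x w))) =
      fun w y => (2 : K) ^ ((P w).rank * u + 0) • x w y := by
    funext w
    exact hsq ⟨(hP w).1.1 trivial, (hP w).1.2⟩ (x w)
  have e1 : (fun y (s : NStep W m (ZMod 2) (Localization.Away (2 : ℤ))) => s.run ρ ρ' y) =
      fun y s => sem s u K hf h N y := by
    funext y s
    cases s <;> rfl
  rw [e0, e1] at key
  exact key

lemma act_full {u : ℕ} {N : Type} [AddCommGroup N] (a : Matrix (Fin m) (Fin u) (ZMod 2) → N)
    (y : Matrix (Fin m) (Fin u) (ZMod 2)) :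
    act (frz u 1) a y = ∑ z : Fin m → Fin u → ZMod 2, sg (∑ i, y i ⬝ᵥ z i) • a z := by
  unfold act
  refine Finset.sum_congr rfl fun z _ => ?_
  congr 1
  simp only [frz, of_apply, Matrix.one_mul, sub_self, if_true]
  congr 1
  simp only [bil, trace, Matrix.diag, mul_apply, transpose_apply, dotProduct]
  exact Finset.sum_comm

end WProg

theorem wProg_of_net (h : NetSpec True (ZMod 2) (Localization.Away (2:ℤ))) : WProgSpec := by
  obtain ⟨W, steps, P, S, hW, -, hP, hsteps, hc, hrun⟩ := h
  obtain ⟨prog, h1, h2, h3⟩ := WProg.gen steps P S hP hsteps hrun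
  refine ⟨W, prog, hW, h1, le_trans ?_ hc, ?_⟩
  · rw [h2]
    exact Nat.cast_le.2 (Nat.le_add_right _ _)
  · intro u K _ hf h N _ _ x
    refine (h3 u K hf h N x).trans ?_
    funext w y
    exact WProg.act_full _ _

end Crest.Agent.R326
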