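import Crest.Agent.R326.WhtRec

/-!
# The Walsh–Hadamard layer: from integers to residues and back
-/

set_option linter.unusedVariables false

namespace Crest.Agent.R326
namespace Wht

open Function
open Crest.Agent.Lib.PolyTime

/-- The number with digits `y d` in base `2 ^ b`. -/
def ofDig (b D : ℕ) : (ℕ → ℤ) →+ ℤ where
  toFun y := ∑ d ∈ Finset.range D, y d * 2 ^ (d * b)
  map_zero' := by simp
  map_add' x y := by simp [add_mul, Finset.sum_add_distrib]

theorem ofDig_apply (b D : ℕ) (y : ℕ → ℤ) :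
    ofDig b D y = ∑ d ∈ Finset.range D, y d * 2 ^ (d * b) := rfl

theorem ofDig_dig (b D x : ℕ) :
    ofDig b D (fun d => ((x / 2 ^ (d * b) % 2 ^ b : ℕ) : ℤ)) = ((x % 2 ^ (D * b) : ℕ) : ℤ) := by
  rw [ofDig_apply]
  induction D with
  | zero => simp [Nat.mod_one]
  | succ D ih =>
    rw [Finset.sum_range_succ, ih, Nat.succ_mul, pow_add, Nat.mod_mul]
    push_cast; ring

theorem flatten_bits (b D : ℕ) (x : ℕ → ℕ) :
    (tab D fun d => bits b (x d)).flatten =
      ibits (D * b) (ofDig b D fun d => ((x d % 2 ^ b : ℕ) : ℤ)) := by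
  have key : ∀ D, ∑ d ∈ Finset.range D, x d % 2 ^ b * 2 ^ (d * b) < 2 ^ (D * b) ∧
      (tab D fun d => bits b (x d)).flatten =
        bits (D * b) (∑ d ∈ Finset.range D, x d % 2 ^ b * 2 ^ (d * b)) := by
    intro D
    induction D with
    | zero => simp [bits]
    | succ D ih =>
      rw [Finset.sum_range_succ, Nat.succ_mul, tab_succ, List.flatten_append, ih.2]
      constructor
      · have h1 : x D % 2 ^ b + 1 ≤ 2 ^ b := Nat.mod_lt _ (by positivity)
        have h2 := Nat.mul_le_mul_right (2 ^ (D * b)) h1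
        have := ih.1
        rw [pow_add, Nat.mul_comm (2 ^ (D * b))]
        rw [Nat.add_mul] at h2
        omega
      · simp only [List.flatten_cons, List.flatten_nil, List.append_nil]
        rw [← bits_mod b, bits_append ih.1, Nat.mul_comm (2 ^ (D * b))]
  rw [(key D).2, ← ibits_nat, ofDig_apply]
  push_cast
  rfl

/-- The digits of the residue of `z` modulo `2 ^ w`. -/
def dig (w b : ℕ) (z : ℤ) (d : ℕ) : ℕ := (z % 2 ^ w).toNat / 2 ^ (d * b) % 2 ^ b

theorem dig_lt (w b : ℕ) (z : ℤ) (d : ℕ) : dig w b z d < 2 ^ b := Nat.mod_lt _ (by positivity)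

theorem ofDig_wht {w b D : ℕ} (h : w ≤ D * b) (ℓ jb k : ℕ) (a : ℕ → ℤ) (j : ℕ) :
    ofDig b D (whtG 0 ℓ jb k (fun j d => (dig w b (a j) d : ℤ)) j) ≡ wht ℓ jb k a j
      [ZMOD 2 ^ w] := by
  have h1 := congrFun (whtG_map (ofDig b D) 0 ℓ jb k fun j d => (dig w b (a j) d : ℤ)) j
  have h2 := congrFun (whtG_map (Int.castAddHom (ZMod (2 ^ w))) 0 ℓ jb k
    fun j => ofDig b D fun d => (dig w b (a j) d : ℤ)) j
  have h3 := congrFun (whtG_map (Int.castAddHom (ZMod (2 ^ w))) 0 ℓ jb k a) j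
  have h4 : ∀ j, Int.castAddHom (ZMod (2 ^ w)) (ofDig b D fun d => (dig w b (a j) d : ℤ)) =
      Int.castAddHom (ZMod (2 ^ w)) (a j) := fun j => by
    unfold dig
    rw [ofDig_dig, Nat.mod_eq_of_lt ((toNat_emod_lt w _).trans_le
      (Nat.pow_le_pow_right (by norm_num) h))]
    refine (ZMod.intCast_eq_intCast_iff _ _ _).2 ?_
    exact_mod_cast toNat_emod_modEq w (a j)
  simp only [h4] at h2
  rw [← h1, wht_eq]
  have := (ZMod.intCast_eq_intCast_iff _ _ _).1 (h2.symm.trans h3)
  exact_mod_cast this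

theorem kb_nat {w x : ℕ} (h : x < 2 ^ (w + 1) - 1) : kb w (x : KK w) = bits (w + 1) x := by
  rw [kb, ZMod.val_natCast, Nat.mod_eq_of_lt h]

theorem pow_lt_mod {n e : ℕ} (h : e ≤ 2 * n + 3) : 2 ^ e < 2 ^ (2 * n + 3 + 1) - 1 := by
  have h1 := Nat.pow_le_pow_right (show 0 < 2 by norm_num) h
  have h2 := two_le_pow (2 * n + 2)
  rw [pow_succ 2 (2 * n + 3)]
  change 2 ≤ 2 ^ (2 * n + 3) at h2
  omega

variable {ι : Type} {C : Ctx ι}

/-- Cutting a record into digits. -/
theorem toDig {n w D : ι → ℕ} {z : ι → ℤ} (hle : ∀ i, w i ≤ D i * (n i + 2))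
    (he : R C fun i => Un.mk (D i * (n i + 2) - w i)) (hD : R C fun i => Un.mk (D i))
    (hb : R C fun i => Un.mk (n i + 2)) (hz : R C fun i => ibits (w i) (z i)) :
    R C fun i => rc (2 * n i + 3) (D i) fun d => (dig (w i) (n i + 2) (z i) d : KK _) := by
  have := hz.isOk
  have h1 : R C fun i => tab (D i * (n i + 2)) (z i % 2 ^ w i).toNat.testBit :=
    (hz.hAppend (R.replicate he (R.const false) (he.dom_un.mono fun i => by simp))).congr
      fun i => by
        rw [ibits, ← bits_zero, bits_append (toNat_emod_lt _ _), Nat.add_sub_cancel' (hle i)]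
        rfl
  refine (R.chunks hD hb h1).tabMap₀
    (b := fun i d => kb (2 * n i + 3) (dig (w i) (n i + 2) (z i) d : KK _)) fun h => ?_
  refine (h.hAppend (R.map (f := fun _ : Bool => false) (by rp) h)).congr fun x => ?_
  have e : (tab (n x.1 + 2) fun t => (z x.1 % 2 ^ w x.1).toNat.testBit (x.2 * (n x.1 + 2) + t)) =
      bits (n x.1 + 2) (dig (w x.1) (n x.1 + 2) (z x.1) x.2) := by
    rw [dig, bits_mod]
    exact tab_congr fun t _ => by rw [Nat.testBit_div_two_pow, Nat.add_comm]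
  have e' : (bits (n x.1 + 2) (dig (w x.1) (n x.1 + 2) (z x.1) x.2)).map (fun _ => false) =
      bits (n x.1 + 2) 0 := by rw [bits_zero]; simp
  rw [e, e', bits_append (dig_lt _ _ _ _), kb_nat ((dig_lt _ _ _ _).trans (pow_lt_mod (by omega)))]
  congr 1
  omega

/-- The offset digit. -/
theorem offDig {n : ι → ℕ} {x : ∀ i, KK (2 * n i + 3)} (h : R C fun i => kb (2 * n i + 3) (x i)) :
    R C fun i => bits (2 * n i + 3 + 1) (2 ^ (2 * n i + 2)) := by
  have := h.isOk
  refine ((R.map (f := fun _ : Bool => false) (by rp) h.tail.tail).hAppend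
    (R.const [true, false])).congr fun i => ?_
  rw [show 2 * n i + 3 + 1 = 2 * n i + 2 + 2 from rfl, bits_add, Nat.div_self (by positivity),
    ← bits_mod (2 * n i + 2), Nat.mod_self, bits_zero]
  simp
  rfl

theorem halves {n x : ι → ℕ} (h : R C fun i => bits (2 * n i + 3 + 1) (x i)) :
    R C fun i => (bits (n i + 2) (x i), bits (n i + 2) (x i / 2 ^ (n i + 2))) := by
  have h1 : R C fun i => Un.mk (n i + 2) := h.widthB.halve.snd.congr fun i => by
    congr 1; omega
  refine (R.splitAt h1 h).congr fun i => ?_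
  rw [take_bits _ (by omega), drop_bits]
  congr 2
  omega

/-- Recombining the digits. -/
theorem ofDigR {n w D : ι → ℕ} {v : ι → ℕ → ℤ} (hle : ∀ i, w i ≤ D i * (n i + 2))
    (hv : ∀ i d, |v i d| ≤ 2 ^ (2 * n i + 2))
    (hw : R C fun i => Un.mk (w i)) (hb : R C fun i => Un.mk (n i + 2))
    (h : R C fun i => rc (2 * n i + 3) (D i) fun d => (v i d : KK _)) :
    R C fun i => ibits (w i) (ofDig (n i + 2) (D i) (v i)) := by
  have := h.isOk
  set u : ι → ℕ → ℕ := fun i d => (v i d + 2 ^ (2 * n i + 2)).toNat with hu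
  have hu1 : ∀ i d, (u i d : ℤ) = v i d + 2 ^ (2 * n i + 2) := fun i d =>
    Int.toNat_of_nonneg (by linarith [(abs_le.1 (hv i d)).1])
  have hu2 : ∀ i d, u i d ≤ 2 ^ (2 * n i + 3) := fun i d => by
    zify
    rw [hu1, pow_succ 2 (2 * n i + 2)]
    linarith [(abs_le.1 (hv i d)).2]
  have h1 : R C fun i => tab (D i) fun d => (bits (n i + 2) (u i d),
      bits (n i + 2) (u i d / 2 ^ (n i + 2)), bits (n i + 2) (2 ^ (2 * n i + 2) / 2 ^ (n i + 2))) := by
    refine R.tabMap₀ (a := fun i d => kb (2 * n i + 3) (v i d : KK _)) h fun h' => ?_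
    have h2 := offDig (n := fun p : Σ i, Fin (D i) => n p.1) (x := fun p => (v p.1 p.2 : KK _)) h'
    have h3 := dadd (w := fun p : Σ i, Fin (D i) => 2 * n p.1 + 3)
      (x := fun p => (v p.1 p.2 : KK _)) (y := fun p => ((2 ^ (2 * n p.1 + 2) : ℕ) : KK _)) h'
      (h2.congr fun p => kb_nat (pow_lt_mod (by omega)))
    have h4 := halves (n := fun p : Σ i, Fin (D i) => n p.1) (x := fun p => u p.1 p.2)
      (h3.congr fun p => by
        rw [← kb_nat ((hu2 _ _).trans_lt (pow_lt_mod le_rfl)), ← Int.cast_natCast, hu1]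
        push_cast; rfl)
    exact h4.fst.pair (h4.snd.pair (halves h2).snd)
  have lo := (h1.tabMap₀ (b := fun i d => bits (n i + 2) (u i d)) fun h => h.fst).flatten
  have hi := (h1.tabMap₀ (b := fun i d => bits (n i + 2) (u i d / 2 ^ (n i + 2)))
    fun h => h.snd.fst).flatten
  have off := (h1.tabMap₀ (b := fun i d => bits (n i + 2) (2 ^ (2 * n i + 2) / 2 ^ (n i + 2)))
    fun h => h.snd.snd).flatten
  simp only [flatten_bits] at lo hi off
  have h5 := R.take lo.widthI ((R.replicate hb (R.const false)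
    (hb.dom_un.mono fun i => by simp)).hAppend (hi.subI off))
  simp only [← ibits_shift, take_ibits _ (Nat.le_add_left _ _)] at h5
  refine (R.take hw (lo.addI h5)).congr fun i => ?_
  rw [take_ibits _ (hle i)]
  congr 1
  simp only [ofDig_apply, ← Finset.sum_sub_distrib, Finset.mul_sum, ← Finset.sum_add_distrib]
  refine Finset.sum_congr rfl fun d _ => ?_
  have e1 : u i d / 2 ^ (n i + 2) % 2 ^ (n i + 2) = u i d / 2 ^ (n i + 2) := by
    refine Nat.mod_eq_of_lt ?_
    rw [Nat.div_lt_iff_lt_mul (by positivity), ← pow_add]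
    exact (hu2 i d).trans_lt (Nat.pow_lt_pow_right (by norm_num) (by omega))
  have e2 : 2 ^ (2 * n i + 2) / 2 ^ (n i + 2) % 2 ^ (n i + 2) = 2 ^ n i := by
    rw [Nat.pow_div (by omega) (by norm_num), show 2 * n i + 2 - (n i + 2) = n i by omega]
    exact Nat.mod_eq_of_lt (Nat.pow_lt_pow_right (by norm_num) (by omega))
  have e3 : ((u i d % 2 ^ (n i + 2) : ℕ) : ℤ) + 2 ^ (n i + 2) * ((u i d / 2 ^ (n i + 2) : ℕ) : ℤ) =
      v i d + 2 ^ (n i + 2) * 2 ^ n i := by
    rw [← pow_add, show n i + 2 + n i = 2 * n i + 2 by omega, ← hu1]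
    exact_mod_cast Nat.mod_add_div _ _
  rw [e1, e2]
  push_cast at e3 ⊢
  linear_combination (-2 ^ (d * (n i + 2))) * e3

/-- Reduction of integer records. -/
def castR (w : ℕ) : (ℕ → ℤ) →+ (ℕ → KK w) where
  toFun y d := y d
  map_zero' := by funext d; simp
  map_add' x y := by funext d; simp

end Wht

open Wht Crest.Agent.Lib.PolyTime

theorem whtSpec_of (hperm : PermSpec) (hxor : XorSpec) (hprog : WProgSpec) : WhtSpec := by
  intro ι C n ℓ jb k w L a hP hp hjb hn hk hV ha
  have := ha.isOk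
  set D : ι → ℕ := fun i => w i / (n i + 2) + 1 with hD
  have hle : ∀ i, w i ≤ D i * (n i + 2) := fun i => by
    rw [Nat.mul_comm]; exact (Nat.lt_mul_div_succ _ (by omega)).le
  have hle' : ∀ i, D i * (n i + 2) ≤ w i + (n i + 2) := fun i => by
    have := Nat.div_mul_le_self (w i) (n i + 2)
    rw [Nat.succ_mul]; omega
  have hDw : ∀ i, D i ≤ w i + 1 := fun i => Nat.succ_le_succ (Nat.div_le_self _ _)
  have sn : Sm L n := hp.fst.sm.of_un
  have sn2 : Sm L fun i => n i + 2 := sn.add (Sm.const 2)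
  have scD : SC C L D := hp.poly hP (f := fun p => p.2.2.2.2 / (p.1.n + 2) + 1) (by fun_prop)
  have hV1 : C.Dom fun i => ((2 ^ n i * (w i + 1) : ℕ) : ℝ) :=
    (hV.add hP.dom_T).mono fun i => by
      have h1 : (1 : ℝ) ≤ ((k i : ℝ) * ℓ i + 1) ^ tau :=
        Real.one_le_rpow (le_add_of_nonneg_left (by positivity)) tau_nonneg
      have h2 := mul_le_mul_of_nonneg_left h1 (show (0 : ℝ) ≤ 2 ^ n i * w i by positivity)
      push_cast
      linarith
  have hV2 : C.Dom fun i => ((w i + 1 : ℕ) : ℝ) := hV1.mono fun i => by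
    exact_mod_cast Nat.le_mul_of_pos_left _ (by positivity)
  have uD : R C fun i => Un.mk (D i) := scD.r.toUn (hV2.mono fun i => by exact_mod_cast hDw i)
  have uw : R C fun i => Un.mk (w i) :=
    hp.snd.snd.snd.snd.r.toUn (hV2.mono fun i => by exact_mod_cast Nat.le_succ _)
  have ub : SC C L fun i => Un.mk (n i + 2) :=
    SC.un hP (hp.poly hP (f := fun p => p.1.n + 2) (by fun_prop)).r sn2
  have ue : SC C L fun i => Un.mk (D i * (n i + 2) - w i) :=
    SC.un hP (hp.poly hP (f := fun p => (p.2.2.2.2 / (p.1.n + 2) + 1) * (p.1.n + 2) - p.2.2.2.2)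
      (by fun_prop)).r (sn2.mono fun i => by have := hle' i; omega)
  have h1 : R C fun i => ar (2 * n i + 3) (D i) (2 ^ n i)
      fun j => castR _ fun d => (dig (w i) (n i + 2) (a i j) d : ℤ) := by
    refine R.tabMap (b := fun i j => rc (2 * n i + 3) (D i)
      (castR _ fun d => (dig (w i) (n i + 2) (a i j) d : ℤ))) ((ue.pair ub).r.pair uD) ha
      (((hP.dom' ((ue.pair ub).sm.add (Sm.const 2))).add
        (hV1.smul (K := 2) (by norm_num))).mono fun i => ?_) fun h₁ h₂ => ?_
    · have := Nat.mul_le_mul_left (2 ^ n i) (hDw i)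
      rw [sz_pair, sz_un (Un.mk (D i))]
      norm_cast
      simp only
      nlinarith
    · exact (toDig (n := fun p : Σ i, Fin (2 ^ n i) => n p.1) (fun p => hle p.1) h₁.fst.fst h₁.snd
        h₁.fst.snd h₂).congr fun p => by simp [castR]
  have hsz : ∀ x y : ℕ, sz x ≤ y → x < 2 ^ y := fun x y h =>
    (Nat.lt_size_self x).trans_le (Nat.pow_le_pow_right (by norm_num)
      (by have := size_lt_sz x; omega))
  let φ : ι → Ix := fun i =>
    { n := n i, ℓ := ℓ i, jb := jb i, off := 0, k := k i, D := D i, w := 2 * n i + 3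
      L := 2 * n i + 3 + sz (D i) + sz (ℓ i)
      a := fun j => castR _ fun d => (dig (w i) (n i + 2) (a i j) d : ℤ)
      hjb := hjb i, hn := hn i, hoff := by simpa using hk i, hnL := by omega, hwL := by omega
      hD := hsz _ _ (by omega), hℓ := hsz _ _ (by omega) }
  have sL : Sm L fun i => 2 * n i + 3 + sz (D i) + sz (ℓ i) :=
    ((((Sm.const 2).mul sn).add (Sm.const 3)).add scD.sm).add hp.snd.fst.sm
  have h2 := (recur' hperm hxor hprog).use φ ((hp.poly hP
    (f := fun p => (p.1, p.2.1, p.2.2.1, 0, p.2.2.2.1, p.2.2.2.2 / (p.1.n + 2) + 1, 2 * p.1.n + 3))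
    (by fun_prop)).r.pair h1) fun c => ((hV.smul (K := 4) (by norm_num)).add (hP.dom
      ((((Sm.const 2).mul sn2).mul (sn.add (Sm.const 1))).add
        ((sL.add (Sm.const 2)).pow c)))).mono fun i => by
      have h3 : ((k i : ℝ) * ℓ i + 1) ^ tau ≤ n i + 1 := by
        refine (Real.rpow_le_self_of_one_le (le_add_of_nonneg_left (by positivity))
          tau_le_one).trans ?_
        exact_mod_cast Nat.succ_le_succ (hk i)
      have h4 : ((D i * (2 * n i + 3 + 1) : ℕ) : ℝ) ≤ 2 * w i + 2 * (n i + 2) := by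
        have := hle' i
        have : D i * (2 * n i + 3 + 1) ≤ 2 * w i + 2 * (n i + 2) := by nlinarith
        exact_mod_cast this
      have h5 : (1 : ℝ) ≤ 2 ^ n i := one_le_pow₀ (by norm_num)
      have h6 : (0 : ℝ) ≤ ((k i : ℝ) * ℓ i + 1) ^ tau := by positivity
      simp only [Ix.B, φ]
      generalize ((k i : ℝ) * ℓ i + 1) ^ tau = P at *
      generalize ((D i * (2 * n i + 3 + 1) : ℕ) : ℝ) = X at *
      push_cast
      have h7 : X * P ≤ 2 * w i * P + 2 * (n i + 2) * (n i + 1) := by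
        have h8 := mul_le_mul_of_nonneg_right h4 h6
        have h9 := mul_le_mul_of_nonneg_left h3 (show (0 : ℝ) ≤ 2 * (n i + 2) by positivity)
        linarith
      have h8 := mul_le_mul_of_nonneg_left h7 (show (0 : ℝ) ≤ 2 ^ n i + 1 by positivity)
      have h9 := mul_le_mul_of_nonneg_right h5 (show (0 : ℝ) ≤ w i * P by positivity)
      linarith
  have h3 : R C fun i => ar (2 * n i + 3) (D i) (2 ^ n i) fun j => castR _
      (whtG 0 (ℓ i) (jb i) (k i) (fun j d => (dig (w i) (n i + 2) (a i j) d : ℤ)) j) :=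
    h2.congr fun i => by rw [← whtG_map]; rfl
  refine R.tabMap (a := fun i j => rc (2 * n i + 3) (D i) (castR _
      (whtG 0 (ℓ i) (jb i) (k i) (fun j d => (dig (w i) (n i + 2) (a i j) d : ℤ)) j)))
    (ub.r.pair uw) h3 (((hP.dom' ub.sm).add (hV1.smul (K := 2) (by norm_num))).mono fun i => ?_)
    fun h₁ h₂ => ?_
  · rw [sz_pair, sz_un (Un.mk (w i))]
    push_cast
    linarith
  · refine (ofDigR (n := fun p : Σ i, Fin (2 ^ n i) => n p.1)
      (v := fun p => whtG 0 (ℓ p.1) (jb p.1) (k p.1)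
        (fun j d => (dig (w p.1) (n p.1 + 2) (a p.1 j) d : ℤ)) p.2)
      (fun p => hle p.1) (fun p d => ?_) h₁.snd h₁.fst h₂).congr
        fun p => ibits_congr (ofDig_wht (hle p.1) _ _ _ _ _).symm
    have e := congrFun (whtG_map (Pi.evalAddMonoidHom (fun _ : ℕ => ℤ) d) 0 (ℓ p.1) (jb p.1) (k p.1)
      fun j d => (dig (w p.1) (n p.1 + 2) (a p.1 j) d : ℤ)) p.2
    simp only [Pi.evalAddMonoidHom_apply] at e
    rw [← e]
    refine (abs_whtG_le _ _ _ _ (B := 2 ^ (n p.1 + 2)) (fun j => ?_) _).trans ?_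
    · rw [Nat.abs_cast]
      exact_mod_cast (dig_lt _ _ _ _).le
    · rw [← pow_add]
      refine pow_le_pow_right₀ (by norm_num) ?_
      have := Nat.le_mul_of_pos_right (k p.1) (show 0 < ℓ p.1 by have := hjb p.1; omega)
      have := hk p.1
      omega

end Crest.Agent.R326
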