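import Crest.Agent.R326.WhtRing

/-!
# The Walsh–Hadamard layer: butterflies, shears, splitting and joining of records
-/

set_option linter.unusedVariables false

namespace Crest.Agent.R326
namespace Wht

open Function
open Crest.Agent.Lib.PolyTime

theorem rotI_two (p j : ℕ) : rotI (2 ^ p) 2 2 1 j = j ^^^ 2 ^ p := by
  have hS : 0 < 2 ^ p := by positivity
  have hlt : (fld (2 ^ p) 2 j + 1) % 2 < 2 := Nat.mod_lt _ (by norm_num)
  rw [rotI, if_pos (fld_lt (by norm_num))]
  refine idx_ext (S := 2 ^ p) (Q := 2) ?_ ?_ ?_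
  · rw [setF_mod hS, Nat.xor_mod_two_pow]; simp
  · rw [fld_setF hS hlt, fld, fld, Nat.xor_div_two_pow, Nat.div_self hS]
    have := Nat.xor_mod_two_pow (a := j / 2 ^ p) (b := 1) (n := 1)
    rw [pow_one] at this
    rw [this]
    rcases Nat.mod_two_eq_zero_or_one (j / 2 ^ p) with h | h <;> simp [h]
  · rw [setF_div_mul hS hlt, ← pow_succ, Nat.xor_div_two_pow,
      Nat.div_eq_of_lt (Nat.pow_lt_pow_right (by norm_num) (Nat.lt_succ_self p))]
    simp

theorem take_drop_tab {α : Type} {T s k : ℕ} (g : ℕ → α) (h : s + k ≤ T) :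
    ((tab T g).drop s).take k = tab k fun d => g (s + d) := by
  apply List.ext_getElem
  · simp; omega
  · simp

theorem take_tab {α : Type} {T k : ℕ} (g : ℕ → α) (h : k ≤ T) : (tab T g).take k = tab k g := by
  simpa using take_drop_tab (s := 0) g (by simpa using h)

variable {ι : Type} {C : Ctx ι} {w D T L : ι → ℕ} {a b : ∀ i, ℕ → ℕ → KK (w i)}

theorem lenAr (ha : R C fun i => ar (w i) (D i) (T i) (a i)) : R C fun i => Un.mk (T i) := by
  simpa [ar] using ha.lenUn

/-- A butterfly on one bit of the index. -/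
theorem abit (hperm : PermSpec) {n p : ι → ℕ} (hP : C.PD (fun i => 2 ^ n i) L)
    (hp : SC C L fun i => (Un.mk (n i), p i)) (hlt : ∀ i, p i < n i)
    (ha : R C fun i => ar (w i) (D i) (2 ^ n i) (a i)) :
    R C fun i => ar (w i) (D i) (2 ^ n i) (hbitG (p i) (a i)) := by
  have := ha.isOk
  have e : ∀ i, 2 ^ (n i - p i - 1) * 2 * 2 ^ p i = 2 ^ n i := fun i => by
    rw [← pow_succ, ← pow_add]; congr 1; have := hlt i; omega
  have h1 : SC C L fun i => (2 ^ (n i - p i - 1), 2, 2 ^ p i, 2) :=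
    (hp.poly hP (f := fun q => (2 ^ (q.1.n - q.2 - 1), 2, 2 ^ (q.1.n - (q.1.n - q.2)), 2))
      (by fun_prop)).congr fun i => by simp only [Nat.sub_sub_self (hlt i).le]
  have h2 := hperm.rot (C := C) (H := fun i => 2 ^ (n i - p i - 1)) (Q := fun _ => 2)
    (S := fun i => 2 ^ p i) (q := fun _ => 2) (L := L) (par := fun _ => ())
    (a := fun i j => rc (w i) (D i) (a i j)) (F := fun _ => 1) (by fun_prop)
    (by simpa only [e] using hP) h1 (SC.const ()) (fun _ => le_rfl) (by simpa only [e, ar] using ha)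
  have h3 : R C fun i => ar (w i) (D i) (2 ^ n i) fun j => a i (j ^^^ 2 ^ p i) := by
    simpa only [e, rotI_two, ar] using h2
  have hm : R C fun i => tab (2 ^ n i) fun j => j.testBit (p i) :=
    R.tabPoly hP (lenAr ha) (Sm.sz_of_lt_two_pow (hp.fst.sm.of_un.add (Sm.const 1)) fun i =>
      Nat.pow_lt_pow_right (by norm_num) (Nat.lt_succ_self _)) hp.snd
      (f := fun q => q.2.testBit q.1) (by fun_prop)
  have h4 := R.zipTab (asub h3 ha) (aadd ha h3)
  refine tabZip (c := fun i j => rc (w i) (D i) (hbitG (p i) (a i) j)) hm h4 fun _ h₁ h₂ =>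
    (h₁.cond h₂.fst h₂.snd).congr fun x => ?_
  unfold hbitG
  cases (x.2 : ℕ).testBit (p x.1) <;> rfl

theorem flatten_rc (w D : ℕ) (x : ℕ → KK w) : (rc w D x).flatten =
    tab (D * (w + 1)) fun j => (x (j / (w + 1))).val.testBit (j % (w + 1)) :=
  flatten_tab D (w + 1) fun d => (x d).val.testBit

/-- Cutting flat records into digits. -/
theorem unflatten (hD : R C fun i => Un.mk (D i)) (hw : R C fun i => Un.mk (w i + 1))
    (hT : C.Dom fun i => T i * (D i + w i + 1))
    (ha : R C fun i => tab (T i) fun j => (rc (w i) (D i) (a i j)).flatten) :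
    R C fun i => ar (w i) (D i) (T i) (a i) := by
  refine R.tabMap (b := fun i j => rc (w i) (D i) (a i j)) (hD.pair hw) ha
    (hT.mono_mul 5 (by norm_num) fun i => ?_) fun h₁ h₂ => ?_
  · simp only [sz_pair, sz_un]
    norm_cast
    nlinarith
  · refine (R.chunks h₁.fst h₁.snd (h₂.congr fun x => (flatten_rc _ _ _).symm)).congr
      fun x => tab_congr fun d _ => tab_congr fun t ht => ?_
    rw [Nat.add_comm (d * _), Nat.add_mul_div_right _ _ (by omega), Nat.add_mul_mod_self_right,
      Nat.div_eq_of_lt ht, Nat.mod_eq_of_lt ht, Nat.zero_add]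

/-- The shear on arrays of residues. -/
theorem axor (hxor : XorSpec) {n ℓ jb u ox oy ot : ι → ℕ} (hP : C.PD (fun i => 2 ^ n i) L)
    (hp : SC C L (fun i => (Un.mk (n i), ℓ i, jb i, u i, ox i, oy i, ot i, D i * (w i + 1))))
    (h1 : ∀ i, jb i < ℓ i) (h2 : ∀ i, (n i + 2) ^ 4 ≤ 2 ^ (ℓ i / 4))
    (h3 : ∀ i, ox i + u i * ℓ i ≤ n i ∧ oy i + u i * ℓ i ≤ n i ∧ ot i + u i * ℓ i ≤ n i)
    (h4 : ∀ i, Apart (u i * ℓ i) (ox i) (oy i) ∧ Apart (u i * ℓ i) (ox i) (ot i) ∧
      Apart (u i * ℓ i) (oy i) (ot i))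
    (hV : C.Dom fun i => (2 : ℝ) ^ n i * (D i * (w i + 1) : ℕ) * ((u i : ℝ) * ℓ i + 1) ^ tau)
    (hD : R C fun i => Un.mk (D i)) (hw : R C fun i => Un.mk (w i + 1))
    (hT : C.Dom fun i => (2 ^ n i : ℕ) * (D i + w i + 1))
    (ha : R C fun i => ar (w i) (D i) (2 ^ n i) (a i)) :
    R C fun i => ar (w i) (D i) (2 ^ n i) fun j =>
      a i (xshI (ox i) (oy i) (ℓ i) (jb i) (u i) j) :=
  unflatten hD hw hT (hxor (a := fun i j => (rc (w i) (D i) (a i j)).flatten) hP hp h1 h2 h3 h4
    (fun i j _ => by rw [flatten_rc, length_tab]) hV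
    (R.tabMap₀ (a := fun i j => rc (w i) (D i) (a i j)) ha fun h => h.flatten))

/-- The digits `s, s + 1, …` of a record of `D` digits padded with zeros. -/
def part (w D s : ℕ) : (ℕ → KK w) →+ (ℕ → KK w) where
  toFun x d := if s + d < D then x (s + d) else 0
  map_zero' := by funext d; simp
  map_add' x y := by funext d; simp only [Pi.add_apply]; split_ifs <;> simp

theorem part_apply (w D s : ℕ) (x : ℕ → KK w) (d : ℕ) :
    part w D s x d = if s + d < D then x (s + d) else 0 := rfl

/-- Extracting part number `v` of every record. -/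
theorem asplit {D' : ι → ℕ} (W v : ℕ) (hP : C.PD T L) (hwL : Sm L w)
    (hD' : R C fun i => Un.mk (D' i)) (hw : R C fun i => Un.mk (w i + 1))
    (hT : C.Dom fun i => T i * D' i) (hle : ∀ i, v * D' i + D' i ≤ D i + W)
    (ha : R C fun i => ar (w i) (D i) (T i) (a i)) :
    R C fun i => ar (w i) (D' i) (T i) fun j => part (w i) (D i) (v * D' i) (a i j) := by
  have := ha.isOk
  have hz : R C fun i => kb (w i) 0 :=
    (R.replicate hw (R.const false) (hw.dom_un.mono fun i => by simp)).congr fun i => by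
      rw [kb_zero, bits_zero]
  have hs : Sm L fun i => sz (rc (w i) W 0) :=
    (((Sm.const 6).mul ((Sm.const W).mul (hwL.add (Sm.const 1)))).add (Sm.const 1)).mono
      fun i => sz_rc_le _ _ _
  have hzs : R C fun i => rc (w i) W 0 :=
    (R.replicate (R.const (Un.mk W)) hz ((hz.dom_sz.smul (K := W) (by positivity)))).congr
      fun i => by simp [rc, tab]
  refine R.tabMap (a := fun i j => rc (w i) (D i) (a i j))
    (b := fun i j => rc (w i) (D' i) (part (w i) (D i) (v * D' i) (a i j))) (hD'.pair hzs) ha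
    ((((hT.smul (K := 2) (by norm_num)).add (hP.dom_T.smul (K := 2) (by norm_num))).add
      (hP.dom' hs)).mono fun i => ?_) fun h₁ h₂ => ?_
  · simp only [sz_pair, sz_un]
    push_cast
    linarith
  · refine (R.take h₁.fst (R.drop (h₁.fst.unConstMul v) (h₂.hAppend h₁.snd))).congr fun x => ?_
    have e : rc (w x.1) (D x.1) (a x.1 x.2) ++ rc (w x.1) W 0 =
        rc (w x.1) (D x.1 + W) (part (w x.1) (D x.1) 0 (a x.1 x.2)) := by
      unfold rc
      rw [tab_add]
      congr 1
      · exact tab_congr fun d hd => by simp [part_apply, hd]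
      · exact tab_congr fun d hd => by simp [part_apply]
    rw [e, rc, rc, take_drop_tab _ (hle _)]
    simp [part_apply]

/-- Joining the parts. -/
theorem ajoin {D' : ι → ℕ} (W : ℕ) (hW : 0 < W) (hD : R C fun i => Un.mk (D i))
    (hT : C.Dom fun i => T i * (D i + 1)) (hle : ∀ i, D i ≤ W * D' i)
    (ha : ∀ v, v < W →
      R C fun i => ar (w i) (D' i) (T i) fun j => part (w i) (D i) (v * D' i) (a i j)) :
    R C fun i => ar (w i) (D i) (T i) (a i) := by
  have key : ∀ v, v ≤ W →
      R C fun i => ar (w i) (v * D' i) (T i) fun j => part (w i) (D i) 0 (a i j) := by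
    intro v hv
    induction v with
    | zero =>
      refine R.tabMap₀ (b := fun i j => rc (w i) (0 * D' i) (part (w i) (D i) 0 (a i j)))
        (ha 0 hW) fun h => (R.const (h := h.isOk) ([] : List (List Bool))).congr fun x => by simp [rc]
    | succ v ih =>
      refine tabZip (c := fun i j => rc (w i) ((v + 1) * D' i) (part (w i) (D i) 0 (a i j)))
        (ih (by omega)) (ha v hv) fun _ h₁ h₂ => (h₁.hAppend h₂).congr fun x => ?_
      unfold rc
      rw [Nat.succ_mul, tab_add]
      simp [part_apply]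
  refine R.tabMap (b := fun i j => rc (w i) (D i) (a i j)) hD (key W le_rfl)
    (hT.mono_mul 2 (by norm_num) fun i => ?_) fun h₁ h₂ => (R.take h₁ h₂).congr fun x => ?_
  · rw [sz_un]
    norm_cast
    simp only
    nlinarith
  · rw [rc, rc, take_tab _ (hle _)]
    exact tab_congr fun d hd => by simp [part_apply, hd]

end Wht
end Crest.Agent.R326
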