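import Crest.Agent.R326.Spec2

/-!
# The Walsh–Hadamard layer: mathematics

Butterflies on selected bits of the index, their closed formula, and the meaning of a `WInstr`
program on arrays indexed by natural numbers.
-/

set_option linter.unusedVariables false

namespace Crest.Agent.R326
namespace Wht

open Function Matrix

section sel
variable {I J : Type}

/-- The number whose bit `p i` is `z i`. -/
def fl [Fintype I] (p : I → ℕ) (z : I → ZMod 2) : ℕ := ∑ i, (z i).val * 2 ^ p i

/-- The bits of `n` at the positions `p i`. -/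
def sel (p : I → ℕ) (n : ℕ) (i : I) : ZMod 2 := if n.testBit (p i) then 1 else 0

theorem z2_cases (z : ZMod 2) : z = 0 ∨ z = 1 := by revert z; decide

theorem z2_add_self (z : ZMod 2) : z + z = 0 := by revert z; decide

theorem sum_z2 {M : Type} [AddCommMonoid M] (f : ZMod 2 → M) : ∑ t, f t = f 0 + f 1 :=
  Fin.sum_univ_two (f := f)

theorem val_sel (p : I → ℕ) (n : ℕ) (i : I) : (sel p n i).val = (n.testBit (p i)).toNat := by
  unfold sel; cases n.testBit (p i) <;> rfl

theorem sel_xor (p : I → ℕ) (a b : ℕ) : sel p (a ^^^ b) = sel p a + sel p b := by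
  funext i
  simp only [sel, Nat.testBit_xor, Pi.add_apply]
  cases a.testBit (p i) <;> cases b.testBit (p i) <;> rfl

variable [Fintype I] [Fintype J]

theorem testBit_fl {p : I → ℕ} (hp : Injective p) (z : I → ZMod 2) (q : ℕ) :
    (fl p z).testBit q = true ↔ ∃ i, p i = q ∧ z i = 1 := by
  classical
  have h : fl p z = ∑ q ∈ (Finset.univ.filter fun i => z i = 1).image p, 2 ^ q := by
    rw [Finset.sum_image fun a _ b _ h => hp h, Finset.sum_filter, fl]
    refine Finset.sum_congr rfl fun i _ => ?_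
    rcases z2_cases (z i) with h | h <;> simp [h]
    rfl
  rw [← Nat.mem_bitIndices, ← List.mem_toFinset, h, Finset.toFinset_bitIndices_sum_two_pow]
  simp [and_comm]

theorem sel_fl {p : I → ℕ} (hp : Injective p) (z : I → ZMod 2) : sel p (fl p z) = z := by
  funext i
  unfold sel
  split_ifs with h
  · obtain ⟨j, hj, h1⟩ := (testBit_fl hp z _).1 h
    rw [← hp hj, h1]
  · rcases z2_cases (z i) with h0 | h0
    · exact h0.symm
    · exact absurd ((testBit_fl hp z _).2 ⟨i, rfl, h0⟩) h

theorem fl_add {p : I → ℕ} (hp : Injective p) (z z' : I → ZMod 2) :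
    fl p (z + z') = fl p z ^^^ fl p z' := by
  refine Nat.eq_of_testBit_eq fun q => ?_
  rw [Nat.testBit_xor]
  by_cases hq : ∃ i, p i = q
  · obtain ⟨i, rfl⟩ := hq
    have key : ∀ y : I → ZMod 2, (fl p y).testBit (p i) = decide (y i = 1) := fun y => by
      rw [Bool.eq_iff_iff, testBit_fl hp, decide_eq_true_iff]
      exact ⟨fun ⟨j, hj, h⟩ => hp hj ▸ h, fun h => ⟨i, rfl, h⟩⟩
    rw [key, key, key, Pi.add_apply]
    generalize z i = a, z' i = b
    revert a b; decide
  · have key : ∀ y : I → ZMod 2, (fl p y).testBit q = false := fun y => by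
      rw [← Bool.not_eq_true, testBit_fl hp]
      exact fun ⟨i, hi, _⟩ => hq ⟨i, hi⟩
    rw [key, key, key]; rfl

theorem fl_lt {p : I → ℕ} (hp : Injective p) {n : ℕ} (h : ∀ i, p i < n) (z : I → ZMod 2) :
    fl p z < 2 ^ n := by
  refine Nat.lt_pow_two_of_testBit _ fun q hq => ?_
  rw [← Bool.not_eq_true, testBit_fl hp]
  rintro ⟨i, rfl, _⟩
  exact absurd (h i) (by omega)

theorem fl_equiv (e : J ≃ I) (p : I → ℕ) (z : I → ZMod 2) : fl (p ∘ e) (z ∘ e) = fl p z :=
  Equiv.sum_comp e fun i => (z i).val * 2 ^ p i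

variable {N : Type} [AddCommGroup N]

/-- The transform on the bits at the positions `p i`. -/
def tr [DecidableEq I] (p : I → ℕ) (a : ℕ → N) (n : ℕ) : N :=
  ∑ z : I → ZMod 2, sg (∑ i, sel p n i * (sel p n i + z i)) • a (n ^^^ fl p z)

theorem tr_equiv [DecidableEq I] [DecidableEq J] (e : J ≃ I) (p : I → ℕ) (a : ℕ → N) :
    tr (p ∘ e) a = tr p a := by
  funext n
  unfold tr
  symm
  refine Fintype.sum_equiv (Equiv.arrowCongr e.symm (Equiv.refl _)) _ _ fun z => ?_
  have : (Equiv.arrowCongr e.symm (Equiv.refl (ZMod 2))) z = z ∘ e := rfl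
  rw [this, fl_equiv]
  congr 2
  exact (Equiv.sum_comp e fun i => sel p n i * (sel p n i + z i)).symm

end sel

variable {N : Type} [AddCommGroup N]

/-- The butterfly on bit `p` of the index. -/
def hbitG (p : ℕ) (a : ℕ → N) (n : ℕ) : N :=
  if n.testBit p then a (n ^^^ 2 ^ p) - a n else a n + a (n ^^^ 2 ^ p)

/-- Butterflies on the bits `off + s * ℓ + jb`, `s < k`. -/
def whtG (off ℓ jb : ℕ) : ℕ → (ℕ → N) → ℕ → N
  | 0, a => a
  | k + 1, a => hbitG (off + k * ℓ + jb) (whtG off ℓ jb k a)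

theorem sg_add (a b : ZMod 2) : sg (a + b) = sg a * sg b := by revert a b; decide

theorem pos_inj {off ℓ jb k : ℕ} (hℓ : 0 < ℓ) :
    Injective fun s : Fin k => off + s * ℓ + jb := fun s t h => by
  simp only at h
  exact Fin.ext (Nat.eq_of_mul_eq_mul_right hℓ (by omega))

theorem whtG_eq {off ℓ jb : ℕ} (hℓ : 0 < ℓ) (k : ℕ) (a : ℕ → N) :
    whtG off ℓ jb k a = tr (fun s : Fin k => off + s * ℓ + jb) a := by
  induction k with
  | zero => funext n; simp [whtG, tr, fl, sg]
  | succ k ih =>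
    funext n
    set p : Fin (k + 1) → ℕ := fun s => off + s * ℓ + jb with hp
    set p' : Fin k → ℕ := fun s => off + s * ℓ + jb with hp'
    have hs : ∀ s : Fin k, sel p' (n ^^^ 2 ^ (off + k * ℓ + jb)) s = sel p' n s := fun s => by
      have : off + k * ℓ + jb ≠ off + s * ℓ + jb := fun h => by
        have := Nat.eq_of_mul_eq_mul_right hℓ (show k * ℓ = s * ℓ by omega)
        omega
      simp [sel, hp', Nat.testBit_two_pow_of_ne this]
    have hfl : ∀ (t : ZMod 2) (z : Fin k → ZMod 2),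
        fl p (Fin.snoc z t) = t.val * 2 ^ (off + k * ℓ + jb) ^^^ fl p' z := fun t z => by
      have h1 : (Fin.snoc z t : Fin (k + 1) → ZMod 2) =
          (Fin.snoc (0 : Fin k → ZMod 2) t : Fin (k + 1) → ZMod 2) + Fin.snoc z 0 := by
        funext s
        refine Fin.lastCases ?_ (fun s => ?_) s <;> simp
      rw [h1, fl_add (pos_inj hℓ)]
      simp [fl, Fin.sum_univ_castSucc, hp']
    have hsum : tr p a n = ∑ t : ZMod 2, ∑ z : Fin k → ZMod 2,
        sg (∑ s, sel p' n s * (sel p' n s + z s) +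
          sel p n (Fin.last k) * (sel p n (Fin.last k) + t)) •
          a (n ^^^ (t.val * 2 ^ (off + k * ℓ + jb) ^^^ fl p' z)) := by
      unfold tr
      rw [← Fintype.sum_prod_type']
      symm
      refine Fintype.sum_equiv (Fin.snocEquiv fun _ => ZMod 2) _ _ fun x => ?_
      have : (Fin.snocEquiv fun _ => ZMod 2) x = Fin.snoc x.2 x.1 := rfl
      rw [this, hfl, Fin.sum_univ_castSucc]
      simp only [Fin.snoc_castSucc, Fin.snoc_last]
      rfl
    rw [hsum, sum_z2, whtG, hbitG, ih]
    unfold tr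
    have hl : sel p n (Fin.last k) = if n.testBit (off + k * ℓ + jb) then 1 else 0 := rfl
    have v1 : (1 : ZMod 2).val = 1 := rfl
    have s0 : sg 0 = 1 := rfl
    have s1 : sg 1 = -1 := rfl
    simp only [hs, sg_add, Nat.xor_assoc, hl, v1]
    split_ifs with h
    · simp [sub_eq_neg_add, z2_add_self, s0, s1]
    · simp [s0]

/-! ### Programs on arrays -/

section prog
variable {W m : ℕ} {K : Type} [CommRing K] [Module K N]

/-- Action of an instruction on arrays; field `i` consists of the bits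
`off + (i * u + s) * ℓ + jb`, `s < u`. -/
def arun (off ℓ jb u : ℕ) (hf : K) : WInstr W m → (Fin W → ℕ → N) → Fin W → ℕ → N
  | .gate G, A => fun w j => ∑ w', G w w' • A w' j
  | .up2 w a b, A => update A w fun j => (2 : K) ^ (a * u + b) • A w j
  | .dn2 w a b, A => update A w fun j => hf ^ (a * u + b) • A w j
  | .xor w i i', A =>
      update A w fun j => A w (xshI (off + i' * u * ℓ) (off + i * u * ℓ) ℓ jb u j)
  | .had w i, A => update A w (whtG (off + i * u * ℓ) ℓ jb u (A w))

/-- Positions of the bits of all fields. -/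
def pos (off ℓ jb m u : ℕ) (x : Fin m × Fin u) : ℕ := off + x.1 * u * ℓ + x.2 * ℓ + jb

theorem pos_eq (off ℓ jb m u : ℕ) :
    pos off ℓ jb m u = (fun s : Fin (m * u) => off + s * ℓ + jb) ∘ finProdFinEquiv := by
  funext x
  simp only [pos, Function.comp, finProdFinEquiv_apply_val]
  ring

theorem pos_injective {off ℓ jb m u : ℕ} (hℓ : 0 < ℓ) : Injective (pos off ℓ jb m u) := by
  rw [pos_eq]; exact (pos_inj hℓ).comp finProdFinEquiv.injective

theorem fl_single {off ℓ jb u : ℕ} (i : Fin m) (v : Fin u → ZMod 2) :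
    fl (pos off ℓ jb m u) (uncurry (Pi.single i v : Fin m → Fin u → ZMod 2)) =
      fl (fun s : Fin u => off + i * u * ℓ + s * ℓ + jb) v := by
  unfold fl
  rw [Fintype.sum_prod_type, Finset.sum_eq_single i]
  · simp [pos]
  · intro i' _ h
    simp [h]
  · simp

/-- The index with fields `y` over the base index `j₀`. -/
def idx (off ℓ jb : ℕ) {u : ℕ} (j₀ : ℕ) (y : Fin m → Fin u → ZMod 2) : ℕ :=
  j₀ ^^^ fl (pos off ℓ jb m u) (uncurry y)

variable {off ℓ jb u j₀ : ℕ}

theorem sel_idx (hℓ : 0 < ℓ) (h0 : sel (pos off ℓ jb m u) j₀ = 0) (y : Fin m → Fin u → ZMod 2) :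
    sel (pos off ℓ jb m u) (idx off ℓ jb j₀ y) = uncurry y := by
  rw [idx, sel_xor, h0, sel_fl (pos_injective hℓ), zero_add]

theorem sel_idx' (hℓ : 0 < ℓ) (h0 : sel (pos off ℓ jb m u) j₀ = 0) (y : Fin m → Fin u → ZMod 2)
    (i : Fin m) :
    sel (fun s : Fin u => off + i * u * ℓ + s * ℓ + jb) (idx off ℓ jb j₀ y) = y i :=
  funext fun s => congrFun (sel_idx hℓ h0 y) (i, s)

theorem idx_add (hℓ : 0 < ℓ) (y z : Fin m → Fin u → ZMod 2) :
    idx off ℓ jb j₀ (y + z) = idx off ℓ jb j₀ y ^^^ fl (pos off ℓ jb m u) (uncurry z) := by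
  rw [idx, idx, Nat.xor_assoc, ← fl_add (pos_injective hℓ)]; rfl

theorem idx_update (hℓ : 0 < ℓ) (y : Fin m → Fin u → ZMod 2) (i : Fin m) (v : Fin u → ZMod 2) :
    idx off ℓ jb j₀ (update y i (y i + v)) =
      idx off ℓ jb j₀ y ^^^ fl (fun s : Fin u => off + i * u * ℓ + s * ℓ + jb) v := by
  rw [← fl_single, ← idx_add hℓ]
  congr 1
  funext i'
  by_cases h : i' = i
  · subst h; simp
  · simp [h]

theorem lift_arun (hℓ : 0 < ℓ) (h0 : sel (pos off ℓ jb m u) j₀ = 0) (hf : K) (s : WInstr W m)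
    (A : Fin W → ℕ → N) :
    (fun w (y : Fin m → Fin u → ZMod 2) => arun off ℓ jb u hf s A w (idx off ℓ jb j₀ y)) =
      s.run u hf fun w y => A w (idx off ℓ jb j₀ y) := by
  have key : ∀ (w : Fin W) (f : ℕ → N),
      (fun w' (y : Fin m → Fin u → ZMod 2) => update A w f w' (idx off ℓ jb j₀ y)) =
        update (fun w y => A w (idx off ℓ jb j₀ y)) w fun y => f (idx off ℓ jb j₀ y) := by
    intro w f
    funext w'
    by_cases h : w' = w
    · subst h; simp
    · simp [h]
  cases s with
  | gate G => rfl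
  | up2 w a b => exact key _ _
  | dn2 w a b => exact key _ _
  | xor w i i' =>
    refine (key _ _).trans ?_
    simp only [WInstr.run]
    congr 1
    funext y
    rw [idx_update hℓ, xshI, Finset.sum_range, ← sel_idx' hℓ h0 y i']
    simp only [fl, val_sel]
  | had w i =>
    refine (key _ _).trans ?_
    simp only [WInstr.run]
    congr 1
    funext y
    rw [whtG_eq hℓ, tr, sel_idx' hℓ h0]
    refine Fintype.sum_equiv (Equiv.addLeft (y i)) _ _ fun z => ?_
    rw [Equiv.coe_addLeft, idx_update hℓ]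
    rfl

theorem lift_foldl (hℓ : 0 < ℓ) (h0 : sel (pos off ℓ jb m u) j₀ = 0) (hf : K)
    (prog : List (WInstr W m)) (A : Fin W → ℕ → N) :
    (fun w (y : Fin m → Fin u → ZMod 2) =>
        prog.foldl (fun B s => arun off ℓ jb u hf s B) A w (idx off ℓ jb j₀ y)) =
      prog.foldl (fun x s => s.run u hf x) fun w y => A w (idx off ℓ jb j₀ y) := by
  induction prog generalizing A with
  | nil => rfl
  | cons s prog ih => rw [List.foldl_cons, List.foldl_cons, ih, lift_arun hℓ h0]

/-- A program computing the full transform on function spaces computes `whtG` on arrays. -/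
theorem foldl_arun (hℓ : 0 < ℓ) (hf : K) (prog : List (WInstr W m))
    (h : ∀ x : Fin W → (Fin m → Fin u → ZMod 2) → N, prog.foldl (fun y s => s.run u hf y) x =
      fun w y => ∑ z : Fin m → Fin u → ZMod 2, sg (∑ i, y i ⬝ᵥ z i) • x w z)
    (A : Fin W → ℕ → N) :
    prog.foldl (fun B s => arun off ℓ jb u hf s B) A = fun w => whtG off ℓ jb (m * u) (A w) := by
  funext w j
  set y : Fin m → Fin u → ZMod 2 := curry (sel (pos off ℓ jb m u) j) with hy
  have hy' : uncurry y = sel (pos off ℓ jb m u) j := rfl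
  have h0 : sel (pos off ℓ jb m u) (idx off ℓ jb j y) = 0 := by
    rw [idx, sel_xor, sel_fl (pos_injective hℓ), hy']
    funext x; exact z2_add_self _
  have hj : idx off ℓ jb (idx off ℓ jb j y) y = j := by simp [idx]
  have := congrFun (congrFun (lift_foldl hℓ h0 hf prog A) w) y
  simp only [hj, h] at this
  rw [this, whtG_eq hℓ, ← tr_equiv finProdFinEquiv, ← pos_eq, tr]
  symm
  refine Fintype.sum_equiv ((Equiv.curry _ _ _).trans (Equiv.addLeft y)) _ _ fun z => ?_
  have e : ((Equiv.curry _ _ _).trans (Equiv.addLeft y)) z = y + curry z := rfl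
  rw [e, idx_add hℓ, hj, Fintype.sum_prod_type]
  rfl

end prog

/-! ### Splitting, linearity, bounds -/

theorem whtG_congr {off ℓ jb n : ℕ} (hjb : jb < ℓ) {k : ℕ} (hk : off + k * ℓ ≤ n) {a b : ℕ → N}
    (h : ∀ j, j < 2 ^ n → a j = b j) : ∀ j, j < 2 ^ n → whtG off ℓ jb k a j = whtG off ℓ jb k b j := by
  induction k with
  | zero => exact h
  | succ k ih =>
    intro j hj
    rw [Nat.succ_mul] at hk
    have h2 : j ^^^ 2 ^ (off + k * ℓ + jb) < 2 ^ n :=
      Nat.xor_lt_two_pow hj (Nat.pow_lt_pow_right (by norm_num) (by omega))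
    simp only [whtG, hbitG, ih (by omega) _ hj, ih (by omega) _ h2]

theorem whtG_map {N' : Type} [AddCommGroup N'] (f : N →+ N') (off ℓ jb k : ℕ) (a : ℕ → N) :
    whtG off ℓ jb k (fun j => f (a j)) = fun j => f (whtG off ℓ jb k a j) := by
  induction k with
  | zero => rfl
  | succ k ih =>
    funext j
    simp only [whtG, hbitG, ih]
    split_ifs <;> simp

theorem wht_eq (ℓ jb k : ℕ) (a : ℕ → ℤ) : wht ℓ jb k a = whtG 0 ℓ jb k a := by
  induction k with
  | zero => rfl
  | succ k ih => rw [wht, whtG, ih, Nat.zero_add]; rfl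

theorem abs_whtG_le (off ℓ jb k : ℕ) {a : ℕ → ℤ} {B : ℤ} (h : ∀ j, |a j| ≤ B) (j : ℕ) :
    |whtG off ℓ jb k a j| ≤ 2 ^ k * B := by
  induction k generalizing j with
  | zero => simpa [whtG] using h j
  | succ k ih =>
    have h1 := ih j
    have h2 := ih (j ^^^ 2 ^ (off + k * ℓ + jb))
    simp only [whtG, hbitG]
    rw [abs_le] at *
    split_ifs <;> constructor <;> rw [pow_succ] <;> linarith [h1.1, h1.2, h2.1, h2.2]

end Wht
end Crest.Agent.R326
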