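import Crest.Agent.R326.WhtArr

/-!
# The Walsh–Hadamard layer: the recursive routine on arrays of residues
-/

set_option linter.unusedVariables false

namespace Crest.Agent.R326
namespace Wht

open Function
open Crest.Agent.Lib.PolyTime

theorem tau_nonneg : 0 ≤ tau := by unfold tau; norm_num

theorem tau_le_one : tau ≤ 1 := by unfold tau; norm_num

/-- Number of digits per wire. -/
def dd (W D : ℕ) : ℕ := (D + W - 1) / W

theorem dd_le (W D : ℕ) : dd W D ≤ D := by
  unfold dd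
  rcases Nat.eq_zero_or_pos W with h | h
  · simp [h]
  · rw [← Nat.lt_succ_iff, Nat.div_lt_iff_lt_mul h, Nat.succ_mul]
    have := Nat.le_mul_of_pos_right D h
    omega

theorem mul_dd_le (W D : ℕ) : W * dd W D ≤ D + W := by
  have := Nat.mul_div_le (D + W - 1) W
  unfold dd; omega

theorem le_mul_dd {W : ℕ} (h : 0 < W) (D : ℕ) : D ≤ W * dd W D := by
  have h1 := Nat.div_add_mod (D + W - 1) W
  have h2 := Nat.mod_lt (D + W - 1) h
  unfold dd; omega

/-- Parameters, ghost data and hypotheses of a call. -/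
structure Ix where
  n : ℕ
  ℓ : ℕ
  jb : ℕ
  off : ℕ
  k : ℕ
  D : ℕ
  w : ℕ
  L : ℕ
  a : ℕ → ℕ → KK w
  hjb : jb < ℓ
  hn : (n + 2) ^ 4 ≤ 2 ^ (ℓ / 4)
  hoff : off + k * ℓ ≤ n
  hnL : n ≤ L
  hwL : w ≤ L
  hD : D < 2 ^ L
  hℓ : ℓ < 2 ^ L

/-- The type of the parameters. -/
abbrev Par : Type := Un × ℕ × ℕ × ℕ × ℕ × ℕ × ℕ

namespace Ix

/-- The parameters. -/
def par (q : Ix) : Par := (Un.mk q.n, q.ℓ, q.jb, q.off, q.k, q.D, q.w)

/-- The input. -/
def inp (q : Ix) : Par × List (List (List Bool)) := (q.par, ar q.w q.D (2 ^ q.n) q.a)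

/-- The output. -/
def out (q : Ix) : List (List (List Bool)) := ar q.w q.D (2 ^ q.n) (whtG q.off q.ℓ q.jb q.k q.a)

theorem fld_le (q : Ix) {m : ℕ} (t : Fin m) :
    q.off + t * (q.k / m) * q.ℓ + q.k / m * q.ℓ ≤ q.n := by
  have h1 : (t + 1) * (q.k / m) ≤ q.k :=
    (Nat.mul_le_mul_right _ t.2).trans (Nat.mul_div_le _ _)
  have h2 := Nat.mul_le_mul_right q.ℓ h1
  have := q.hoff
  rw [Nat.succ_mul, Nat.add_mul] at h2
  omega

theorem k_le (q : Ix) : q.k ≤ q.L := by
  have := Nat.le_mul_of_pos_right q.k (show 0 < q.ℓ by have := q.hjb; omega)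
  have := q.hoff
  have := q.hnL
  omega

/-- The recursive call on field `t`. -/
def sub (q : Ix) (W : ℕ) {m : ℕ} (t : Fin m) (b : ℕ → ℕ → KK q.w) : Ix :=
  { q with
    off := q.off + t * (q.k / m) * q.ℓ
    k := q.k / m
    D := dd W q.D
    a := b
    hoff := q.fld_le t
    hD := (dd_le _ _).trans_lt q.hD }

/-- The cost bounds. -/
noncomputable def B (c : ℕ) (q : Ix) : ℝ :=
  (2 ^ q.n + 1) * ((q.D * (q.w + 1) : ℕ) * ((q.k : ℝ) * q.ℓ + 1) ^ tau + (q.L + 2) ^ c)

end Ix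

/-- The calls made by `q`. -/
def Sub (m W : ℕ) (q j : Ix) : Prop := q.k / m ≠ 0 ∧ ∃ (t : Fin m) (b : _), j = q.sub W t b

/-- The answers of the environment. -/
def OK (m W : ℕ) (q : Ix) (v y : V) : Prop := ∃ j, Sub m W q j ∧ v = enc j.inp ∧ y = enc j.out

variable {ι κ : Type} {C : Ctx ι} {q : ι → Ix}

theorem par_sm (q : ι → Ix) : Sm (fun i => (q i).L) fun i => sz (q i).par := by
  have h : ∀ g : ι → ℕ, (∀ i, g i ≤ (q i).L) → Sm (fun i => (q i).L) fun i => sz (g i) :=
    fun g hg => (Sm.self.mono hg).sz_of_sm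
  refine (Sm.self.mono fun i => (q i).hnL).sz_un.pair
    ((Sm.self.sz_of_lt_two_pow fun i => (q i).hℓ).pair
    ((Sm.self.sz_of_lt_two_pow fun i => (q i).hjb.trans (q i).hℓ).pair
    ((h _ fun i => ?_).pair ((h _ fun i => (q i).k_le).pair
    ((Sm.self.sz_of_lt_two_pow fun i => (q i).hD).pair (h _ fun i => (q i).hwL))))))
  have := (q i).hoff
  have := (q i).hnL
  omega

/-- The context affords the black boxes and the volume term. -/
structure Good (C : Ctx ι) (q : ι → Ix) : Prop where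
  pd : C.PD (fun i => 2 ^ (q i).n) fun i => (q i).L
  vol : C.Dom fun i =>
    (2 : ℝ) ^ (q i).n * ((q i).D * ((q i).w + 1) : ℕ) * (((q i).k : ℝ) * (q i).ℓ + 1) ^ tau

namespace Good

theorem re (h : Good C q) {α : Type} [PEnc α] (x : ι → α) : Good (C.re x) q := ⟨h.pd, h.vol⟩

theorem comap (h : Good C q) (φ : κ → ι) : Good (C.comap φ) fun k => q (φ k) :=
  ⟨h.pd.comap φ, h.vol.comap φ⟩

theorem smw (q : ι → Ix) : Sm (fun i => (q i).L) fun i => (q i).w :=
  Sm.self.mono fun i => (q i).hwL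

theorem vol' (h : Good C q) {D u : ι → ℕ} (hD : ∀ i, D i ≤ (q i).D) (hu : ∀ i, u i ≤ (q i).k) :
    C.Dom fun i =>
      (2 : ℝ) ^ (q i).n * (D i * ((q i).w + 1) : ℕ) * ((u i : ℝ) * (q i).ℓ + 1) ^ tau :=
  h.vol.mono fun i => by
    have := tau_nonneg
    gcongr
    · exact hD i
    · exact hu i

theorem vol₀ (h : Good C q) {D : ι → ℕ} (hD : ∀ i, D i ≤ (q i).D) :
    C.Dom fun i => ((2 ^ (q i).n * (D i * ((q i).w + 1)) : ℕ) : ℝ) := by
  simpa using h.vol' hD (u := fun _ => 0) fun _ => Nat.zero_le _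

theorem lin (h : Good C q) {D : ι → ℕ} (hD : ∀ i, D i ≤ (q i).D) :
    C.Dom fun i => ((2 ^ (q i).n : ℕ) : ℝ) * (D i + (q i).w + 1) :=
  ((h.vol₀ hD).add (h.pd.dom' ((smw q).add (Sm.const 1)))).mono fun i => by
    norm_cast
    rw [← Nat.mul_add]
    exact Nat.mul_le_mul_left _ (by nlinarith)

theorem dom_ar (h : Good C q) {D : ι → ℕ} (hD : ∀ i, D i ≤ (q i).D)
    (b : ∀ i, ℕ → ℕ → KK (q i).w) : C.Dom fun i => sz (ar (q i).w (D i) (2 ^ (q i).n) (b i)) :=
  (((h.vol₀ hD).smul (K := 6) (by norm_num)).add (h.pd.dom (Sm.const 2))).mono fun i => by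
    have := sz_ar_le (q i).w (D i) (2 ^ (q i).n) (b i)
    norm_cast
    nlinarith

theorem un (h : Good C q) {D : ι → ℕ} (hD : ∀ i, D i ≤ (q i).D) (hr : R C D) :
    R C fun i => Un.mk (D i) :=
  hr.toUn ((h.lin hD).mono fun i => by
    norm_cast
    have : 0 < 2 ^ (q i).n := by positivity
    nlinarith)

theorem poly (h : Good C q) (hp : R C fun i => (q i).par) {β : Type} [PEnc β] {f : Par → β}
    (hf : Poly f) : SC C (fun i => (q i).L) fun i => f (q i).par :=
  SC.poly h.pd hf ⟨hp, par_sm q⟩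

theorem unw (h : Good C q) (hp : R C fun i => (q i).par) : R C fun i => Un.mk ((q i).w + 1) :=
  (SC.un h.pd (h.poly hp (f := fun p => p.2.2.2.2.2.2 + 1) (by fun_prop)).r
    ((smw q).add (Sm.const 1))).r

theorem undd (h : Good C q) (hp : R C fun i => (q i).par) (W : ℕ) :
    R C fun i => Un.mk (dd W (q i).D) :=
  h.un (fun i => dd_le _ _)
    (h.poly hp (f := fun p => (p.2.2.2.2.2.1 + W - 1) / W) (by fun_prop)).r

end Good

variable {m W : ℕ}

/-- The state: parameters and wires. -/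
def St (q : Ix) (A : Fin W → ℕ → ℕ → KK q.w) : Par × List (List (List (List Bool))) :=
  (q.par, List.ofFn fun v => ar q.w (dd W q.D) (2 ^ q.n) (A v))

theorem st_get {A : ∀ i, Fin W → ℕ → ℕ → KK (q i).w} (h : R C fun i => St (q i) (A i))
    (v : Fin W) : R C fun i => ar (q i).w (dd W (q i).D) (2 ^ (q i).n) (A i v) :=
  R.ofFn_get (x := fun i v => ar (q i).w (dd W (q i).D) (2 ^ (q i).n) (A i v)) h.snd v

theorem st_mk {A : ∀ i, Fin W → ℕ → ℕ → KK (q i).w} (hp : R C fun i => (q i).par)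
    (h : ∀ v, R C fun i => ar (q i).w (dd W (q i).D) (2 ^ (q i).n) (A i v)) :
    R C fun i => St (q i) (A i) := by
  have := hp.isOk
  exact hp.pair (R.ofFn (x := fun i v => ar (q i).w (dd W (q i).D) (2 ^ (q i).n) (A i v)) h)

theorem st_upd {A : ∀ i, Fin W → ℕ → ℕ → KK (q i).w} {f : ∀ i, ℕ → ℕ → KK (q i).w} (v : Fin W)
    (h : R C fun i => St (q i) (A i))
    (hf : R C fun i => ar (q i).w (dd W (q i).D) (2 ^ (q i).n) (f i)) :
    R C fun i => St (q i) (update (A i) v (f i)) := by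
  refine st_mk h.fst fun v' => ?_
  by_cases e : v' = v
  · subst e; simpa using hf
  · simpa [e] using st_get h v'

theorem apart {off u ℓ s t : ℕ} (h : s ≠ t) :
    Apart (u * ℓ) (off + s * u * ℓ) (off + t * u * ℓ) := by
  have key : ∀ s t : ℕ, s < t → off + s * u * ℓ + u * ℓ ≤ off + t * u * ℓ := fun s t h => by
    have := Nat.mul_le_mul_right (u * ℓ) (Nat.succ_le_of_lt h)
    rw [Nat.succ_mul, ← Nat.mul_assoc, ← Nat.mul_assoc] at this
    omega
  rcases lt_or_gt_of_ne h with h | h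
  exacts [Or.inl (key _ _ h), Or.inr (key _ _ h)]

theorem third (hm : 3 ≤ m) (i j : Fin m) : ∃ t : Fin m, t ≠ i ∧ t ≠ j := by
  by_contra h
  push Not at h
  have h0 := h ⟨0, by omega⟩
  have h1 := h ⟨1, by omega⟩
  have h2 := h ⟨2, by omega⟩
  simp only [ne_eq, Fin.ext_iff] at h0 h1 h2
  omega

/-- One instruction. -/
theorem step (hxor : XorSpec) (hm : 3 ≤ m) (s : WInstr W m) (hs : s.ok) (hG : Good C q)
    (hk : ∀ i, (q i).k / m ≠ 0) {A : ∀ i, Fin W → ℕ → ℕ → KK (q i).w}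
    (h : R C fun i => St (q i) (A i)) :
    J C (fun i => OK m W (q i)) (fun _ => s.cnt) fun i => St (q i)
      (arun (q i).off (q i).ℓ (q i).jb ((q i).k / m) ((2 : KK (q i).w) ^ (q i).w) s (A i)) := by
  have hp : R C fun i => (q i).par := h.fst
  cases s with
  | gate G =>
    refine ((st_mk hp fun v => ?_).j _).mono (fun _ _ _ h => h) fun _ => by positivity
    refine (asum (w := fun i => (q i).w) (f := fun v' i => G v v' • A i v') Finset.univ (st_get h v)
      fun v' _ => azsmul _ (st_get h v')).congr fun i => ?_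
    congr 1
    funext j
    simp [arun, Finset.sum_apply]
  | up2 v a b =>
    refine ((st_upd v h ?_).j _).mono (fun _ _ _ h => h) fun _ => by positivity
    exact apow (w := fun i => (q i).w) (e := fun i => a * ((q i).k / m) + b) hG.pd (Good.smw q)
      (hG.poly hp (f := fun p => (p.2.2.2.2.2.2, a * (p.2.2.2.2.1 / m) + b)) (by fun_prop))
      (st_get h v)
  | dn2 v a b =>
    refine ((st_upd v h ?_).j _).mono (fun _ _ _ h => h) fun _ => by positivity
    simp only [← pow_mul]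
    exact apow (w := fun i => (q i).w) (e := fun i => (q i).w * (a * ((q i).k / m) + b)) hG.pd
      (Good.smw q) (hG.poly hp
        (f := fun p => (p.2.2.2.2.2.2, p.2.2.2.2.2.2 * (a * (p.2.2.2.2.1 / m) + b))) (by fun_prop))
      (st_get h v)
  | xor v s s' =>
    refine ((st_upd v h ?_).j _).mono (fun _ _ _ h => h) fun _ => by positivity
    obtain ⟨t, ht, ht'⟩ := third hm s s'
    have hs' : (s' : ℕ) ≠ s := fun e => hs (Fin.ext e.symm)
    exact axor (w := fun i => (q i).w) (ot := fun i => (q i).off + t * ((q i).k / m) * (q i).ℓ)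
      hxor hG.pd (hG.poly hp (f := fun p => (p.1, p.2.1, p.2.2.1, p.2.2.2.2.1 / m,
        p.2.2.2.1 + s' * (p.2.2.2.2.1 / m) * p.2.1, p.2.2.2.1 + s * (p.2.2.2.2.1 / m) * p.2.1,
        p.2.2.2.1 + t * (p.2.2.2.2.1 / m) * p.2.1,
        (p.2.2.2.2.2.1 + W - 1) / W * (p.2.2.2.2.2.2 + 1))) (by fun_prop))
      (fun i => (q i).hjb) (fun i => (q i).hn)
      (fun i => ⟨(q i).fld_le _, (q i).fld_le _, (q i).fld_le _⟩)
      (fun i => ⟨apart hs', apart (fun e => ht' (Fin.ext e.symm)),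
        apart fun e => ht (Fin.ext e.symm)⟩)
      (hG.vol' (fun i => dd_le _ _) fun i => Nat.div_le_self _ _) (hG.undd hp W) (hG.unw hp)
      (hG.lin fun i => dd_le _ _) (st_get h v)
  | had v t =>
    have h1 : R C fun i => ((q i).sub W t (A i v)).inp :=
      (hG.poly hp (f := fun p => (p.1, p.2.1, p.2.2.1, p.2.2.2.1 + t * (p.2.2.2.2.1 / m) * p.2.1,
        p.2.2.2.2.1 / m, (p.2.2.2.2.2.1 + W - 1) / W, p.2.2.2.2.2.2)) (by fun_prop)).r.pair
        (st_get h v)
    have h2 := JS.call (ok := fun i => OK m W (q i)) (pre := fun _ => [])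
      (y := fun i => ((q i).sub W t (A i v)).out) h1 (hG.dom_ar (fun i => dd_le _ _) _)
      fun i => ⟨_, ⟨hk i, t, _, rfl⟩, rfl, rfl⟩
    exact ((JS.pair_l h h2).post_r fun h' => st_upd v h'.fst h'.snd).mono (fun _ _ _ h => h)
      fun _ => by simp [WInstr.cnt]

/-- A list of instructions. -/
theorem steps (hxor : XorSpec) (hm : 3 ≤ m) (prog : List (WInstr W m)) (hs : ∀ s ∈ prog, s.ok)
    (hG : Good C q) (hk : ∀ i, (q i).k / m ≠ 0) {A : ∀ i, Fin W → ℕ → ℕ → KK (q i).w}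
    (h : R C fun i => St (q i) (A i)) :
    J C (fun i => OK m W (q i)) (fun _ => ((prog.map WInstr.cnt).sum : ℕ)) fun i => St (q i)
      (prog.foldl (fun B s => arun (q i).off (q i).ℓ (q i).jb ((q i).k / m)
        ((2 : KK (q i).w) ^ (q i).w) s B) (A i)) := by
  induction prog generalizing C A with
  | nil => exact (h.j _).mono (fun _ _ _ h => h) fun _ => by positivity
  | cons s prog ih =>
    have h1 := step hxor hm s (hs s (by simp)) hG hk h
    exact (JS.comp h1 (ih (fun s' h' => hs s' (by simp [h'])) (hG.re _) (R.self h1.dom_sz))).mono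
      (fun _ _ _ h => h) fun _ => by simp

/-- The remaining axes. -/
theorem top (hperm : PermSpec) (hm : 0 < m) (hG : Good C q) (hp : R C fun i => (q i).par)
    (h : R C fun i => ar (q i).w (q i).D (2 ^ (q i).n)
      (whtG (q i).off (q i).ℓ (q i).jb (m * ((q i).k / m)) (q i).a)) (t : ℕ) :
    R C fun i => ar (q i).w (q i).D (2 ^ (q i).n)
      (whtG (q i).off (q i).ℓ (q i).jb (m * ((q i).k / m) + min t ((q i).k % m)) (q i).a) := by
  induction t with
  | zero => simpa using h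
  | succ t ih =>
    refine R.dcond (c := fun i => decide (t < (q i).k % m))
      (hG.poly hp (f := fun p => decide (t < p.2.2.2.2.1 % m)) (by fun_prop)).r ?_ ?_
    · have hlt : ∀ i : {i // decide (t < (q i).k % m) = true}, t < (q i.1).k % m :=
        fun i => of_decide_eq_true i.2
      refine (abit (w := fun i : {i // decide (t < (q i).k % m) = true} => (q i.1).w)
        (p := fun i => (q i.1).off + (m * ((q i.1).k / m) + t) * (q i.1).ℓ + (q i.1).jb)
        hperm (hG.comap _).pd ((hG.comap _).poly (hp.comap _)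
          (f := fun p => (p.1, p.2.2.2.1 + (m * (p.2.2.2.2.1 / m) + t) * p.2.1 + p.2.2.1))
          (by fun_prop)) (fun i => ?_) (ih.comap _)).congr fun i => ?_
      · have h1 := hlt i
        have h2 := Nat.div_add_mod (q i.1).k m
        have h3 := Nat.mul_le_mul_right (q i.1).ℓ
          (show m * ((q i.1).k / m) + t + 1 ≤ (q i.1).k by omega)
        have := (q i.1).hoff
        have := (q i.1).hjb
        rw [Nat.succ_mul] at h3
        omega
      · have h1 := hlt i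
        rw [min_eq_left h1, min_eq_left h1.le]
        rfl
    · refine (ih.comap _).congr fun i => ?_
      have h1 : ¬ t < (q i.1).k % m := of_decide_eq_false i.2
      rw [min_eq_right (by omega), min_eq_right (by omega)]

/-- The body of the recursion. -/
theorem body (hperm : PermSpec) (hxor : XorSpec) (hm : 3 ≤ m) (hW : 0 < W)
    (prog : List (WInstr W m)) (hs : ∀ s ∈ prog, s.ok)
    (hprog : ∀ (u w : ℕ) (x : Fin W → (Fin m → Fin u → ZMod 2) → ℕ → KK w),
      prog.foldl (fun y s => s.run u ((2 : KK w) ^ w) y) x =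
        fun v y => ∑ z : Fin m → Fin u → ZMod 2, sg (∑ i, y i ⬝ᵥ z i) • x v z)
    (hG : Good C q) (h : R C fun i => (q i).inp) :
    J C (fun i => OK m W (q i))
      (fun i => if (q i).k / m = 0 then 0 else ((prog.map WInstr.cnt).sum : ℕ))
      fun i => (q i).out := by
  have hp : R C fun i => (q i).par := h.fst
  have ha : R C fun i => ar (q i).w (q i).D (2 ^ (q i).n) (q i).a := h.snd
  have h1 : J C (fun i => OK m W (q i))
      (fun i => if (q i).k / m = 0 then 0 else ((prog.map WInstr.cnt).sum : ℕ))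
      fun i => ar (q i).w (q i).D (2 ^ (q i).n)
        (whtG (q i).off (q i).ℓ (q i).jb (m * ((q i).k / m)) (q i).a) := by
    refine JS.cond (c := fun i => decide ((q i).k / m = 0))
      (hG.poly hp (f := fun p => decide (p.2.2.2.2.1 / m = 0)) (by fun_prop)).r ?_ ?_
    · refine (((ha.comap _).congr fun i => ?_).j _).mono (fun _ _ _ h => h) fun i => ?_
      · rw [of_decide_eq_true i.2]; rfl
      · split_ifs <;> positivity
    · set φ : {i // decide ((q i).k / m = 0) = false} → ι := Subtype.val with hφ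
      have hk : ∀ i, (q (φ i)).k / m ≠ 0 := fun i => of_decide_eq_false i.2
      have hG' := hG.comap φ
      have hp' := hp.comap φ
      have h2 := steps hxor hm prog hs hG' hk
        (A := fun i v j => part _ (q (φ i)).D (v * dd W (q (φ i)).D) ((q (φ i)).a j))
        (st_mk hp' fun v => asplit (w := fun i => (q (φ i)).w) W v hG'.pd (Good.smw _)
          (hG'.undd hp' W) (hG'.unw hp') ((hG'.lin fun i => dd_le W _).mono fun i => by
            gcongr; rw [add_assoc]; exact le_add_of_nonneg_right (by positivity)) (fun i => by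
            have h3 := Nat.mul_le_mul_right (dd W (q (φ i)).D) (Nat.succ_le_of_lt v.2)
            have h4 := mul_dd_le W (q (φ i)).D
            rw [Nat.succ_mul] at h3
            omega) (ha.comap φ))
      refine (JS.post_r h2 fun h3 => ?_).mono (fun _ _ _ h => h) fun i => by simp [hk i]
      have hG'' := hG'.re fun i => St (q (φ i)) (prog.foldl (fun B s => arun (q (φ i)).off
        (q (φ i)).ℓ (q (φ i)).jb ((q (φ i)).k / m) ((2 : KK (q (φ i)).w) ^ (q (φ i)).w) s B)
        fun v j => part _ (q (φ i)).D (v * dd W (q (φ i)).D) ((q (φ i)).a j))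
      refine ajoin (w := fun i => (q (φ i)).w) (D' := fun i => dd W (q (φ i)).D) W hW
        (hG''.un (fun _ => le_rfl)
          (hG''.poly h3.fst (f := fun p => p.2.2.2.2.2.1) (by fun_prop)).r)
        ((hG'.lin fun i => le_rfl).mono fun i => by
          gcongr; exact le_add_of_nonneg_right (by positivity))
        (fun i => le_mul_dd hW _) fun v hv => (st_get h3 ⟨v, hv⟩).congr fun i => ?_
      rw [foldl_arun (by have := (q (φ i)).hjb; omega) _ _ (hprog _ _)]
      simp only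
      rw [whtG_map]
  refine (JS.pair_l hp h1).post_r fun h2 => (top hperm (by omega) (hG.re _) h2.fst h2.snd m).congr
    fun i => ?_
  rw [min_eq_right (Nat.mod_lt _ (by omega)).le, Nat.div_add_mod]
  rfl

/-! ### Solving the recurrence -/

theorem solve_ineq {r ρ W M A B D D' w P P' Q X Y Z Z' : ℝ} (hr : 0 ≤ r) (hρ : 0 ≤ ρ)
    (hM : 0 ≤ M) (hA0 : 0 ≤ A) (hD0 : 0 ≤ D) (hw : 0 ≤ w) (hP0 : 0 ≤ P') (hY : 0 ≤ Y)
    (hR : r ≤ ρ * W * M) (hA : 2 + ρ * A ≤ A) (hB : 1 + r * A ≤ B) (hD : W * D' ≤ D + W)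
    (hP : M * P' ≤ P) (hQ : Q ≤ 2 * P) (hwP : w * P' ≤ Y) (hX : X ≤ Y) (hZ : r * Z' + 1 ≤ Z) :
    D * w * Q + X + r * (A * (D' * w * P') + B * (Y * Z')) ≤ A * (D * w * P) + B * (Y * Z) := by
  have h1 : r * D' ≤ ρ * M * D + r := by
    rcases le_total D' 1 with h | h
    · have : 0 ≤ ρ * M * D := by positivity
      nlinarith
    · have h2 : r * (D' - 1) ≤ ρ * W * M * (D' - 1) := mul_le_mul_of_nonneg_right hR (by linarith)
      have h3 : ρ * M * (W * (D' - 1)) ≤ ρ * M * D :=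
        mul_le_mul_of_nonneg_left (by linarith) (by positivity)
      nlinarith
  have hP1 : 0 ≤ P := le_trans (by positivity) hP
  have hB0 : 0 ≤ B := le_trans (by positivity) hB
  have h2 : r * D' * (A * w * P') ≤ (ρ * M * D + r) * (A * w * P') :=
    mul_le_mul_of_nonneg_right h1 (by positivity)
  have h3 : ρ * A * D * w * (M * P') ≤ ρ * A * D * w * P :=
    mul_le_mul_of_nonneg_left hP (by positivity)
  have h4 : r * A * (w * P') ≤ r * A * Y := mul_le_mul_of_nonneg_left hwP (by positivity)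
  have h5 : D * w * Q ≤ D * w * (2 * P) := mul_le_mul_of_nonneg_left hQ (by positivity)
  have h6 : (2 + ρ * A) * (D * w * P) ≤ A * (D * w * P) :=
    mul_le_mul_of_nonneg_right hA (by positivity)
  have h7 : (1 + r * A) * Y ≤ B * Y := mul_le_mul_of_nonneg_right hB hY
  have h8 : B * Y * (r * Z' + 1) ≤ B * Y * Z := mul_le_mul_of_nonneg_left hZ (by positivity)
  nlinarith

/-- The potential. -/
noncomputable def pot (A B : ℝ) (c c' n D w k ℓ L : ℕ) : ℝ :=
  (2 ^ n + 1) * (A * (D * (w + 1 : ℝ) * (max 1 ((k : ℝ) * ℓ)) ^ tau) +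
    B * ((L + 2 : ℝ) ^ c * (k + 1 : ℝ) ^ c'))

theorem succ_rpow_le (x : ℝ) (hx : 0 ≤ x) : (x + 1) ^ tau ≤ 2 * (max 1 x) ^ tau := by
  have h1 : x + 1 ≤ 2 * max 1 x := by linarith [le_max_left 1 x, le_max_right 1 x]
  calc (x + 1) ^ tau ≤ (2 * max 1 x) ^ tau := Real.rpow_le_rpow (by positivity) h1 tau_nonneg
    _ = 2 ^ tau * (max 1 x) ^ tau := Real.mul_rpow (by norm_num) (by positivity)
    _ ≤ _ := by
      gcongr
      simpa using Real.rpow_le_rpow_of_exponent_le (x := 2) (by norm_num) tau_le_one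

theorem B_nonneg (c : ℕ) (q : Ix) : 0 ≤ Ix.B c q := by unfold Ix.B; positivity

theorem B_mono (c : ℕ) (q : Ix) : Ix.B c q ≤ Ix.B (c + 1) q := by
  unfold Ix.B
  gcongr
  · linarith [(by positivity : (0 : ℝ) ≤ q.L)]
  · omega

theorem good_of : Good (Ctx.of Ix.inp Ix.B) fun q => q :=
  ⟨fun c => (Ctx.dom_of Ix.B c).mono fun q => by
    unfold Ix.B
    push_cast
    gcongr
    exact le_add_of_nonneg_left (by positivity),
  (Ctx.dom_of Ix.B 0).mono fun q => by
    unfold Ix.B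
    rw [mul_assoc]
    gcongr
    · linarith
    · exact le_add_of_nonneg_right (by positivity)⟩

theorem pot_step {r m W : ℕ} {ρ A B : ℝ} {c c' : ℕ} (hm : 3 ≤ m) (hρ : 0 ≤ ρ) (hA0 : 0 ≤ A)
    (hR : (r : ℝ) ≤ ρ * W * (m : ℝ) ^ tau) (hA : 2 + ρ * A ≤ A) (hB : 1 + r * A ≤ B)
    (hc : r + 1 ≤ 2 ^ c') (q : Ix) :
    Ix.B c q + (if q.k / m = 0 then 0 else (r : ℝ)) *
        pot A B (c + 2) c' q.n (dd W q.D) q.w (q.k / m) q.ℓ q.L ≤
      pot A B (c + 2) c' q.n q.D q.w q.k q.ℓ q.L := by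
  have hX : (q.L + 2 : ℝ) ^ c ≤ (q.L + 2 : ℝ) ^ (c + 2) :=
    pow_le_pow_right₀ (by linarith [(by positivity : (0 : ℝ) ≤ q.L)]) (by omega)
  have hQ := succ_rpow_le ((q.k : ℝ) * q.ℓ) (by positivity)
  have hZ1 : ∀ k : ℕ, (1 : ℝ) ≤ (k + 1 : ℝ) ^ c' := fun k =>
    one_le_pow₀ (by linarith [(by positivity : (0 : ℝ) ≤ k)])
  unfold Ix.B pot
  rw [mul_left_comm, ← mul_add]
  refine mul_le_mul_of_nonneg_left ?_ (by positivity)
  push_cast
  split_ifs with h
  · have := solve_ineq (r := 0) (ρ := ρ) (W := 0) (M := 0) (A := A) (B := B) (D := q.D) (D' := 0)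
      (w := q.w + 1) (P' := 0) (Z' := 0) le_rfl hρ le_rfl hA0 (by positivity) (by positivity) le_rfl
      (by positivity) (by simp) hA (by nlinarith [(by positivity : (0 : ℝ) ≤ r * A)]) (by simp)
      (by rw [zero_mul]; positivity) hQ (by rw [mul_zero]; positivity) hX
      (by simpa using hZ1 q.k)
    simpa using this
  · have hk : m * (q.k / m) ≤ q.k := Nat.mul_div_le _ _
    have hk1 : 1 ≤ q.k / m := Nat.pos_of_ne_zero h
    have hℓ : 1 ≤ q.ℓ := by have := q.hjb; omega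
    have hkl : q.k * q.ℓ ≤ q.L := by have := q.hoff; have := q.hnL; omega
    have h1 : (1 : ℝ) ≤ (q.k / m : ℕ) * q.ℓ := by exact_mod_cast Nat.mul_pos hk1 hℓ
    refine solve_ineq (by positivity) hρ (by positivity) hA0 (by positivity) (by positivity)
      (by positivity) (by positivity) hR hA hB (by exact_mod_cast mul_dd_le W q.D) ?_ hQ ?_ hX ?_
    · rw [max_eq_right h1, ← Real.mul_rpow (by positivity) (by positivity)]
      refine Real.rpow_le_rpow (by positivity) (le_trans ?_ (le_max_right _ _)) tau_nonneg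
      rw [← mul_assoc]
      exact_mod_cast Nat.mul_le_mul_right _ hk
    · rw [max_eq_right h1]
      have h2 : (((q.k / m : ℕ) : ℝ) * q.ℓ) ^ tau ≤ q.L + 2 := by
        refine (Real.rpow_le_self_of_one_le h1 tau_le_one).trans ?_
        have := (Nat.mul_le_mul_right q.ℓ (Nat.div_le_self q.k m)).trans hkl
        have : ((q.k / m : ℕ) : ℝ) * q.ℓ ≤ q.L := by exact_mod_cast this
        linarith
      have h3 : (q.w + 1 : ℝ) ≤ q.L + 2 := by
        have : (q.w : ℝ) ≤ q.L := by exact_mod_cast q.hwL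
        linarith
      calc _ ≤ (q.L + 2 : ℝ) * (q.L + 2) := by gcongr
        _ = (q.L + 2 : ℝ) ^ 2 := by ring
        _ ≤ _ := pow_le_pow_right₀ (by linarith [(by positivity : (0 : ℝ) ≤ q.L)]) (by omega)
    · have h2 : 2 * (q.k / m + 1) ≤ q.k + 1 := by nlinarith
      have h3 : (r + 1) * (q.k / m + 1) ^ c' ≤ (q.k + 1) ^ c' :=
        (Nat.mul_le_mul_right _ hc).trans (by rw [← mul_pow]; exact Nat.pow_le_pow_left h2 _)
      have h4 : (r + 1 : ℝ) * ((q.k / m : ℕ) + 1 : ℝ) ^ c' ≤ (q.k + 1 : ℝ) ^ c' := by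
        exact_mod_cast h3
      have := hZ1 (q.k / m)
      linarith

theorem pot_le {A B : ℝ} (hA : 0 ≤ A) (hB : 0 ≤ B) (c c' : ℕ) (q : Ix) :
    pot A B c c' q.n q.D q.w q.k q.ℓ q.L ≤ (A + B) * Ix.B (c + c') q := by
  unfold Ix.B pot
  rw [mul_left_comm (A + B)]
  refine mul_le_mul_of_nonneg_left ?_ (by positivity)
  push_cast
  have h1 : (max 1 ((q.k : ℝ) * q.ℓ)) ^ tau ≤ ((q.k : ℝ) * q.ℓ + 1) ^ tau :=
    Real.rpow_le_rpow (by positivity)
      (max_le (le_add_of_nonneg_left (by positivity)) (by linarith)) tau_nonneg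
  have h2 : (q.k + 1 : ℝ) ^ c' ≤ (q.L + 2 : ℝ) ^ c' := by
    have : (q.k : ℝ) ≤ q.L := by exact_mod_cast q.k_le
    gcongr; linarith
  rw [mul_add (A + B), pow_add]
  gcongr <;> linarith

/-- The recursive routine. -/
theorem recur (hperm : PermSpec) (hxor : XorSpec) (hm : 3 ≤ m) (hW : 0 < W)
    (prog : List (WInstr W m)) (hs : ∀ s ∈ prog, s.ok)
    (hprog : ∀ (u w : ℕ) (x : Fin W → (Fin m → Fin u → ZMod 2) → ℕ → KK w),
      prog.foldl (fun y s => s.run u ((2 : KK w) ^ w) y) x =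
        fun v y => ∑ z : Fin m → Fin u → ZMod 2, sg (∑ i, y i ⬝ᵥ z i) • x v z)
    {ρ : ℝ} (hρ : 0 ≤ ρ) (hρ1 : ρ < 1)
    (hR : (((prog.map WInstr.cnt).sum : ℕ) : ℝ) ≤ ρ * W * (m : ℝ) ^ tau) :
    R (Ctx.of Ix.inp Ix.B) Ix.out := by
  have h0 : R (Ctx.of Ix.inp Ix.B) Ix.inp :=
    (R.inp (C := Ctx.of Ix.inp Ix.B) ⟨(((good_of.pd.dom₁ (par_sm fun q => q)).add
      (good_of.dom_ar (fun _ => le_rfl) fun q => q.a)).add
      (good_of.pd.dom₁ (Sm.const 1))).mono fun q => by
        change ((sz q.inp : ℕ) : ℝ) ≤ _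
        simp [Ix.inp]⟩).of_enc fun _ => rfl
  refine J.knot (sub := Sub m W) (fun q => q.k) ?_
    (body hperm hxor hm hW prog hs hprog good_of h0) _ (fun _ => rfl) fun G hG => ?_
  · rintro q _ ⟨hk, t, b, rfl⟩
    exact Nat.div_lt_self (Nat.pos_of_ne_zero fun h => hk (by simp [h])) (by omega)
  · obtain ⟨c, K, hK, hG⟩ := Ctx.dom_of_elim B_nonneg B_mono hG
    set r : ℕ := (prog.map WInstr.cnt).sum
    have h1 : 0 < 1 - ρ := by linarith
    set A : ℝ := 2 / (1 - ρ) with hA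
    have hA0 : 0 ≤ A := by positivity
    have hA1 : 2 + ρ * A ≤ A := by
      have : A * (1 - ρ) = 2 := by rw [hA]; field_simp
      linarith
    refine ⟨fun q => K * pot A (1 + r * A) (c + 2) r q.n q.D q.w q.k q.ℓ q.L,
      fun q => K * pot A (1 + r * A) (c + 2) r q.n (dd W q.D) q.w (q.k / m) q.ℓ q.L,
      (Ctx.dom_of Ix.B (c + 2 + r)).mono_mul (K * (A + (1 + r * A))) (by positivity) fun q => ?_,
      fun q => by unfold pot; positivity, ?_, fun q => ?_⟩
    · rw [mul_assoc]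
      exact mul_le_mul_of_nonneg_left (pot_le hA0 (by positivity) _ _ q) hK
    · rintro q _ ⟨hk, t, b, rfl⟩
      exact le_rfl
    · have := mul_le_mul_of_nonneg_left
        (pot_step (c := c) hm hρ hA0 hR hA1 le_rfl Nat.lt_two_pow_self q) hK
      have := hG q
      linarith

theorem pow_tau : (10 : ℝ) ^ 6 - 1 / 10 ^ 7 ≤ ((10 ^ 6 : ℕ) : ℝ) ^ tau := by
  have h1 : Real.log (10 ^ 6) ≤ 54 := by
    rw [Real.log_pow]
    have := Real.log_le_sub_one_of_pos (show (0 : ℝ) < 10 by norm_num)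
    push_cast; linarith
  have h2 : ((10 ^ 6 : ℕ) : ℝ) ^ tau = 10 ^ 6 * Real.exp (-(Real.log (10 ^ 6) / 2 ^ 50)) := by
    push_cast
    rw [tau, Real.rpow_sub (by positivity), Real.rpow_one, Real.rpow_def_of_pos (by positivity),
      Real.exp_neg, div_eq_mul_inv]
    norm_num
    ring_nf
  have h3 := Real.add_one_le_exp (-(Real.log (10 ^ 6) / 2 ^ 50))
  have h4 : Real.log (10 ^ 6) / 2 ^ 50 ≤ 54 / 2 ^ 50 := by gcongr
  rw [h2]
  norm_num at h3 h4 ⊢
  linarith

theorem recur' (hperm : PermSpec) (hxor : XorSpec) (hw : WProgSpec) :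
    R (Ctx.of Ix.inp Ix.B) Ix.out := by
  obtain ⟨W, prog, hW, hs, hc, hprog⟩ := hw
  refine recur hperm hxor (by norm_num) hW prog hs
    (fun u w x => hprog u (KK w) _ (two_mul_half w) _ x)
    (ρ := (10 ^ 6 - 1 / 10 ^ 6) / (10 ^ 6 - 1 / 10 ^ 7)) (by norm_num) (by norm_num) ?_
  push_cast at hc ⊢
  refine hc.trans ?_
  have := pow_tau
  push_cast at this
  calc (W : ℝ) * (10 ^ 6 - 1 / 10 ^ 6) =
        (10 ^ 6 - 1 / 10 ^ 6) / (10 ^ 6 - 1 / 10 ^ 7) * W * (10 ^ 6 - 1 / 10 ^ 7) := by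
        field_simp
    _ ≤ _ := by gcongr

end Wht
end Crest.Agent.R326
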