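import Crest.Agent.R326.WhtMath

/-!
# The Walsh–Hadamard layer: linear-time arithmetic modulo `2 ^ (w + 1) - 1`
-/

set_option linter.unusedVariables false

namespace Crest.Agent.R326
namespace Wht

open Function
open Crest.Agent.Lib.PolyTime

/-- Residues modulo `2 ^ (w + 1) - 1`. -/
abbrev KK (w : ℕ) : Type := ZMod (2 ^ (w + 1) - 1)

theorem two_le_pow (w : ℕ) : 2 ≤ 2 ^ (w + 1) := by
  rw [pow_succ]; have : 0 < 2 ^ w := by positivity
  omega

instance (w : ℕ) : NeZero (2 ^ (w + 1) - 1) := ⟨by have := two_le_pow w; omega⟩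

/-- The code of a residue. -/
def kb (w : ℕ) (z : KK w) : List Bool := bits (w + 1) z.val

@[simp] theorem length_kb (w : ℕ) (z : KK w) : (kb w z).length = w + 1 := length_bits _ _

theorem cast_mod (w : ℕ) : ((2 ^ (w + 1) - 1 : ℕ) : KK w) = 0 := ZMod.natCast_self _

theorem two_pow_eq_one (w : ℕ) : (2 : KK w) ^ (w + 1) = 1 := by
  have h := cast_mod w
  rw [Nat.cast_sub (by have := two_le_pow w; omega)] at h
  push_cast at h
  exact sub_eq_zero.1 h

theorem two_mul_half (w : ℕ) : (2 : KK w) * 2 ^ w = 1 := by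
  rw [← pow_succ', two_pow_eq_one]

theorem val_lt (w : ℕ) (z : KK w) : z.val < 2 ^ (w + 1) - 1 := ZMod.val_lt z

theorem kb_zero (w : ℕ) : kb w 0 = bits (w + 1) 0 := by rw [kb, ZMod.val_zero]

/-- A record of `D` residues. -/
def rc (w D : ℕ) (x : ℕ → KK w) : List (List Bool) := tab D fun d => kb w (x d)

/-- An array of `T` records. -/
def ar (w D T : ℕ) (a : ℕ → ℕ → KK w) : List (List (List Bool)) := tab T fun j => rc w D (a j)

variable {ι : Type} {C : Ctx ι} {α β γ : Type} [PEnc α] [PEnc β] [PEnc γ]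

/-- Addition with end-around carry. -/
theorem kadd {w x y : ι → ℕ} (hx : R C fun i => bits (w i + 1) (x i))
    (hy : R C fun i => bits (w i + 1) (y i))
    (h : ∀ i, x i < 2 ^ (w i + 1) ∧ y i < 2 ^ (w i + 1) ∧ x i + y i < 2 * (2 ^ (w i + 1) - 1)) :
    R C fun i => kb (w i) ((x i + y i : ℕ) : KK (w i)) := by
  have h1 := R.addc (c := fun _ => true) (R.const (h := hx.isOk) _) hx hy
  refine (h1.fst.cond h1.snd (hx.addBits hy)).congr fun i => ?_
  obtain ⟨a1, a2, a3⟩ := h i
  have := two_le_pow (w i)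
  simp only [carry, Nat.mod_eq_of_lt a1, Nat.mod_eq_of_lt a2, Bool.toNat_true, kb, ZMod.val_natCast]
  by_cases hc : 2 ^ (w i + 1) ≤ x i + y i + 1
  · simp only [hc, decide_true, cond_true]
    refine bits_congr ?_
    have e1 : (x i + y i) % (2 ^ (w i + 1) - 1) = x i + y i + 1 - 2 ^ (w i + 1) := by
      rw [Nat.mod_eq_sub_mod (by omega), Nat.mod_eq_of_lt (by omega)]; omega
    rw [e1, Nat.mod_eq_sub_mod hc]
  · simp only [hc, decide_false, cond_false]
    rw [Nat.mod_eq_of_lt (by omega)]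

section digit
variable {w : ι → ℕ} {x y : ∀ i, KK (w i)}

theorem dadd (hx : R C fun i => kb (w i) (x i)) (hy : R C fun i => kb (w i) (y i)) :
    R C fun i => kb (w i) (x i + y i) :=
  (kadd hx hy fun i => by
    have := val_lt _ (x i); have := val_lt _ (y i); omega).congr fun i => by simp

theorem dsub (hx : R C fun i => kb (w i) (x i)) (hy : R C fun i => kb (w i) (y i)) :
    R C fun i => kb (w i) (x i - y i) := by
  have h1 : R C fun i => bits (w i + 1) (2 ^ (w i + 1) - 1 - (y i).val) :=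
    (R.map (f := fun b => !b) (by rp) hy).congr fun i =>
      (map_not_bits (by have := val_lt _ (y i); omega)).symm
  refine (kadd hx h1 fun i => by
    have := val_lt _ (x i); have := val_lt _ (y i); omega).congr fun i => ?_
  rw [Nat.cast_add, Nat.cast_sub (val_lt _ (y i)).le, cast_mod]
  simp [sub_eq_add_neg]

/-- Rotation of the bits. -/
theorem drot {s : ι → ℕ} (hs : R C fun i => Un.mk (s i)) (hle : ∀ i, s i ≤ w i + 1)
    (hx : R C fun i => kb (w i) (x i)) :
    R C fun i => kb (w i) (2 ^ (w i + 1 - s i) * x i) := by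
  have key : ∀ i, (x i).val / 2 ^ s i < 2 ^ (w i + 1 - s i) := fun i => by
    rw [Nat.div_lt_iff_lt_mul (by positivity), ← pow_add, Nat.sub_add_cancel (hle i)]
    have := val_lt _ (x i); omega
  have h1 : R C fun i => bits (w i + 1)
      ((x i).val / 2 ^ s i + 2 ^ (w i + 1 - s i) * ((x i).val % 2 ^ s i)) :=
    ((R.drop hs hx).hAppend (R.take hs hx)).congr fun i => by
      rw [kb, drop_bits, take_bits _ (hle i), ← bits_mod (s i), bits_append (key i),
        Nat.sub_add_cancel (hle i)]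
  have h0 : R C fun i => bits (w i + 1) 0 := (dsub hx hx).congr fun i => by rw [sub_self, kb_zero]
  refine (kadd h1 h0 fun i => ?_).congr fun i => ?_
  · have h2 := key i
    have h3 : (x i).val % 2 ^ s i + 1 ≤ 2 ^ s i := Nat.mod_lt _ (by positivity)
    have h4 := Nat.mul_le_mul_left (2 ^ (w i + 1 - s i)) h3
    rw [← pow_add, Nat.sub_add_cancel (hle i), Nat.mul_add] at h4
    have := two_le_pow (w i)
    omega
  · congr 1
    have h2 : (x i) = (((x i).val % 2 ^ s i + 2 ^ s i * ((x i).val / 2 ^ s i) : ℕ) : KK (w i)) := by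
      rw [Nat.mod_add_div]; simp
    conv_lhs => rw [h2]
    push_cast
    rw [mul_add, ← mul_assoc, ← pow_add, Nat.sub_add_cancel (hle i), two_pow_eq_one]
    ring

end digit

theorem tabZip {T : ι → ℕ} {a : ι → ℕ → α} {b : ι → ℕ → β} {c : ι → ℕ → γ}
    (ha : R C fun i => tab (T i) (a i)) (hb : R C fun i => tab (T i) (b i))
    (h : ∀ C' : Ctx (Σ i, Fin (T i)), R C' (fun p => a p.1 p.2) → R C' (fun p => b p.1 p.2) →
      R C' fun p => c p.1 p.2) : R C fun i => tab (T i) (c i) :=
  (ha.zipTab hb).tabMap₀ fun h' => h _ h'.fst h'.snd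

section record
variable {w D : ι → ℕ} {x y : ∀ i, ℕ → KK (w i)}

theorem radd (hx : R C fun i => rc (w i) (D i) (x i)) (hy : R C fun i => rc (w i) (D i) (y i)) :
    R C fun i => rc (w i) (D i) (x i + y i) :=
  tabZip (T := D) (a := fun i d => kb (w i) (x i d)) (b := fun i d => kb (w i) (y i d))
    (c := fun i d => kb (w i) (x i d + y i d)) hx hy fun _ h₁ h₂ =>
      dadd (w := fun p : Σ i, Fin (D i) => w p.1) (x := fun p => x p.1 p.2)
        (y := fun p => y p.1 p.2) h₁ h₂

theorem rsub (hx : R C fun i => rc (w i) (D i) (x i)) (hy : R C fun i => rc (w i) (D i) (y i)) :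
    R C fun i => rc (w i) (D i) (x i - y i) :=
  tabZip (T := D) (a := fun i d => kb (w i) (x i d)) (b := fun i d => kb (w i) (y i d))
    (c := fun i d => kb (w i) (x i d - y i d)) hx hy fun _ h₁ h₂ =>
      dsub (w := fun p : Σ i, Fin (D i) => w p.1) (x := fun p => x p.1 p.2)
        (y := fun p => y p.1 p.2) h₁ h₂

theorem le_sz_rc (w D : ℕ) (x : ℕ → KK w) : D * (w + 1 + 1) ≤ sz (rc w D x) := by
  rw [rc, sz_tab]
  calc D * (w + 1 + 1) = ∑ _k ∈ Finset.range D, (w + 1 + 1) := by simp
    _ ≤ ∑ k ∈ Finset.range D, (sz (kb w (x k)) + 1) := Finset.sum_le_sum fun k _ => by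
        have := length_lt_sz (kb w (x k)); rw [length_kb] at this; omega
    _ ≤ _ := Nat.le_succ _

theorem sz_rc_le (w D : ℕ) (x : ℕ → KK w) : sz (rc w D x) ≤ 6 * (D * (w + 1)) + 1 := by
  have := sz_tab_le (T := D) (a := fun d => kb w (x d)) (B := 4 * (w + 1) + 1)
    fun k _ => sz_bits_le _ _
  unfold rc
  nlinarith

theorem rrot {s : ι → ℕ} (hs : R C fun i => Un.mk (s i)) (hle : ∀ i, s i ≤ w i + 1)
    (hx : R C fun i => rc (w i) (D i) (x i)) :
    R C fun i => rc (w i) (D i) ((2 : KK (w i)) ^ (w i + 1 - s i) • x i) :=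
  R.tabMap (T := D) (a := fun i d => kb (w i) (x i d))
    (b := fun i d => kb (w i) (2 ^ (w i + 1 - s i) * x i d)) hs hx (hx.dom_sz.mono_mul 2 (by norm_num) fun i => by
      have h1 := le_sz_rc (w i) (D i) (x i)
      have h2 := Nat.mul_le_mul_left (D i) (hle i)
      rw [sz_un]
      norm_cast
      simp only
      nlinarith)
    fun h₁ h₂ => drot (w := fun p : Σ i, Fin (D i) => w p.1) (x := fun p => x p.1 p.2)
      (s := fun p => s p.1) h₁ (fun p => hle p.1) h₂

end record

section array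
variable {w D T L : ι → ℕ} {a b : ∀ i, ℕ → ℕ → KK (w i)}

theorem sz_ar_le (w D T : ℕ) (a : ℕ → ℕ → KK w) :
    sz (ar w D T a) ≤ T * (6 * (D * (w + 1)) + 2) + 1 :=
  sz_tab_le fun k _ => sz_rc_le _ _ _

theorem ar_congr {w D T : ℕ} {a b : ℕ → ℕ → KK w} (h : ∀ j, j < T → ∀ d, d < D → a j d = b j d) :
    ar w D T a = ar w D T b := tab_congr fun j hj => tab_congr fun d hd => by rw [h j hj d hd]

theorem aadd (ha : R C fun i => ar (w i) (D i) (T i) (a i))
    (hb : R C fun i => ar (w i) (D i) (T i) (b i)) :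
    R C fun i => ar (w i) (D i) (T i) (a i + b i) :=
  tabZip (T := T) (a := fun i j => rc (w i) (D i) (a i j)) (b := fun i j => rc (w i) (D i) (b i j))
    (c := fun i j => rc (w i) (D i) (a i j + b i j)) ha hb fun _ h₁ h₂ =>
      radd (w := fun p : Σ i, Fin (T i) => w p.1) (D := fun p => D p.1) (x := fun p => a p.1 p.2)
        (y := fun p => b p.1 p.2) h₁ h₂

theorem asub (ha : R C fun i => ar (w i) (D i) (T i) (a i))
    (hb : R C fun i => ar (w i) (D i) (T i) (b i)) :
    R C fun i => ar (w i) (D i) (T i) (a i - b i) :=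
  tabZip (T := T) (a := fun i j => rc (w i) (D i) (a i j)) (b := fun i j => rc (w i) (D i) (b i j))
    (c := fun i j => rc (w i) (D i) (a i j - b i j)) ha hb fun _ h₁ h₂ =>
      rsub (w := fun p : Σ i, Fin (T i) => w p.1) (D := fun p => D p.1) (x := fun p => a p.1 p.2)
        (y := fun p => b p.1 p.2) h₁ h₂

theorem azero (ha : R C fun i => ar (w i) (D i) (T i) (a i)) :
    R C fun i => ar (w i) (D i) (T i) 0 := by simpa using asub ha ha

theorem azsmul (c : ℤ) (ha : R C fun i => ar (w i) (D i) (T i) (a i)) :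
    R C fun i => ar (w i) (D i) (T i) (c • a i) := by
  induction c using Int.induction_on with
  | zero => simpa using azero ha
  | succ c ih => simpa [add_smul] using aadd ih ha
  | pred c ih => simpa [sub_smul] using asub ih ha

theorem asum {σ : Type} (s : Finset σ) {f : σ → ∀ i, ℕ → ℕ → KK (w i)}
    (ha : R C fun i => ar (w i) (D i) (T i) (a i))
    (hf : ∀ v ∈ s, R C fun i => ar (w i) (D i) (T i) (f v i)) :
    R C fun i => ar (w i) (D i) (T i) (∑ v ∈ s, f v i) := by
  classical
  induction s using Finset.induction_on with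
  | empty => simpa using azero ha
  | insert v s hv ih =>
    simpa [Finset.sum_insert hv] using aadd (hf v (by simp)) (ih fun u hu => hf u (by simp [hu]))

/-- Multiplication by a power of two. -/
theorem apow {e : ι → ℕ} (hP : C.PD T L) (hw : Sm L w) (hp : SC C L fun i => (w i, e i))
    (ha : R C fun i => ar (w i) (D i) (T i) (a i)) :
    R C fun i => ar (w i) (D i) (T i) fun j => (2 : KK (w i)) ^ e i • a i j := by
  have hs : SC C L fun i => Un.mk (w i + 1 - e i % (w i + 1)) :=
    SC.un hP (hp.poly hP (f := fun q => q.1 + 1 - q.2 % (q.1 + 1)) (by fun_prop)).r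
      ((hw.add (Sm.const 1)).mono fun i => Nat.sub_le _ _)
  refine R.congr (y := fun i => ar (w i) (D i) (T i) fun j =>
    (2 : KK (w i)) ^ (w i + 1 - (w i + 1 - e i % (w i + 1))) • a i j) ?_ fun i => ?_
  · exact R.tabMap (T := T) (a := fun i j => rc (w i) (D i) (a i j))
      (b := fun i j => rc (w i) (D i)
        ((2 : KK (w i)) ^ (w i + 1 - (w i + 1 - e i % (w i + 1))) • a i j))
      hs.r ha (hP.dom' hs.sm) fun h₁ h₂ =>
      rrot (w := fun p : Σ i, Fin (T i) => w p.1) (D := fun p => D p.1) (x := fun p => a p.1 p.2)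
        (s := fun p => w p.1 + 1 - e p.1 % (w p.1 + 1)) h₁ (fun p => Nat.sub_le _ _) h₂
  · rw [Nat.sub_sub_self (Nat.mod_lt _ (by omega)).le, ← pow_eq_pow_mod _ (two_pow_eq_one _)]

end array

end Wht
end Crest.Agent.R326
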