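import Crest.Agent.R326.XorMath

/-!
# The machine realises the shear `xshI`
-/

set_option linter.unusedVariables false

namespace Crest.Agent.R326

open Crest.Agent.Lib.PolyTime

namespace Xor

section poly
variable {α : Type} [PEnc α]

@[fun_prop] theorem poly_fl {o F j : α → ℕ} (ho : Poly o) (ho' : PB o) (hF : Poly F) (hF' : PB F)
    (hj : Poly j) : Poly fun a => fl (o a) (F a) (j a) := by unfold fl; fun_prop

@[fun_prop] theorem poly_st {o F j y : α → ℕ} (ho : Poly o) (ho' : PB o) (hF : Poly F) (hF' : PB F)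
    (hj : Poly j) (hy : Poly y) : Poly fun a => st (o a) (F a) (j a) (y a) := by
  unfold st; fun_prop

@[fun_prop] theorem poly_bt {m k : α → ℕ} (hm : Poly m) (hk : Poly k) :
    Poly fun a => bt (m a) (k a) := by unfold bt; fun_prop

theorem poly_dsum {ℓ u : α → ℕ} {d : α → ℕ → ℕ} (hℓ : Poly ℓ) (hℓ' : PB ℓ)
    (hu : Poly u) (hu' : PB u) (hd : Poly fun p : α × Un => d p.1 p.2.n) :
    Poly fun a => dsum (ℓ a) (u a) (d a) := by
  unfold dsum
  exact Poly.sum_range hu hu' (hd.mul (by fun_prop))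

theorem xor_eq_dsum (m n : ℕ) :
    m ^^^ n = dsum 1 (m.size + n.size) fun s => (bt m s + bt n s) % 2 := by
  have h : m ^^^ n < 2 ^ ((m.size + n.size) * 1) := by
    rw [Nat.mul_one]
    exact Nat.xor_lt_two_pow
      ((Nat.lt_size_self m).trans_le (Nat.pow_le_pow_right (by norm_num) (by omega)))
      ((Nat.lt_size_self n).trans_le (Nat.pow_le_pow_right (by norm_num) (by omega)))
  rw [← Nat.mod_eq_of_lt h, ← dsum_fl]
  refine dsum_congr fun s _ => ?_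
  rw [fl, fld, Nat.mul_one, pow_one, ← Nat.toNat_testBit, Nat.testBit_xor, bt, bt]
  cases m.testBit s <;> cases n.testBit s <;> rfl

@[fun_prop] theorem poly_xor {m n : α → ℕ} (hm : Poly m) (hn : Poly n) :
    Poly fun a => m a ^^^ n a :=
  (poly_dsum (ℓ := fun _ => 1) (u := fun a => (m a).size + (n a).size)
    (d := fun a s => (bt (m a) s + bt (n a) s) % 2) (by fun_prop) (by fun_prop) (by fun_prop)
    (by fun_prop) (by fun_prop)).congr fun a => (xor_eq_dsum _ _).symm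

variable {ℓ jb u x y t : α → ℕ}

@[fun_prop] theorem poly_msk (hℓ : Poly ℓ) (hℓ' : PB ℓ) (hjb : Poly jb) (hjb' : PB jb)
    (hu : Poly u) (hu' : PB u) (hx : Poly x) : Poly fun a => msk (ℓ a) (jb a) (u a) (x a) :=
  poly_dsum hℓ hℓ' hu hu' (by fun_prop)

@[fun_prop] theorem poly_am₁ (hℓ : Poly ℓ) (hℓ' : PB ℓ) (hjb : Poly jb) (hjb' : PB jb)
    (hu : Poly u) (hu' : PB u) (hx : Poly x) (ht : Poly t) :
    Poly fun a => am₁ (ℓ a) (jb a) (u a) (x a) (t a) :=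
  poly_dsum hℓ hℓ' hu hu' (by fun_prop)

@[fun_prop] theorem poly_am₂ (hℓ : Poly ℓ) (hℓ' : PB ℓ) (hjb : Poly jb)
    (hu : Poly u) (hu' : PB u) (hy : Poly y) : Poly fun a => am₂ (ℓ a) (jb a) (u a) (y a) :=
  poly_dsum hℓ hℓ' hu hu' (by fun_prop)

@[fun_prop] theorem poly_am₃ (hℓ : Poly ℓ) (hℓ' : PB ℓ) (hjb : Poly jb) (hjb' : PB jb)
    (hu : Poly u) (hu' : PB u) (hx : Poly x) (ht : Poly t) :
    Poly fun a => am₃ (ℓ a) (jb a) (u a) (x a) (t a) := by unfold am₃; fun_prop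

@[fun_prop] theorem poly_am₄ (hℓ : Poly ℓ) (hℓ' : PB ℓ) (hjb : Poly jb)
    (hu : Poly u) (hu' : PB u) (hx : Poly x) (hy : Poly y) :
    Poly fun a => am₄ (ℓ a) (jb a) (u a) (x a) (y a) := by unfold am₄; fun_prop

theorem poly_sh {o o₁ o₂ F j : α → ℕ} {g : α → ℕ → ℕ → ℕ} (ho : Poly o) (ho' : PB o)
    (h₁ : Poly o₁) (h₁' : PB o₁) (h₂ : Poly o₂) (h₂' : PB o₂) (hF : Poly F) (hF' : PB F)
    (hg : Poly fun q : α × ℕ × ℕ => g q.1 q.2.1 q.2.2) (hj : Poly j) :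
    Poly fun a => sh (o a) (o₁ a) (o₂ a) (F a) (g a) (j a) := by
  have h : Poly fun a => g a (fl (o₁ a) (F a) (j a)) (fl (o₂ a) (F a) (j a)) :=
    hg.comp (g := fun a => (a, fl (o₁ a) (F a) (j a), fl (o₂ a) (F a) (j a))) (by fun_prop)
  unfold sh
  fun_prop

/-- The parameters `ℓ, jb, u, ox, oy, ot` in unary. -/
abbrev Par := (Un × Un × Un) × Un × Un × Un

/-- The permutation to be repaired. -/
def rep (q : Par × ℕ) : ℕ :=
  let z := sig q.1.2.1.n q.1.2.2.1.n q.1.2.2.2.n q.1.1.1.n q.1.1.2.1.n q.1.1.2.2.n q.2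
  z ^^^ ∑ s ∈ Finset.range q.1.1.2.2.n, (z.testBit (q.1.2.1.n + s * q.1.1.1.n + q.1.1.2.1.n)).toNat *
    2 ^ (q.1.2.2.1.n + s * q.1.1.1.n + q.1.1.2.1.n)

theorem poly_rep : Poly rep := by
  have h : Poly fun q : Par × ℕ =>
      sig q.1.2.1.n q.1.2.2.1.n q.1.2.2.2.n q.1.1.1.n q.1.1.2.1.n q.1.1.2.2.n q.2 := by
    unfold sig
    refine poly_sh (by fun_prop) (by fun_prop) (by fun_prop) (by fun_prop) (by fun_prop)
      (by fun_prop) (by fun_prop) (by fun_prop) (by fun_prop) ?_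
    refine poly_sh (by fun_prop) (by fun_prop) (by fun_prop) (by fun_prop) (by fun_prop)
      (by fun_prop) (by fun_prop) (by fun_prop) (by fun_prop) ?_
    refine poly_sh (by fun_prop) (by fun_prop) (by fun_prop) (by fun_prop) (by fun_prop)
      (by fun_prop) (by fun_prop) (by fun_prop) (by fun_prop) ?_
    exact poly_sh (by fun_prop) (by fun_prop) (by fun_prop) (by fun_prop) (by fun_prop)
      (by fun_prop) (by fun_prop) (by fun_prop) (by fun_prop) (by fun_prop)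
  have h2 : Poly fun q : Par × ℕ => q.2 ^^^ ∑ s ∈ Finset.range q.1.1.2.2.n,
      (q.2.testBit (q.1.2.1.n + s * q.1.1.1.n + q.1.1.2.1.n)).toNat *
        2 ^ (q.1.2.2.1.n + s * q.1.1.1.n + q.1.1.2.1.n) :=
    poly_xor (by fun_prop) (Poly.sum_range (by fun_prop) (by fun_prop) (by fun_prop))
  exact h2.comp (Poly.id'.fst.pair h)

end poly

section tape
variable {ι γ : Type} [PEnc γ] {C : Ctx ι} {n F o o₁ o₂ ρ L : ι → ℕ} {par : ι → γ}
  {a : ι → ℕ → List Bool} {g : γ → ℕ → ℕ → ℕ}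

/-- A shear of the lowest field is a rotation. -/
theorem rotLow (hP : PermSpec) (hg : Poly fun q : γ × ℕ × ℕ => g q.1 q.2.1 q.2.2)
    (hPD : C.PD (fun i => 2 ^ n i) L) (hpar : SC C L par)
    (hs : SC C L fun i => (Un.mk (n i), Un.mk (F i), Un.mk (o i), Un.mk (o₁ i), Un.mk (o₂ i)))
    (hle : ∀ i, o i + F i ≤ n i) (h₁ : ∀ i, o i + F i ≤ o₁ i) (h₂ : ∀ i, o i + F i ≤ o₂ i)
    (ha : R C fun i => tab (2 ^ n i) (a i)) :
    R C fun i => tab (2 ^ n i) fun j => a i (sh (o i) (o₁ i) (o₂ i) (F i) (g (par i)) j) := by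
  have e : ∀ i, 2 ^ (n i - o i - F i) * 2 ^ F i * 2 ^ o i = 2 ^ n i := fun i => by
    rw [← pow_add, ← pow_add]; congr 1; have := hle i; omega
  have hF : Poly fun q : (γ × Un × Un × Un × Un × Un) × ℕ =>
      g q.1.1 (fl q.1.2.2.2.2.1.n q.1.2.2.1.n (q.2 * (2 ^ q.1.2.2.2.1.n * 2 ^ q.1.2.2.1.n)))
        (fl q.1.2.2.2.2.2.n q.1.2.2.1.n (q.2 * (2 ^ q.1.2.2.2.1.n * 2 ^ q.1.2.2.1.n))) :=
    hg.comp (g := fun q : (γ × Un × Un × Un × Un × Un) × ℕ => (q.1.1,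
      fl q.1.2.2.2.2.1.n q.1.2.2.1.n (q.2 * (2 ^ q.1.2.2.2.1.n * 2 ^ q.1.2.2.1.n)),
      fl q.1.2.2.2.2.2.n q.1.2.2.1.n (q.2 * (2 ^ q.1.2.2.2.1.n * 2 ^ q.1.2.2.1.n)))) (by fun_prop)
  have := hP.rot (H := fun i => 2 ^ (n i - o i - F i)) (Q := fun i => 2 ^ F i)
    (S := fun i => 2 ^ o i) (q := fun i => 2 ^ F i) (a := a) hF (hPD.of_le fun i => (e i).le)
    (hs.poly hPD (f := fun q : Un × Un × Un × Un × Un =>
      (2 ^ (q.1.n - q.2.2.1.n - q.2.1.n), 2 ^ q.2.1.n, 2 ^ q.2.2.1.n, 2 ^ q.2.1.n)) (by fun_prop))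
    (hpar.pair hs) (fun _ => le_rfl) (ha.congr fun i => by rw [e])
  refine this.congr fun i => ?_
  rw [e]
  exact tab_congr fun j _ => by rw [← rotI_eq (h₁ i) (h₂ i)]

/-- Exchange of two fields. -/
theorem swap (hS : SwapSpec) (hPD : C.PD (fun i => 2 ^ n i) L)
    (hs : SC C L fun i => (Un.mk (n i), Un.mk (F i), Un.mk (o₁ i), Un.mk (o₂ i), ρ i))
    (h₁ : ∀ i, o₁ i + F i ≤ o₂ i) (h₂ : ∀ i, o₂ i + F i ≤ n i)
    (hlen : ∀ i j, j < 2 ^ n i → (a i j).length = ρ i)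
    (hD : C.Dom fun i => (2 : ℝ) ^ n i * ρ i * ((F i : ℝ) + 1) ^ tau)
    (ha : R C fun i => tab (2 ^ n i) (a i)) :
    R C fun i => tab (2 ^ n i) fun j => a i (sw (o₁ i) (o₂ i) (F i) j) := by
  have e : ∀ i, 2 ^ (n i - o₂ i - F i) * 2 ^ F i * 2 ^ (o₂ i - o₁ i - F i) * 2 ^ F i * 2 ^ o₁ i =
      2 ^ n i := fun i => by
    rw [← pow_add, ← pow_add, ← pow_add, ← pow_add]; congr 1
    have := h₁ i; have := h₂ i; omega
  have := hS (S₁ := fun i => 2 ^ o₁ i) (S₂ := fun i => 2 ^ (o₂ i - o₁ i - F i))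
    (S₃ := fun i => 2 ^ (n i - o₂ i - F i)) (u := F) (ρ := ρ) (a := a)
    (hPD.of_le fun i => (e i).le)
    (hs.poly hPD (f := fun q : Un × Un × Un × Un × ℕ => (2 ^ q.2.2.1.n,
      2 ^ (q.2.2.2.1.n - q.2.2.1.n - q.2.1.n), 2 ^ (q.1.n - q.2.2.2.1.n - q.2.1.n), q.2.2.2.2,
      q.2.1)) (by fun_prop))
    (fun i j hj => hlen i j (e i ▸ hj)) (hD.congr fun i => by rw [e]; push_cast; rfl)
    (ha.congr fun i => by rw [e])
  refine this.congr fun i => ?_
  rw [e]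
  exact tab_congr fun j _ => by rw [swI_eq (h₁ i)]

/-- A shear when the field at `o₁` is the lowest one. -/
theorem rotVia (hP : PermSpec) (hS : SwapSpec) (hg : Poly fun q : γ × ℕ × ℕ => g q.1 q.2.1 q.2.2)
    (hPD : C.PD (fun i => 2 ^ n i) L) (hpar : SC C L par)
    (hs : SC C L fun i => (Un.mk (n i), Un.mk (F i), Un.mk (o i), Un.mk (o₁ i), Un.mk (o₂ i), ρ i))
    (hle : ∀ i, o i + F i ≤ n i) (h₀ : ∀ i, o₁ i + F i ≤ o i) (h₂ : ∀ i, o₁ i + F i ≤ o₂ i)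
    (hap : ∀ i, Apart (F i) (o i) (o₂ i))
    (hlen : ∀ i j, j < 2 ^ n i → (a i j).length = ρ i)
    (hD : C.Dom fun i => (2 : ℝ) ^ n i * ρ i * ((F i : ℝ) + 1) ^ tau)
    (ha : R C fun i => tab (2 ^ n i) (a i)) :
    R C fun i => tab (2 ^ n i) fun j => a i (sh (o i) (o₁ i) (o₂ i) (F i) (g (par i)) j) := by
  have hle₁ : ∀ i, o₁ i + F i ≤ n i := fun i => by have := hle i; have := h₀ i; omega
  have s1 : SC C L fun i => (Un.mk (n i), Un.mk (F i), Un.mk (o₁ i), Un.mk (o i), ρ i) :=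
    hs.fst.pair (hs.snd.fst.pair (hs.snd.snd.snd.fst.pair (hs.snd.snd.fst.pair
      hs.snd.snd.snd.snd.snd)))
  have s2 : SC C L fun i =>
      (Un.mk (n i), Un.mk (F i), Un.mk (o₁ i), Un.mk (o i), Un.mk (o₂ i)) :=
    hs.fst.pair (hs.snd.fst.pair (hs.snd.snd.snd.fst.pair (hs.snd.snd.fst.pair
      hs.snd.snd.snd.snd.fst)))
  have a1 := swap hS hPD s1 h₀ hle hlen hD ha
  have a2 := rotLow hP hg hPD hpar s2 hle₁ h₀ h₂ a1
  have a3 := swap hS hPD s1 h₀ hle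
    (fun i j hj => hlen i _ (sw_lt (hle₁ i) (hle i) (sh_lt (hle₁ i) hj))) hD a2
  exact a3.congr fun i => tab_congr fun j _ => by
    rw [sw_sh_sw (Or.inr (h₀ i)) (hap i) (Or.inl (h₂ i))]

/-- A shear of one of three disjoint fields. -/
theorem genRot (hP : PermSpec) (hS : SwapSpec) (hg : Poly fun q : γ × ℕ × ℕ => g q.1 q.2.1 q.2.2)
    (hPD : C.PD (fun i => 2 ^ n i) L) (hpar : SC C L par)
    (hs : SC C L fun i => (Un.mk (n i), Un.mk (F i), Un.mk (o i), Un.mk (o₁ i), Un.mk (o₂ i), ρ i))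
    (hle : ∀ i, o i + F i ≤ n i)
    (hap : ∀ i, Apart (F i) (o i) (o₁ i) ∧ Apart (F i) (o i) (o₂ i) ∧ Apart (F i) (o₁ i) (o₂ i))
    (hlen : ∀ i j, j < 2 ^ n i → (a i j).length = ρ i)
    (hD : C.Dom fun i => (2 : ℝ) ^ n i * ρ i * ((F i : ℝ) + 1) ^ tau)
    (ha : R C fun i => tab (2 ^ n i) (a i)) :
    R C fun i => tab (2 ^ n i) fun j => a i (sh (o i) (o₁ i) (o₂ i) (F i) (g (par i)) j) := by
  have c1 : R C fun i => decide (o i + F i ≤ o₁ i) && decide (o i + F i ≤ o₂ i) :=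
    (hs.poly hPD (f := fun q : Un × Un × Un × Un × Un × ℕ =>
      decide (q.2.2.1.n + q.2.1.n ≤ q.2.2.2.1.n) && decide (q.2.2.1.n + q.2.1.n ≤ q.2.2.2.2.1.n))
      (by fun_prop)).r
  have c2 : R C fun i => decide (o₁ i + F i ≤ o i) && decide (o₁ i + F i ≤ o₂ i) :=
    (hs.poly hPD (f := fun q : Un × Un × Un × Un × Un × ℕ =>
      decide (q.2.2.2.1.n + q.2.1.n ≤ q.2.2.1.n) && decide (q.2.2.2.1.n + q.2.1.n ≤ q.2.2.2.2.1.n))
      (by fun_prop)).r
  have s1 : SC C L fun i =>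
      (Un.mk (n i), Un.mk (F i), Un.mk (o i), Un.mk (o₁ i), Un.mk (o₂ i)) :=
    hs.fst.pair (hs.snd.fst.pair (hs.snd.snd.fst.pair (hs.snd.snd.snd.fst.pair
      hs.snd.snd.snd.snd.fst)))
  have s2 : SC C L fun i =>
      (Un.mk (n i), Un.mk (F i), Un.mk (o i), Un.mk (o₂ i), Un.mk (o₁ i), ρ i) :=
    hs.fst.pair (hs.snd.fst.pair (hs.snd.snd.fst.pair (hs.snd.snd.snd.snd.fst.pair
      (hs.snd.snd.snd.fst.pair hs.snd.snd.snd.snd.snd))))
  refine c1.dcond (rotLow hP hg (hPD.comap _) (hpar.comap _) (s1.comap _) (fun i => hle _)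
    (fun i => by have := i.2; simp at this; exact this.1)
    (fun i => by have := i.2; simp at this; exact this.2) (ha.comap _)) ?_
  refine (c2.comap _).dcond
    (rotVia hP hS hg ((hPD.comap _).comap _) ((hpar.comap _).comap _) ((hs.comap _).comap _)
      (fun i => hle _) (fun i => by have := i.2; simp at this; exact this.1)
      (fun i => by have := i.2; simp at this; exact this.2) (fun i => (hap _).2.1)
      (fun i => hlen _) ((hD.comap _).comap _) ((ha.comap _).comap _)) ?_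
  refine rotVia (g := fun p x y => g p y x) hP hS
      (hg.comp (g := fun q : γ × ℕ × ℕ => (q.1, q.2.2, q.2.1)) (by fun_prop))
      ((hPD.comap _).comap _) ((hpar.comap _).comap _) ((s2.comap _).comap _)
      (fun i => hle _) (fun i => ?_) (fun i => ?_) (fun i => (hap _).1)
      (fun i => hlen _) ((hD.comap _).comap _) ((ha.comap _).comap _)
  all_goals
    have h1 := i.2
    have h2 := i.1.2
    have h3 := hap i.1.1
    simp only [Bool.and_eq_false_iff, decide_eq_false_iff_not, Apart] at h1 h2 h3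
    omega

/-- The shear when there is at least one segment. -/
theorem main (hP : PermSpec) (hS : SwapSpec) {ℓ jb u ox oy ot : ι → ℕ}
    (hPD : C.PD (fun i => 2 ^ n i) L)
    (hs : SC C L fun i => (Un.mk (n i), ℓ i, jb i, u i, ox i, oy i, ot i, ρ i))
    (hu : ∀ i, u i ≠ 0) (hjb : ∀ i, jb i < ℓ i) (hn : ∀ i, (n i + 2) ^ 4 ≤ 2 ^ (ℓ i / 4))
    (hle : ∀ i, ox i + u i * ℓ i ≤ n i ∧ oy i + u i * ℓ i ≤ n i ∧ ot i + u i * ℓ i ≤ n i)
    (hap : ∀ i, Apart (u i * ℓ i) (ox i) (oy i) ∧ Apart (u i * ℓ i) (ox i) (ot i) ∧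
      Apart (u i * ℓ i) (oy i) (ot i))
    (hlen : ∀ i j, j < 2 ^ n i → (a i j).length = ρ i)
    (hD : C.Dom fun i => (2 : ℝ) ^ n i * ρ i * ((u i : ℝ) * ℓ i + 1) ^ tau)
    (ha : R C fun i => tab (2 ^ n i) (a i)) :
    R C fun i => tab (2 ^ n i) fun j => a i (xshI (ox i) (oy i) (ℓ i) (jb i) (u i) j) := by
  have sn : Sm L n := hs.fst.sm.of_un
  have un : ∀ {m : ι → ℕ}, SC C L m → (∀ i, m i ≤ n i) → SC C L fun i => Un.mk (m i) :=
    fun hm h => SC.un hPD hm.r (sn.mono h)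
  have hℓn : ∀ i, ℓ i ≤ n i := fun i =>
    (Nat.le_mul_of_pos_left _ (Nat.pos_of_ne_zero (hu i))).trans (by have := hle i; omega)
  have uℓ := un (m := ℓ) hs.snd.fst hℓn
  have ujb := un (m := jb) hs.snd.snd.fst fun i => (hjb i).le.trans (hℓn i)
  have uu := un (m := u) hs.snd.snd.snd.fst fun i =>
    (Nat.le_mul_of_pos_right _ (Nat.zero_lt_of_lt (hjb i))).trans (by have := hle i; omega)
  have ux := un (m := ox) hs.snd.snd.snd.snd.fst fun i => by have := hle i; omega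
  have uy := un (m := oy) hs.snd.snd.snd.snd.snd.fst fun i => by have := hle i; omega
  have ut := un (m := ot) hs.snd.snd.snd.snd.snd.snd.fst fun i => by have := hle i; omega
  have hρ : SC C L ρ := hs.snd.snd.snd.snd.snd.snd.snd
  have uF : SC C L fun i => Un.mk (u i * ℓ i) :=
    (uu.pair uℓ).poly hPD (f := fun q : Un × Un => Un.mk (q.1.n * q.2.n)) (by fun_prop)
  have hpar := uℓ.pair (ujb.pair uu)
  have sy := hs.fst.pair (uF.pair (uy.pair (ux.pair (ut.pair hρ))))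
  have st := hs.fst.pair (uF.pair (ut.pair (ux.pair (uy.pair hρ))))
  have hy := fun i => (hle i).2.1
  have ht := fun i => (hle i).2.2
  have ay : ∀ i, Apart (u i * ℓ i) (oy i) (ox i) ∧ Apart (u i * ℓ i) (oy i) (ot i) ∧
      Apart (u i * ℓ i) (ox i) (ot i) := fun i => ⟨(hap i).1.symm, (hap i).2.2, (hap i).2.1⟩
  have at' : ∀ i, Apart (u i * ℓ i) (ot i) (ox i) ∧ Apart (u i * ℓ i) (ot i) (oy i) ∧
      Apart (u i * ℓ i) (ox i) (oy i) := fun i => ⟨(hap i).2.1.symm, (hap i).2.2.symm, (hap i).1⟩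
  have hD' : C.Dom fun i => (2 : ℝ) ^ n i * ρ i * (((u i * ℓ i : ℕ) : ℝ) + 1) ^ tau :=
    hD.congr fun i => by push_cast; rfl
  have a4 := genRot (g := fun q : Un × Un × Un => am₄ q.1.n q.2.1.n q.2.2.n) hP hS (by fun_prop)
    hPD hpar st ht at' hlen hD' ha
  have a3 := genRot (g := fun q : Un × Un × Un => am₃ q.1.n q.2.1.n q.2.2.n) hP hS (by fun_prop)
    hPD hpar sy hy ay (fun i j hj => hlen i _ (sh_lt (ht i) hj)) hD' a4
  have a2 := genRot (g := fun (q : Un × Un × Un) _ y => am₂ q.1.n q.2.1.n q.2.2.n y) hP hS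
    (by fun_prop) hPD hpar st ht at'
    (fun i j hj => hlen i _ (sh_lt (ht i) (sh_lt (hy i) hj))) hD' a3
  have a1 := genRot (g := fun q : Un × Un × Un => am₁ q.1.n q.2.1.n q.2.2.n) hP hS (by fun_prop)
    hPD hpar sy hy ay
    (fun i j hj => hlen i _ (sh_lt (ht i) (sh_lt (hy i) (sh_lt (ht i) hj)))) hD' a2
  have inv := fun i j => xshI_xshI (j := j) (hjb i) (hap i).1
  refine hP.repair (ρ := fun i => 4 * ρ i + 1) poly_rep hPD
    ((sn.add (Sm.const 1)).sz_of_lt_two_pow fun i => Nat.pow_lt_pow_right (by norm_num) (by omega))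
    (hpar.pair (ux.pair (uy.pair ut)))
    (fun i j hj => xshI_lt (hjb i) (hy i) (sig_lt (hy i) (ht i) hj))
    (fun i j j' _ _ e => sig_inj (hap i).1 (hap i).2.1 (hap i).2.2 (by
      rw [← inv i (sig _ _ _ _ _ _ j), ← inv i (sig _ _ _ _ _ _ j')]
      exact congrArg _ e))
    (fun i => card_exc (hjb i) (hn i) (hy i) (ht i) (hap i).1 (hap i).2.1 (hap i).2.2)
    (fun i j hj => by
      rw [← hlen i _ (xshI_lt (hjb i) (hy i) hj)]
      exact sz_listBool_le _)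
    (((hD.smul (K := 4) (by norm_num)).add hPD.dom_T).mono fun i => ?_)
    (a1.congr fun i => tab_congr fun j _ => congrArg _ (inv i _))
  have h1 : (1 : ℝ) ≤ ((u i : ℝ) * ℓ i + 1) ^ tau :=
    Real.one_le_rpow (le_add_of_nonneg_left (by positivity)) (by unfold tau; norm_num)
  have h2 : (0 : ℝ) ≤ 2 ^ n i * ρ i := by positivity
  push_cast
  nlinarith

end tape

end Xor

theorem xorSpec_of (hP : PermSpec) (hS : SwapSpec) : XorSpec := by
  intro ι C n ℓ jb u ox oy ot ρ L a hPD hs hjb hn hle hap hlen hD ha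
  have c : R C fun i => decide (u i = 0) :=
    (hs.snd.snd.snd.fst.poly hPD (f := fun m : ℕ => decide (m = 0)) (by fun_prop)).r
  refine c.dcond ((ha.comap _).congr fun i => tab_congr fun j _ => ?_)
    (Xor.main hP hS (hPD.comap _) (hs.comap _) (fun i => by simpa using i.2) (fun _ => hjb _)
      (fun _ => hn _) (fun _ => hle _) (fun _ => hap _) (fun _ => hlen _) (hD.comap _) (ha.comap _))
  have : u i.1 = 0 := by simpa using i.2
  simp [xshI, this]

end Crest.Agent.R326
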