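import Crest.Agent.R326.Spec2

/-!
# Bit fields of an index, shears and exchanges (for `XorSpec`)
-/

namespace Crest.Agent.R326.Xor

/-- The field of `F` bits at offset `o`. -/
def fl (o F j : ℕ) : ℕ := fld (2 ^ o) (2 ^ F) j

/-- Replace that field. -/
def st (o F j y : ℕ) : ℕ := setF (2 ^ o) (2 ^ F) j y

variable {o o₁ o₂ F j y k n : ℕ}

theorem fl_lt : fl o F j < 2 ^ F := fld_lt (by positivity)

theorem testBit_fl : (fl o F j).testBit k = (decide (k < F) && j.testBit (o + k)) := by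
  rw [fl, fld, Nat.testBit_mod_two_pow, Nat.testBit_div_two_pow, Nat.add_comm k o]

theorem testBit_st (hy : y < 2 ^ F) :
    (st o F j y).testBit k = if o ≤ k ∧ k < o + F then y.testBit (k - o) else j.testBit k := by
  rw [st, setF, Nat.mul_comm _ (2 ^ o), Nat.testBit_two_pow_mul_add _ (Nat.mod_lt _ (by positivity)),
    Nat.mul_comm _ (2 ^ F), Nat.testBit_two_pow_mul_add _ hy, ← pow_add, Nat.testBit_div_two_pow,
    Nat.testBit_mod_two_pow]
  by_cases h1 : k < o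
  · simp [h1, show ¬ o ≤ k by omega]
  · by_cases h2 : k - o < F
    · simp [h1, h2, show o ≤ k by omega, show k < o + F by omega]
    · simp [h1, h2, show ¬ k < o + F by omega, show k - o - F + (o + F) = k by omega]

theorem fl_st (hy : y < 2 ^ F) : fl o F (st o F j y) = y := fld_setF (by positivity) hy

theorem st_fl : st o F j (fl o F j) = j := setF_fld

theorem st_st {y' : ℕ} (hy : y < 2 ^ F) : st o F (st o F j y) y' = st o F j y' :=
  setF_setF (by positivity) hy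

theorem fl_st_apart (hy : y < 2 ^ F) (h : Apart F o o₁) : fl o₁ F (st o F j y) = fl o₁ F j := by
  refine Nat.eq_of_testBit_eq fun k => ?_
  rw [testBit_fl, testBit_fl, testBit_st hy]
  by_cases hk : k < F
  · rw [if_neg (by unfold Apart at h; omega)]
  · simp [hk]

theorem st_lt (hy : y < 2 ^ F) (h : o + F ≤ n) (hj : j < 2 ^ n) : st o F j y < 2 ^ n := by
  refine Nat.lt_pow_two_of_testBit _ fun k hk => ?_
  rw [testBit_st hy, if_neg (by omega)]
  exact Nat.testBit_lt_two_pow (hj.trans_le (Nat.pow_le_pow_right (by norm_num) hk))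

theorem fl_fl {a W : ℕ} (h : a + W ≤ F) : fl a W (fl o F j) = fl (o + a) W j := by
  refine Nat.eq_of_testBit_eq fun k => ?_
  rw [testBit_fl, testBit_fl, testBit_fl]
  by_cases hk : k < W
  · simp [hk, show a + k < F by omega, Nat.add_assoc]
  · simp [hk]

theorem testBit_of_fl {a b : ℕ} (h : fl o F a = fl o F b) (h₁ : o ≤ k) (h₂ : k < o + F) :
    a.testBit k = b.testBit k := by
  have := congrArg (fun x => x.testBit (k - o)) h
  simpa [testBit_fl, show k - o < F by omega, show o + (k - o) = k by omega] using this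

theorem Apart.symm (h : Apart F o o₁) : Apart F o₁ o := Or.symm h

/-- Add to the field at `o` an amount depending on the fields at `o₁` and `o₂`. -/
def sh (o o₁ o₂ F : ℕ) (g : ℕ → ℕ → ℕ) (j : ℕ) : ℕ :=
  st o F j ((fl o F j + g (fl o₁ F j) (fl o₂ F j)) % 2 ^ F)

variable {g : ℕ → ℕ → ℕ}

theorem mod_lt' (y F : ℕ) : y % 2 ^ F < 2 ^ F := Nat.mod_lt _ (by positivity)

theorem fl_sh : fl o F (sh o o₁ o₂ F g j) = (fl o F j + g (fl o₁ F j) (fl o₂ F j)) % 2 ^ F :=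
  fl_st (mod_lt' _ _)

theorem fl_sh_apart {o' : ℕ} (h : Apart F o o') : fl o' F (sh o o₁ o₂ F g j) = fl o' F j :=
  fl_st_apart (mod_lt' _ _) h

theorem testBit_sh (h : ¬ (o ≤ k ∧ k < o + F)) : (sh o o₁ o₂ F g j).testBit k = j.testBit k := by
  rw [sh, testBit_st (mod_lt' _ _), if_neg h]

theorem sh_lt (h : o + F ≤ n) (hj : j < 2 ^ n) : sh o o₁ o₂ F g j < 2 ^ n :=
  st_lt (mod_lt' _ _) h hj

theorem sh_inj (h₁ : Apart F o o₁) (h₂ : Apart F o o₂) : Function.Injective (sh o o₁ o₂ F g) := by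
  intro j j' e
  have e1 : fl o₁ F j = fl o₁ F j' := by rw [← fl_sh_apart (g := g) h₁, e, fl_sh_apart h₁]
  have e2 : fl o₂ F j = fl o₂ F j' := by rw [← fl_sh_apart (g := g) h₂, e, fl_sh_apart h₂]
  have e0 : fl o F j = fl o F j' := by
    have := congrArg (fl o F) e
    rw [fl_sh, fl_sh, e1, e2] at this
    exact Nat.ModEq.eq_of_lt_of_lt (Nat.ModEq.add_right_cancel' _ this) fl_lt fl_lt
  calc j = st o F (sh o o₁ o₂ F g j) (fl o F j) := by rw [sh, st_st (mod_lt' _ _), st_fl]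
    _ = j' := by rw [e, e0, sh, st_st (mod_lt' _ _), st_fl]

theorem sh_flip : sh o o₁ o₂ F g j = sh o o₂ o₁ F (fun a b => g b a) j := rfl

/-- Exchange the fields at `o₁` and `o₂`. -/
def sw (o₁ o₂ F j : ℕ) : ℕ := st o₂ F (st o₁ F j (fl o₂ F j)) (fl o₁ F j)

theorem swI_eq (h : o₁ + F ≤ o₂) : swI (2 ^ o₁) (2 ^ (o₂ - o₁ - F)) (2 ^ F) j = sw o₁ o₂ F j := by
  have : 2 ^ o₁ * 2 ^ F * 2 ^ (o₂ - o₁ - F) = 2 ^ o₂ := by
    rw [← pow_add, ← pow_add]; congr 1; omega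
  rw [swI, this]; rfl

theorem sw_lt (h₁ : o₁ + F ≤ n) (h₂ : o₂ + F ≤ n) (hj : j < 2 ^ n) : sw o₁ o₂ F j < 2 ^ n :=
  st_lt fl_lt h₂ (st_lt fl_lt h₁ hj)

theorem fl_sw₁ (h : Apart F o₁ o₂) : fl o₁ F (sw o₁ o₂ F j) = fl o₂ F j := by
  rw [sw, fl_st_apart fl_lt h.symm, fl_st fl_lt]

theorem fl_sw₂ : fl o₂ F (sw o₁ o₂ F j) = fl o₁ F j := fl_st fl_lt

theorem fl_sw_apart (h₁ : Apart F o₁ o) (h₂ : Apart F o₂ o) :
    fl o F (sw o₁ o₂ F j) = fl o F j := by
  rw [sw, fl_st_apart fl_lt h₂, fl_st_apart fl_lt h₁]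

theorem testBit_sw (h₁ : ¬ (o₁ ≤ k ∧ k < o₁ + F)) (h₂ : ¬ (o₂ ≤ k ∧ k < o₂ + F)) :
    (sw o₁ o₂ F j).testBit k = j.testBit k := by
  rw [sw, testBit_st fl_lt, if_neg h₂, testBit_st fl_lt, if_neg h₁]

/-- An index is determined by two fields and the other bits. -/
theorem ext₂ {a b : ℕ} (h₁ : fl o₁ F a = fl o₁ F b) (h₂ : fl o₂ F a = fl o₂ F b)
    (h : ∀ k, ¬ (o₁ ≤ k ∧ k < o₁ + F) → ¬ (o₂ ≤ k ∧ k < o₂ + F) → a.testBit k = b.testBit k) :
    a = b := by
  refine Nat.eq_of_testBit_eq fun k => ?_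
  by_cases c₁ : o₁ ≤ k ∧ k < o₁ + F
  · exact testBit_of_fl h₁ c₁.1 c₁.2
  by_cases c₂ : o₂ ≤ k ∧ k < o₂ + F
  · exact testBit_of_fl h₂ c₂.1 c₂.2
  exact h k c₁ c₂

/-- Conjugating a shear by an exchange. -/
theorem sw_sh_sw (h₁ : Apart F o o₁) (h₂ : Apart F o o₂) (h₃ : Apart F o₁ o₂) :
    sw o₁ o F (sh o₁ o o₂ F g (sw o₁ o F j)) = sh o o₁ o₂ F g j := by
  refine ext₂ (o₁ := o) (o₂ := o₁) (F := F) ?_ ?_ fun k c c₁ => ?_
  · rw [fl_sw₂, fl_sh, fl_sh, fl_sw₁ h₁.symm, fl_sw₂, fl_sw_apart h₃ h₂]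
  · rw [fl_sw₁ h₁.symm, fl_sh_apart h₁.symm, fl_sw₂, fl_sh_apart h₁]
  · rw [testBit_sw c₁ c, testBit_sh c₁, testBit_sw c₁ c, testBit_sh c]

/-- A higher field only depends on the part of the index above `o + F`. -/
theorem fl_high (h : o + F ≤ o₁) :
    fl o₁ F (j / (2 ^ o * 2 ^ F) * (2 ^ o * 2 ^ F)) = fl o₁ F j := by
  refine Nat.eq_of_testBit_eq fun k => ?_
  rw [testBit_fl, testBit_fl, ← pow_add, Nat.testBit_mul_two_pow, Nat.testBit_div_two_pow]
  simp [show o + F ≤ o₁ + k by omega, show o₁ + k - (o + F) + (o + F) = o₁ + k by omega]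

theorem rotI_eq (h₁ : o + F ≤ o₁) (h₂ : o + F ≤ o₂) :
    rotI (2 ^ o) (2 ^ F) (2 ^ F) (g (fl o₁ F (j / (2 ^ o * 2 ^ F) * (2 ^ o * 2 ^ F)))
      (fl o₂ F (j / (2 ^ o * 2 ^ F) * (2 ^ o * 2 ^ F)))) j = sh o o₁ o₂ F g j := by
  rw [fl_high h₁, fl_high h₂, rotI, if_pos (fld_lt (by positivity))]; rfl

/-- A window of `W` bits has a prescribed value for a fraction `2 ^ -W` of the indices. -/
theorem card_window {b W c : ℕ} (h : b + W ≤ n) :
    ((Finset.range (2 ^ n)).filter fun j => fl b W j = c).card * 2 ^ W ≤ 2 ^ n := by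
  have := Finset.card_le_card_of_injOn (s := ((Finset.range (2 ^ n)).filter fun j => fl b W j = c) ×ˢ
      Finset.range (2 ^ W)) (t := Finset.range (2 ^ n)) (fun q => st b W q.1 q.2) (by
    intro q hq
    simp only [Finset.coe_product, Set.mem_prod, Finset.coe_filter, Finset.mem_range,
      Finset.coe_range, Set.mem_Iio, Set.mem_ofPred_eq] at hq ⊢
    exact st_lt hq.2 h hq.1.1) (by
    intro q hq q' hq' e
    simp only [Finset.coe_product, Set.mem_prod, Finset.coe_filter, Finset.mem_range,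
      Finset.coe_range, Set.mem_Iio, Set.mem_ofPred_eq] at hq hq' e
    have e2 : q.2 = q'.2 := by rw [← fl_st (o := b) (j := q.1) hq.2, e, fl_st hq'.2]
    refine Prod.ext ?_ e2
    calc q.1 = st b W (st b W q.1 q.2) c := by rw [st_st hq.2, ← hq.1.2, st_fl]
      _ = q'.1 := by rw [e, st_st hq'.2, ← hq'.1.2, st_fl])
  simpa using this

end Crest.Agent.R326.Xor
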