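import Crest.Agent.R326.XorIdx

/-!
# The shear `xshI` as a product of four additive shears, up to few exceptions
-/

namespace Crest.Agent.R326.Xor

open Finset

/-- Bit `k` of `m` as a number. -/
def bt (m k : ℕ) : ℕ := (m.testBit k).toNat

theorem bt_le (m k : ℕ) : bt m k ≤ 1 := Bool.toNat_le _

/-- The number with digits `d s`, `s < u`, in base `2 ^ ℓ`. -/
def dsum (ℓ u : ℕ) (d : ℕ → ℕ) : ℕ := ∑ s ∈ range u, d s * 2 ^ (s * ℓ)

section digits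
variable {ℓ u : ℕ} {d : ℕ → ℕ}

theorem dsum_succ : dsum ℓ (u + 1) d = 2 ^ (u * ℓ) * d u + dsum ℓ u d := by
  rw [dsum, sum_range_succ, dsum]; ring

theorem dsum_lt (h : ∀ s, s < u → d s < 2 ^ ℓ) : dsum ℓ u d < 2 ^ (u * ℓ) := by
  induction u with
  | zero => simp [dsum]
  | succ u ih =>
    have h1 := ih fun s hs => h s (by omega)
    have h2 := Nat.mul_le_mul_left (2 ^ (u * ℓ)) (Nat.succ_le_of_lt (h u (by omega)))
    rw [dsum_succ, Nat.succ_mul, pow_add]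
    rw [Nat.mul_succ] at h2
    omega

theorem testBit_dsum (h : ∀ s, s < u → d s < 2 ^ ℓ) {s r : ℕ} (hs : s < u) (hr : r < ℓ) :
    (dsum ℓ u d).testBit (s * ℓ + r) = (d s).testBit r := by
  induction u with
  | zero => omega
  | succ u ih =>
    have h' : ∀ s, s < u → d s < 2 ^ ℓ := fun s hs => h s (by omega)
    rw [dsum_succ, Nat.testBit_two_pow_mul_add _ (dsum_lt h')]
    rcases Nat.lt_succ_iff_lt_or_eq.1 hs with hs' | rfl
    · have : (s + 1) * ℓ ≤ u * ℓ := Nat.mul_le_mul_right _ hs'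
      rw [if_pos (by rw [Nat.succ_mul] at this; omega), ih h' hs']
    · rw [if_neg (by omega), Nat.add_sub_cancel_left]

theorem fl_dsum (h : ∀ s, s < u → d s < 2 ^ ℓ) {s W : ℕ} (hs : s < u) (hW : W ≤ ℓ) :
    fl (s * ℓ) W (dsum ℓ u d) = d s % 2 ^ W := by
  refine Nat.eq_of_testBit_eq fun k => ?_
  rw [testBit_fl, Nat.testBit_mod_two_pow]
  by_cases hk : k < W
  · rw [testBit_dsum h hs (by omega)]
  · simp [hk]

theorem dsum_fl (ℓ u t : ℕ) : dsum ℓ u (fun s => fl (s * ℓ) ℓ t) = t % 2 ^ (u * ℓ) := by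
  induction u with
  | zero => simp [dsum, Nat.mod_one]
  | succ u ih => rw [dsum_succ, ih, Nat.succ_mul, pow_add, Nat.mod_mul, fl, fld, Nat.add_comm]

theorem dsum_add {e : ℕ → ℕ} : dsum ℓ u d + dsum ℓ u e = dsum ℓ u fun s => d s + e s := by
  simp [dsum, sum_add_distrib, add_mul]

theorem dsum_congr {e : ℕ → ℕ} (h : ∀ s, s < u → d s = e s) : dsum ℓ u d = dsum ℓ u e :=
  sum_congr rfl fun s hs => by rw [h s (mem_range.1 hs)]

theorem exists_pos {k : ℕ} (hk : k < u * ℓ) : ∃ s r, s < u ∧ r < ℓ ∧ k = s * ℓ + r := by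
  have hℓ : 0 < ℓ := Nat.pos_of_ne_zero fun h => by simp [h] at hk
  exact ⟨k / ℓ, k % ℓ, Nat.div_lt_of_lt_mul (by rwa [Nat.mul_comm]), Nat.mod_lt _ hℓ,
    by rw [Nat.mul_comm, Nat.div_add_mod]⟩

end digits

variable (ℓ jb u : ℕ)

/-- The bits of `x` at the positions `s * ℓ + jb`. -/
def msk (x : ℕ) : ℕ := dsum ℓ u fun s => bt x (s * ℓ + jb) * 2 ^ jb

/-- The amount of the first shear. -/
def am₁ (x t : ℕ) : ℕ := dsum ℓ u fun s => bt x (s * ℓ + jb) * (2 * fl (s * ℓ) (ℓ / 4) t) * 2 ^ jb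

/-- The amount of the second shear. -/
def am₂ (y : ℕ) : ℕ := dsum ℓ u fun s => bt y (s * ℓ + jb)

/-- The amount of the third shear. -/
def am₃ (x t : ℕ) : ℕ := msk ℓ jb u x + (2 ^ (u * ℓ) - 1) * am₁ ℓ jb u x t

/-- The amount of the fourth shear. -/
def am₄ (x y : ℕ) : ℕ := (2 ^ (u * ℓ) - 1) * am₂ ℓ jb u (y ^^^ x)

variable {ℓ jb u} {x y t : ℕ}

theorem msk_dig (hjb : jb < ℓ) (x s : ℕ) : bt x s * 2 ^ jb < 2 ^ ℓ :=
  lt_of_le_of_lt (by simpa using Nat.mul_le_mul_right (2 ^ jb) (bt_le x s))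
    (Nat.pow_lt_pow_right (by norm_num) hjb)

theorem msk_lt (hjb : jb < ℓ) : msk ℓ jb u x < 2 ^ (u * ℓ) := dsum_lt fun _ _ => msk_dig hjb _ _

theorem testBit_msk (hjb : jb < ℓ) {s r : ℕ} (hs : s < u) (hr : r < ℓ) :
    (msk ℓ jb u x).testBit (s * ℓ + r) = (decide (r = jb) && x.testBit (s * ℓ + jb)) := by
  rw [msk, testBit_dsum (fun _ _ => msk_dig hjb _ _) hs hr, bt]
  cases x.testBit (s * ℓ + jb) <;> simp [Nat.testBit_two_pow, eq_comm]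

theorem and_msk (hjb : jb < ℓ) : y &&& msk ℓ jb u x = msk ℓ jb u (y &&& x) := by
  refine Nat.eq_of_testBit_eq fun k => ?_
  by_cases hk : k < u * ℓ
  · obtain ⟨s, r, hs, hr, rfl⟩ := exists_pos hk
    rw [Nat.testBit_and, testBit_msk hjb hs hr, testBit_msk hjb hs hr, Nat.testBit_and]
    by_cases h : r = jb <;> simp [h]
  · have h2 : 2 ^ (u * ℓ) ≤ 2 ^ k := Nat.pow_le_pow_right (by norm_num) (by omega)
    rw [Nat.testBit_and, Nat.testBit_lt_two_pow ((msk_lt hjb).trans_le h2),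
      Nat.testBit_lt_two_pow ((msk_lt hjb).trans_le h2), Bool.and_false]

theorem xor_add_and (a b : ℕ) : (a ^^^ b) + 2 * (a &&& b) = a + b := by
  induction a using Nat.binaryRec generalizing b with
  | zero => simp
  | bit p a ih =>
    induction b using Nat.binaryRec with
    | zero => simp
    | bit q b _ =>
      have := ih b
      rw [Nat.xor_bit, Nat.land_bit]
      cases p <;> cases q <;> simp [Nat.bit_val] <;> omega

theorem testBit_add_of_lt {p low : ℕ} (h : y % 2 ^ p + low < 2 ^ p) :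
    (y + low).testBit p = y.testBit p := by
  have e : y + low = 2 ^ p * (y / 2 ^ p) + (y % 2 ^ p + low) := by
    rw [← Nat.add_assoc, Nat.div_add_mod]
  rw [e, Nat.testBit_two_pow_mul_add _ h, if_neg (lt_irrefl _), Nat.testBit_div_two_pow]
  simp

theorem mod_add_lt {p W : ℕ} (hW : W ≤ p) (h : fl (p - W) W y ≠ 2 ^ W - 1) :
    y % 2 ^ p + 2 ^ (p - W) < 2 ^ p := by
  obtain ⟨a, rfl⟩ := Nat.exists_eq_add_of_le' hW
  rw [Nat.add_sub_cancel] at h ⊢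
  have h1 : fl a W y < 2 ^ W := fl_lt
  have h2 := Nat.mul_le_mul_left (2 ^ a) (show fl a W y + 2 ≤ 2 ^ W by omega)
  have h3 := mod_lt' y a
  rw [pow_add, Nat.mod_mul]
  change _ + 2 ^ a * fl a W y + _ < _
  rw [Nat.mul_add] at h2
  omega

theorem am₁_le (hℓ : 4 ≤ ℓ) (s : ℕ) : am₁ ℓ jb s x t * 2 ^ (ℓ / 4) ≤ 2 ^ (s * ℓ + jb) := by
  induction s with
  | zero => simp [am₁, dsum]
  | succ s ih =>
    have h0 : am₁ ℓ jb s x t ≤ 2 ^ (s * ℓ + jb) :=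
      le_trans (Nat.le_mul_of_pos_right _ (by positivity)) ih
    have h1 : fl (s * ℓ) (ℓ / 4) t + 1 ≤ 2 ^ (ℓ / 4) := fl_lt
    have h2 : am₁ ℓ jb (s + 1) x t ≤ 2 ^ (s * ℓ + jb) * (2 * 2 ^ (ℓ / 4)) := by
      have h3 := Nat.mul_le_mul_right (2 * fl (s * ℓ) (ℓ / 4) t) (bt_le x (s * ℓ + jb))
      rw [am₁, dsum_succ, ← am₁]
      calc _ = 2 ^ (s * ℓ + jb) * (bt x (s * ℓ + jb) * (2 * fl (s * ℓ) (ℓ / 4) t)) +
            am₁ ℓ jb s x t := by rw [pow_add]; ring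
        _ ≤ 2 ^ (s * ℓ + jb) * (2 * fl (s * ℓ) (ℓ / 4) t) + 2 ^ (s * ℓ + jb) * 1 := by
          exact Nat.add_le_add (Nat.mul_le_mul_left _ (by omega)) (by omega)
        _ ≤ _ := by rw [← Nat.mul_add]; gcongr; omega
    refine (Nat.mul_le_mul_right _ h2).trans ?_
    rw [← pow_succ', ← pow_add, ← pow_add]
    exact Nat.pow_le_pow_right (by norm_num) (by rw [Nat.succ_mul]; omega)

theorem am₁_split {s : ℕ} (hs : s ≤ u) :
    ∃ h, am₁ ℓ jb u x t = 2 ^ (s * ℓ + jb + 1) * h + am₁ ℓ jb s x t := by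
  induction u, hs using Nat.le_induction with
  | base => exact ⟨0, by simp⟩
  | succ u hs ih =>
    obtain ⟨h, e⟩ := ih
    obtain ⟨c, rfl⟩ := Nat.exists_eq_add_of_le hs
    refine ⟨h + 2 ^ (c * ℓ) * bt x ((s + c) * ℓ + jb) * fl ((s + c) * ℓ) (ℓ / 4) t, ?_⟩
    rw [am₁, dsum_succ, ← am₁, e]
    generalize bt x _ = b, fl _ _ t = f
    rw [Nat.add_mul, pow_add, pow_add, pow_add]
    ring

/-- No carry reaches the selected bits in the first shear. -/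
theorem testBit_step₁ (hjb : jb < ℓ) (hℓ : 4 ≤ ℓ) {s : ℕ} (hs : s < u)
    (h : fl (s * ℓ + jb - ℓ / 4) (ℓ / 4) y ≠ 2 ^ (ℓ / 4) - 1) :
    ((y + am₁ ℓ jb u x t) % 2 ^ (u * ℓ)).testBit (s * ℓ + jb) = y.testBit (s * ℓ + jb) := by
  have h1 : (s + 1) * ℓ ≤ u * ℓ := Nat.mul_le_mul_right _ hs
  rw [Nat.succ_mul] at h1
  obtain ⟨c, e⟩ := am₁_split (ℓ := ℓ) (jb := jb) (x := x) (t := t) hs.le
  rw [Nat.testBit_mod_two_pow, decide_eq_true (by omega), Bool.true_and, e, Nat.add_left_comm,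
    pow_succ, Nat.mul_assoc, Nat.testBit_mul_two_pow_add_eq]
  have h2 := am₁_le (jb := jb) (x := x) (t := t) hℓ s
  rw [testBit_add_of_lt]
  · simp
  rcases le_or_gt (ℓ / 4) (s * ℓ + jb) with hW | hW
  · have h3 := mod_add_lt hW h
    have h4 : am₁ ℓ jb s x t ≤ 2 ^ (s * ℓ + jb - ℓ / 4) := by
      refine Nat.le_of_mul_le_mul_right (h2.trans_eq ?_) (Nat.two_pow_pos (ℓ / 4))
      rw [← pow_add, Nat.sub_add_cancel hW]
    omega
  · have h3 : 2 ^ (s * ℓ + jb) < 2 ^ (ℓ / 4) := Nat.pow_lt_pow_right (by norm_num) hW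
    have h4 : am₁ ℓ jb s x t = 0 := by
      by_contra h0
      have := Nat.le_mul_of_pos_left (2 ^ (ℓ / 4)) (Nat.pos_of_ne_zero h0)
      omega
    rw [h4]
    exact mod_lt' _ _

theorem am₂_congr {y' : ℕ} (h : ∀ s, s < u → y'.testBit (s * ℓ + jb) = y.testBit (s * ℓ + jb)) :
    am₂ ℓ jb u y' = am₂ ℓ jb u y := dsum_congr fun s hs => by rw [bt, h s hs, bt]

/-- No overflow occurs in the second shear. -/
theorem step₂ (ht : t < 2 ^ (u * ℓ))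
    (h : ∀ s, s < u → fl (s * ℓ) (ℓ / 4) t ≠ 2 ^ (ℓ / 4) - 1) :
    t + am₂ ℓ jb u y < 2 ^ (u * ℓ) ∧ ∀ s, s < u →
      fl (s * ℓ) (ℓ / 4) (t + am₂ ℓ jb u y) = fl (s * ℓ) (ℓ / 4) t + bt y (s * ℓ + jb) := by
  have hW : ℓ / 4 ≤ ℓ := Nat.div_le_self _ _
  have e : t + am₂ ℓ jb u y = dsum ℓ u fun s => fl (s * ℓ) ℓ t + bt y (s * ℓ + jb) := by
    rw [← dsum_add, dsum_fl, Nat.mod_eq_of_lt ht, am₂]
  have e1 : ∀ s, fl (s * ℓ) ℓ t % 2 ^ (ℓ / 4) = fl (s * ℓ) (ℓ / 4) t := fun s =>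
    Nat.mod_mod_of_dvd _ (pow_dvd_pow 2 hW)
  have e2 : ∀ s, s < u → fl (s * ℓ) (ℓ / 4) t + bt y (s * ℓ + jb) < 2 ^ (ℓ / 4) := fun s hs => by
    have := h s hs
    have h1 : fl (s * ℓ) (ℓ / 4) t < 2 ^ (ℓ / 4) := fl_lt
    have := bt_le y (s * ℓ + jb)
    omega
  have hd : ∀ s, s < u → fl (s * ℓ) ℓ t + bt y (s * ℓ + jb) < 2 ^ ℓ := fun s hs => by
    have h1 : fl (s * ℓ) ℓ t < 2 ^ ℓ := fl_lt
    have h2 := e2 s hs
    rw [← e1] at h2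
    have h3 := Nat.div_add_mod (fl (s * ℓ) ℓ t) (2 ^ (ℓ / 4))
    have h4 : 2 ^ ℓ = 2 ^ (ℓ / 4) * 2 ^ (ℓ - ℓ / 4) := by rw [← pow_add]; congr 1; omega
    have h5 : fl (s * ℓ) ℓ t / 2 ^ (ℓ / 4) < 2 ^ (ℓ - ℓ / 4) :=
      Nat.div_lt_of_lt_mul (h4 ▸ h1)
    have h6 := Nat.mul_le_mul_left (2 ^ (ℓ / 4)) (Nat.succ_le_of_lt h5)
    rw [Nat.mul_succ] at h6
    omega
  rw [e]
  refine ⟨dsum_lt hd, fun s hs => ?_⟩
  rw [fl_dsum hd hs hW, ← Nat.mod_add_mod, e1, Nat.mod_eq_of_lt (e2 s hs)]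

theorem am₁_step {t' : ℕ}
    (h : ∀ s, s < u → fl (s * ℓ) (ℓ / 4) t' = fl (s * ℓ) (ℓ / 4) t + bt y (s * ℓ + jb)) :
    am₁ ℓ jb u x t' = am₁ ℓ jb u x t + 2 * msk ℓ jb u (y &&& x) := by
  rw [two_mul, am₁, am₁, msk, dsum_add, dsum_add]
  refine dsum_congr fun s hs => ?_
  rw [h s hs]
  simp only [bt, Nat.testBit_and]
  cases x.testBit (s * ℓ + jb) <;> cases y.testBit (s * ℓ + jb) <;> simp
  ring

theorem add_pred_mul_mod {Q a b : ℕ} (hQ : 0 < Q) : (a + b + (Q - 1) * b) % Q = a % Q := by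
  obtain ⟨q, rfl⟩ : ∃ q, Q = q + 1 := ⟨Q - 1, by omega⟩
  rw [Nat.add_sub_cancel, show a + b + q * b = a + (q + 1) * b by ring, Nat.add_mul_mod_self_left]

/-- The four shears on the field values. -/
theorem four (hjb : jb < ℓ) (hℓ : 4 ≤ ℓ) (hy : y < 2 ^ (u * ℓ)) (ht : t < 2 ^ (u * ℓ))
    (h₁ : ∀ s, s < u → fl (s * ℓ + jb - ℓ / 4) (ℓ / 4) y ≠ 2 ^ (ℓ / 4) - 1)
    (h₂ : ∀ s, s < u → fl (s * ℓ) (ℓ / 4) t ≠ 2 ^ (ℓ / 4) - 1) {y₁ t₁ y₂ : ℕ}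
    (e₁ : y₁ = (y + am₁ ℓ jb u x t) % 2 ^ (u * ℓ))
    (e₂ : t₁ = (t + am₂ ℓ jb u y₁) % 2 ^ (u * ℓ))
    (e₃ : y₂ = (y₁ + am₃ ℓ jb u x t₁) % 2 ^ (u * ℓ)) :
    y₂ = y ^^^ msk ℓ jb u x ∧ (t₁ + am₄ ℓ jb u x y₂) % 2 ^ (u * ℓ) = t := by
  have a1 : am₂ ℓ jb u y₁ = am₂ ℓ jb u y :=
    am₂_congr fun s hs => by rw [e₁, testBit_step₁ hjb hℓ hs (h₁ s hs)]
  obtain ⟨b1, b2⟩ := step₂ (jb := jb) (y := y) ht h₂
  rw [a1, Nat.mod_eq_of_lt b1] at e₂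
  rw [← e₂] at b2
  have c1 : y₂ = y ^^^ msk ℓ jb u x := by
    have c2 := xor_add_and y (msk ℓ jb u x)
    rw [and_msk hjb] at c2
    rw [e₃, e₁, Nat.mod_add_mod, am₃, am₁_step b2,
      show y + am₁ ℓ jb u x t + (msk ℓ jb u x + (2 ^ (u * ℓ) - 1) *
        (am₁ ℓ jb u x t + 2 * msk ℓ jb u (y &&& x))) = (y ^^^ msk ℓ jb u x) +
        (am₁ ℓ jb u x t + 2 * msk ℓ jb u (y &&& x)) + (2 ^ (u * ℓ) - 1) *
        (am₁ ℓ jb u x t + 2 * msk ℓ jb u (y &&& x)) by omega,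
      add_pred_mul_mod (by positivity), Nat.mod_eq_of_lt (Nat.xor_lt_two_pow hy (msk_lt hjb))]
  refine ⟨c1, ?_⟩
  have d1 : am₂ ℓ jb u (y₂ ^^^ x) = am₂ ℓ jb u y := am₂_congr fun s hs => by
    rw [c1, Nat.testBit_xor, Nat.testBit_xor, testBit_msk hjb hs hjb]
    simp
  rw [am₄, d1, e₂, add_pred_mul_mod (by positivity), Nat.mod_eq_of_lt ht]

/-! ### The maps on indices -/

variable {ox oy ot j n : ℕ}

theorem xshI_eq (hjb : jb < ℓ) : xshI ox oy ℓ jb u j =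
    st oy (u * ℓ) j (fl oy (u * ℓ) j ^^^ msk ℓ jb u (fl ox (u * ℓ) j)) := by
  have e : ∑ s ∈ range u, (j.testBit (ox + s * ℓ + jb)).toNat * 2 ^ (oy + s * ℓ + jb) =
      2 ^ oy * msk ℓ jb u (fl ox (u * ℓ) j) := by
    rw [msk, dsum, mul_sum]
    refine sum_congr rfl fun s hs => ?_
    have h1 : (s + 1) * ℓ ≤ u * ℓ := Nat.mul_le_mul_right _ (mem_range.1 hs)
    rw [Nat.succ_mul] at h1
    rw [bt, testBit_fl, decide_eq_true (by omega), Bool.true_and, Nat.add_assoc ox, pow_add,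
      pow_add]
    ring
  refine Nat.eq_of_testBit_eq fun k => ?_
  rw [xshI, e, testBit_st (Nat.xor_lt_two_pow fl_lt (msk_lt hjb)), Nat.testBit_xor,
    Nat.testBit_two_pow_mul, Nat.testBit_xor, testBit_fl]
  split_ifs with h
  · simp [h.1, show k - oy < u * ℓ by omega]
  · by_cases h1 : oy ≤ k
    · have h2 : 2 ^ (u * ℓ) ≤ 2 ^ (k - oy) := Nat.pow_le_pow_right (by norm_num) (by omega)
      simp [Nat.testBit_lt_two_pow ((msk_lt hjb).trans_le h2)]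
    · simp [h1]

theorem xshI_xshI (hjb : jb < ℓ) (h : Apart (u * ℓ) ox oy) :
    xshI ox oy ℓ jb u (xshI ox oy ℓ jb u j) = j := by
  have hlt : fl oy (u * ℓ) j ^^^ msk ℓ jb u (fl ox (u * ℓ) j) < 2 ^ (u * ℓ) :=
    Nat.xor_lt_two_pow fl_lt (msk_lt hjb)
  rw [xshI_eq hjb, xshI_eq hjb, st_st hlt, fl_st hlt, fl_st_apart hlt h.symm, Nat.xor_assoc,
    Nat.xor_self, Nat.xor_zero, st_fl]

theorem xshI_lt (hjb : jb < ℓ) (h : oy + u * ℓ ≤ n) (hj : j < 2 ^ n) :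
    xshI ox oy ℓ jb u j < 2 ^ n := by
  rw [xshI_eq hjb]
  exact st_lt (Nat.xor_lt_two_pow fl_lt (msk_lt hjb)) h hj

/-- The product of the four shears. -/
def sig (ox oy ot ℓ jb u j : ℕ) : ℕ :=
  sh ot ox oy (u * ℓ) (am₄ ℓ jb u) (sh oy ox ot (u * ℓ) (am₃ ℓ jb u)
    (sh ot ox oy (u * ℓ) (fun _ y => am₂ ℓ jb u y) (sh oy ox ot (u * ℓ) (am₁ ℓ jb u) j)))

theorem sig_lt (hy : oy + u * ℓ ≤ n) (ht : ot + u * ℓ ≤ n) (hj : j < 2 ^ n) :
    sig ox oy ot ℓ jb u j < 2 ^ n := sh_lt ht (sh_lt hy (sh_lt ht (sh_lt hy hj)))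

theorem sig_inj (hxy : Apart (u * ℓ) ox oy) (hxt : Apart (u * ℓ) ox ot)
    (hyt : Apart (u * ℓ) oy ot) : Function.Injective (sig ox oy ot ℓ jb u) := fun _ _ e =>
  sh_inj hxy.symm hyt (sh_inj hxt.symm hyt.symm (sh_inj hxy.symm hyt (sh_inj hxt.symm hyt.symm e)))

theorem sig_eq (hjb : jb < ℓ) (hℓ : 4 ≤ ℓ) (hxy : Apart (u * ℓ) ox oy) (hxt : Apart (u * ℓ) ox ot)
    (hyt : Apart (u * ℓ) oy ot)
    (h₁ : ∀ s, s < u → fl (oy + (s * ℓ + jb - ℓ / 4)) (ℓ / 4) j ≠ 2 ^ (ℓ / 4) - 1)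
    (h₂ : ∀ s, s < u → fl (ot + s * ℓ) (ℓ / 4) j ≠ 2 ^ (ℓ / 4) - 1) :
    sig ox oy ot ℓ jb u j = xshI ox oy ℓ jb u j := by
  have hs : ∀ s, s < u → s * ℓ + ℓ ≤ u * ℓ := fun s hs => by
    simpa [Nat.succ_mul] using Nat.mul_le_mul_right ℓ (Nat.succ_le_of_lt hs)
  obtain ⟨c1, c2⟩ := four (x := fl ox (u * ℓ) j) hjb hℓ (fl_lt (o := oy) (j := j))
    (fl_lt (o := ot) (j := j))
    (fun s h => by rw [fl_fl (by have := hs s h; omega)]; exact h₁ s h)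
    (fun s h => by rw [fl_fl (by have := hs s h; omega)]; exact h₂ s h) rfl rfl rfl
  have hlt : fl oy (u * ℓ) j ^^^ msk ℓ jb u (fl ox (u * ℓ) j) < 2 ^ (u * ℓ) :=
    Nat.xor_lt_two_pow fl_lt (msk_lt hjb)
  rw [xshI_eq hjb, sig]
  refine ext₂ (o₁ := oy) (o₂ := ot) (F := u * ℓ) ?_ ?_ fun k k1 k2 => ?_
  · rw [fl_st hlt, ← c1]
    simp only [fl_sh, fl_sh_apart hyt, fl_sh_apart hyt.symm, fl_sh_apart hxy.symm,
      fl_sh_apart hxt.symm]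
  · rw [fl_st_apart hlt hyt]
    conv_rhs => rw [← c2]
    simp only [fl_sh, fl_sh_apart hyt, fl_sh_apart hyt.symm, fl_sh_apart hxy.symm,
      fl_sh_apart hxt.symm]
  · rw [testBit_sh k2, testBit_sh k1, testBit_sh k2, testBit_sh k1, testBit_st hlt, if_neg k1]

/-- There are few exceptions. -/
theorem card_exc (hjb : jb < ℓ) (hn : (n + 2) ^ 4 ≤ 2 ^ (ℓ / 4)) (hy : oy + u * ℓ ≤ n)
    (ht : ot + u * ℓ ≤ n) (hxy : Apart (u * ℓ) ox oy) (hxt : Apart (u * ℓ) ox ot)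
    (hyt : Apart (u * ℓ) oy ot) :
    ((range (2 ^ n)).filter fun j => xshI ox oy ℓ jb u (sig ox oy ot ℓ jb u j) ≠ j).card *
      (2 ^ n).size ≤ 2 ^ n := by
  have hℓ : 4 ≤ ℓ := by
    by_contra h
    rw [Nat.div_eq_of_lt (by omega)] at hn
    have := Nat.pow_le_pow_left (show 2 ≤ n + 2 by omega) 4
    omega
  have hs : ∀ s, s < u → s * ℓ + ℓ ≤ u * ℓ := fun s hs => by
    simpa [Nat.succ_mul] using Nat.mul_le_mul_right ℓ (Nat.succ_le_of_lt hs)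
  have hu : u ≤ n := le_trans (Nat.le_mul_of_pos_right u (by omega)) (show u * ℓ ≤ n by omega)
  set B₁ : ℕ → Finset ℕ := fun s => (range (2 ^ n)).filter fun j =>
    fl (oy + (s * ℓ + jb - ℓ / 4)) (ℓ / 4) j = 2 ^ (ℓ / 4) - 1 with hB₁
  set B₂ : ℕ → Finset ℕ := fun s => (range (2 ^ n)).filter fun j =>
    fl (ot + s * ℓ) (ℓ / 4) j = 2 ^ (ℓ / 4) - 1 with hB₂
  have hsub : ((range (2 ^ n)).filter fun j => xshI ox oy ℓ jb u (sig ox oy ot ℓ jb u j) ≠ j) ⊆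
      (range u).biUnion fun s => B₁ s ∪ B₂ s := by
    intro j hj
    rw [mem_filter] at hj
    by_contra hc
    simp only [hB₁, hB₂, mem_biUnion, mem_union, mem_filter, hj.1, true_and, mem_range (n := u),
      not_exists, not_and, not_or] at hc
    exact hj.2 (by
      rw [sig_eq hjb hℓ hxy hxt hyt (fun s h => (hc s h).1) (fun s h => (hc s h).2),
        xshI_xshI hjb hxy])
  have h1 : ((range u).biUnion fun s => B₁ s ∪ B₂ s).card * 2 ^ (ℓ / 4) ≤ u * (2 * 2 ^ n) := by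
    refine (Nat.mul_le_mul_right _ card_biUnion_le).trans ?_
    rw [sum_mul]
    refine (sum_le_card_nsmul _ _ (2 * 2 ^ n) fun s h => ?_).trans (by simp)
    have := hs s (mem_range.1 h)
    have a1 : (B₁ s).card * 2 ^ (ℓ / 4) ≤ 2 ^ n := card_window (by omega)
    have a2 : (B₂ s).card * 2 ^ (ℓ / 4) ≤ 2 ^ n := card_window (by omega)
    have := Nat.mul_le_mul_right (2 ^ (ℓ / 4)) (card_union_le (B₁ s) (B₂ s))
    rw [Nat.add_mul] at this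
    omega
  have h2 := (Nat.mul_le_mul_right (2 ^ (ℓ / 4)) (card_le_card hsub)).trans h1
  rw [Nat.size_pow]
  generalize ((range (2 ^ n)).filter fun j =>
    xshI ox oy ℓ jb u (sig ox oy ot ℓ jb u j) ≠ j).card = c at h2 ⊢
  refine Nat.le_of_mul_le_mul_right ?_ (Nat.two_pow_pos (ℓ / 4))
  have h3 : u * 2 * (n + 1) ≤ 2 ^ (ℓ / 4) := le_trans (by nlinarith [Nat.zero_le (n ^ 3), Nat.zero_le (n ^ 4)]) hn
  calc c * (n + 1) * 2 ^ (ℓ / 4) = c * 2 ^ (ℓ / 4) * (n + 1) := by ring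
    _ ≤ u * (2 * 2 ^ n) * (n + 1) := Nat.mul_le_mul_right _ h2
    _ = 2 ^ n * (u * 2 * (n + 1)) := by ring
    _ ≤ _ := Nat.mul_le_mul_left _ h3

end Crest.Agent.R326.Xor
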